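import Vale.Agent.P269.Grr.Alg
import Vale.Agent.P269.Loc.SI
import Vale.Agent.P269.Loc.BH
import Vale.Agent.P269.Loc.FE

/-!
# The projective bundle of a representation as a complex orbifold
-/

namespace Vale.Agent.P269.Grr

open Set Function Topology Filter Module Vale.Agent.P291Z Vale.Agent.P269.Ch Vale.Agent.P269.Holo
  Vale.Agent.P269.Loc
open scoped Polynomial

theorem isExp_units :
    IsExp fun z : ℂ => Units.mk0 (Complex.exp z) (Complex.exp_ne_zero z) := by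
  rw [show (fun z : ℂ => Units.mk0 (Complex.exp z) (Complex.exp_ne_zero z)) = expU from
    funext fun z => Units.ext (congrFun Complex.exp_eq_exp_ℂ z)]
  exact isExp_expU

variable (U : HO) (E : VB U.toSp)

theorem isOpenEmbedding_pt (hE : ∀ t, E.F t = ⊤) :
    IsOpenEmbedding fun x : E.PT => (x.t, x.w) := by
  refine IsOpen.isOpenEmbedding_subtypeVal (s := {x : U.T × E.W | x.2 ∈ E.F x.1 ∧ x.2 ≠ 0}) ?_
  simp only [hE, Submodule.mem_top, true_and]
  exact isOpen_ne.preimage continuous_snd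

theorem isMfd_pt (hE : ∀ t, E.F t = ⊤) (x : E.PT) :
    IsMfd (fun x : E.PT => ((U.ι x.t, x.w) : U.A × E.W)) (finrank ℂ U.L + U.n + E.r) x ∧
      tan (fun x : E.PT => ((U.ι x.t, x.w) : U.A × E.W)) x = (tan U.ι x.t).prod ⊤ := by
  have h1 := (isOpenEmbedding_pt U E hE).lh x
  have h2 := IsMfd.of_lh (LH.id x.w)
  have h3 : finrank ℂ E.W = E.r := by rw [← E.rank x.t, hE, finrank_top]
  refine ⟨h3 ▸ IsMfd.pull (u := fun x : E.PT => (x.t, x.w)) ((U.mfd x.t).prod h2.1) h1, ?_⟩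
  rw [← h2.2, ← (U.mfd x.t).tan_prod h2.1]
  exact tan_comp_lh (ι := Prod.map U.ι fun w : E.W => w) h1

/-- the ambient representation (and the tangent bundle) of the projective bundle -/
noncomputable abbrev psB : VB E.PS := (U.tanB.pb E.pp).sum (E.tw E.pp E.o1)

theorem an_psB (han : ∀ w : E.W, AnalyticAt ℂ (fun p : U.L × E.W => U.κ p.1 • p.2) (0, w))
    (a : (psB U E).W) : AnalyticAt ℂ (fun p : (U.L × ℂ) × (psB U E).W =>
      (show E.PS.G from (U.κ p.1.1, Units.mk0 (Complex.exp p.1.2) (Complex.exp_ne_zero _))) • p.2)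
      (0, a) :=
  AnalyticAt.prod
    ((U.an a.1).comp (f := fun p : (U.L × ℂ) × U.A × E.W => (p.1.1, p.2.1)) (x := (0, a))
      ((analyticAt_fst.comp analyticAt_fst).prod (analyticAt_fst.comp analyticAt_snd)))
    ((analyticAt_snd.comp analyticAt_fst).cexp'.smul
      ((han a.2).comp (f := fun p : (U.L × ℂ) × U.A × E.W => (p.1.1, p.2.2)) (x := (0, a))
        ((analyticAt_fst.comp analyticAt_fst).prod (analyticAt_snd.comp analyticAt_snd))))

/-- the projectivisation of a representation -/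
noncomputable def ps (hE : ∀ t, E.F t = ⊤)
    (han : ∀ w : E.W, AnalyticAt ℂ (fun p : U.L × E.W => U.κ p.1 • p.2) (0, w)) (r : ℕ)
    (hr : E.r = r + 1) : HO where
  toSp := E.PS
  L := U.L × ℂ
  A := (psB U E).W
  κ := fun p => (U.κ p.1, Units.mk0 (Complex.exp p.2) (Complex.exp_ne_zero _))
  ι := fun x : E.PT => ((U.ι x.t, x.w) : U.A × E.W)
  n := U.n + r
  exp := U.exp.prod isExp_units
  an := an_psB U E han
  emb := (U.emb.prodMap IsEmbedding.id).comp (isOpenEmbedding_pt U E hE).isEmbedding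
  eqv g x := Prod.ext (U.eqv g.1 _) rfl
  mfd x := by
    have := (isMfd_pt U E hE x).1
    rwa [show finrank ℂ U.L + U.n + E.r = finrank ℂ (U.L × ℂ) + (U.n + r) by
      rw [finrank_prod, finrank_self, hr]; ring] at this

variable {U E} {hE : ∀ t, E.F t = ⊤}
  {han : ∀ w : E.W, AnalyticAt ℂ (fun p : U.L × E.W => U.κ p.1 • p.2) (0, w)} {r : ℕ}
  {hr : E.r = r + 1}

theorem mem_tan_ps {x : E.PT} {v : U.A × E.W} :
    v ∈ tan (ps U E hE han r hr).ι x ↔ v.1 ∈ tan U.ι x.t := by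
  rw [show tan (ps U E hE han r hr).ι x = _ from (isMfd_pt U E hE x).2]
  exact and_iff_left trivial

theorem iso_tanB_ps : Iso (Mor.id _) (ps U E hE han r hr).tanB (psB U E) fun _ => LinearMap.id :=
  ⟨Hom.of_continuous (fun x _ hv => ⟨mem_tan_ps.1 hv, (hE x.t).ge trivial⟩) continuous_snd
    fun _ _ _ _ => rfl, fun _ _ _ h => h, fun _ v hv => ⟨v, mem_tan_ps.2 hv.1, rfl⟩⟩

theorem chc_tanB_ps : (ps U E hE han r hr).tanB.chc = pS E.pp.map U.tanB.chc +
    ex E.xi * pS E.pp.map E.chc := by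
  have h : (psB U E).chc = pS E.pp.map U.tanB.chc + ex E.xi * pS E.pp.map E.chc := by
    rw [chc_sum, chc_pb, chc_tw]
    rfl
  exact (Iso.chc' iso_tanB_ps).trans h

section fibre

variable {Y : Ch.Sp} {F : VB Y} {n : ℕ} {β : BM F.PS.X}

theorem push_xi_lt (hT : Top Y.X (2 * n)) (hβ : BM.IsDeg (2 * (n + r : ℕ)) β) {j : ℕ}
    (hj : j < r) : push F.pp.map (cap (F.xi.1 ^ j) β) = 0 := by
  refine Orb.Top.eq_zero hT ((hβ.cap (F.xi_pow_deg j)).push _) ?_
  push_cast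
  omega

theorem push_evP_le (hT : Top Y.X (2 * n)) (hβ : BM.IsDeg (2 * (n + r : ℕ)) β)
    {Q : (Hev Y.X)[X]} (hQ : Q.natDegree ≤ r) : push F.pp.map (cap (evP F.pp.map F.xi Q).1 β) =
      cap (Q.coeff r).1 (push F.pp.map (cap (F.xi.1 ^ r) β)) := by
  let L : Hev F.PS.X →ₗ[ℂ] BM Y.X := push F.pp.map ∘ₗ pd β ∘ₗ (Hev F.PS.X).val.toLinearMap
  have h1 : ∀ a j, L (Hev.map F.pp.map a * F.xi ^ j) =
      cap a.1 (push F.pp.map (cap (F.xi.1 ^ j) β)) := fun a j => by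
    rw [← push_cap F.isPr_pp, ← cap_mul]
    rfl
  change L (evP F.pp.map F.xi Q) = _
  conv_lhs => rw [Q.as_sum_range' (r + 1) (Nat.lt_succ_of_le hQ), map_sum, map_sum,
    Finset.sum_range_succ]
  rw [Finset.sum_eq_zero fun j hj => ?_, zero_add, evP_monomial, h1]
  rw [evP_monomial, h1, push_xi_lt hT hβ (Finset.mem_range.1 hj), map_zero]

end fibre

variable (hE han r hr) in
/-- the fundamental class of the projective bundle -/
noncomputable def psF : BM E.PS.X := (ps U E hE han r hr).fund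

variable (hE han r hr) in
theorem deg_ps : BM.IsDeg (2 * (U.n + r : ℕ)) (psF hE han r hr) :=
  (ps U E hE han r hr).ori.deg

/-- a linear subbundle is cut out by a section of the twisted quotient -/
theorem push_pmor {E₁ E₂ : VB U.toSp} {A : E₁.W →ₗ[ℂ] E.W} {B : E.W →ₗ[ℂ] E₂.W}
    (h : Ch.Exact E₁ E E₂ (fun _ => A) fun _ => B) {R : E.W →ₗ[ℂ] E₁.W} (hR : ∀ w, R (A w) = w)
    {h₁ : ∀ t, E₁.F t = ⊤}
    {han₁ : ∀ w : E₁.W, AnalyticAt ℂ (fun p : U.L × E₁.W => U.κ p.1 • p.2) (0, w)} {r₁ : ℕ}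
    {hr₁ : E₁.r = r₁ + 1} (hk : r = r₁ + E₂.r) :
    IsClosedEmbedding (h.hA.pmor h.inj).map ∧
      push (h.hA.pmor h.inj).map (psF h₁ han₁ r₁ hr₁) =
        cap (evP E.pp.map E.xi E₂.chern).1 (psF hE han r hr) := by
  have hs : (E₂.tw E.pp E.o1).IsSec fun x => B (VB.PT.w x) :=
    ⟨fun x => h.hB.mem _ _ (VB.PT.mem x),
      B.continuous_of_finiteDimensional.comp VB.PT.continuous_w, fun g x =>
        (map_smul B _ _).trans (congrArg _ (h.hB.eqv g.1 _ _ (VB.PT.mem x)))⟩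
  let Φ : U.A × E.W →L[ℂ] E₂.W :=
    (LinearMap.toContinuousLinearMap B).comp (ContinuousLinearMap.snd ℂ _ _)
  let A' : U.A × E₁.W →L[ℂ] U.A × E.W :=
    (ContinuousLinearMap.id ℂ _).prodMap (LinearMap.toContinuousLinearMap A)
  let R' : U.A × E.W →L[ℂ] U.A × E₁.W :=
    (ContinuousLinearMap.id ℂ _).prodMap (LinearMap.toContinuousLinearMap R)
  have hj : IsEmbedding (h.hA.pmor h.inj).f :=
    IsEmbedding.of_comp (h.hA.pmor h.inj).cf (isOpenEmbedding_pt U E hE).continuous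
      ((IsEmbedding.id.prodMap (A.isClosedEmbedding_of_injective
        (LinearMap.ker_eq_bot.2 (LeftInverse.injective hR))).isEmbedding).comp
        (isOpenEmbedding_pt U E₁ h₁).isEmbedding)
  have hz : ∀ x, x ∈ range (h.hA.pmor h.inj).f ↔ B (VB.PT.w x) = 0 := fun x => by
    rw [h.ex _ _ (VB.PT.mem x)]
    refine ⟨by rintro ⟨y, rfl⟩; exact ⟨_, VB.PT.mem y, rfl⟩, fun ⟨w, h1, h2⟩ => ?_⟩
    exact ⟨VB.PT.mk _ w h1 fun e => VB.PT.ne x (by rw [← h2, e, map_zero]), VB.PT.ext rfl h2⟩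
  have key := @HO.gys_eul_hol (U.n + r₁) E₂.r _ _ (ps U E hE han r hr)
    ((congrArg (U.n + ·) hk).trans (add_assoc _ _ _).symm) _ rfl _ hs E₁.PT _
    E₁.PS.act E₁.PS.orb.contSMul _ hj (h.hA.pmor h.inj).eqv hz
    (fun z => ⟨Φ, Φ.analyticAt _, Eventually.of_forall fun _ => rfl, fun w hw =>
      let ⟨v, _, hv⟩ := h.surj _ w hw
      ⟨(0, v), mem_tan_ps.2 (zero_mem _), (DFunLike.congr_fun Φ.fderiv _).trans hv⟩⟩)
    _ E₁.PS.isQuo _ (h.hA.pmor h.inj).map_π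
  have e := key.2.2.2.trans (fundQ_change (G := U.G × ℂˣ)
    (ι' := fun x : E₁.PT => ((U.ι x.t, x.w) : U.A × E₁.W))
    (fun t => ⟨R', R'.analyticAt _, Eventually.of_forall fun _ => Prod.ext rfl (hR _).symm⟩)
    (fun t => ⟨A', A'.analyticAt _, Eventually.of_forall fun _ => rfl⟩) _)
  refine ⟨key.1, (congrArg (push (h.hA.pmor h.inj).map) e.symm).trans
    ((push_gys_eq_cap key.1 hs.isCo.cocycle (hs.isCo.supp.trans ?_) _).trans ?_)⟩
  · rintro _ ⟨t, ht, rfl⟩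
    obtain ⟨z, rfl⟩ := (hz t).2 ht
    exact ⟨_, (h.hA.pmor h.inj).map_π z⟩
  · exact congrArg (cap · (psF hE han r hr))
      (hs.hcls_eul.trans (congrArg Subtype.val (E₂.eu_tw E.pp E.o1)))

theorem an_triv (w : (trivB U.toSp ℂ).W) :
    AnalyticAt ℂ (fun p : U.L × (trivB U.toSp ℂ).W => U.κ p.1 • p.2) (0, w) := analyticAt_snd

theorem triv_top (t : U.T) : (trivB U.toSp ℂ).F t = ⊤ := rfl

theorem triv_r : (trivB U.toSp ℂ).r = 0 + 1 := finrank_self ℂ

theorem chern_triv (Y : Ch.Sp) : (trivB Y ℂ).chern = Polynomial.X := by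
  rw [VB.chern_line _ (finrank_self ℂ), VB.IsSec.eu_eq_zero (E := trivB Y ℂ)
    (s := fun _ => (1 : ℂ)) ⟨fun _ => trivial, continuous_const, fun _ _ => rfl⟩
    fun _ => (one_ne_zero : (1 : ℂ) ≠ 0), map_zero, add_zero]

theorem isHomeomorph_triv (Y : Ch.Sp) : IsHomeomorph (trivB Y ℂ).pp.map := by
  let s : Mor Y (trivB Y ℂ).PS := ⟨(MonoidHom.id _).prod 1,
    fun t => VB.PT.mk t (1 : ℂ) trivial (one_ne_zero (α := ℂ)), continuous_id.prodMk continuous_const,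
    VB.PT.continuous_mk continuous_id continuous_const _ _, fun g t => VB.PT.ext rfl
      (one_smul ℂ _).symm⟩
  refine isHomeomorph_iff_exists_inverse.2 ⟨(Mor.map _).continuous, s.map, fun x => ?_, fun x => ?_,
    s.map.continuous⟩
  · obtain ⟨x, rfl⟩ := (trivB Y ℂ).PS.surj x
    rw [Mor.map_π, Mor.map_π]
    exact ((trivB Y ℂ).PS.fib _ _).2 ⟨(1, Units.mk0 (G₀ := ℂ) (VB.PT.w x) (VB.PT.ne x)),
      VB.PT.ext (one_smul _ _) (mul_one (M := ℂ) _)⟩
  · obtain ⟨x, rfl⟩ := Y.surj x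
    rw [Mor.map_π, Mor.map_π]
    rfl

theorem push_triv : push (trivB U.toSp ℂ).pp.map (psF triv_top an_triv 0 triv_r) = U.fund := by
  have h1 := isHomeomorph_triv U.toSp
  have h2 := U.res_fund_of_mor (ps U (trivB U.toSp ℂ) triv_top an_triv 0 triv_r).holOrb
    (trivB U.toSp ℂ).pp h1.isOpenEmbedding
    (fun t => ⟨Prod.fst, analyticAt_fst, Eventually.of_forall fun _ => rfl⟩)
    (fun t g hg => ⟨(g, 1), VB.PT.ext hg (one_smul ℂ _), rfl⟩) (l := 1) fun t =>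
      Nat.card_eq_one_iff_unique.2 ⟨⟨fun a b => Subtype.ext (Prod.ext (a.2.2.trans b.2.2.symm)
        (Units.ext (smul_left_injective ℂ (VB.PT.ne t)
          ((congrArg VB.PT.w a.2.1).trans (congrArg VB.PT.w b.2.1).symm))))⟩,
        ⟨1, one_smul _ _, map_one _⟩⟩
  rw [Nat.cast_one, one_smul] at h2
  exact (congrArg (push (trivB U.toSp ℂ).pp.map) h2.symm).trans (push_res_homeo h1 _)

variable (U E) in
/-- the sum with the trivial line bundle -/
noncomputable abbrev cE : VB U.toSp := E.sum (trivB U.toSp ℂ)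

theorem cE_top (hE : ∀ t, E.F t = ⊤) (t : U.T) : (cE U E).F t = ⊤ :=
  eq_top_iff.2 fun _ _ => ⟨(hE t).ge trivial, trivial⟩

theorem cE_an (han : ∀ w : E.W, AnalyticAt ℂ (fun p : U.L × E.W => U.κ p.1 • p.2) (0, w))
    (w : (cE U E).W) : AnalyticAt ℂ (fun p : U.L × (cE U E).W => U.κ p.1 • p.2) (0, w) :=
  AnalyticAt.prod ((han w.1).comp (f := fun p : U.L × E.W × ℂ => (p.1, p.2.1)) (x := (0, w))
    (analyticAt_fst.prod (analyticAt_fst.comp analyticAt_snd))) (analyticAt_snd.comp analyticAt_snd)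

theorem cE_r (hr : E.r = r + 1) : (cE U E).r = r + 1 + 1 :=
  congrArg₂ (· + ·) hr (finrank_self ℂ)

theorem exact_sum' {Y : Ch.Sp} (E₁ E₂ : VB Y) : Ch.Exact E₂ (E₁.sum E₂) E₁
    (fun _ => LinearMap.inr ℂ E₁.W E₂.W) fun _ => LinearMap.fst ℂ E₁.W E₂.W :=
  ⟨Hom.of_continuous (fun _ _ h => ⟨zero_mem _, h⟩) (continuous_const.prodMk continuous_snd)
    fun g _ _ _ => Prod.ext (smul_zero g).symm rfl, hom_fst E₁ E₂, fun _ _ _ h => congrArg Prod.snd h,
    fun _ w h => ⟨(w, 0), ⟨h, zero_mem _⟩, rfl⟩, fun _ w h =>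
      ⟨fun e => ⟨w.2, h.2, Prod.ext (Eq.symm e) rfl⟩, fun ⟨_, _, e⟩ => (congrArg Prod.fst e).symm⟩⟩

theorem push_pmor_pp {Y : Ch.Sp} {E₁ E₂ : VB Y} {A : Y.T → E₁.W →ₗ[ℂ] E₂.W}
    (h : Hom (Mor.id Y) E₁ E₂ A) (inj : ∀ t w, w ∈ E₁.F t → A t w = 0 → w = 0)
    (hc : IsClosedEmbedding (h.pmor inj).map) (β : BM E₁.PS.X) :
    push E₂.pp.map (push (h.pmor inj).map β) = push E₁.pp.map β := by
  rw [push_push (IsPr.of_isClosedEmbedding hc) E₂.isPr_pp]
  exact congrArg (push · β) (funext fun x =>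
    (DFunLike.congr_fun (h.pmor_pp inj) x).trans (Mor.map_id Y _))

/-- **the top power of the hyperplane class has degree one on the fibres** -/
theorem push_xi_top : push E.pp.map (cap (E.xi.1 ^ r) (psF hE han r hr)) = U.fund := by
  have a := exact_sum E (trivB U.toSp ℂ)
  have b := exact_sum' E (trivB U.toSp ℂ)
  obtain ⟨h1, h2⟩ := push_pmor (hE := cE_top hE) (han := cE_an han) (hr := cE_r hr) a
    (R := LinearMap.fst ℂ _ _) (fun _ => rfl) (h₁ := hE) (han₁ := han) (hr₁ := hr)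
    (congrArg (r + ·) (finrank_self ℂ).symm)
  obtain ⟨h3, h4⟩ := push_pmor (hE := cE_top hE) (han := cE_an han) (hr := cE_r hr) b
    (R := LinearMap.snd ℂ _ _) (fun _ => rfl) (h₁ := triv_top) (han₁ := an_triv)
    (hr₁ := triv_r) (hr.symm.trans (zero_add _).symm)
  have h5 := push_evP_le U.ori.top (deg_ps (cE_top hE) (cE_an han) _ (cE_r hr))
    (Q := E.chern) (hr ▸ E.chern_mon.le)
  rw [← h4, push_pmor_pp _ _ h3, push_triv, (show Mon (r + 1) E.chern from hr ▸ E.chern_mon).coeff,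
    OneMemClass.coe_one,
    cap_one, pow_succ, cap_mul] at h5
  rw [chern_triv, evP_X] at h2
  rw [h5, ← h2, ← push_cap (IsPr.of_isClosedEmbedding h1), push_pmor_pp _ _ h1, map_pow,
    ← a.hA.pmor_xi a.inj]
  rfl

end Vale.Agent.P269.Grr
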