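import Vale.Agent.P269.Grr.HRR
import Vale.Agent.P269.Grr.PBA

/-!
# Integration along the fibres of a projective bundle
-/

namespace Vale.Agent.P269.Grr

open Set Function Topology Filter Module Vale.Agent.P291Z Vale.Agent.P269.Ch Vale.Agent.P269.Holo
  Vale.Agent.P269.Loc
open scoped Polynomial

/-- evaluation of polynomials as a homomorphism of algebras -/
noncomputable def evPA {X Y : Type} [TopologicalSpace X] [TopologicalSpace Y] (p : C(X, Y))
    (ξ : Hev X) : (Hev Y)[X] →ₐ[ℂ] Hev X :=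
  { evP p ξ with commutes' := fun z => (evP_C (algebraMap ℂ _ z)).trans ((Hev.map p).commutes z) }

theorem map_evPA_C {X Y : Type} [TopologicalSpace X] [TopologicalSpace Y] (p : C(X, Y))
    (ξ : Hev X) (B : PowerSeries (Hev Y)) :
    PowerSeries.map (evPA p ξ : (Hev Y)[X] →+* Hev X) (PowerSeries.map Polynomial.C B) = pS p B :=
  PowerSeries.ext fun k => by
    rw [PowerSeries.coeff_map, PowerSeries.coeff_map, PowerSeries.coeff_map]
    exact evP_C _

variable {U : HO} {E : VB U.toSp} {hE : ∀ t, E.F t = ⊤}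
  {han : ∀ w : E.W, AnalyticAt ℂ (fun p : U.L × E.W => U.κ p.1 • p.2) (0, w)} {r : ℕ}
  {hr : E.r = r + 1}

/-- **integration along the fibres** -/
theorem push_ps (Q : (Hev U.X)[X]) :
    push E.pp.map (cap (evP E.pp.map E.xi Q).1 (ps U E hE han r hr).fund) =
      cap (lead r E.chern Q).1 U.fund := by
  have h1 : evP E.pp.map E.xi Q = evP E.pp.map E.xi (Q %ₘ E.chern) := by
    conv_lhs => rw [← Q.modByMonic_add_div E.chern, map_add, map_mul, E.evP_chern, zero_mul,
      add_zero]
  have h2 := Hrr.mon_degree_mod (hr ▸ E.chern_mon : Mon (r + 1) E.chern) Q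
  have h3 := push_evP_le U.ori.top (deg_ps hE han r hr) (Q := Q %ₘ E.chern)
    (Polynomial.natDegree_le_iff_coeff_eq_zero.2 fun N hN =>
      Polynomial.coeff_eq_zero_of_degree_lt (h2.trans_le (by exact_mod_cast hN)))
  rw [← h1, push_xi_top] at h3
  exact h3

/-- **Riemann-Roch for the projection** -/
theorem push_ps_td (A : PowerSeries (Hev U.X)) (c : ℕ → PowerSeries (Hev U.X)) (k : ℕ) :
    push E.pp.map (cap (PowerSeries.coeff (k + r) (tdOf (ex E.xi * pS E.pp.map E.chc) *
      (pS E.pp.map A + ∑ w ∈ Finset.range r, ex (-E.xi) ^ (w + 1) * pS E.pp.map (c w)))).1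
      (ps U E hE han r hr).fund) = cap (PowerSeries.coeff k A).1 U.fund := by
  let T : PowerSeries (Hev U.X)[X] := tdOf (ex Polynomial.X * PowerSeries.map Polynomial.C E.chc)
  let S : PowerSeries (Hev U.X)[X] := T * (PowerSeries.map Polynomial.C A +
    ∑ w ∈ Finset.range r, ex (-Polynomial.X) ^ (w + 1) * PowerSeries.map Polynomial.C (c w))
  have hX : evPA E.pp.map E.xi Polynomial.X = E.xi := evP_X
  have h1 : PowerSeries.map (evPA E.pp.map E.xi : (Hev U.X)[X] →+* Hev E.PS.X) S =
      tdOf (ex E.xi * pS E.pp.map E.chc) * (pS E.pp.map A +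
        ∑ w ∈ Finset.range r, ex (-E.xi) ^ (w + 1) * pS E.pp.map (c w)) := by
    simp only [S, T, map_mul, map_add, map_sum, map_pow, ← tdOf_map, map_ex, map_evPA_C, map_neg, hX]
  have h2 : Hrr.leadS r E.chern S = PowerSeries.X ^ r * A := by
    have h3 : S = PowerSeries.map Polynomial.C A * (ex (-Polynomial.X) ^ 0 * T) +
        ∑ w ∈ Finset.range r, PowerSeries.map Polynomial.C (c w) *
          (ex (-Polynomial.X) ^ (w + 1) * T) := by
      rw [pow_zero, one_mul, mul_comm]
      exact (mul_add _ _ _).trans (congrArg _ ((Finset.mul_sum _ _ _).trans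
        (Finset.sum_congr rfl fun w _ => by ring)))
    rw [h3, map_add, map_sum, Hrr.leadS_mul, Hrr.leadS_apply, hrr E hr (Nat.zero_le r), if_pos rfl,
      mul_comm, Finset.sum_eq_zero fun w hw => ?_, add_zero]
    rw [Hrr.leadS_mul, Hrr.leadS_apply, hrr E hr (Finset.mem_range.1 hw), if_neg w.succ_ne_zero,
      mul_zero]
  rw [← h1, PowerSeries.coeff_map, ← PowerSeries.coeff_X_pow_mul A r k, ← h2, Hrr.coeff_leadS]
  exact push_ps _

end Vale.Agent.P269.Grr
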