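import Vale.Agent.P269.Grr.Defs

/-!
# Riemann-Roch: algebra of the Chern character and of the Todd class
-/

set_option linter.unusedSectionVars false
set_option linter.unusedVariables false

namespace Vale.Agent.P269.Grr

open Set Function Vale.Agent.P291Z Vale.Agent.P269.Ch PowerSeries
open scoped Polynomial

variable {R S : Type*} [CommRing R] [Algebra ℂ R] [CommRing S] [Algebra ℂ S]

/-! ### Series -/

theorem coeff_ev (x : R) (f : ℂ⟦X⟧) (k : ℕ) : coeff k (ev x f) = coeff k f • x ^ k := by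
  rw [ev, RingHom.comp_apply, coeff_rescale, coeff_map, Algebra.smul_def, mul_comm]

theorem map_ev (φ : R →ₐ[ℂ] S) (x : R) (f : ℂ⟦X⟧) :
    PowerSeries.map (φ : R →+* S) (ev x f) = ev (φ x) f := by
  ext k
  rw [coeff_map, coeff_ev, coeff_ev, RingHom.coe_coe, map_smul, map_pow]

theorem map_ex (φ : R →ₐ[ℂ] S) (x : R) : PowerSeries.map (φ : R →+* S) (ex x) = ex (φ x) :=
  map_ev φ x _

theorem coeff_ex (x : R) (k : ℕ) : coeff k (ex x) = (k.factorial : ℂ)⁻¹ • x ^ k := by
  rw [ex, coeff_ev, coeff_exp]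
  simp

theorem ev_X (x : R) : ev x (X : ℂ⟦X⟧) = C x * X := by
  rw [ev, RingHom.comp_apply, map_X, rescale_X]

theorem constantCoeff_ev (x : R) (f : ℂ⟦X⟧) :
    constantCoeff (ev x f) = algebraMap ℂ R (constantCoeff f) := by
  rw [← coeff_zero_eq_constantCoeff_apply, coeff_ev, pow_zero, coeff_zero_eq_constantCoeff_apply,
    Algebra.algebraMap_eq_smul_one]

theorem ev_zero (f : ℂ⟦X⟧) : ev (0 : R) f = C (algebraMap ℂ R (constantCoeff f)) := by
  ext k
  rw [coeff_ev, coeff_C]
  split_ifs with h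
  · rw [h, pow_zero, coeff_zero_eq_constantCoeff_apply, Algebra.algebraMap_eq_smul_one]
  · rw [zero_pow h, smul_zero]

theorem ex_add (x y : R) : ex (x + y) = ex x * ex y := by
  let _ : Algebra ℚ R := ((algebraMap ℂ R).comp (algebraMap ℚ ℂ)).toAlgebra
  simp only [ex, ev, RingHom.comp_apply, map_exp, exp_mul_exp_eq_exp_add]

theorem ex_zero : ex (0 : R) = 1 := by
  rw [ex, ev_zero, constantCoeff_exp, map_one, map_one]

theorem ex_mul_neg (x : R) : ex x * ex (-x) = 1 := by rw [← ex_add, add_neg_cancel, ex_zero]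

theorem coeff_tdS (k : ℕ) : coeff k tdS = (bernoulli' k : ℂ) / k.factorial := by
  rw [tdS, bernoulli'PowerSeries, coeff_mk]
  simp

theorem constantCoeff_tdS : constantCoeff tdS = 1 := by
  rw [← coeff_zero_eq_constantCoeff_apply, coeff_tdS]
  simp

theorem ev_zero_tdS : ev (0 : R) tdS = 1 := by
  rw [ev_zero, constantCoeff_tdS, map_one, map_one]

theorem coeff_ev_neg_tdS (x : R) (k : ℕ) :
    coeff k (ev (-x) tdS) = ((bernoulli k : ℂ) / k.factorial) • x ^ k := by
  have h : ((-1 : R)) ^ k * x ^ k = ((-1 : ℂ) ^ k) • x ^ k := by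
    rw [Algebra.smul_def, map_pow, map_neg, map_one]
  rw [coeff_ev, coeff_tdS, neg_pow, h, smul_smul, bernoulli]
  congr 1
  push_cast
  ring

theorem ev_tdS_mul (x : R) : ev x tdS * (1 - ex (-x)) = C x * X := by
  have h := congrArg (ev x) (bernoulli'PowerSeries_mul_exp_sub_one ℂ)
  rw [map_mul, map_mul, map_sub, map_one, ev_X] at h
  have h1 : ev x tdS * (ex x - 1) = C x * X * ex x := h
  have h2 := ex_mul_neg x
  linear_combination ex (-x) * h1 + (C x * X - ev x tdS) * h2

theorem coeff_hd (f : ℕ → ℂ) (A : R⟦X⟧) (k : ℕ) : coeff k (hd f A) = f k • coeff k A :=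
  coeff_mk _ _

theorem hd_add (f : ℕ → ℂ) (A B : R⟦X⟧) : hd f (A + B) = hd f A + hd f B := by
  ext k
  simp only [coeff_hd, map_add, smul_add]

theorem hd_neg (f : ℕ → ℂ) (A : R⟦X⟧) : hd f (-A) = -hd f A := by
  ext k
  simp only [coeff_hd, map_neg, smul_neg]

theorem hd_C (f : ℕ → ℂ) (a : R) : hd f (C a) = C (f 0 • a) := by
  ext k
  rw [coeff_hd, coeff_C, coeff_C]
  split_ifs with h
  · rw [h]
  · rw [smul_zero]

theorem hd_C_mul (f : ℕ → ℂ) (a : R) (A : R⟦X⟧) : hd f (C a * A) = C a * hd f A := by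
  ext k
  simp only [coeff_hd, coeff_C_mul, mul_smul_comm]

theorem hd_X_pow_mul (f : ℕ → ℂ) (n : ℕ) (A : R⟦X⟧) :
    hd f (X ^ n * A) = X ^ n * hd (fun k => f (k + n)) A := by
  ext k
  rw [coeff_hd, coeff_X_pow_mul', coeff_X_pow_mul']
  split_ifs with h
  · rw [coeff_hd, Nat.sub_add_cancel h]
  · rw [smul_zero]

theorem map_hd (φ : R →ₐ[ℂ] S) (f : ℕ → ℂ) (A : R⟦X⟧) :
    PowerSeries.map (φ : R →+* S) (hd f A) = hd f (PowerSeries.map (φ : R →+* S) A) := by
  ext k
  simp only [coeff_hd, coeff_map, RingHom.coe_coe, map_smul]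

theorem map_derivative' (φ : R →+* S) (A : R⟦X⟧) :
    PowerSeries.map φ (d⁄dX R A) = d⁄dX S (PowerSeries.map φ A) := by
  ext k
  simp only [coeff_map, coeff_derivative, map_mul, map_add, map_natCast, map_one]

theorem coeff_X_mul_derivative (A : R⟦X⟧) (k : ℕ) :
    coeff k (X * d⁄dX R A) = (k : ℂ) • coeff k A := by
  cases k with
  | zero => simp
  | succ k =>
    rw [coeff_succ_X_mul, coeff_derivative, Algebra.smul_def, mul_comm]
    simp

theorem map_invOfUnit_one (φ : R →+* S) (A : R⟦X⟧) :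
    PowerSeries.map φ (invOfUnit A 1) = invOfUnit (PowerSeries.map φ A) 1 := by
  ext k
  induction k using Nat.strong_induction_on with
  | _ k ih =>
    rw [coeff_map, coeff_invOfUnit, coeff_invOfUnit]
    split_ifs with h
    · simp
    · simp only [inv_one, Units.val_one, map_mul, map_neg, map_one, map_sum]
      congr 1
      refine Finset.sum_congr rfl fun p _ => ?_
      split_ifs with hp
      · rw [map_mul, ← ih p.2 hp, coeff_map, coeff_map]
      · exact map_zero _

namespace AlgP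

theorem revS_eq {r : ℕ} {P : R[X]} (hP : Mon r P) :
    revS r P = rescale (-1) (P.reflect r : R⟦X⟧) := by
  ext k
  rw [revS, coeff_mk, coeff_rescale, Polynomial.coeff_coe, Polynomial.coeff_reflect]
  split_ifs with h
  · rw [Polynomial.revAt_le h]
  · have h' : r < k := not_le.1 h
    rw [Polynomial.revAt_eq_self_of_lt h',
      Polynomial.coeff_eq_zero_of_natDegree_lt (hP.le.trans_lt h'), mul_zero]

theorem revS_mul {r s : ℕ} {P Q : R[X]} (hP : Mon r P) (hQ : Mon s Q) :
    revS (r + s) (P * Q) = revS r P * revS s Q := by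
  rw [revS_eq (hP.mul hQ), revS_eq hP, revS_eq hQ, Polynomial.reflect_mul _ _ hP.le hQ.le,
    Polynomial.coe_mul, map_mul]

theorem revS_inv {r : ℕ} {P : R[X]} (hP : Mon r P) : revS r P * invOfUnit (revS r P) 1 = 1 :=
  mul_invOfUnit _ _ (by
    rw [← coeff_zero_eq_constantCoeff_apply, revS, coeff_mk, if_pos (Nat.zero_le r), pow_zero,
      one_mul, Nat.sub_zero, hP.coeff, Units.val_one])

theorem psum_mul {r s : ℕ} {P Q : R[X]} (hP : Mon r P) (hQ : Mon s Q) :
    psum (r + s) (P * Q) = psum r P + psum s Q := by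
  have h1 := revS_inv hP
  have h2 := revS_inv hQ
  have h3 := revS_inv (hP.mul hQ)
  rw [psum, psum, psum]
  rw [revS_mul hP hQ] at h3 ⊢
  rw [Derivation.leibniz, smul_eq_mul, smul_eq_mul, Nat.cast_add]
  generalize invOfUnit (revS r P * revS s Q) 1 = c at h3 ⊢
  generalize invOfUnit (revS r P) 1 = a at h1 ⊢
  generalize invOfUnit (revS s Q) 1 = b at h2 ⊢
  generalize d⁄dX R (revS r P) = A' at *
  generalize d⁄dX R (revS s Q) = B' at *
  generalize revS r P = A at *
  generalize revS s Q = B at *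
  have hc : c = a * b := by
    linear_combination (a * b) * h3 - (B * b * c) * h1 - c * h2
  rw [hc]
  linear_combination (-(X * B' * b)) * h1 - (X * A' * a) * h2

theorem revS_lin (x : R) : revS 1 (Polynomial.X + Polynomial.C x) = 1 - C x * X := by
  ext k
  rw [revS, coeff_mk]
  rcases k with _ | _ | k
  · simp
  · simp [coeff_one]
  · simp [coeff_one]

theorem psum_lin (x : R) : psum 1 (Polynomial.X + Polynomial.C x) = mk fun k => x ^ k := by
  have h1 := revS_inv (mon_X_add_C x)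
  have h2 : (mk fun k => x ^ k) * (1 - C x * X) = 1 := by
    have h := congrArg (rescale x) (mk_one_mul_one_sub_eq_one R)
    have h' : rescale x (mk 1) = mk fun k => x ^ k := by
      ext k
      simp
    rwa [map_mul, map_sub, map_one, rescale_X, h'] at h
  rw [psum]
  rw [revS_lin] at h1 ⊢
  have h3 : d⁄dX R (1 - C x * X) = -C x := by
    rw [map_sub, Derivation.leibniz, Derivation.map_one_eq_zero, derivative_X, derivative_C]
    simp
  rw [h3, Nat.cast_one]
  generalize invOfUnit (1 - C x * X) 1 = a at h1 ⊢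
  generalize (mk fun k => x ^ k) = G at h2 ⊢
  have h4 : a = G := by linear_combination G * h1 - a * h2
  rw [h4]
  linear_combination -h2

theorem rec_iff (A B : R⟦X⟧) : X * d⁄dX R B = (A - C (constantCoeff A)) * B ↔
    ∀ k : ℕ, ((k : ℂ) + 1) • coeff (k + 1) B =
      ∑ j : Fin (k + 1), coeff (k + 1 - j) A * coeff j B := by
  have key : ∀ k : ℕ, coeff (k + 1) ((A - C (constantCoeff A)) * B) =
      ∑ j : Fin (k + 1), coeff (k + 1 - j) A * coeff j B := fun k => by
    rw [mul_comm, coeff_mul, Finset.Nat.sum_antidiagonal_eq_sum_range_succ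
      (fun i j => coeff i B * coeff j (A - C (constantCoeff A))), Finset.sum_range_succ,
      Nat.sub_self, ← Fin.sum_univ_eq_sum_range
        (fun i => coeff i B * coeff (k + 1 - i) (A - C (constantCoeff A)))]
    have h0 : coeff 0 (A - C (constantCoeff A)) = 0 := by simp
    rw [h0, mul_zero, add_zero]
    refine Finset.sum_congr rfl fun j _ => ?_
    rw [map_sub, coeff_C, if_neg (by have := j.2; omega), sub_zero, mul_comm]
  constructor
  · intro h k
    have h1 := congrArg (coeff (k + 1)) h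
    rwa [coeff_X_mul_derivative, key, Nat.cast_succ] at h1
  · intro h
    ext k
    cases k with
    | zero => simp
    | succ k => rw [coeff_X_mul_derivative, key, Nat.cast_succ, h]

end AlgP

theorem chP_mul {r s : ℕ} {P Q : R[X]} (hP : Mon r P) (hQ : Mon s Q) :
    chP (r + s) (P * Q) = chP r P + chP s Q := by
  rw [chP, AlgP.psum_mul hP hQ, hd_add, chP, chP]

theorem chP_one : chP 0 (1 : R[X]) = 0 := by
  have h := chP_mul (mon_one (R := R)) mon_one
  rw [mul_one, add_zero] at h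
  exact left_eq_add.1 h

theorem chP_lin (x : R) : chP 1 (Polynomial.X + Polynomial.C x) = ex x := by
  ext k
  rw [chP, AlgP.psum_lin, coeff_hd, coeff_mk, coeff_ex]

theorem chP_prod' {ι : Type*} (s : Finset ι) (x : ι → R) :
    chP s.card (∏ i ∈ s, (Polynomial.X + Polynomial.C (x i))) = ∑ i ∈ s, ex (x i) := by
  classical
  induction s using Finset.induction_on with
  | empty => simpa using chP_one
  | insert a s ha ih =>
    have h : Mon s.card (∏ i ∈ s, (Polynomial.X + Polynomial.C (x i))) := by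
      simpa using mon_prod s (d := fun _ => 1) fun i _ => mon_X_add_C (x i)
    rw [Finset.card_insert_of_notMem ha, Finset.prod_insert ha, Finset.sum_insert ha, add_comm,
      chP_mul (mon_X_add_C _) h, chP_lin, ih]

theorem chP_prod {ι : Type*} [Fintype ι] (x : ι → R) :
    chP (Fintype.card ι) (∏ i, (Polynomial.X + Polynomial.C (x i))) = ∑ i, ex (x i) :=
  chP_prod' Finset.univ x

theorem chP_map (φ : R →ₐ[ℂ] S) (r : ℕ) (P : R[X]) :
    chP r (P.map (φ : R →+* S)) = PowerSeries.map (φ : R →+* S) (chP r P) := by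
  have h : revS r (P.map (φ : R →+* S)) = PowerSeries.map (φ : R →+* S) (revS r P) := by
    ext k
    rw [coeff_map, revS, revS, coeff_mk, coeff_mk]
    split_ifs
    · rw [Polynomial.coeff_map, map_mul, map_pow, map_neg, map_one]
    · exact (map_zero _).symm
  rw [chP, chP, map_hd, psum, psum, h, map_sub, map_mul, map_mul, map_natCast, map_X,
    map_derivative', map_invOfUnit_one]

theorem coeff_zero_chP (r : ℕ) (P : R[X]) : coeff 0 (chP r P) = r := by
  rw [chP, coeff_hd, psum]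
  simp

theorem coeff_one_chP {r : ℕ} {P : R[X]} (hP : Mon (r + 1) P) :
    coeff 1 (chP (r + 1) P) = P.coeff r := by
  have h : coeff 1 ((r + 1 : ℕ) : R⟦X⟧) = 0 := by
    rw [← map_natCast (C (R := R)), coeff_C, if_neg one_ne_zero]
  rw [chP, coeff_hd, psum, map_sub, h, mul_assoc, coeff_succ_X_mul, coeff_zero_eq_constantCoeff,
    map_mul, constantCoeff_invOfUnit, ← coeff_zero_eq_constantCoeff_apply, coeff_derivative, revS,
    coeff_mk]
  simp

theorem sol_spec (A : R⟦X⟧) : constantCoeff (sol A) = 1 ∧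
    X * d⁄dX R (sol A) = (A - C (constantCoeff A)) * sol A := by
  refine ⟨?_, (AlgP.rec_iff _ _).2 fun k => ?_⟩
  · rw [← coeff_zero_eq_constantCoeff_apply, sol, coeff_mk, solC]
  · simp only [sol, coeff_mk]
    rw [solC, smul_smul, mul_inv_cancel₀ (Nat.cast_add_one_ne_zero k), one_smul]

theorem eq_sol {A B : R⟦X⟧} (h0 : constantCoeff B = 1)
    (h : X * d⁄dX R B = (A - C (constantCoeff A)) * B) : B = sol A := by
  ext k
  induction k using Nat.strong_induction_on with
  | _ k ih =>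
    cases k with
    | zero => rw [coeff_zero_eq_constantCoeff_apply, coeff_zero_eq_constantCoeff_apply, h0,
        (sol_spec A).1]
    | succ k =>
      have h1 := (AlgP.rec_iff _ _).1 h k
      have h2 := (AlgP.rec_iff _ _).1 (sol_spec A).2 k
      rw [Finset.sum_congr rfl fun j _ => by rw [ih j j.2], ← h2] at h1
      have h3 := congrArg (fun z => ((k : ℂ) + 1)⁻¹ • z) h1
      simpa only [smul_smul, inv_mul_cancel₀ (Nat.cast_add_one_ne_zero (R := ℂ) k), one_smul]
        using h3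

theorem sol_add (A B : R⟦X⟧) : sol (A + B) = sol A * sol B := by
  refine (eq_sol (by rw [map_mul, (sol_spec A).1, (sol_spec B).1, mul_one]) ?_).symm
  rw [Derivation.leibniz, smul_eq_mul, smul_eq_mul, map_add, map_add]
  linear_combination sol A * (sol_spec B).2 + sol B * (sol_spec A).2

theorem sol_C (a : R) : sol (C a) = 1 :=
  (eq_sol (map_one _) (by rw [Derivation.map_one_eq_zero, constantCoeff_C, sub_self]; simp)).symm

theorem map_sol (φ : R →ₐ[ℂ] S) (A : R⟦X⟧) :
    PowerSeries.map (φ : R →+* S) (sol A) = sol (PowerSeries.map (φ : R →+* S) A) := by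
  refine eq_sol ?_ ?_
  · rw [← coeff_zero_eq_constantCoeff_apply, coeff_map, coeff_zero_eq_constantCoeff_apply,
      (sol_spec A).1, map_one]
  · have h := congrArg (PowerSeries.map (φ : R →+* S)) (sol_spec A).2
    rw [map_mul, map_mul, map_sub, map_X, map_derivative', map_C] at h
    rw [h, ← coeff_zero_eq_constantCoeff_apply, ← coeff_zero_eq_constantCoeff_apply, coeff_map]

theorem tdOf_add (A B : R⟦X⟧) : tdOf (A + B) = tdOf A * tdOf B := by
  rw [tdOf, hd_add, sol_add, tdOf, tdOf]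

theorem tdOf_C (a : R) : tdOf (C a) = 1 := by rw [tdOf, hd_C, sol_C]

theorem tdOf_natCast (n : ℕ) : tdOf (n : R⟦X⟧) = 1 := by
  rw [← map_natCast (C (R := R)), tdOf_C]

theorem tdOf_zero : tdOf (0 : R⟦X⟧) = 1 := by simpa using tdOf_natCast (R := R) 0

theorem tdOf_one : tdOf (1 : R⟦X⟧) = 1 := by simpa using tdOf_natCast (R := R) 1

theorem tdOf_mul_neg (A : R⟦X⟧) : tdOf A * tdOf (-A) = 1 := by
  rw [← tdOf_add, add_neg_cancel, tdOf_zero]

theorem tdOf_sum {ι : Type*} (s : Finset ι) (A : ι → R⟦X⟧) :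
    tdOf (∑ i ∈ s, A i) = ∏ i ∈ s, tdOf (A i) := by
  classical
  induction s using Finset.induction_on with
  | empty => simpa using tdOf_zero
  | insert a s ha ih => rw [Finset.sum_insert ha, Finset.prod_insert ha, tdOf_add, ih]

theorem X_mul_derivative_ev (x : R) (f : ℂ⟦X⟧) :
    X * d⁄dX R (ev x f) = ev x (X * d⁄dX ℂ f) := by
  ext k
  rw [coeff_X_mul_derivative, coeff_ev, coeff_ev, coeff_X_mul_derivative, smul_smul, smul_eq_mul]

theorem tdOf_ex (x : R) : tdOf (ex x) = ev x tdS := by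
  have h1 : hd (fun k => (k.factorial : ℂ) * coeff k tdL) (ex x) = ev x tdL := by
    ext k
    rw [coeff_hd, coeff_ex, coeff_ev, smul_smul, mul_right_comm,
      mul_inv_cancel₀ (Nat.cast_ne_zero.2 k.factorial_ne_zero), one_mul]
  have h2 : tdL * tdS = X * d⁄dX ℂ tdS := by
    rw [tdL, mul_assoc, PowerSeries.inv_mul_cancel _ (by rw [constantCoeff_tdS]; exact one_ne_zero),
      mul_one]
  have h3 : constantCoeff (ev x tdL) = 0 := by
    rw [constantCoeff_ev, tdL]
    simp
  rw [tdOf, h1]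
  refine (eq_sol (by rw [constantCoeff_ev, constantCoeff_tdS, map_one]) ?_).symm
  rw [h3, map_zero, sub_zero, X_mul_derivative_ev, ← h2, map_mul]

theorem tdOf_map (φ : R →ₐ[ℂ] S) (A : R⟦X⟧) :
    tdOf (PowerSeries.map (φ : R →+* S) A) = PowerSeries.map (φ : R →+* S) (tdOf A) := by
  rw [tdOf, tdOf, map_sol, map_hd]

theorem constantCoeff_tdOf (A : R⟦X⟧) : constantCoeff (tdOf A) = 1 := (sol_spec _).1

theorem isUnit_tdOf (A : R⟦X⟧) : IsUnit (tdOf A) := IsUnit.of_mul_eq_one _ (tdOf_mul_neg A)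

/-! ### Bundles -/

variable {Y Y' : Ch.Sp}

theorem subsingleton_series [IsEmpty Y.T] : Subsingleton (Hev Y.X)⟦X⟧ :=
  ⟨fun _ _ => PowerSeries.ext fun _ => Subsingleton.elim _ _⟩

theorem Iso.chc {m : Mor Y' Y} {E' : VB Y'} {E : VB Y} {A : Y'.T → E'.W →ₗ[ℂ] E.W}
    (h : Iso m E' E A) : E'.chc = pS m.map E.chc := by
  rcases isEmpty_or_nonempty Y'.T with _ | ⟨⟨t⟩⟩
  · exact subsingleton_series.elim _ _
  · rw [VB.chc, VB.chc, h.chern, h.rank t, chP_map]

theorem pS_id (A : (Hev Y.X)⟦X⟧) : pS (Mor.id Y).map A = A := by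
  ext1 k
  rw [coeff_map]
  exact Hev.map_mor_id _

theorem Iso.chc' {E' E : VB Y} {A : Y.T → E'.W →ₗ[ℂ] E.W} (h : Iso (Mor.id Y) E' E A) :
    E'.chc = E.chc := (Iso.chc h).trans (pS_id _)

theorem chc_pb (E : VB Y) (m : Mor Y' Y) : (E.pb m).chc = pS m.map E.chc := Iso.chc (iso_pb E m)

theorem td_pb (E : VB Y) (m : Mor Y' Y) : (E.pb m).td = pS m.map E.td := by
  rw [VB.td, VB.td, chc_pb, tdOf_map]

theorem Exact.chc {E' E E'' : VB Y} {A : Y.T → E'.W →ₗ[ℂ] E.W} {B : Y.T → E.W →ₗ[ℂ] E''.W}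
    (h : Exact E' E E'' A B) : E.chc = E'.chc + E''.chc := by
  rcases isEmpty_or_nonempty Y.T with _ | ⟨⟨t⟩⟩
  · exact subsingleton_series.elim _ _
  · rw [VB.chc, VB.chc, VB.chc, h.chern, h.rank t, chP_mul E'.chern_mon E''.chern_mon]

theorem chc_sum (E E' : VB Y) : (E.sum E').chc = E.chc + E'.chc := Exact.chc (exact_sum E E')

theorem chc_zero (E : VB Y) (h : E.r = 0) : E.chc = 0 := by
  rw [VB.chc, E.chern_zero h, h, chP_one]

theorem chc_line (E : VB Y) (h : E.r = 1) : E.chc = ex E.eu := by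
  rw [VB.chc, E.chern_line h, h, chP_lin]

theorem chc_char (χ : Y.G →ₜ* ℂˣ) : (char χ).chc = ex (c1 χ) := chc_line _ rfl

theorem Fr.chc {ι : Type} [Fintype ι] {E : VB Y} {χ : ι → Y.G →ₜ* ℂˣ} {v : ι → Y.T → E.W}
    (h : Fr E χ v) : E.chc = ∑ i, ex (c1 (χ i)) := by
  rcases isEmpty_or_nonempty Y.T with _ | ⟨⟨t⟩⟩
  · exact subsingleton_series.elim _ _
  · rw [VB.chc, h.chern, ← h.card t, chP_prod]

theorem pS_injective {X X' : Type} [TopologicalSpace X] [TopologicalSpace X'] {f : C(X, X')}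
    (h : Injective (H.map f)) : Injective (pS f) :=
  PowerSeries.map_injective _ (Hev.map_injective h)

theorem pS_pS {X X' X'' : Type} [TopologicalSpace X] [TopologicalSpace X'] [TopologicalSpace X'']
    (f : C(X, X')) (g : C(X', X'')) (A : (Hev X'')⟦X⟧) : pS f (pS g A) = pS (g.comp f) A := by
  ext1 k
  rw [coeff_map, coeff_map, coeff_map]
  exact Hev.map_map f g _

theorem pS_ex {X X' : Type} [TopologicalSpace X] [TopologicalSpace X'] (f : C(X, X'))
    (x : Hev X') : pS f (ex x) = ex (Hev.map f x) := map_ex (Hev.map f) x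

theorem chc_tw (E : VB Y) (m : Mor Y' Y) (χ : Y'.G →ₜ* ℂˣ) :
    (E.tw m χ).chc = ex (c1 χ) * pS m.map E.chc := by
  obtain ⟨Y'', m', hm', ψ, v, hv⟩ := (E.pb m).exists_fr
  refine pS_injective hm' ?_
  have h1 : Fr ((E.tw m χ).pb m') (fun i => (Mor.id Y'').chr (ψ i) * m'.chr χ) v :=
    hv.tw (Mor.id Y'') (m'.chr χ)
  rw [← chc_pb, Fr.chc h1, map_mul, ← chc_pb E m, ← chc_pb, Fr.chc hv, pS_ex, map_c1,
    Finset.mul_sum]
  exact Finset.sum_congr rfl fun i _ => by rw [c1_mul, ex_add, mul_comm]; rfl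

theorem coeff_ev_deg {X : Type} [TopologicalSpace X] {x : Hev X} (hx : x ∈ Hev.deg X 1)
    (f : ℂ⟦X⟧) (k : ℕ) : coeff k (ev x f) ∈ Hev.deg X k := by
  rw [coeff_ev]
  exact Submodule.smul_mem _ _ (by simpa using Hev.pow_deg hx k)

theorem coeff_mul_deg {X : Type} [TopologicalSpace X] {A B : (Hev X)⟦X⟧}
    (hA : ∀ k : ℕ, coeff k A ∈ Hev.deg X k) (hB : ∀ k : ℕ, coeff k B ∈ Hev.deg X k) (k : ℕ) :
    coeff k (A * B) ∈ Hev.deg X k := by
  rw [coeff_mul]
  refine Submodule.sum_mem _ fun p hp => ?_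
  rw [← Finset.HasAntidiagonal.mem_antidiagonal.1 hp, Nat.cast_add]
  exact Hev.mul_deg (hA _) (hB _)

theorem coeff_one_deg {X : Type} [TopologicalSpace X] (k : ℕ) :
    coeff k (1 : (Hev X)⟦X⟧) ∈ Hev.deg X k := by
  rw [coeff_one]
  split_ifs with h
  · rw [h]; exact Hev.one_deg
  · exact zero_mem _

theorem chc_deg (E : VB Y) (k : ℕ) : coeff k E.chc ∈ Hev.deg Y.X k := by
  obtain ⟨Y', m, hm, χ, v, hv⟩ := E.exists_fr
  refine Hev.deg_of_map hm ?_
  have h : Hev.map m.map (coeff k E.chc) = coeff k (pS m.map E.chc) := (coeff_map _ _ _).symm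
  rw [h, ← chc_pb, Fr.chc hv, map_sum]
  exact Submodule.sum_mem _ fun i _ => coeff_ev_deg (c1_deg _) _ k

theorem Fr.td {ι : Type} [Fintype ι] {E : VB Y} {χ : ι → Y.G →ₜ* ℂˣ} {v : ι → Y.T → E.W}
    (h : Fr E χ v) : E.td = ∏ i, ev (c1 (χ i)) tdS := by
  rw [VB.td, Fr.chc h, tdOf_sum]
  exact Finset.prod_congr rfl fun i _ => tdOf_ex _

theorem td_deg (E : VB Y) (k : ℕ) : coeff k E.td ∈ Hev.deg Y.X k := by
  obtain ⟨Y', m, hm, χ, v, hv⟩ := E.exists_fr
  refine Hev.deg_of_map hm ?_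
  have h : Hev.map m.map (coeff k E.td) = coeff k (pS m.map E.td) := (coeff_map _ _ _).symm
  rw [h, ← td_pb, Fr.td hv]
  exact Finset.prod_induction _ (fun A : (Hev Y'.X)⟦X⟧ => ∀ k : ℕ, coeff k A ∈ Hev.deg Y'.X k)
    (fun _ _ => coeff_mul_deg) coeff_one_deg (fun i _ => coeff_ev_deg (c1_deg _) _) k

/-- a nowhere vanishing section kills the alternating sum of the exterior powers -/
theorem Fr.prod_one_sub {ι : Type} [Fintype ι] {E : VB Y} {χ : ι → Y.G →ₜ* ℂˣ} {v : ι → Y.T → E.W}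
    (h : Fr E χ v) (h0 : E.eu = 0) : ∏ i, (1 - ex (c1 (χ i))) = 0 := by
  have h3 : ∀ i, ev (-c1 (χ i)) tdS * (1 - ex (c1 (χ i))) = -X * C (c1 (χ i)) := fun i => by
    have h2 := ev_tdS_mul (-c1 (χ i))
    rw [neg_neg, map_neg] at h2
    rw [h2]
    ring
  have h1 : (∏ i, ev (-c1 (χ i)) tdS) * ∏ i, (1 - ex (c1 (χ i))) = 0 := by
    rw [← Finset.prod_mul_distrib, Finset.prod_congr rfl fun i _ => h3 i, Finset.prod_mul_distrib,
      ← map_prod, ← h.eu, h0, map_zero, mul_zero]
  have h2 : IsUnit (∏ i, ev (-c1 (χ i)) tdS) :=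
    IsUnit.prod_univ_iff.2 fun i => by rw [← tdOf_ex]; exact isUnit_tdOf _
  exact (h2.mul_right_eq_zero).1 h1

end Vale.Agent.P269.Grr
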