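import Vale.Agent.P269.Grr.Defs
import Vale.Agent.P269.Loc.Formal
import Vale.Agent.P269.Orb.Ori

/-!
# Riemann-Roch: the cohomological Gysin map, excision, gluing
-/

set_option linter.unusedSectionVars false
set_option linter.unusedVariables false

namespace Vale.Agent.P269.Grr

open Set Function Topology Vale.Agent.P291Z Vale.Agent.P269.Ch

variable {X Y X' Y' U : Type} [TopologicalSpace X] [TopologicalSpace Y] [TopologicalSpace X']
  [TopologicalSpace Y'] [TopologicalSpace U] [Nice X] [Nice Y] [Nice X'] [Nice Y'] [Nice U]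

namespace HG

/-- extension of cochains along a taut map, in all degrees at once -/
theorem tsurj {i : Y → X} (h : Taut i) (a : Coch Y) :
    ∃ b, pull i b = a ∧ (∀ k, IsDeg k a → IsDeg k b) ∧ (∀ y, a ∈ Van y → b ∈ Van (i y)) ∧
      ∀ y, δ a ∈ Van y → δ b ∈ Van (i y) := by
  obtain ⟨D⟩ := h.data
  exact ⟨D.e a, D.pull_e a, fun k => D.e_deg k a, fun y => D.e_van y a, fun y hy => by
    rw [D.e_δ]
    exact D.e_van y _ hy⟩

/-- extension of primitives along a taut map, in all degrees at once -/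
theorem tinj {i : Y → X} (h : Taut i) (b : Coch X) (c : Coch Y) :
    ∃ c', ∀ y, δ b ∈ Van (i y) → pull i b - δ c ∈ Van y → b - δ c' ∈ Van (i y) := by
  obtain ⟨D⟩ := h.data
  refine ⟨D.P b + D.e c, fun y h1 h2 => ?_⟩
  have := (Van _).add_mem ((Van _).add_mem (D.P_δ y b) (D.P_van y _ h1)) (D.e_van y _ h2)
  convert this using 1
  rw [map_add, map_sub, D.e_δ]
  abel

theorem cocycle_pull_near {i : Y → X} (hi : Continuous i) {a : Coch X}
    (ha : ∀ y, δ a ∈ Van (i y)) : supp (δ (pull i a)) = ∅ :=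
  supp_eq_empty.2 fun y => by
    rw [δ_pull]
    exact Van.pull hi.continuousAt (ha y)

theorem mul_van {i : Y → X} {a t : Coch X} (ha : ∀ y, a ∈ Van (i y)) (ht : supp t ⊆ range i)
    (x : X) : a * t ∈ Van x := by
  by_cases hx : x ∈ supp t
  · obtain ⟨y, rfl⟩ := ht hx
    exact Van.mul_right (ha y) t
  · exact Van.mul_left hx a

theorem exists_prim {i : Y → X} (hi : IsClosedEmbedding i) {a : Coch X}
    (ha : ∀ y, δ a ∈ Van (i y)) (h0 : hcls (pull i a) = 0) : ∃ c, ∀ y, a - δ c ∈ Van (i y) := by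
  obtain ⟨c, hc⟩ := (hcls_eq_zero (cocycle_pull_near hi.continuous ha)).1 h0
  obtain ⟨c', hc'⟩ := tinj (Taut.of_isClosedEmbedding hi) a c
  exact ⟨c', fun y => hc' y (ha y) (supp_eq_empty.1 hc y)⟩

/-- cutting off a cochain whose support in an open set lies in a closed subset of it -/
theorem exists_cut {O A : Set X} (hO : IsOpen O) (hA : IsClosed A) (hAO : A ⊆ O) (c : Coch X)
    (hc : ∀ x ∈ O, x ∉ A → c ∈ Van x) :
    ∃ c', supp c' ⊆ A ∧ (∀ k, IsDeg k c → IsDeg k c') ∧ ∀ x ∈ O, c - c' ∈ Van x := by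
  obtain ⟨W, hW, h1, h2⟩ := normal_exists_closure_subset hA hO hAO
  have hs : supp (cut W c) ⊆ A := fun x hx => by
    by_contra h
    exact hc x (h2 (supp_cut W c hx).1) h (supp_cut W c hx).2
  refine ⟨cut W c, hs, fun k h => h.cut W, fun x hx => ?_⟩
  by_cases h : x ∈ A
  · exact cut_in (hW.mem_nhds (h1 h)) c
  · exact (Van x).sub_mem (hc x hx h) fun h' => h (hs h')

/-- extension by zero -/
theorem exists_zero {j : U → X} (hj : IsOpenEmbedding j) {A : Set X} (hA : IsClosed A)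
    (hAj : A ⊆ range j) {t : Coch U} (ht : supp t ⊆ j ⁻¹' A) :
    ∃ t', supp t' ⊆ A ∧ (∀ k, IsDeg k t → IsDeg k t') ∧ ∀ u, pull j t' - t ∈ Van u := by
  obtain ⟨b, h1, h2, h3, -⟩ := tsurj (Taut.of_isOpenEmbedding hj) t
  obtain ⟨t', h4, h5, h6⟩ := exists_cut hj.isOpen_range hA hAj b (by
    rintro _ ⟨u, rfl⟩ hu
    exact h3 u fun h => hu (ht h))
  refine ⟨t', h4, fun k h => h5 k (h2 k h), fun u => ?_⟩
  have := (Van u).neg_mem (Van.pull hj.continuous.continuousAt (h6 _ (mem_range_self u)))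
  rwa [map_sub, h1, neg_sub] at this

theorem cocycle_zero_ext {j : U → X} (hj : IsOpenEmbedding j) {t : Coch U} {t' : Coch X}
    (ht : supp (δ t) = ∅) (hs : supp t' ⊆ range j) (h : ∀ u, pull j t' - t ∈ Van u) :
    supp (δ t') = ∅ :=
  supp_eq_empty.2 fun x => by
    by_cases hx : x ∈ supp t'
    · obtain ⟨u, rfl⟩ := hs hx
      refine Orb.van_of_pull hj ?_
      have := (Van u).add_mem (Van.δ (h u)) (supp_eq_empty.1 ht u)
      rwa [map_sub, sub_add_cancel, δ_pull] at this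
    · exact Van.δ hx

/-- a class that vanishes on an open set has a representative that vanishes there -/
theorem exists_rep {j : C(U, X)} (hj : IsOpenEmbedding j) {a : Coch X} (ha : supp (δ a) = ∅)
    (h0 : H.map j (hcls a) = 0) : ∃ a' : Coch X, supp (δ a') = ∅ ∧
      supp a' ⊆ (range j)ᶜ ∧ hcls a' = hcls a := by
  rw [H.map_hcls j ha] at h0
  obtain ⟨c, hc⟩ := (hcls_eq_zero (cocycle_pull j.continuous ha)).1 h0
  obtain ⟨b, h1, -, -, -⟩ := tsurj (Taut.of_isOpenEmbedding hj) c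
  refine ⟨a - δ b, cocycle_sub ha (cocycle_δ b), ?_, ?_⟩
  · rintro x hx ⟨u, rfl⟩
    refine Orb.van_of_pull hj (a := a - δ b) ?_ hx
    rw [map_sub, ← δ_pull, h1]
    exact supp_eq_empty.1 hc u
  · refine hcls_eq_of_cohom (c := -b) ha ?_
    rw [map_neg, show a - δ b - a - -δ b = 0 by abel]
    exact supp_zero

end HG

open HG

/-! ### The cohomological Gysin map -/

theorem exists_near {i : Y → X} (hi : IsClosedEmbedding i) (q : H Y) :
    ∃ a : Coch X, (∀ y, δ a ∈ Van (i y)) ∧ hcls (pull i a) = q := by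
  obtain ⟨c, hc, rfl⟩ := hcls_surj q
  obtain ⟨a, h1, -, -, h2⟩ := tsurj (Taut.of_isClosedEmbedding hi) c
  exact ⟨a, fun y => h2 y (supp_eq_empty.1 hc y), by rw [h1]⟩

section
variable {i : C(Y, X)} (hi : IsClosedEmbedding i) {d : ℕ} {t : Coch X} (ht : IsCo (range i) d t)
include hi ht

theorem cocycle_mul {a : Coch X} (ha : ∀ y, δ a ∈ Van (i y)) : supp (δ (a * t)) = ∅ :=
  supp_eq_empty.2 fun x => by
    rw [δ_mul]
    exact (Van x).add_mem (mul_van ha ht.supp x) (Van.mul_left (supp_eq_empty.1 ht.cocycle x) _)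

theorem HG.hcls_mul_congr {a a' : Coch X} (ha : ∀ y, δ a ∈ Van (i y))
    (ha' : ∀ y, δ a' ∈ Van (i y)) (h : hcls (pull i a) = hcls (pull i a')) :
    hcls (a * t) = hcls (a' * t) := by
  have hd : ∀ y, δ (a - a') ∈ Van (i y) := fun y => by
    rw [map_sub]
    exact (Van _).sub_mem (ha y) (ha' y)
  obtain ⟨c, hc⟩ := exists_prim hi hd (by
    rw [map_sub, hcls_sub (cocycle_pull_near i.continuous ha) (cocycle_pull_near i.continuous ha'),
      h, sub_self])
  refine hcls_eq_of_cohom (c := c * t) (cocycle_mul hi ht ha') (supp_eq_empty.2 fun x => ?_)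
  have := (Van x).sub_mem (mul_van hc ht.supp x)
    (Van.mul_left (supp_eq_empty.1 ht.cocycle x) (par c))
  convert this using 1
  rw [δ_mul]
  noncomm_ring

theorem hgys_hcls {a : Coch X} (ha : ∀ y, δ a ∈ Van (i y)) :
    hgys i t (hcls (pull i a)) = hcls (a * t) := by
  have h := Classical.epsilon_spec
    (p := fun b : Coch X => (∀ y, δ b ∈ Van (i y)) ∧ hcls (pull i b) = hcls (pull i a))
    ⟨a, ha, rfl⟩
  exact hcls_mul_congr hi ht h.1 ha h.2

theorem hgys_add (q q' : H Y) : hgys i t (q + q') = hgys i t q + hgys i t q' := by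
  obtain ⟨a, ha, rfl⟩ := exists_near hi q
  obtain ⟨b, hb, rfl⟩ := exists_near hi q'
  have hd : ∀ y, δ (a + b) ∈ Van (i y) := fun y => by
    rw [map_add]
    exact (Van _).add_mem (ha y) (hb y)
  rw [← hcls_add (cocycle_pull_near i.continuous ha) (cocycle_pull_near i.continuous hb),
    ← map_add, hgys_hcls hi ht hd, hgys_hcls hi ht ha, hgys_hcls hi ht hb, add_mul,
    hcls_add (cocycle_mul hi ht ha) (cocycle_mul hi ht hb)]

theorem hgys_smul (z : ℂ) (q : H Y) : hgys i t (z • q) = z • hgys i t q := by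
  obtain ⟨a, ha, rfl⟩ := exists_near hi q
  have hd : ∀ y, δ (z • a) ∈ Van (i y) := fun y => by
    rw [map_smul]
    exact (Van _).smul_mem z (ha y)
  rw [← hcls_smul z (cocycle_pull_near i.continuous ha), ← map_smul, hgys_hcls hi ht hd,
    hgys_hcls hi ht ha, smul_mul_assoc, hcls_smul z (cocycle_mul hi ht ha)]

theorem hgys_mul (a : H X) (q : H Y) : hgys i t (H.map i a * q) = a * hgys i t q := by
  obtain ⟨s, hs, rfl⟩ := hcls_surj a
  obtain ⟨b, hb, rfl⟩ := exists_near hi q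
  have hd : ∀ y, δ (s * b) ∈ Van (i y) := fun y => by
    rw [δ_mul]
    exact (Van _).add_mem (Van.mul_right (supp_eq_empty.1 hs _) b) (Van.mul_left (hb y) _)
  rw [H.map_hcls i hs,
    ← hcls_mul (cocycle_pull i.continuous hs) (cocycle_pull_near i.continuous hb), ← map_mul,
    hgys_hcls hi ht hd, hgys_hcls hi ht hb, mul_assoc, hcls_mul hs (cocycle_mul hi ht hb)]

theorem map_hgys (q : H Y) : H.map i (hgys i t q) = q * hcls (pull i t) := by
  obtain ⟨a, ha, rfl⟩ := exists_near hi q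
  rw [hgys_hcls hi ht ha, H.map_hcls i (cocycle_mul hi ht ha), map_mul,
    hcls_mul (cocycle_pull_near i.continuous ha) (cocycle_pull i.continuous ht.cocycle)]

theorem hgys_deg {k : ℤ} {q : H Y} (hq : H.IsDeg k q) : H.IsDeg (k + 2 * d) (hgys i t q) := by
  obtain ⟨c, hc, hk, rfl⟩ := H.isDeg_iff.1 hq
  obtain ⟨a, h1, h2, -, h3⟩ := tsurj (Taut.of_isClosedEmbedding hi) c
  rw [← h1, hgys_hcls hi ht fun y => h3 y (supp_eq_empty.1 hc y)]
  exact hcls_isDeg ((h2 k hk).mul ht.deg)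

theorem hgys_congr {t' : Coch X} (h : Cohom (range i) t t') (ht' : IsCo (range i) d t') (q : H Y) :
    hgys i t q = hgys i t' q := by
  obtain ⟨a, ha, rfl⟩ := exists_near hi q
  obtain ⟨c, h1, h2⟩ := h
  rw [hgys_hcls hi ht ha, hgys_hcls hi ht' ha]
  refine hcls_eq_of_cohom (c := par a * c) (cocycle_mul hi ht' ha) (supp_eq_empty.2 fun x => ?_)
  have := (Van x).add_mem (Van.mul_left (supp_eq_empty.1 h2 x) a)
    (mul_van (fun y => Van.par (ha y)) h1 x)
  convert this using 1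
  rw [δ_mul, δ_par, par_par]
  noncomm_ring

theorem cap_hgys (q : H Y) (β : BM X) :
    cap (hgys i t q) β = push i (cap q (gys i t β)) := by
  obtain ⟨a, ha, rfl⟩ := exists_near hi q
  have hp := IsPr.of_isClosedEmbedding hi
  refine BM.ext_ev fun c hc => ?_
  rw [hgys_hcls hi ht ha, Orb.ev_cap (cocycle_mul hi ht ha) hc, Orb.ev_push hp _ hc,
    Orb.ev_cap (cocycle_pull_near i.continuous ha) (hp.pull_Zc hc), ← map_mul,
    Orb.ev_gys hi ht.cocycle ht.supp β (Near.mul (Near.of_Zc hc) ha), mul_assoc]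

theorem hgys_nat {i' : C(Y', X')} (hi' : IsClosedEmbedding i') (f : C(X', X)) (g : C(Y', Y))
    (hsq : ∀ y, f (i' y) = i (g y)) (hr : f ⁻¹' range i ⊆ range i') (q : H Y) :
    H.map f (hgys i t q) = hgys i' (pull f t) (H.map g q) := by
  obtain ⟨a, ha, rfl⟩ := exists_near hi q
  have ht' : IsCo (range i') d (pull f t) := Loc.IsCo.mono' (Loc.IsCo.pull' ht f.continuous) hr
  have hd : ∀ y, δ (pull f a) ∈ Van (i' y) := fun y => by
    rw [δ_pull]
    exact Van.pull f.continuous.continuousAt (by rw [hsq]; exact ha _)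
  have e : pull g (pull i a) = pull i' (pull f a) := by
    rw [pull_pull, pull_pull, show (f : X' → X) ∘ i' = i ∘ g from funext hsq]
  rw [hgys_hcls hi ht ha, H.map_hcls f (cocycle_mul hi ht ha),
    H.map_hcls g (cocycle_pull_near i.continuous ha), e, hgys_hcls hi' ht' hd, map_mul]

theorem HG.hgys_mem {q : H Y} (hq : q ∈ Hev Y) : hgys i t q ∈ Hev X :=
  Hev.induction (P := fun q => hgys i t q ∈ Hev X) hq
    (fun k c h => mem_Hev (k := k + d) (by rw [mul_add]; exact hgys_deg hi ht h))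
    fun a b ha hb => by rw [hgys_add hi ht]; exact add_mem ha hb

theorem coe_eg (q : Hev Y) : (eg i t q : H X) = hgys i t q.1 := by
  unfold eg toEv
  rw [dif_pos (hgys_mem hi ht q.2)]

theorem exists_egL : ∃ g : Hev Y →ₗ[ℂ] Hev X, (∀ q, g q = eg i t q) ∧
    (∀ a q, g (Hev.map i a * q) = a * g q) ∧
    ∀ e : Hev Y, e.1 = hcls (pull i t) → ∀ q, Hev.map i (g q) = e * q := by
  refine ⟨⟨⟨eg i t, fun q q' => Subtype.ext ?_⟩, fun z q => Subtype.ext ?_⟩, fun _ => rfl,
    fun a q => Subtype.ext ?_, fun e he q => Subtype.ext ?_⟩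
  · show (eg i t (q + q') : H X) = (eg i t q : H X) + (eg i t q' : H X)
    rw [coe_eg hi ht, coe_eg hi ht, coe_eg hi ht]
    exact hgys_add hi ht _ _
  · show (eg i t (z • q) : H X) = z • (eg i t q : H X)
    rw [coe_eg hi ht, coe_eg hi ht]
    exact hgys_smul hi ht _ _
  · show (eg i t (Hev.map i a * q) : H X) = a.1 * (eg i t q : H X)
    rw [coe_eg hi ht, coe_eg hi ht]
    exact hgys_mul hi ht _ _
  · show H.map i (eg i t q : H X) = e.1 * q.1
    rw [coe_eg hi ht, map_hgys hi ht, ← he]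
    exact (Hev.commute e.2 _).symm

end

/-! ### Extension by zero, excision, relative representatives -/

theorem exists_ext {j : U → X} (hj : IsOpenEmbedding j) {A : Set X} (hA : IsClosed A)
    (hAj : A ⊆ range j) {d : ℕ} {t : Coch U} (ht : IsCo (j ⁻¹' A) d t) :
    ∃ t' : Coch X, IsCo A d t' ∧ supp (pull j t' - t) = ∅ := by
  obtain ⟨t', h1, h2, h3⟩ := exists_zero hj hA hAj ht.supp
  exact ⟨t', ⟨cocycle_zero_ext hj ht.cocycle (h1.trans hAj) h3, h2 _ ht.deg, h1⟩,
    supp_eq_empty.2 h3⟩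

theorem cohom_of_pull {j : U → X} (hj : IsOpenEmbedding j) {A : Set X} (hA : IsClosed A)
    (hAj : A ⊆ range j) {a b : Coch X} (ha : supp a ⊆ A) (hb : supp b ⊆ A)
    (hb' : supp (δ b) = ∅) (h : Cohom (j ⁻¹' A) (pull j a) (pull j b)) : Cohom A a b := by
  obtain ⟨c, h1, h2⟩ := h
  obtain ⟨c', h3, -, h4⟩ := exists_zero hj hA hAj h1
  refine ⟨c', h3, supp_eq_empty.2 fun x => ?_⟩
  by_cases hx : x ∈ A
  · obtain ⟨u, rfl⟩ := hAj hx
    refine Orb.van_of_pull hj ?_
    have := (Van u).sub_mem (supp_eq_empty.1 h2 u) (Van.δ (h4 u))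
    convert this using 1
    rw [map_sub, map_sub, map_sub, δ_pull]
    abel
  · exact (Van x).sub_mem ((Van x).sub_mem (fun h => hx (ha h)) fun h => hx (hb h))
      (Van.δ fun h => hx (h3 h))

theorem exists_rel {j : C(U, X)} (hj : IsOpenEmbedding j) {k : ℤ} {c : H X} (hc : H.IsDeg k c)
    (h0 : H.map j c = 0) : ∃ a : Coch X, supp (δ a) = ∅ ∧ IsDeg k a ∧ supp a ⊆ (range j)ᶜ ∧
      hcls a = c := by
  obtain ⟨a, ha, rfl⟩ := hcls_surj c
  obtain ⟨a', h1, h2, h3⟩ := exists_rep hj ha h0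
  exact ⟨comp k a', cocycle_comp h1 k, isDeg_comp k a', (supp_comp k a').trans h2, by
    rw [← H.comp_hcls k h1, h3, hc.comp_eq]⟩

theorem exists_nhds_zero {i : C(Y, X)} (hi : IsClosedEmbedding i) {c : H X} (h0 : H.map i c = 0) :
    ∃ O : Set X, IsOpen O ∧ range i ⊆ O ∧
      H.map (⟨Subtype.val, continuous_subtype_val⟩ : C(O, X)) c = 0 := by
  obtain ⟨a, ha, rfl⟩ := hcls_surj c
  rw [H.map_hcls i ha] at h0
  obtain ⟨b, hb⟩ := exists_prim hi (fun y => supp_eq_empty.1 ha _) h0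
  refine ⟨(supp (a - δ b))ᶜ, (isClosed_supp _).isOpen_compl, ?_, ?_⟩
  · rintro _ ⟨y, rfl⟩
    exact hb y
  · rw [H.map_hcls _ ha]
    refine (hcls_eq_zero (cocycle_pull continuous_subtype_val ha)).2
      ⟨pull Subtype.val b, supp_eq_empty.2 fun x => ?_⟩
    rw [δ_pull]
    have := Van.pull (f := (Subtype.val : ((supp (a - δ b))ᶜ : Set X) → X))
      continuous_subtype_val.continuousAt (a := a - δ b) (x := x) x.2
    rwa [map_sub] at this

theorem exists_glue {j : C(U, X)} (hj : IsOpenEmbedding j) {O : Set X} (hO : IsOpen O)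
    (hc : (range j)ᶜ ⊆ O) {w : H U}
    (h0 : H.map (⟨Subtype.val, continuous_subtype_val⟩ : C(j ⁻¹' O, U)) w = 0) :
    ∃ w' : H X, H.map j w' = w := by
  obtain ⟨a, ha, rfl⟩ := hcls_surj w
  have ho : IsOpen (j ⁻¹' O) := hO.preimage j.continuous
  have : Nice (j ⁻¹' O) := Nice.of_isLocallyClosed ho.isLocallyClosed
  obtain ⟨a', h1, h2, h3⟩ := exists_rep
    (j := (⟨Subtype.val, continuous_subtype_val⟩ : C(j ⁻¹' O, U))) ho.isOpenEmbedding_subtypeVal
    ha h0
  have hA : Oᶜ ⊆ range j := compl_subset_comm.1 hc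
  obtain ⟨t, h4, -, h5⟩ := exists_zero hj hO.isClosed_compl hA (t := a') fun u hu hu' =>
    h2 hu ⟨⟨u, hu'⟩, rfl⟩
  have h6 := cocycle_zero_ext hj h1 (h4.trans hA) h5
  exact ⟨hcls t, by rw [H.map_hcls j h6, hcls_eq_of_null h1 h5, h3]⟩

/-! ### The cochain `neg` -/

omit [TopologicalSpace X] [TopologicalSpace Y] [Nice X] [Nice Y] in
theorem pull_neg (f : X → Y) (l : Y → ℝ) : pull f (neg l) = neg (l ∘ f) := pull_fn _ _

theorem HG.δ_neg_van {l : X → ℝ} (hl : Continuous l) {x : X} (hx : l x ≠ 0) :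
    δ (neg l) ∈ Van x := by
  refine δ_fn_van.2 ?_
  rcases lt_or_gt_of_ne hx with h | h
  · filter_upwards [hl.continuousAt.eventually (gt_mem_nhds h)] with y hy
    rw [if_pos hy, if_pos h]
  · filter_upwards [hl.continuousAt.eventually (lt_mem_nhds h)] with y hy
    rw [if_neg hy.le.not_gt, if_neg h.le.not_gt]

theorem HG.neg_van {l : X → ℝ} (hl : Continuous l) {x : X} (hx : 0 < l x) : neg l ∈ Van x := by
  refine fn_van.2 ?_
  filter_upwards [hl.continuousAt.eventually (lt_mem_nhds hx)] with y hy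
  rw [if_neg hy.le.not_gt]

theorem cocycle_mul_neg {l : X → ℝ} (hl : Continuous l) {a : Coch X} (ha : supp (δ a) = ∅)
    (h0 : ∀ x ∈ supp a, l x ≠ 0) : supp (δ (a * neg l)) = ∅ ∧
      supp (a * neg l) ⊆ supp a ∩ {x | l x < 0} := by
  refine ⟨supp_eq_empty.2 fun x => ?_, fun x hx => ?_⟩
  · by_cases hx : x ∈ supp a
    · rw [δ_mul]
      exact (Van x).add_mem (Van.mul_right (supp_eq_empty.1 ha x) _)
        (Van.mul_left (δ_neg_van hl (h0 x hx)) _)
    · exact Van.δ (Van.mul_right hx _)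
  · obtain ⟨h1, h2⟩ := supp_mul _ _ hx
    exact ⟨h1, (lt_or_gt_of_ne (h0 x h1)).resolve_right fun h => neg_van hl h h2⟩

theorem cohom_mul_neg {l : X → ℝ} (hl : Continuous l) {A : Set X} (h0 : ∀ x ∈ A, l x ≠ 0)
    {a b : Coch X} (h : Cohom A a b) (hb : supp (δ b) = ∅) (hb' : supp b ⊆ A) :
    Cohom A (a * neg l) (b * neg l) := by
  obtain ⟨c, h1, h2⟩ := h
  refine ⟨c * neg l, ((supp_mul _ _).trans inter_subset_left).trans h1,
    supp_eq_empty.2 fun x => ?_⟩
  have h3 : par c * δ (neg l) ∈ Van x := by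
    by_cases hx : x ∈ supp c
    · exact Van.mul_left (δ_neg_van hl (h0 x (h1 hx))) _
    · exact Van.mul_right (Van.par hx) _
  have := (Van x).sub_mem (Van.mul_right (supp_eq_empty.1 h2 x) (neg l)) h3
  convert this using 1
  rw [δ_mul]
  noncomm_ring

theorem mul_neg_congr {l l' : X → ℝ} (hl : Continuous l) (hl' : Continuous l') {a : Coch X}
    (h : ∀ x ∈ supp a, (l x < 0 ∧ l' x < 0) ∨ (0 < l x ∧ 0 < l' x)) :
    supp (a * neg l - a * neg l') = ∅ := by
  refine supp_eq_empty.2 fun x => ?_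
  rw [← mul_sub]
  by_cases hx : x ∈ supp a
  · refine Van.mul_left ?_ a
    rcases h x hx with h | h
    · unfold neg
      rw [← fn_sub]
      refine fn_van.2 ?_
      filter_upwards [hl.continuousAt.eventually (gt_mem_nhds h.1),
        hl'.continuousAt.eventually (gt_mem_nhds h.2)] with y hy hy'
      rw [Pi.sub_apply, if_pos hy, if_pos hy', sub_self]
    · exact (Van x).sub_mem (neg_van hl h.1) (neg_van hl' h.2)
  · exact Van.mul_right hx _

theorem mul_neg_of_neg {l : X → ℝ} (h : ∀ x, l x < 0) (a : Coch X) : a * neg l = a := by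
  have : neg l = 1 := by
    rw [← fn_one]
    exact congrArg fn (funext fun x => if_pos (h x))
  rw [this, mul_one]

theorem mul_neg_of_pos {l : X → ℝ} (h : ∀ x, 0 < l x) (a : Coch X) : a * neg l = 0 := by
  have : neg l = (0 : ℂ) • 1 := by
    rw [← fn_const]
    exact congrArg fn (funext fun x => if_neg (h x).le.not_gt)
  rw [this, zero_smul, mul_zero]

/-! ### The final gluing -/

theorem top_glue {A : Set X} {j : C(U, X × ℝ)} (hj : IsOpenEmbedding j)
    (hr : ∀ p, p ∈ range j ↔ p.1 ∉ A ∨ p.2 ≠ 0) {a : Coch X} (ha : supp (δ a) = ∅)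
    (hA : supp a ⊆ A) (u : H U) {O : Set (X × ℝ)} (hO : IsOpen O) (hAO : ∀ x ∈ A, (x, 0) ∈ O)
    (h0 : H.map (⟨Subtype.val, continuous_subtype_val⟩ : C(j ⁻¹' O, U))
      (u - hcls (pull (fun z => (j z).1) a * neg fun z => (j z).2)) = 0)
    (s s' : C(X, U)) (hs : ∀ x, j (s x) = (x, -1)) (hs' : ∀ x, j (s' x) = (x, 1)) :
    H.map s u - H.map s' u = hcls a := by
  have h1 : Continuous fun z => (j z).1 := j.continuous.fst
  have hc := (cocycle_mul_neg (l := fun z => (j z).2) j.continuous.snd (cocycle_pull h1 ha)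
    fun z hz => ((hr _).1 (mem_range_self z)).resolve_left fun h => h (hA (supp_pull h1 a hz))).1
  obtain ⟨w, hw⟩ := exists_glue hj hO (fun p hp => by
    have h2 := not_or.1 (mt (hr p).2 hp)
    have h3 := hAO p.1 (not_not.1 h2.1)
    rwa [← not_not.1 h2.2] at h3) h0
  have hh : (j.comp s).Homotopic (j.comp s') :=
    ⟨⟨⟨fun p => (p.2, 2 * (p.1 : ℝ) - 1), by fun_prop⟩, fun x => by simp [hs], fun x => by
      simp only [ContinuousMap.comp_apply, hs']
      norm_num⟩⟩
  have h2 : H.map s (H.map j w) = H.map s' (H.map j w) := by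
    rw [H.map_map, H.map_map, H.map_eq_of_homotopic hh]
  have e : ∀ r : C(X, U), (∀ x, (j (r x)).1 = x) →
      H.map r (hcls (pull (fun z => (j z).1) a * neg fun z => (j z).2)) =
        hcls (a * neg fun x => (j (r x)).2) := fun r hr => by
    rw [H.map_hcls r hc, map_mul, pull_pull, pull_neg,
      show (fun z => (j z).1) ∘ r = id from funext hr, pull_id]
    rfl
  rw [hw, map_sub, map_sub, e s fun x => by rw [hs], e s' fun x => by rw [hs'],
    mul_neg_of_neg (fun x => by rw [hs]; norm_num), mul_neg_of_pos (fun x => by rw [hs']; norm_num),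
    hcls_zero, sub_zero] at h2
  rw [← h2, sub_sub_cancel]

end Vale.Agent.P269.Grr
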