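import Vale.Agent.P269.Grr.AltB
import Vale.Agent.P269.Grr.Alg

/-!
# The Chern character of bundles of alternating forms
-/

namespace Vale.Agent.P269.Grr

open Set Function Topology Filter Module Vale.Agent.P291Z Vale.Agent.P269.Ch PowerSeries

variable {Y Y' : Ch.Sp}

theorem ex_nsmul {R : Type*} [CommRing R] [Algebra ℂ R] (x : R) (n : ℕ) :
    ex (n • x) = ex x ^ n := by
  induction n with
  | zero => rw [zero_smul, ex_zero, pow_zero]
  | succ n ih => rw [succ_nsmul, ex_add, ih, pow_succ]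

theorem chc_char_one : (char (1 : Y.G →ₜ* ℂˣ)).chc = 1 := by rw [chc_char, c1_one, ex_zero]

theorem sum_powersetCard_insert {ι R : Type*} [DecidableEq ι] [CommRing R] (f : ι → R) {a : ι}
    {s : Finset ι} (ha : a ∉ s) (j : ℕ) :
    ∑ u ∈ Finset.powersetCard (j + 1) (insert a s), ∏ i ∈ u, f i =
      ∑ u ∈ Finset.powersetCard (j + 1) s, ∏ i ∈ u, f i +
        f a * ∑ u ∈ Finset.powersetCard j s, ∏ i ∈ u, f i := by
  have h : ∀ {k : ℕ}, ∀ u ∈ Finset.powersetCard k s, a ∉ u := fun u hu h =>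
    ha ((Finset.mem_powersetCard.1 hu).1 h)
  rw [Finset.powersetCard_succ_insert ha, Finset.sum_union, Finset.sum_image, Finset.mul_sum]
  · exact congrArg _ (Finset.sum_congr rfl fun u hu => Finset.prod_insert (h u hu))
  · intro u hu u' hu' e
    rw [← Finset.erase_insert (h u hu), e, Finset.erase_insert (h u' hu')]
  · refine Finset.disjoint_left.2 fun u hu hu' => ?_
    obtain ⟨u', -, rfl⟩ := Finset.mem_image.1 hu'
    exact h _ hu (Finset.mem_insert_self _ _)

/-- evaluation of forms on a tuple of vectors -/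
def evA (S E : VB Y) {j : ℕ} (v : Fin j → S.W) : (S.alt E j).W →ₗ[ℂ] E.W where
  toFun α := alv α v
  map_add' _ _ := rfl
  map_smul' _ _ := rfl

/-- contraction of forms with a vector; `S'` is a second bundle in the same representation -/
noncomputable def ctr (S E : VB Y) (j : ℕ) (x : S.W) :
    (S.W [⋀^Fin (j + 1)]→L[ℂ] E.W) →ₗ[ℂ] (S.W [⋀^Fin j]→L[ℂ] E.W) where
  toFun α := α.curryLeft x
  map_add' _ _ := rfl
  map_smul' _ _ := rfl

theorem iso_alt_zero (S E : VB Y) : Iso (Mor.id Y) (S.alt E 0) E fun _ => evA S E 0 :=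
  Iso.of_inj (Hom.of_continuous (fun _ _ h => h.1 _)
    ((continuous_alv.comp continuous_snd).eval_const _)
    fun g _ α _ => congrArg (fun v => g • alv α v) (Subsingleton.elim _ _))
    (fun _ α _ h => alv_ext fun v => (congrArg (alv α) (Subsingleton.elim _ _)).trans h)
    (by rw [alt_r, Nat.choose_zero_right, one_mul])

theorem chc_alt_zero (S E : VB Y) : (S.alt E 0).chc = E.chc := Iso.chc' (iso_alt_zero S E)

theorem iso_alt_pb (S E : VB Y) (j : ℕ) (m : Mor Y' Y) :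
    Iso m ((S.pb m).alt (E.pb m) j) (S.alt E j) fun _ => LinearMap.id :=
  ⟨Hom.of_continuous (fun _ _ h => h) continuous_snd fun g _ (α : (S.alt E j).W) _ =>
    alv_ext fun v => show m.ρ g • alv α (fun i => m.ρ g⁻¹ • v i) =
      m.ρ g • alv α fun i => (m.ρ g)⁻¹ • v i by rw [map_inv],
    fun _ _ _ h => h, fun _ w h => ⟨w, h, rfl⟩⟩

theorem chc_alt_pb (S E : VB Y) (j : ℕ) (m : Mor Y' Y) :
    ((S.pb m).alt (E.pb m) j).chc = pS m.map (S.alt E j).chc := Iso.chc (iso_alt_pb S E j m)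

theorem iso_alt_tw (S E : VB Y) (j : ℕ) (m : Mor Y' Y) (χ : Y'.G →ₜ* ℂˣ) :
    Iso (Mor.id Y') ((S.tw m χ).alt (E.pb m) j) ((S.alt E j).tw m (χ⁻¹ ^ j))
      fun _ => LinearMap.id :=
  ⟨Hom.of_continuous (fun _ _ h => h) continuous_snd fun g _ (α : (S.alt E j).W) _ =>
    alv_ext (S := S) (E := E) fun v =>
      show m.ρ g • alv α (fun i => (χ g⁻¹ : ℂ) • m.ρ g⁻¹ • v i) =
        ((χ⁻¹ ^ j) g : ℂ) • m.ρ g • alv α fun i => (m.ρ g)⁻¹ • v i by
      rw [(alv α).map_smul_univ, smul_comm (m.ρ g), map_inv, map_inv, Finset.prod_const,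
        Finset.card_fin, ← Units.val_pow_eq_pow_val]
      rw [ContinuousMonoidHom.pow_apply]
      rfl,
    fun _ _ _ h => h, fun _ w h => ⟨w, h, rfl⟩⟩

theorem chc_alt_tw (S E : VB Y) (j : ℕ) (m : Mor Y' Y) (χ : Y'.G →ₜ* ℂˣ) :
    ((S.tw m χ).alt (E.pb m) j).chc = ex (-c1 χ) ^ j * pS m.map (S.alt E j).chc := by
  rw [Iso.chc' (iso_alt_tw S E j m χ), chc_tw, c1_pow, c1_inv, ex_nsmul]

theorem inv_smul_sec {S : VB Y} {χ : Y.G →ₜ* ℂˣ} {x : Y.T → S.W}
    (he : ∀ (g : Y.G) t, g • x t = (χ g : ℂ) • x (g • t)) (g : Y.G) (t : Y.T) :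
    g⁻¹ • x (g • t) = (((χ g)⁻¹ : ℂˣ) : ℂ) • x t := by rw [he, inv_smul_smul, map_inv]

/-- contraction with a nowhere vanishing section `x` of `(S.W / S) ⊗ χ⁻¹` -/
theorem exact_alt (S E : VB Y) {F' : Y.T → Submodule ℂ S.W} {r' : ℕ} {h1 h2 h3}
    {χ : Y.G →ₜ* ℂˣ} {x : Y.T → S.W} (hx : Continuous x)
    (he : ∀ (g : Y.G) t, g • x t = (χ g : ℂ) • x (g • t)) (h0 : ∀ t, x t ∉ S.F t)
    (hF : ∀ t, F' t = S.F t ⊔ ℂ ∙ x t) (j : ℕ) :
    Exact ((S.sub F' r' h1 h2 h3).alt E (j + 1)) (S.alt E (j + 1))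
      (((S.sub F' r' h1 h2 h3).alt E j).tw (Mor.id Y) χ⁻¹) (fun _ => LinearMap.id)
      fun t => ctr S E j (x t) := by
  have hs : ∀ t (α : S.W [⋀^Fin (j + 1)]→L[ℂ] E.W),
      α.toAlternatingMap ∈ altA (F' t) (E.F t) (j + 1) ↔
        α.toAlternatingMap ∈ altA (S.F t) (E.F t) (j + 1) ∧ α.curryLeft (x t) = 0 := fun t α => by
    rw [hF, mem_altA_sup]
    exact and_congr_right fun _ => ⟨fun h => ContinuousAlternatingMap.toAlternatingMap_injective h,
      congrArg ContinuousAlternatingMap.toAlternatingMap⟩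
  refine ⟨Hom.of_continuous (fun t α h => ((hs t α).1 h).1) continuous_snd fun _ _ _ _ => rfl,
    Hom.of_continuous (fun t α h => ?_) (continuous_alt.2 fun v => ?_) fun g t α _ => ?_,
    fun _ _ _ h => h, fun t β h => ?_, fun t α h => ⟨fun e => ⟨α, (hs t α).2 ⟨h, e⟩, rfl⟩, ?_⟩⟩
  · show (alv α).toAlternatingMap.curryLeft (x t) ∈ altA (F' t) (E.F t) j
    rw [hF]
    exact curry_mem h _
  · exact (continuous_alv.comp continuous_snd).eval
      ((hx.comp continuous_fst).matrixVecCons continuous_const)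
  · refine ContinuousAlternatingMap.ext fun v => ?_
    show g • alv α (fun i => g⁻¹ • Matrix.vecCons (x (g • t)) v i) =
      (((χ g)⁻¹ : ℂˣ) : ℂ) • g • alv α (Matrix.vecCons (x t) fun i => g⁻¹ • v i)
    rw [← smul_comm g, ← (alv α).vecCons_smul, ← inv_smul_sec he]
    exact congrArg (fun v => g • alv α v) (funext (Fin.cases rfl fun _ => rfl))
  · have h' : (alv (S := S) (E := E) β).toAlternatingMap ∈ altA (F' t) (E.F t) j := h
    rw [hF] at h'
    obtain ⟨α, h4, h5⟩ := exists_curry_eq (h0 t) h'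
    exact ⟨toC _ _ _ α, h4, ContinuousAlternatingMap.toAlternatingMap_injective h5⟩
  · rintro ⟨β, hβ, rfl⟩
    exact ((hs t β).1 hβ).2

theorem chc_alt_curry' (S E : VB Y) {F' : Y.T → Submodule ℂ S.W} {r' : ℕ} {h1 h2 h3}
    {χ : Y.G →ₜ* ℂˣ} {x : Y.T → S.W} (hx : Continuous x)
    (he : ∀ (g : Y.G) t, g • x t = (χ g : ℂ) • x (g • t)) (h0 : ∀ t, x t ∉ S.F t)
    (hF : ∀ t, F' t = S.F t ⊔ ℂ ∙ x t) (j : ℕ) : (S.alt E (j + 1)).chc =
      ((S.sub F' r' h1 h2 h3).alt E (j + 1)).chc +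
        ex (-c1 χ) * ((S.sub F' r' h1 h2 h3).alt E j).chc := by
  rw [Exact.chc (exact_alt S E hx he h0 hF j), chc_tw, pS_id, c1_inv]

/-- contraction with a nowhere vanishing invariant section `x` of `S.W / S` -/
theorem chc_alt_curry (S E : VB Y) {F' : Y.T → Submodule ℂ S.W} {r' : ℕ} {h1 h2 h3} {x : Y.T → S.W}
    (hx : Continuous x) (he : ∀ (g : Y.G) t, x (g • t) = g • x t) (h0 : ∀ t, x t ∉ S.F t)
    (hF : ∀ t, F' t = S.F t ⊔ ℂ ∙ x t) (j : ℕ) : (S.alt E (j + 1)).chc =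
      ((S.sub F' r' h1 h2 h3).alt E (j + 1)).chc + ((S.sub F' r' h1 h2 h3).alt E j).chc := by
  rw [chc_alt_curry' S E (χ := 1) hx (fun g t => (he g t).symm.trans (one_smul ℂ _).symm) h0 hF,
    c1_one, neg_zero, ex_zero, one_mul]

/-- the bundle spanned by `S` and a section that is nowhere in `S` -/
@[reducible] def _root_.Vale.Agent.P269.Ch.VB.adj (S : VB Y) {χ : Y.G →ₜ* ℂˣ} {x : Y.T → S.W}
    (hx : Continuous x) (he : ∀ (g : Y.G) t, g • x t = (χ g : ℂ) • x (g • t))
    (h0 : ∀ t, x t ∉ S.F t) : VB Y :=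
  S.sub (fun t => S.F t ⊔ ℂ ∙ x t) (S.r + 1)
    (by
      have h : Hom (Mor.id Y) (S.sum (char χ)) S.amb
          fun t => LinearMap.id.coprod (LinearMap.toSpanSingleton ℂ S.W (x t)) :=
        Hom.of_continuous (fun _ _ _ => trivial)
          (show Continuous fun y : Y.T × S.W × ℂ => y.2.1 + y.2.2 • x y.1 by fun_prop)
          fun g t (w : S.W × ℂ) _ =>
            show g • w.1 + ((χ g : ℂ) * w.2) • x (g • t) = g • (w.1 + w.2 • x t) by
              rw [smul_add, smul_comm g w.2, he, smul_smul, mul_comm]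
      have h' := h.isClosed_map fun t (w : S.W × ℂ) hw (e : w.1 + w.2 • x t = 0) => by
        have h1 : w.2 = 0 := by_contra fun h1 => h0 t (((S.F t).smul_mem_iff h1).1 (by
          rw [eq_neg_of_add_eq_zero_right e]; exact neg_mem hw.1))
        rw [h1, zero_smul, add_zero] at e
        exact Prod.ext e h1
      refine (Set.ext fun y => ?_ : _ = {y : Y.T × S.W | y.2 ∈ S.F y.1 ⊔ ℂ ∙ x y.1}) ▸ h'
      refine ⟨?_, fun hy => ?_⟩
      · rintro ⟨w, hw, e⟩
        exact Submodule.mem_sup.2 ⟨w.1, hw.1, _, Submodule.mem_span_singleton.2 ⟨w.2, rfl⟩, e⟩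
      · obtain ⟨s, hs, _, hz, e⟩ := Submodule.mem_sup.1 hy
        obtain ⟨c, rfl⟩ := Submodule.mem_span_singleton.1 hz
        exact ⟨(s, c), ⟨hs, trivial⟩, e⟩)
    (fun t => by rw [Submodule.finrank_sup_span_singleton (h0 t), S.rank])
    fun g t w hw => by
      obtain ⟨s, hs, _, hz, rfl⟩ := Submodule.mem_sup.1 hw
      obtain ⟨c, rfl⟩ := Submodule.mem_span_singleton.1 hz
      rw [smul_add, smul_comm g c, he]
      exact add_mem (Submodule.mem_sup_left (S.inv g t s hs)) (Submodule.mem_sup_right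
        (Submodule.smul_mem _ _ (Submodule.smul_mem _ _ (Submodule.mem_span_singleton_self _))))

/-- forms on a quotient with a frame -/
theorem chc_alt_gen {ι : Type} (E : VB Y) {χ : ι → Y.G →ₜ* ℂˣ} (s : Finset ι) :
    ∀ (S : VB Y) (v : ι → Y.T → S.W), (∀ i, Continuous (v i)) →
      (∀ i (g : Y.G) t, g • v i t = (χ i g : ℂ) • v i (g • t)) →
      (∀ t, S.F t ⊔ Submodule.span ℂ ((fun i => v i t) '' s) = ⊤) →
      finrank ℂ S.W = S.r + s.card → ∀ j, (S.alt E j).chc =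
        (∑ u ∈ Finset.powersetCard j s, ∏ i ∈ u, ex (-c1 (χ i))) * E.chc := by
  classical
  induction s using Finset.induction_on with
  | empty =>
    intro S v _ _ _ hr j
    cases j with
    | zero => simp [chc_alt_zero]
    | succ j =>
      rw [chc_zero _ (by rw [alt_r, hr]; simp), Finset.powersetCard_eq_empty.2 (by simp)]
      simp
  | insert a s ha ih =>
    intro S v hc he hs hr j
    rw [Finset.card_insert_of_notMem ha] at hr
    have hs' : ∀ t, S.F t ⊔ (ℂ ∙ v a t) ⊔ Submodule.span ℂ ((fun i => v i t) '' s) = ⊤ :=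
      fun t => by rw [← hs t, Finset.coe_insert, image_insert_eq, Submodule.span_insert, sup_assoc]
    have h0 : ∀ t, v a t ∉ S.F t := fun t h => by
      have h1 := hs' t
      rw [sup_eq_left.2 ((Submodule.span_singleton_le_iff_mem _ _).2 h)] at h1
      have h2 := Submodule.finrank_add_le_finrank_add_finrank (S.F t)
        (Submodule.span ℂ ((fun i => v i t) '' s))
      have h3 : finrank ℂ (Submodule.span ℂ ((fun i => v i t) '' s)) ≤ s.card := by
        rw [← Finset.coe_image]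
        exact (finrank_span_finset_le_card _).trans Finset.card_image_le
      rw [h1, finrank_top, S.rank] at h2
      omega
    have ih' := ih (S.adj (hc a) (he a) h0) v hc he hs' (by rw [hr]; show _ = S.r + 1 + _; omega)
    cases j with
    | zero => simp [chc_alt_zero]
    | succ j =>
      rw [sum_powersetCard_insert _ ha, add_mul, mul_assoc, ← ih', ← ih']
      exact chc_alt_curry' S E (hc a) (he a) h0 (fun _ => rfl) j

theorem chc_alt (S E : VB Y) (j : ℕ) : (S.alt E j).chc = (S.alt (char 1) j).chc * E.chc := by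
  rcases isEmpty_or_nonempty Y.T with _ | ⟨⟨t⟩⟩
  · exact subsingleton_series.elim _ _
  have hk : finrank ℂ S.W = S.r + (finrank ℂ S.W - S.r) := by
    have := (S.F t).finrank_le
    rw [S.rank] at this
    omega
  obtain ⟨R, hR, hr, h1, -⟩ := Hom.exists_compl (S := S) (E := S.amb) (A := fun _ => LinearMap.id)
    (Hom.of_continuous (fun _ _ _ => trivial) continuous_snd fun _ _ _ _ => rfl)
    (fun _ _ _ h => h) hk
  obtain ⟨Y', m, hm, χ, v, hv⟩ := (hR.ker _ hr).exists_fr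
  have key := fun E : VB Y => (chc_alt_pb S E j m).symm.trans (chc_alt_gen (E.pb m) Finset.univ
    (S.pb m) v hv.cont hv.eqv (fun t => eq_top_iff.2 fun (w : S.W) _ => Submodule.mem_sup.2
      ⟨R (m.f t) w, hR.mem _ w trivial, w - R (m.f t) w, Submodule.span_mono
        (by rintro _ ⟨i, rfl⟩; exact ⟨i, Finset.mem_univ i, rfl⟩) ((hv.span t).ge ⟨trivial,
          (map_sub (R (m.f t)) _ _).trans (sub_eq_zero.2 (h1 _ _ (hR.mem _ w trivial)).symm)⟩),
        add_sub_cancel _ _⟩) (by rw [Finset.card_fin]; exact hk) j)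
  refine pS_injective hm ?_
  rw [map_mul, key, key, chc_pb, chc_pb, chc_char_one, map_one, mul_one]

theorem chc_alt_fr {ι : Type} [Fintype ι] (S : VB Y) (hS : ∀ t, S.F t = ⊤)
    {χ : ι → Y.G →ₜ* ℂˣ} {v : ι → Y.T → S.W} (h : Fr S χ v) (j : ℕ) :
    (S.bot.alt (char 1) j).chc =
      ∑ s ∈ Finset.powersetCard j Finset.univ, ∏ i ∈ s, ex (-c1 (χ i)) := by
  rcases isEmpty_or_nonempty Y.T with _ | ⟨⟨t⟩⟩
  · exact subsingleton_series.elim _ _
  rw [chc_alt_gen (char 1) Finset.univ S.bot v h.cont h.eqv (fun t => by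
    rw [Finset.coe_univ, image_univ, h.span, hS, sup_top_eq]) (by
      rw [Finset.card_univ, h.card t, ← S.rank t, hS, finrank_top]
      exact (zero_add _).symm), chc_char_one, mul_one]

end Vale.Agent.P269.Grr
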