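import Vale.Agent.P269.Grr.NL
import Vale.Agent.P269.Grr.Alt

/-!
# The line bundle of a divisor; first Chern classes from sections
-/

set_option linter.unusedSectionVars false

namespace Vale.Agent.P269.Grr

open Set Function Topology Filter Module Vale.Agent.P291Z Vale.Agent.P269.Ch PowerSeries

variable {Y : Ch.Sp}

namespace Ln

section lin

variable {A : Type} [NormedAddCommGroup A] [NormedSpace ℂ A]

theorem exists_dual (A : Type) [NormedAddCommGroup A] [NormedSpace ℂ A] [FiniteDimensional ℂ A] :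
    ∃ q : A → A →L[ℂ] ℂ, ∀ a, a ≠ 0 → q a a = 1 ∧ ContinuousAt q a := by
  obtain ⟨l, -, h, -⟩ := NL.exists_dual' (ContinuousLinearEquiv.ofFinrankEq (𝕜 := ℂ) (E := A)
    (F := EuclideanSpace ℂ (Fin (finrank ℂ A))) (by simp))
  exact ⟨l, h⟩

theorem eq_span {S : Submodule ℂ A} (h : finrank ℂ S = 1) {v : A} (hv : v ∈ S) (h0 : v ≠ 0) :
    S = ℂ ∙ v := by
  have : FiniteDimensional ℂ S := Module.finite_of_finrank_eq_succ h
  exact (Submodule.eq_of_le_of_finrank_eq ((Submodule.span_singleton_le_iff_mem _ _).2 hv)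
    (by rw [finrank_span_singleton h0, h])).symm

theorem exists_smul {S : Submodule ℂ A} (h : finrank ℂ S = 1) {v w : A} (hv : v ∈ S) (h0 : v ≠ 0)
    (hw : w ∈ S) : ∃ z : ℂ, z • v = w := Submodule.mem_span_singleton.1 ((eq_span h hv h0).le hw)

theorem eq_smul {S : Submodule ℂ A} (h : finrank ℂ S = 1) {v w : A} (hv : v ∈ S) {q : A →L[ℂ] ℂ}
    (hq : q v = 1) (hw : w ∈ S) : w = q w • v := by
  obtain ⟨z, rfl⟩ := exists_smul h hv (fun e => by simp [e] at hq) hw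
  rw [map_smul, hq, smul_eq_mul, mul_one]

/-- families of lines with local frames are closed -/
theorem isClosed_of_frame {T : Type} [TopologicalSpace T] [FiniteDimensional ℂ A]
    {F : T → Submodule ℂ A} (hr : ∀ t, finrank ℂ (F t) = 1)
    (h : ∀ t, ∃ l : T → A, ContinuousAt l t ∧ l t ≠ 0 ∧ ∀ᶠ x in 𝓝 t, l x ∈ F x) :
    IsClosed {x : T × A | x.2 ∈ F x.1} := by
  obtain ⟨q, hq⟩ := exists_dual A
  refine Loc.isClosed_of_proj fun t => ?_
  obtain ⟨l, h1, h2, h3⟩ := h t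
  refine ⟨fun x => (q (l x)).smulRight (l x), ((ContinuousLinearMap.smulRightL ℂ A
    A).continuous.continuousAt.comp ((hq _ h2).2.comp h1)).clm_apply h1, ?_⟩
  filter_upwards [h3, h1.eventually_ne h2] with x a1 a2 w
  exact ⟨fun hw => (eq_smul (hr x) a1 (hq _ a2).1 hw).symm, fun e => e ▸ (F x).smul_mem _ a1⟩

end lin

/-- a quotient which is locally a unit -/
theorem exists_glue {T : Type} [TopologicalSpace T] {Φ A : T → ℂ} (hD : Dense {t | A t ≠ 0})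
    (h : ∀ t₀, ∃ U : T → ℂ, U t₀ ≠ 0 ∧ ∀ᶠ t in 𝓝 t₀, ContinuousAt U t ∧ Φ t = U t * A t) :
    ∃ Ψ : T → ℂ, Continuous Ψ ∧ (∀ t, Ψ t ≠ 0) ∧ ∀ t, Φ t = Ψ t * A t := by
  choose U h0 h1 using h
  refine ⟨fun t => U t t, continuous_iff_continuousAt.2 fun t₀ =>
    (h1 t₀).self_of_nhds.1.congr ?_, h0, fun t => (h1 t).self_of_nhds.2⟩
  filter_upwards [(h1 t₀).eventually_nhds] with t ht
  refine tendsto_nhds_unique_of_frequently_eq ht.self_of_nhds.1 (h1 t).self_of_nhds.1 ?_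
  refine ((mem_closure_iff_frequently.1 (hD t)).and_eventually (ht.and (h1 t))).mono
    fun x hx => mul_right_cancel₀ hx.1 (hx.2.1.2.symm.trans hx.2.2.2)

theorem c1_eq {B C : Y.G →ₜ* ℂˣ} {Φ A : Y.T → ℂ} (hD : Dense {t | A t ≠ 0})
    (hΦ : ∀ (g : Y.G) t, A t ≠ 0 → Φ (g • t) = C g * Φ t) (hA : ∀ (g : Y.G) t, A (g • t) = B g * A t)
    (h : ∀ t₀, ∃ U : Y.T → ℂ, U t₀ ≠ 0 ∧ ∀ᶠ t in 𝓝 t₀, ContinuousAt U t ∧ Φ t = U t * A t) :
    c1 C = c1 B := by
  obtain ⟨Ψ, h1, h2, h3⟩ := exists_glue hD h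
  rw [← sub_eq_zero, ← c1_div]
  refine VB.IsSec.eu_eq_zero (E := char (C / B)) (s := Ψ) ⟨fun _ => trivial, h1, fun g t => ?_⟩ h2
  refine congrFun (Continuous.ext_on (f := fun t => Ψ (g • t))
    (g := fun t => (((C / B) g : ℂˣ) : ℂ) * Ψ t) hD (h1.comp (continuous_const_smul g))
    (continuous_const.mul h1) fun x hx => ?_) t
  have e := hΦ g x hx
  rw [h3, h3, hA] at e
  have e' : (((C / B) g : ℂˣ) : ℂ) * B g = C g := by
    rw [← Units.val_mul]
    exact congrArg (fun χ : Y.G →ₜ* ℂˣ => ((χ g : ℂˣ) : ℂ)) (div_mul_cancel C B)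
  refine mul_right_cancel₀ (mul_ne_zero (B g).ne_zero hx) (e.trans ?_)
  rw [← e']
  ring

theorem prod_apply {ι : Type} (S : Finset ι) (β : ι → Y.G →ₜ* ℂˣ) (g : Y.G) :
    (∏ n ∈ S, β n) g = ∏ n ∈ S, β n g := by
  induction S using Finset.cons_induction with
  | empty => rfl
  | cons a S ha ih => rw [Finset.prod_cons, Finset.prod_cons, ContinuousMonoidHom.mul_apply, ih]

theorem exists_ne (E : VB Y) (h : E.r = 1) (t : Y.T) : ∃ w ∈ E.F t, w ≠ 0 :=
  Submodule.exists_mem_ne_zero_of_ne_bot fun e => by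
    have := E.rank t
    rw [e, finrank_bot, h] at this
    exact zero_ne_one this

theorem dense_pp (E : VB Y) {D : Set Y.T} (hD : Dense D) : Dense (E.pp.f ⁻¹' D) := fun x => by
  have hN : IsOpen {t | E.P t (VB.PT.w x) ≠ 0} :=
    isOpen_ne.preimage (E.continuous_P continuous_id continuous_const)
  have hx : E.P (VB.PT.t x) (VB.PT.w x) = VB.PT.w x := E.P_eq (VB.PT.mem x)
  have h0 : E.P (VB.PT.t x) (VB.PT.w x) ≠ 0 := fun e => VB.PT.ne x (hx.symm.trans e)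
  have e : VB.PT.mk _ _ (E.P_mem _ _) h0 = x := VB.PT.ext rfl hx
  exact e ▸ map_mem_closure (t := E.pp.f ⁻¹' D) (VB.PT.continuous_mk
    (t := fun t : {t | E.P t (VB.PT.w x) ≠ 0} => t.1) (w := fun t => E.P t.1 (VB.PT.w x))
    continuous_subtype_val (E.continuous_P continuous_subtype_val continuous_const)
    (fun _ => E.P_mem _ _) fun t => t.2) (hD.preimage hN.isOpenMap_subtype_val
      ⟨VB.PT.t x, h0⟩) fun _ h => h

/-- A nowhere vanishing section of `m^* E ⊗ χ⁻¹`. -/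
structure Tr {Y' : Ch.Sp} (m : Mor Y' Y) (E : VB Y) (χ : Y'.G →ₜ* ℂˣ) (v : Y'.T → E.W) : Prop where
  cont : Continuous v
  mem : ∀ t, v t ∈ E.F (m.f t)
  ne : ∀ t, v t ≠ 0
  eqv : ∀ (g : Y'.G) t, m.ρ g • v t = (χ g : ℂ) • v (g • t)

theorem Tr.eu {Y' : Ch.Sp} {m : Mor Y' Y} {E : VB Y} {χ : Y'.G →ₜ* ℂˣ} {v : Y'.T → E.W}
    (h : Tr m E χ v) (hr : E.r = 1) : Hev.map m.map E.eu = c1 χ := by
  have : Fr (E.pb m) (fun _ : Unit => χ) fun _ => v :=
    Fr.of_li (fun _ => h.cont) (fun _ => h.eqv)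
      (fun t => linearIndependent_unique_iff.2 (h.ne t)) (fun _ => h.mem) hr.symm
  rw [← VB.eu_pb, this.eu, Fintype.prod_unique]

/-- the splitting principle for line bundles -/
theorem exists_tr (Es : List (VB Y)) (h : ∀ E ∈ Es, E.r = 1) : ∃ (Y' : Ch.Sp) (m : Mor Y' Y),
    Injective (H.map m.map) ∧ (∀ D, Dense D → Dense (m.f ⁻¹' D)) ∧
      ∀ E ∈ Es, ∃ χ v, Tr m E χ v := by
  induction Es with
  | nil => exact ⟨Y, Mor.id Y, fun a b e => by
      rwa [H.map_id (Mor.map_id Y), H.map_id (Mor.map_id Y)] at e, fun _ h => h,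
      fun _ h => nomatch h⟩
  | cons E Es ih =>
    obtain ⟨h1, h2⟩ := List.forall_mem_cons.1 h
    obtain ⟨Y', m, a1, a2, a3⟩ := ih h2
    refine ⟨(E.pb m).PS, m.comp (E.pb m).pp, Mor.injective_comp a1
      ((E.pb m).pp_injective (h1.ge.trans_lt' zero_lt_one)), fun D hD => dense_pp _ (a2 D hD),
      List.forall_mem_cons.2 ⟨⟨(E.pb m).o1⁻¹, VB.PT.w, VB.PT.continuous_w, VB.PT.mem, VB.PT.ne,
        fun g t => ?_⟩, fun E' hE' => ?_⟩⟩
    · exact ((smul_smul _ _ _).trans ((congrArg (· • _) g.2.inv_mul).trans (one_smul ℂ _))).symm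
    · obtain ⟨χ, v, hv⟩ := a3 E' hE'
      exact ⟨(E.pb m).pp.chr χ, fun t => v ((E.pb m).pp.f t), hv.cont.comp (E.pb m).pp.cf,
        fun _ => hv.mem _, fun _ => hv.ne _, fun g t => hv.eqv g.1 _⟩

theorem Tr.exists_coord {Y' : Ch.Sp} {m : Mor Y' Y} {E : VB Y} {χ : Y'.G →ₜ* ℂˣ} {v : Y'.T → E.W}
    (h : Tr m E χ v) (hr : E.r = 1) : ∃ q : Y'.T → E.W →L[ℂ] ℂ, Continuous q ∧
      (∀ t, ∀ w ∈ E.F (m.f t), w = q t w • v t) ∧
      ∀ (g : Y'.G) t, ∀ w ∈ E.F (m.f t), q (g • t) (m.ρ g • w) = χ g * q t w := by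
  obtain ⟨q, hq⟩ := exists_dual E.W
  have h1 : ∀ t, ∀ w ∈ E.F (m.f t), w = q (v t) w • v t := fun t w hw =>
    eq_smul ((E.rank _).trans hr) (h.mem t) (hq _ (h.ne t)).1 hw
  refine ⟨fun t => q (v t), continuous_iff_continuousAt.2 fun t =>
    (hq _ (h.ne t)).2.comp h.cont.continuousAt, h1, fun g t w hw => ?_⟩
  conv_lhs => rw [h1 t w hw]
  rw [smul_comm, h.eqv, map_smul, map_smul, (hq _ (h.ne _)).1, smul_eq_mul, smul_eq_mul, mul_one,
    mul_comm]

section cut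

variable {Z : SubMulAction Y.G Y.T} (c : Cut Y Z)

theorem mem_im {A : SubMulAction Y.G Y.T} {t : Y.T} : Y.π t ∈ Y.π '' A ↔ t ∈ A :=
  Y.isQuo.mem_image fun g _ ht => A.smul_mem g ht

include c in
theorem isClosed_im : IsClosed (Y.π '' Z) := c.range_i ▸ c.isClosedEmbedding.isClosed_range

/-- An invariant cut-off function. -/
structure Cf (ρ : Y.T → ℂ) : Prop where
  cont : Continuous ρ
  inv : ∀ (g : Y.G) t, ρ (g • t) = ρ t
  one : ∀ t ∈ Z, ∀ᶠ x in 𝓝 t, ρ x = 1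
  zero : ∀ t, t ∉ c.O → ∀ᶠ x in 𝓝 t, ρ x = 0

theorem exists_cf : ∃ ρ, Cf c ρ := by
  have hU : IsOpen (Y.π '' c.O) := Y.quo.isOpenMap _ c.isOpen
  obtain ⟨W, a1, a2, a3⟩ := normal_exists_closure_subset (isClosed_im c) hU (image_mono c.le)
  obtain ⟨W', b1, b2, b3⟩ := normal_exists_closure_subset isClosed_closure hU a3
  obtain ⟨f, f0, f1, -⟩ := exists_continuous_zero_one_of_isClosed b1.isClosed_compl isClosed_closure
    (disjoint_compl_left_iff_subset.2 b2)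
  refine ⟨fun t => f (Y.π t), Complex.continuous_ofReal.comp (f.continuous.comp Y.cont),
    fun g t => by rw [Y.π_smul], fun t ht => ?_, fun t ht => ?_⟩
  · filter_upwards [Y.cont.continuousAt.eventually_mem (a1.mem_nhds (a2 ⟨t, ht, rfl⟩))] with x hx
    rw [f1 (subset_closure hx)]
    rfl
  · filter_upwards [Y.cont.continuousAt.eventually_mem (isClosed_closure.isOpen_compl.mem_nhds
      fun h => ht (mem_im.1 (b3 h)))] with x hx
    rw [f0 fun h => hx (subset_closure h)]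
    rfl

open Classical in
/-- extension by zero -/
noncomputable def exz {M : Type} [Zero M] (f : c.O → M) (t : Y.T) : M :=
  if h : t ∈ c.O then f ⟨t, h⟩ else 0

theorem exz_val {M : Type} [Zero M] (f : c.O → M) (y : c.O) : exz c f y.1 = f y := dif_pos y.2

theorem continuousAt_exz {M : Type} [Zero M] [TopologicalSpace M] {f : c.O → M} {y : c.O}
    (h : ContinuousAt f y) : ContinuousAt (exz c f) y.1 :=
  c.isOpen.isOpenEmbedding_subtypeVal.continuousAt_iff.1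
    (h.congr (Eventually.of_forall fun x => (exz_val c f x).symm))

theorem eventually_val {p : Y.T → Prop} {y : c.O} (h : ∀ᶠ x : c.O in 𝓝 y, p x.1) :
    ∀ᶠ x in 𝓝 y.1, p x := c.isOpen.isOpenEmbedding_subtypeVal.map_nhds_eq y ▸ h

/-- the action on the normal representation -/
noncomputable def act (g : Y.G) : c.N.W →ₗ[ℂ] c.N.W :=
  DistribSMul.toLinearMap ℂ c.N.W (show (Y.sub c.O c.isOpen.isLocallyClosed).G from g)

/-- the section -/
noncomputable def sec (ρ : Y.T → ℂ) (t : Y.T) : c.N.W × ℂ := (ρ t • exz c c.σ t, 1 - ρ t)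

open Classical in
/-- the fibres -/
noncomputable def fib (ρ : Y.T → ℂ) (t : Y.T) : Submodule ℂ (c.N.W × ℂ) :=
  if h : t ∈ Z then (c.N.F (⟨t, c.le t h⟩ : c.O)).prod ⊥ else ℂ ∙ sec c ρ t

theorem exists_frame (hr : c.N.r = 1) (y : c.O) :
    ∃ n : c.O → c.N.W, Continuous n ∧ n y ≠ 0 ∧ ∀ x, n x ∈ c.N.F x := by
  obtain ⟨w, h1, h2⟩ := exists_ne c.N hr y
  exact ⟨fun x => c.N.P x w, c.N.continuous_P continuous_id continuous_const,
    (c.N.P_eq h1).trans_ne h2, fun x => c.N.P_mem _ _⟩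

variable {c} {ρ : Y.T → ℂ}

theorem sec_eq (y : c.O) (h : ρ y.1 = 1) : sec c ρ y.1 = (c.σ y, 0) := by
  rw [sec, h, one_smul, sub_self, exz_val]

theorem fib_pos {t : Y.T} (h : t ∈ Z) : fib c ρ t = (c.N.F (⟨t, c.le t h⟩ : c.O)).prod ⊥ :=
  dif_pos h

theorem fib_neg {t : Y.T} (h : t ∉ Z) : fib c ρ t = ℂ ∙ sec c ρ t := dif_neg h

theorem rank_prod (hr : c.N.r = 1) (y : c.O) :
    finrank ℂ ((c.N.F y).prod (⊥ : Submodule ℂ ℂ)) = 1 := by
  rw [VB.finrank_prod, finrank_bot]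
  exact (c.N.rank y).trans hr

theorem fib_eq (hr : c.N.r = 1) (y : c.O) (h : ρ y.1 = 1) : fib c ρ y.1 = (c.N.F y).prod ⊥ := by
  by_cases hy : y.1 ∈ Z
  · exact fib_pos hy
  · rw [fib_neg hy, sec_eq y h]
    exact (eq_span (v := (c.σ y, 0)) (rank_prod hr y) ⟨c.sec.mem y, rfl⟩ fun e =>
      hy ((c.zero y).1 (congrArg Prod.fst e))).symm

namespace Cf

variable (h : Cf c ρ)
include h

theorem sec_zero (t : Y.T) : sec c ρ t = 0 ↔ t ∈ Z := by
  refine ⟨fun e => ?_, fun ht => ?_⟩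
  · have h1 : ρ t = 1 := (sub_eq_zero.1 (congrArg Prod.snd e)).symm
    have h2 : t ∈ c.O := by
      by_contra h2
      exact zero_ne_one ((h.zero t h2).self_of_nhds.symm.trans h1)
    exact (c.zero ⟨t, h2⟩).1 (congrArg Prod.fst ((sec_eq ⟨t, h2⟩ h1).symm.trans e))
  · exact (sec_eq ⟨t, c.le t ht⟩ (h.one t ht).self_of_nhds).trans
      (Prod.ext ((c.zero _).2 ht) rfl)

theorem sec_mem (t : Y.T) : sec c ρ t ∈ fib c ρ t := by
  by_cases ht : t ∈ Z
  · rw [(h.sec_zero t).2 ht]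
    exact zero_mem _
  · rw [fib_neg ht]
    exact Submodule.mem_span_singleton_self _

theorem sec_cont : Continuous (sec c ρ) := by
  refine (continuous_iff_continuousAt.2 fun t => ?_).prodMk (continuous_const.sub h.cont)
  by_cases ht : t ∈ c.O
  · exact h.cont.continuousAt.smul (continuousAt_exz c (y := ⟨t, ht⟩) c.sec.cont.continuousAt)
  · refine (continuousAt_const (y := 0)).congr ?_
    filter_upwards [h.zero t ht] with x hx
    rw [hx, zero_smul]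

theorem sec_eqv (g : Y.G) (t : Y.T) :
    sec c ρ (g • t) = (act c g).prodMap LinearMap.id (sec c ρ t) := by
  refine Prod.ext ?_ (congrArg (1 - ·) (h.inv g t))
  change ρ (g • t) • exz c c.σ (g • t) = act c g (ρ t • exz c c.σ t)
  rw [h.inv, map_smul]
  by_cases ht : t ∈ c.O
  · exact congrArg (ρ t • ·) ((exz_val c c.σ (g • ⟨t, ht⟩)).trans ((c.sec.eqv g ⟨t, ht⟩).trans
      (congrArg (act c g) (exz_val c c.σ ⟨t, ht⟩).symm)))
  · rw [(h.zero t ht).self_of_nhds, zero_smul, zero_smul]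

theorem fib_rank (hr : c.N.r = 1) (t : Y.T) : finrank ℂ (fib c ρ t) = 1 := by
  by_cases ht : t ∈ Z
  · rw [fib_pos ht]
    exact rank_prod hr _
  · rw [fib_neg ht]
    exact finrank_span_singleton fun e => ht ((h.sec_zero t).1 e)

theorem fib_inv (g : Y.G) (t : Y.T) (w : c.N.W × ℂ) (hw : w ∈ fib c ρ t) :
    (act c g).prodMap LinearMap.id w ∈ fib c ρ (g • t) := by
  by_cases ht : t ∈ Z
  · rw [fib_pos ht] at hw
    rw [fib_pos (Z.smul_mem g ht)]
    exact ⟨c.N.inv g (⟨t, c.le t ht⟩ : c.O) _ hw.1, hw.2⟩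
  · rw [fib_neg ht] at hw
    obtain ⟨z, rfl⟩ := Submodule.mem_span_singleton.1 hw
    rw [map_smul, ← h.sec_eqv]
    exact Submodule.smul_mem _ _ (h.sec_mem _)

theorem fib_closed (hr : c.N.r = 1) : IsClosed {x : Y.T × c.N.W × ℂ | x.2 ∈ fib c ρ x.1} := by
  refine isClosed_of_frame (h.fib_rank hr) fun t => ?_
  by_cases ht : t ∈ Z
  · obtain ⟨n, n1, n2, n3⟩ := exists_frame c hr ⟨t, c.le t ht⟩
    refine ⟨fun x => (exz c n x, 0), (continuousAt_exz c (y := ⟨t, c.le t ht⟩)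
      n1.continuousAt).prodMk continuousAt_const, fun e =>
      n2 ((exz_val c n _).symm.trans (congrArg Prod.fst e)),
      eventually_val c (y := ⟨t, c.le t ht⟩) ?_⟩
    filter_upwards [continuous_subtype_val.continuousAt.eventually (h.one t ht)] with x hx
    rw [fib_eq hr x hx, exz_val]
    exact ⟨n3 x, rfl⟩
  · exact ⟨sec c ρ, h.sec_cont.continuousAt, fun e => ht ((h.sec_zero t).1 e),
      Eventually.of_forall h.sec_mem⟩

/-- the line bundle -/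
noncomputable def vb (hr : c.N.r = 1) : VB Y :=
  VB.ofLin (c.N.W × ℂ) (fun g => (act c g).prodMap LinearMap.id)
    (fun w => Prod.ext (one_smul (Y.sub c.O c.isOpen.isLocallyClosed).G w.1) rfl)
    (fun g g' w => Prod.ext
      (mul_smul (α := (Y.sub c.O c.isOpen.isLocallyClosed).G) g g' w.1) rfl)
    ((c.N.cont.continuous_smul.comp (continuous_fst.prodMk continuous_snd.fst)).prodMk
      continuous_snd.snd)
    (fib c ρ) 1 (h.fib_closed hr) (h.fib_rank hr) h.fib_inv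

theorem isSec (hr : c.N.r = 1) : (h.vb hr).IsSec (sec c ρ) := ⟨h.sec_mem, h.sec_cont, h.sec_eqv⟩

theorem eu (hr : c.N.r = 1) : (h.vb hr).eu = c.g 1 := by
  obtain ⟨U, u1, u2, u3⟩ := Sp.exists_open (A := Z) (P := fun t => t ∈ c.O ∧ ρ t = 1)
    (fun g t ht => ⟨c.O.smul_mem g ht.1, (h.inv g t).trans ht.2⟩)
    fun t ht => (c.isOpen.eventually_mem (c.le t ht)).and (h.one t ht)
  let j := Y.subI U u1.isLocallyClosed
  let k := j.cod c.O c.isOpen.isLocallyClosed fun t => (u3 t.1 t.2).1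
  have e : ((Y.subI c.O c.isOpen.isLocallyClosed).comp k).map = j.map := Mor.map_ext fun _ => rfl
  have hi : Iso j (c.N.pb k) (h.vb hr) fun _ => LinearMap.inl ℂ c.N.W ℂ :=
    Iso.of_inj (Hom.of_continuous (fun t w hw => (fib_eq hr (k.f t) (u3 t.1 t.2).2).ge ⟨hw, rfl⟩)
      (continuous_snd.prodMk continuous_const) fun _ _ _ _ => rfl)
      (fun _ _ _ e => congrArg Prod.fst e) hr
  have b1 := hi.cohom_eul (c.sec.pb k) (h.isSec hr) fun t =>
    (sec_eq (k.f t) (u3 t.1 t.2).2).symm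
  have b2 := (iso_pb c.N k).cohom_eul (c.sec.pb k) c.sec fun _ => rfl
  have b3 := c.cohom.pull k.map.continuous
  rw [← Mor.pull_comp, ← Mor.preimage_comp, e] at b3
  have b4 := cohom_of_pull (Sp.isOpenEmbedding_subI u1) (isClosed_im c)
    (Sp.subset_range_subI _ fun t ht => u2 (mem_im.1 ht))
    ((h.isSec hr).isCo.supp.trans (image_mono fun t ht => (h.sec_zero t).1 ht)) c.isCo.supp
    c.isCo.cocycle (((b1.symm.trans b2).mono (by
      rintro _ ⟨t, ht, rfl⟩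
      rw [mem_preimage, Mor.map_π]
      exact ⟨_, (c.zero _).1 ht, rfl⟩)).trans b3.symm)
  have b5 := hgys_hcls c.isClosedEmbedding c.isCo' (a := 1)
    fun y => supp_eq_empty.1 cocycle_one _
  rw [map_one, hcls_one, one_mul] at b5
  refine Subtype.ext ((h.isSec hr).hcls_eul.symm.trans ((b4.hcls_eq c.isCo.cocycle).trans ?_))
  rw [Cut.g, coe_eg c.isClosedEmbedding c.isCo']
  exact b5.symm

end Cf

end cut

end Ln

open Ln

-- the line bundle of a divisor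
theorem Cut.exists_line {Z : SubMulAction Y.G Y.T} (c : Cut Y Z) (hr : c.N.r = 1) :
    ∃ (L : VB Y) (s : Y.T → L.W), L.r = 1 ∧ L.IsSec s ∧ (∀ t, s t = 0 ↔ t ∈ Z) ∧
      L.eu = c.g 1 ∧ ∀ y : c.O, y.1 ∈ Z → ∀ f : Y.T → Fin 1 → ℂ, c.Fits f y →
        ∃ l : Y.T → L.W, l y.1 ≠ 0 ∧
          ∀ᶠ x in 𝓝 y.1, ContinuousAt l x ∧ l x ∈ L.F x ∧ s x = f x 0 • l x := by
  obtain ⟨ρ, h⟩ := exists_cf c
  refine ⟨h.vb hr, Ln.sec c ρ, rfl, h.isSec hr, h.sec_zero, h.eu hr, fun y hy f ⟨B, b1, b2⟩ => ?_⟩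
  obtain ⟨n, n1, n2, n3⟩ := exists_frame c hr y
  have b3 : B y (n y) 0 ≠ 0 := fun e =>
    n2 (b1 _ (n3 y) (funext fun i => by rw [Subsingleton.elim i 0]; exact e))
  have b4 : ∀ x, ContinuousAt B x → ContinuousAt (fun x => B x (n x) 0) x := fun x hx =>
    (continuous_apply 0).continuousAt.comp (hx.clm_apply n1.continuousAt)
  let l : c.O → c.N.W × ℂ := fun x => ((B x (n x) 0)⁻¹ • n x, 0)
  refine ⟨exz c l, fun e =>
    smul_ne_zero (inv_ne_zero b3) n2 (congrArg Prod.fst ((exz_val c l y).symm.trans e)),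
    eventually_val c ?_⟩
  filter_upwards [b2, (b4 y b2.self_of_nhds.1).eventually_ne b3,
    n1.continuousAt.eventually_ne n2,
    continuous_subtype_val.continuousAt.eventually (h.one y.1 hy)] with x a1 a2 a3 a4
  have a5 : l x ∈ fib c ρ x.1 := (fib_eq hr x a4).ge ⟨Submodule.smul_mem _ _ (n3 x), rfl⟩
  refine ⟨continuousAt_exz c (f := l) ((((b4 x a1.1).inv₀ a2).smul n1.continuousAt).prodMk
    continuousAt_const), (exz_val c l x).symm ▸ a5, ?_⟩
  obtain ⟨z, hz⟩ := exists_smul ((c.N.rank x).trans hr) (n3 x) a3 (c.sec.mem x)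
  change Ln.sec c ρ x.1 = f x.1 0 • exz c l x.1
  rw [exz_val, sec_eq x a4]
  refine Prod.ext ?_ (mul_zero (f x.1 0)).symm
  change c.σ x = f x.1 0 • (B x (n x) 0)⁻¹ • n x
  rw [a1.2, ← hz, map_smul, Pi.smul_apply, smul_eq_mul, smul_smul, mul_inv_cancel_right₀ a2]

-- a section of `Λ^k ⊗ χ` with divisor `k ∑ D n`
theorem eu_of_div {ν : Type} [Fintype ν] {Λ : VB Y} (hΛ : Λ.r = 1) {L : ν → VB Y}
    (hL : ∀ n, (L n).r = 1) {s : ∀ n, Y.T → (L n).W} (hs : ∀ n, (L n).IsSec (s n))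
    (hd : Dense {t | ∀ n, s n t ≠ 0}) {k : ℕ} {χ : Y.G →ₜ* ℂˣ} {φ : Y.T → Λ.W → ℂ}
    (hom : ∀ t, ∀ l ∈ Λ.F t, l ≠ 0 → ∀ z : ℂ, z ≠ 0 → φ t (z • l) * z ^ k = φ t l)
    (eqv : ∀ (g : Y.G) t, ∀ l ∈ Λ.F t, l ≠ 0 → φ (g • t) (g • l) = χ g * φ t l)
    (loc : ∀ t₀, ∃ (l : Y.T → Λ.W) (e : ∀ n, Y.T → (L n).W) (f : ν → Y.T → ℂ) (u : Y.T → ℂ),
      l t₀ ≠ 0 ∧ (∀ n, e n t₀ ≠ 0) ∧ u t₀ ≠ 0 ∧ ∀ᶠ t in 𝓝 t₀, ContinuousAt l t ∧ l t ∈ Λ.F t ∧
        ContinuousAt u t ∧ (∀ n, ContinuousAt (e n) t ∧ e n t ∈ (L n).F t ∧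
          s n t = f n t • e n t) ∧ φ t (l t) = u t * ∏ n, f n t ^ k) :
    k • Λ.eu + c1 χ = k • ∑ n, (L n).eu := by
  obtain ⟨Y', m, h1, h2, h3⟩ := exists_tr (Λ :: Finset.univ.toList.map L)
    (List.forall_mem_cons.2 ⟨hΛ, fun E hE => by
      obtain ⟨n, -, rfl⟩ := List.mem_map.1 hE
      exact hL n⟩)
  obtain ⟨⟨α, v, hv⟩, h4⟩ := List.forall_mem_cons.1 h3
  choose β w hw using fun n => h4 (L n) (List.mem_map_of_mem (by simp))
  obtain ⟨p, p1, p2, -⟩ := hv.exists_coord hΛ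
  choose q q1 q2 q3 using fun n => (hw n).exists_coord (hL n)
  have p0 : ∀ t, ∀ l ∈ Λ.F (m.f t), l ≠ 0 → p t l ≠ 0 := fun t l hl h0 e =>
    h0 (by rw [p2 t l hl, e, zero_smul])
  have q0 : ∀ n t, ∀ l ∈ (L n).F (m.f t), l ≠ 0 → q n t l ≠ 0 := fun n t l hl h0 e =>
    h0 (by rw [q2 n t l hl, e, zero_smul])
  have key : c1 (α ^ k * m.chr χ) = c1 ((∏ n, β n) ^ k) := by
    refine c1_eq (Φ := fun t => φ (m.f t) (v t)) (A := fun t => (∏ n, q n t (s n (m.f t))) ^ k)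
      ((h2 _ hd).mono fun t (ht : ∀ n, s n (m.f t) ≠ 0) => pow_ne_zero _
        (Finset.prod_ne_zero_iff.2 fun n _ => q0 n t _ ((hs n).mem _) (ht n)))
      (fun g t _ => ?_) (fun g t => ?_) fun t₀ => ?_
    · have e1 := hom (m.f (g • t)) _ (hv.mem (g • t)) (hv.ne _) _ (α g).ne_zero
      rw [← hv.eqv, m.eqv, eqv _ _ _ (hv.mem t) (hv.ne t)] at e1
      rw [m.eqv, ← e1, ContinuousMonoidHom.mul_apply, ContinuousMonoidHom.pow_apply, Mor.chr_apply]
      push_cast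
      ring
    · have e1 : ((((∏ n, β n) ^ k) g : ℂˣ) : ℂ) = (∏ n, (β n g : ℂ)) ^ k := by
        rw [ContinuousMonoidHom.pow_apply, Units.val_pow_eq_pow_val, ← Units.coe_prod,
          Ln.prod_apply]
      simp only [m.eqv, (hs _).eqv, fun n => q3 n g t _ ((hs n).mem _)]
      rw [e1, Finset.prod_mul_distrib, mul_pow]
    · obtain ⟨l, e, f, u, a1, a2, a3, a4⟩ := loc (m.f t₀)
      have a5 := m.cf.continuousAt.eventually a4
      have a6 := a5.self_of_nhds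
      have b1 : p t₀ (l (m.f t₀)) ≠ 0 := p0 _ _ a6.2.1 a1
      have b2 : ∀ n, q n t₀ (e n (m.f t₀)) ≠ 0 := fun n => q0 n _ _ (a6.2.2.2.1 n).2.1 (a2 n)
      have c1 : ∀ t, ContinuousAt l (m.f t) → ContinuousAt (fun t => p t (l (m.f t))) t :=
        fun t h => p1.continuousAt.clm_apply (h.comp m.cf.continuousAt)
      have c2 : ∀ n t, ContinuousAt (e n) (m.f t) →
          ContinuousAt (fun t => q n t (e n (m.f t))) t :=
        fun n t h => (q1 n).continuousAt.clm_apply (h.comp m.cf.continuousAt)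
      refine ⟨fun t => u (m.f t) * p t (l (m.f t)) ^ k / (∏ n, q n t (e n (m.f t))) ^ k,
        div_ne_zero (mul_ne_zero a3 (pow_ne_zero _ b1))
          (pow_ne_zero _ (Finset.prod_ne_zero_iff.2 fun n _ => b2 n)), ?_⟩
      filter_upwards [a5, (c1 _ a6.1).eventually_ne b1, eventually_all.2 fun n =>
        (c2 n _ (a6.2.2.2.1 n).1).eventually_ne (b2 n)] with t d1 d2 d3
      have d4 : (∏ n, q n t (e n (m.f t))) ^ k ≠ 0 :=
        pow_ne_zero _ (Finset.prod_ne_zero_iff.2 fun n _ => d3 n)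
      refine ⟨((d1.2.2.1.comp m.cf.continuousAt).mul ((c1 _ d1.1).pow _)).div
        ((tendsto_finsetProd _ fun n _ => c2 n _ (d1.2.2.2.1 n).1).pow _) d4, ?_⟩
      rw [← hom _ _ (hv.mem t) (hv.ne t) _ d2, ← p2 t _ d1.2.1, d1.2.2.2.2]
      simp only [fun n => (d1.2.2.2.1 n).2.2, map_smul, smul_eq_mul]
      rw [Finset.prod_mul_distrib, mul_pow, Finset.prod_pow]
      field_simp
  refine Hev.map_injective h1 ?_
  rw [map_add, map_nsmul, map_nsmul, map_sum, hv.eu hΛ, map_c1, ← c1_pow, ← c1_mul, key, c1_pow,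
    c1_prod]
  exact congrArg (k • ·) (Finset.sum_congr rfl fun n _ => ((hw n).eu (hL n)).symm)

end Vale.Agent.P269.Grr
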