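import Vale.Agent.P269.Grr.ChQ

/-!
# The family of curves over a smooth domain, Mumford's formula for a domain
-/

set_option linter.unusedSectionVars false

namespace Vale.Agent.P269.Grr

open Set Function Topology Filter Module Vale.Agent.P291Z Vale.Agent.P269.Ch Vale.Agent.P269.Holo
  Vale.Agent.P269.Loc Vale.Agent.P269.Base PowerSeries

section ho

variable {A W : Type} [NormedRing A] [NormedAlgebra ℂ A] [NormedAddCommGroup W] [NormedSpace ℂ W]
  [FiniteDimensional ℂ A] [FiniteDimensional ℂ W] {act : A → W → W} {O : Set W}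

/-- the linear action of the units -/
@[reducible] noncomputable def actU (ha : IsAct act univ) (hl : ∀ a, IsLinearMap ℂ (act a)) :
    DistribMulAction Aˣ W :=
  VB.linAct (fun g : Aˣ => (hl g).mk' _) (fun w => ha.one w trivial)
    fun g g' w => ha.mul _ _ g.isUnit g'.isUnit w trivial

/-- an invariant manifold as a complex orbifold -/
@[reducible] noncomputable def hoS [IsAct act O] (ho : Orb.Orb Aˣ (Holo.Sp act O))
    (ha : IsAct act univ) (hl : ∀ a, IsLinearMap ℂ (act a)) {n : ℕ} (hm : KD.Mf A O n) : HO where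
  toSp := spA ho
  L := A
  A := W
  aA := actU ha hl
  cA := @SMulCommClass.mk Aˣ _ _ (actU ha hl).toSMul _ fun g c w => (hl g).map_smul c w
  tA := @ContinuousSMul.mk Aˣ _ (actU ha hl).toSMul _ _ (continuous_iff_continuousAt.2 fun p =>
    ContinuousAt.comp (g := fun p : A × W => act p.1 p.2) (f := fun p : Aˣ × W => ((p.1 : A), p.2))
      (ha.an _ p.1.isUnit p.2 trivial).continuousAt
      (Units.continuous_val.prodMap continuous_id).continuousAt)
  κ := haveI := FiniteDimensional.complete ℂ A; Holo.expU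
  ι := Holo.Sp.val (act := act)
  n := n
  exp := haveI := FiniteDimensional.complete ℂ A; Holo.isExp_expU
  an := haveI := FiniteDimensional.complete ℂ A
    fun a => AnalyticAt.comp (g := fun p : A × W => act p.1 p.2)
      (f := fun p : A × W => (NormedSpace.exp p.1, p.2)) (ha.an _ (Holo.expU 0).isUnit a trivial)
      (((Holo.exp_an _).comp analyticAt_fst).prod analyticAt_snd)
  emb := Holo.Sp.isEmbedding_val
  eqv := fun _ _ => rfl
  mfd := fun x => (hm _ (Holo.Sp.val_mem (act := act) x)).isMfd _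

theorem holP_hoS [IsAct act O] (ho : Orb.Orb Aˣ (Holo.Sp act O)) (ha : IsAct act univ)
    (hl : ∀ a, IsLinearMap ℂ (act a)) {n : ℕ} (hm : KD.Mf A O n) :
    HolP (Y := hoS ho ha hl hm) (presA ho) (MonoidHom.id Aˣ) :=
  ⟨.id, fun _ => rfl, fun _ => .self, fun _ => .self⟩

end ho

variable {S Λ R J ι ν κ : Type} [Fintype S] [Fintype Λ] [Fintype R] [Fintype J] [Fintype ι]
  [DecidableEq ι] [Fintype ν] [Fintype κ] {ch : Ch ι J} {W : Wt S Λ R J} {B : Set (Λ → ℂ)}
  {O : Set (ch.WF ν κ Λ)} {d : ℕ}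

theorem lin_actF (s : ch.AF ν κ S) : IsLinearMap ℂ (actF W s : ch.WF ν κ Λ → _) := by
  refine ⟨fun x y => Prod.ext (funext fun _ => mul_add _ _ _) (Prod.ext (funext fun l => ?_)
    (Prod.ext (funext₂ fun n i => ?_) (Prod.ext ?_ (funext fun j => ?_)))),
    fun z x => Prod.ext (funext fun _ => mul_left_comm _ _ _) (Prod.ext (funext fun l => ?_)
    (Prod.ext (funext₂ fun n i => ?_) (Prod.ext ?_ (funext fun j => ?_))))⟩
  · exact ContinuousLinearMap.ext fun _ => map_add ((dup s.2).2.1 l) _ _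
  · exact (congrArg _ (map_add _ _ _)).trans (smul_add _ _ _)
  · exact ContinuousLinearMap.ext fun _ => map_add ((dup s.2).2.1 none) _ _
  · exact ContinuousLinearMap.ext fun μ => (congrArg ((dup s.2).2.1 (some j))
      (smul_add (∏ i, s.1 i ^ W.wt j i) (x.2.X j (sub (dup s.2) _ μ))
        (y.2.X j (sub (dup s.2) _ μ)))).trans (map_add _ _ _)
  · exact ContinuousLinearMap.ext fun _ => map_smul ((dup s.2).2.1 l) _ _
  · exact (congrArg _ (map_smul ((dup s.2).1 i) _ _)).trans (smul_comm _ _ _)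
  · exact ContinuousLinearMap.ext fun _ => map_smul ((dup s.2).2.1 none) _ _
  · exact ContinuousLinearMap.ext fun μ => (congrArg ((dup s.2).2.1 (some j))
      (smul_comm (∏ i, s.1 i ^ W.wt j i) z (x.2.X j (sub (dup s.2) _ μ)))).trans (map_smul _ _ _)

variable [IsAct (actF W) O] (ho : Orb.Orb (ch.AF ν κ S)ˣ (Holo.Sp (actF W) O))
  (hm : KD.Mf (ch.AF ν κ S) O d)

/-- a smooth domain as a complex orbifold -/
@[reducible] noncomputable def hoF : HO :=
  hoS ho (isActF_of fun _ _ _ _ => trivial) lin_actF hm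

theorem holP_hoF : HolP (Y := hoF ho hm) (presA ho) (MonoidHom.id _) := holP_hoS _ _ _ _

variable (h : Num₀ ch) (hV : Ver B O)

/-- the family of curves over a smooth domain -/
noncomputable def cfF (h3 : 3 ≤ ch.M ch.o) : CF (hoF ho hm) ch.M ch.o ch.g ch.m where
  ρ (g : (ch.AF ν κ S)ˣ) i := (g : ch.AF ν κ S).2.1 i
  ρ_one _ _ := rfl
  ρ_mul _ _ _ _ := rfl
  cont i := (show Continuous fun s : ch.AF ν κ S => s.2.1 i by fun_prop).comp Units.continuous_val
  an i := haveI := FiniteDimensional.complete ℂ (ch.AF ν κ S)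
    analyticAt_pi_iff.1 (analyticAt_fst.comp (analyticAt_snd.comp (Holo.exp_an 0))) i
  C (t : O) := crv t.1.2
  crv (t : O) := (hV.base _ t.2).2.2.1
  eqv (g : (ch.AF ν κ S)ˣ) _ _ hc := (mem_crv_actF g.isUnit).2 ⟨_, hc, rfl⟩
  fam := h.cuts.locFamF hV.base
  vers (t : O) _ hc := h.vers hV.1 t.2 (hV.2 _ t.2) hc
  three := h3

theorem isCh_cfF (h3 : 3 ≤ ch.M ch.o) :
    IsCh (cfF ho hm h hV h3) (presA ho) (MonoidHom.id _) :=
  ⟨continuous_id, fun _ => rfl, fun _ => .self, hV.base, h.cuts, fun _ => rfl, fun _ _ => rfl⟩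

include h hV in
theorem crv_empty (h3 : ¬3 ≤ ch.M ch.o) {x : ch.WF ν κ Λ} (hx : x ∈ O) : crv x.2 = ∅ :=
  (crv x.2).eq_empty_or_nonempty.resolve_right fun e =>
    h3 ((hV.base _ hx).2.2.1.three_le e h.m_ne)

include ho h hV in
theorem indC_empty (h3 : ¬3 ≤ ch.M ch.o) {x : ch.WF ν κ Λ} (hx : x ∈ O) (j : J) :
    indC W O j = 1 := by
  obtain ⟨h1, h2, -, h4, -⟩ := h.empty (hV.base _ hx) (crv_empty h hV h3 hx)
  have e : ch.rkO j = 0 := by simp [rkO, Ch.eu, h1, h2, h4]
  rw [indC_eq, (okX O j).ch_zero ho (by rw [h4, mul_zero]),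
    (h.cuts.okK hV.base j).ch_zero ho (by rw [e, add_zero])]
  exact PowerSeries.mul_invOfUnit 1 1 (by simp)

include ho hm h in
/-- **Mumford's formula** on a smooth domain -/
theorem grrD (hb : ∀ j, ch.b j ch.o ≠ 0) [IsAct (actC W) (nod O)] :
    ∃ Φ : ℕ → Hev (Quo (actC W) (nod O)),
      (∀ n, Roots W O (Φ n) fun _ _ _ a b => coeff n (mumS a b)) ∧
      ∀ j n, cap (coeff (n + 1) (Qrr.chT (indC W O j))).1 (fnd (actF W) O d) =
        ∑ q ∈ Finset.HasAntidiagonal.antidiagonal (n + 2),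
          ((bernoulli q.1 : ℚ) / (q.1.factorial * q.2.factorial) : ℂ) •
            (push (prC W O) (cap (((ch.k : ℂ)⁻¹ • oC W O ch.χ) ^ q.1 * lC W O j ^ q.2)
              (fnd (actC W) (unv O) (d + 1))) -
              if q.1 = 0 then 0 else ∑ a, cap (hcls (psiF a) ^ (q.1 - 1) *
                hpull (secC W hV.base a) (lC W O j ^ q.2)) (fnd (actF W) O d)) +
        ∑ q ∈ Finset.HasAntidiagonal.antidiagonal n, (q.2.factorial : ℂ)⁻¹ •
          push (prC W O ∘ inN W O) (cap (hpull (inN W O) (lC W O j ^ q.2) * (Φ q.1).1)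
            (fnd (actC W) (nod O) (d - 1))) := by
  by_cases h3 : 3 ≤ ch.M ch.o
  · exact (isCh_cfF ho hm h hV h3).grrF h.k_ne hb (holP_hoF ho hm)
  have hC : IsEmpty (Quo (actC W) (unv O)) := ⟨Quot.ind fun x => by
    simpa [crv_empty h hV h3 x.2.1] using x.2.2⟩
  have hN : IsEmpty (Quo (actC W) (nod O)) := (inN W O).isEmpty
  refine ⟨0, fun n T _ f a b _ => ?_, fun j n => ?_⟩
  · have : IsEmpty T := Function.isEmpty f
    exact Subtype.ext (Subsingleton.elim _ _)
  rcases O.eq_empty_or_nonempty with e | ⟨x, hx⟩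
  · have : IsEmpty (Quo (actF W) O) := ⟨Quot.ind fun x => by simpa [e] using x.2⟩
    exact NL.bm_eq _ _
  have := (h.empty (hV.base _ hx) (crv_empty h hV h3 hx)).2.2.2.2.1
  have e1 : ∀ β : BM (Quo (actC W) (unv O)), β = 0 := fun β => NL.bm_eq _ _
  have e2 : ∀ β : BM (Quo (actC W) (nod O)), β = 0 := fun β => NL.bm_eq _ _
  rw [indC_empty ho h hV h3 hx, Qrr.chT_eq, Qrr.AlgA.ld_one, coeff_hd, map_zero, smul_zero]
  simp only [e1 (cap _ _), e2 (cap _ _), map_zero, Finset.univ_eq_empty, Finset.sum_empty, ite_self,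
    sub_zero, smul_zero, Finset.sum_const_zero, add_zero]
  exact LinearMap.ext fun a => (cap_apply _ _ a).trans (by simp)

end Vale.Agent.P269.Grr
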