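import Vale.Agent.P269.Grr.Defs
import Mathlib.LinearAlgebra.Alternating.Uncurry.Fin
import Mathlib.Analysis.Normed.Module.Alternating.Curry

/-!
# Alternating forms: linear algebra, continuity, the representation on forms
-/

namespace Vale.Agent.P269.Grr

open Set Function Topology Filter Module Vale.Agent.P291Z Vale.Agent.P269.Ch PowerSeries

section alg
variable {V N : Type*} [AddCommGroup V] [Module ℂ V] [AddCommGroup N] [Module ℂ N] {j : ℕ}

/-- `l ∧ α` -/
noncomputable def wdgA (l : V →ₗ[ℂ] ℂ) (α : V [⋀^Fin j]→ₗ[ℂ] N) : V [⋀^Fin (j + 1)]→ₗ[ℂ] N :=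
  AlternatingMap.alternatizeUncurryFin (l.smulRight α)

/-- forms on `V / S` with values in `M` -/
def altA (S : Submodule ℂ V) (M : Submodule ℂ N) (j : ℕ) : Submodule ℂ (V [⋀^Fin j]→ₗ[ℂ] N) where
  carrier := {α | (∀ v, α v ∈ M) ∧ ∀ v i, v i ∈ S → α v = 0}
  add_mem' {a b} ha hb := ⟨fun v => add_mem (ha.1 v) (hb.1 v), fun v i h => by
    rw [AlternatingMap.add_apply, ha.2 v i h, hb.2 v i h, add_zero]⟩
  zero_mem' := ⟨fun _ => zero_mem _, fun _ _ _ => rfl⟩
  smul_mem' c a ha := ⟨fun v => M.smul_mem c (ha.1 v), fun v i h => by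
    rw [AlternatingMap.smul_apply, ha.2 v i h, smul_zero]⟩

theorem mem_altA {S : Submodule ℂ V} {M : Submodule ℂ N} {α : V [⋀^Fin j]→ₗ[ℂ] N} :
    α ∈ altA S M j ↔ (∀ v, α v ∈ M) ∧ ∀ v i, v i ∈ S → α v = 0 := Iff.rfl

theorem wdgA_apply (l : V →ₗ[ℂ] ℂ) (α : V [⋀^Fin j]→ₗ[ℂ] N) (v : Fin (j + 1) → V) :
    wdgA l α v = ∑ i : Fin (j + 1), (-1) ^ (i : ℕ) • l (v i) • α (i.removeNth v) :=
  AlternatingMap.alternatizeUncurryFin_apply _ v

theorem wdgA_zero (l : V →ₗ[ℂ] ℂ) : wdgA l (0 : V [⋀^Fin j]→ₗ[ℂ] N) = 0 :=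
  AlternatingMap.ext fun v => by simp [wdgA_apply]

theorem curry_wdgA_zero (l : V →ₗ[ℂ] ℂ) (α : V [⋀^Fin 0]→ₗ[ℂ] N) (x : V) :
    (wdgA l α).curryLeft x = l x • α := AlternatingMap.ext fun v => by
  rw [AlternatingMap.curryLeft_apply_apply, wdgA_apply, Fin.sum_univ_succ, Fin.sum_univ_zero]
  simp [Subsingleton.elim _ v]

theorem removeNth_succ_vecCons {α : Type*} (x : α) (v : Fin (j + 1) → α) (i : Fin (j + 1)) :
    i.succ.removeNth (Matrix.vecCons x v) = Matrix.vecCons x (i.removeNth v) :=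
  Fin.cons_comp_succ_succAbove x v i

theorem curry_wdgA (l : V →ₗ[ℂ] ℂ) (α : V [⋀^Fin (j + 1)]→ₗ[ℂ] N) (x : V) :
    (wdgA l α).curryLeft x = l x • α - wdgA l (α.curryLeft x) := AlternatingMap.ext fun v => by
  rw [AlternatingMap.curryLeft_apply_apply, wdgA_apply, Fin.sum_univ_succ,
    AlternatingMap.sub_apply, wdgA_apply, sub_eq_add_neg, ← Finset.sum_neg_distrib]
  congr 1
  · simp
  · refine Finset.sum_congr rfl fun i _ => ?_
    rw [removeNth_succ_vecCons, Fin.val_succ, pow_succ, mul_neg_one, neg_smul]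
    rfl

theorem curry_curryA (α : V [⋀^Fin (j + 2)]→ₗ[ℂ] N) (x y : V) :
    (α.curryLeft x).curryLeft y = -(α.curryLeft y).curryLeft x := by
  have h := α.curryLeft_same (x + y)
  simp only [map_add, AlternatingMap.curryLeft_add, LinearMap.add_apply,
    AlternatingMap.curryLeft_same, zero_add, add_zero] at h
  exact eq_neg_of_add_eq_zero_right h

theorem wdgA_mem {S : Submodule ℂ V} {M : Submodule ℂ N} {l : V →ₗ[ℂ] ℂ} (hl : ∀ v ∈ S, l v = 0)
    {α : V [⋀^Fin j]→ₗ[ℂ] N} (h : α ∈ altA S M j) : wdgA l α ∈ altA S M (j + 1) := by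
  refine ⟨fun v => ?_, fun v i hi => ?_⟩
  · rw [wdgA_apply]
    exact sum_mem fun k _ => zsmul_mem (M.smul_mem _ (h.1 _)) _
  · rw [wdgA_apply]
    refine Finset.sum_eq_zero fun k _ => ?_
    by_cases hk : i = k
    · rw [← hk, hl _ hi, zero_smul, smul_zero]
    · obtain ⟨i, rfl⟩ := Fin.exists_succAbove_eq hk
      rw [h.2 _ i hi, smul_zero, smul_zero]

theorem zero_of_sup {S : Submodule ℂ V} {x : V} {α : V [⋀^Fin j]→ₗ[ℂ] N}
    (h1 : ∀ v i, v i ∈ S → α v = 0) (h2 : ∀ v i, v i = x → α v = 0) (v : Fin j → V) (i : Fin j)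
    (h : v i ∈ S ⊔ ℂ ∙ x) : α v = 0 := by
  obtain ⟨s, hs, y, hy, e⟩ := Submodule.mem_sup.1 h
  obtain ⟨c, rfl⟩ := Submodule.mem_span_singleton.1 hy
  rw [← update_eq_self i v, ← e, α.map_update_add, α.map_update_smul,
    h1 _ i (by rwa [update_self]), h2 _ i (update_self ..), smul_zero, add_zero]

theorem curry_mem {S : Submodule ℂ V} {M : Submodule ℂ N} {α : V [⋀^Fin (j + 1)]→ₗ[ℂ] N}
    (h : α ∈ altA S M (j + 1)) (x : V) : α.curryLeft x ∈ altA (S ⊔ ℂ ∙ x) M j :=
  ⟨fun _ => h.1 _, zero_of_sup (fun _ i hi => h.2 _ i.succ hi) fun _ i hi =>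
    α.map_eq_zero_of_eq _ (i := i.succ) (j := 0) hi (Fin.succ_ne_zero i)⟩

theorem mem_altA_sup {S : Submodule ℂ V} {M : Submodule ℂ N} {α : V [⋀^Fin (j + 1)]→ₗ[ℂ] N}
    {x : V} : α ∈ altA (S ⊔ ℂ ∙ x) M (j + 1) ↔ α ∈ altA S M (j + 1) ∧ α.curryLeft x = 0 := by
  refine ⟨fun h => ⟨⟨h.1, fun v i hi => h.2 v i (Submodule.mem_sup_left hi)⟩,
    AlternatingMap.ext fun v => h.2 _ 0
      (Submodule.mem_sup_right (Submodule.mem_span_singleton_self x))⟩,
    fun h => ⟨h.1.1, zero_of_sup h.1.2 fun v i hi => ?_⟩⟩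
  rw [← i.insertNth_self_removeNth v, α.map_insertNth, hi, ← α.curryLeft_apply_apply, h.2,
    AlternatingMap.zero_apply, smul_zero]

theorem exists_form {S : Submodule ℂ V} {x : V} (hx : x ∉ S) :
    ∃ l : V →ₗ[ℂ] ℂ, l x = 1 ∧ ∀ v ∈ S, l v = 0 := by
  obtain ⟨l, h1, h2⟩ := Submodule.exists_le_ker_of_notMem hx
  exact ⟨(l x)⁻¹ • l, inv_mul_cancel₀ h1, fun v hv => by
    rw [LinearMap.smul_apply, h2 hv, smul_zero]⟩

/-- `l ∧ β` is a preimage of `β` under the contraction with `x` -/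
theorem curry_wdgA_of_mem {S : Submodule ℂ V} {M : Submodule ℂ N} {x : V} {l : V →ₗ[ℂ] ℂ}
    (hl : l x = 1) {β : V [⋀^Fin j]→ₗ[ℂ] N} (h : β ∈ altA (S ⊔ ℂ ∙ x) M j) :
    (wdgA l β).curryLeft x = β := by
  cases j with
  | zero => rw [curry_wdgA_zero, hl, one_smul]
  | succ j => rw [curry_wdgA, hl, one_smul, (mem_altA_sup.1 h).2, wdgA_zero, sub_zero]

theorem altA_mono {S S' : Submodule ℂ V} {M M' : Submodule ℂ N} (hS : S' ≤ S) (hM : M ≤ M') :
    altA S M j ≤ altA S' M' j := fun _ h => ⟨fun v => hM (h.1 v), fun v i hi => h.2 v i (hS hi)⟩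

theorem exists_curry_eq {S : Submodule ℂ V} {M : Submodule ℂ N} {x : V} (hx : x ∉ S)
    {β : V [⋀^Fin j]→ₗ[ℂ] N} (h : β ∈ altA (S ⊔ ℂ ∙ x) M j) :
    ∃ α ∈ altA S M (j + 1), α.curryLeft x = β := by
  obtain ⟨l, h1, h2⟩ := exists_form hx
  exact ⟨wdgA l β, wdgA_mem h2 (altA_mono le_sup_left le_rfl h), curry_wdgA_of_mem h1 h⟩

theorem finite_altA [FiniteDimensional ℂ V] (S : Submodule ℂ V) (M : Submodule ℂ N)
    [FiniteDimensional ℂ M] (j : ℕ) : FiniteDimensional ℂ (altA S M j) :=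
  FiniteDimensional.of_injective (V₂ := (Fin j → Fin (finrank ℂ V)) → M)
    { toFun := fun α e => ⟨α.1 fun i => finBasis ℂ V (e i), α.2.1 _⟩
      map_add' := fun _ _ => rfl
      map_smul' := fun _ _ => rfl }
    fun _ _ h => Subtype.ext ((finBasis ℂ V).ext_alternating fun e _ =>
      congrArg Subtype.val (congrFun h e))

theorem finrank_map_add {W W' : Type*} [AddCommGroup W] [Module ℂ W] [AddCommGroup W']
    [Module ℂ W'] (S : Submodule ℂ W) [FiniteDimensional ℂ S] (f : W →ₗ[ℂ] W') :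
    finrank ℂ (S.map f) + finrank ℂ (S ⊓ LinearMap.ker f : Submodule ℂ W) = finrank ℂ S := by
  have h1 := LinearMap.finrank_range_add_finrank_ker (f.domRestrict S)
  rwa [LinearMap.range_domRestrict, LinearMap.ker_domRestrict,
    ← Submodule.finrank_map_subtype_eq, Submodule.map_comap_subtype] at h1

theorem finrank_altA_zero (S : Submodule ℂ V) (M : Submodule ℂ N) :
    finrank ℂ (altA S M 0) = finrank ℂ M := by
  let e : N ≃ₗ[ℂ] V [⋀^Fin 0]→ₗ[ℂ] N := AlternatingMap.constLinearEquivOfIsEmpty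
  rw [← e.finrank_map_eq M, show M.map (e : N →ₗ[ℂ] _) = altA S M 0 from le_antisymm
    (by rintro _ ⟨w, hw, rfl⟩; exact ⟨fun _ => hw, fun _ i => i.elim0⟩)
    fun α h => ⟨α 0, h.1 0, e.apply_symm_apply α⟩]

theorem finrank_altA [FiniteDimensional ℂ V] (S : Submodule ℂ V) (M : Submodule ℂ N)
    [FiniteDimensional ℂ M] (j : ℕ) :
    finrank ℂ (altA S M j) = (finrank ℂ V - finrank ℂ S).choose j * finrank ℂ M := by
  generalize hk : finrank ℂ V - finrank ℂ S = k
  induction k generalizing S j with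
  | zero =>
    cases j with
    | zero => rw [finrank_altA_zero, Nat.choose_zero_right, one_mul]
    | succ j =>
      obtain rfl : S = ⊤ := Submodule.eq_top_of_finrank_eq (by have := S.finrank_le; omega)
      rw [show altA ⊤ M (j + 1) = ⊥ from eq_bot_iff.2 fun α h =>
        AlternatingMap.ext fun v => h.2 v 0 trivial, finrank_bot, Nat.choose_zero_succ, zero_mul]
  | succ k ih =>
    cases j with
    | zero => rw [finrank_altA_zero, Nat.choose_zero_right, one_mul]
    | succ j =>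
      obtain ⟨x, hx⟩ : ∃ x, x ∉ S := by
        by_contra h
        push Not at h
        rw [Submodule.eq_top_iff'.2 h, finrank_top] at hk
        omega
      have hk' : finrank ℂ V - finrank ℂ (S ⊔ ℂ ∙ x : Submodule ℂ V) = k := by
        rw [Submodule.finrank_sup_span_singleton hx]; omega
      have := finite_altA S M (j + 1)
      have h := finrank_map_add (altA S M (j + 1)) (AlternatingMap.curryLeftLinearMap.flip x)
      rw [show (altA S M (j + 1)).map (AlternatingMap.curryLeftLinearMap.flip x) =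
          altA (S ⊔ ℂ ∙ x) M j from le_antisymm (by rintro _ ⟨α, h, rfl⟩; exact curry_mem h x)
            fun β h => exists_curry_eq hx h,
        show altA S M (j + 1) ⊓ LinearMap.ker (AlternatingMap.curryLeftLinearMap.flip x) =
          altA (S ⊔ ℂ ∙ x) M (j + 1) from Submodule.ext fun α => mem_altA_sup.symm,
        ih _ _ hk', ih _ _ hk'] at h
      rw [← h, Nat.choose_succ_succ, add_mul]

theorem eq_zero_of_lt [FiniteDimensional ℂ V] {S : Submodule ℂ V} {M : Submodule ℂ N}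
    {α : V [⋀^Fin j]→ₗ[ℂ] N} (h : α ∈ altA S M j) (hj : finrank ℂ V < finrank ℂ S + j) :
    α = 0 := by
  refine AlternatingMap.ext fun v => (forall_dual_apply_eq_zero_iff ℂ _).1 fun φ => ?_
  have := finite_altA S (⊤ : Submodule ℂ ℂ) j
  have h1 : altA S (⊤ : Submodule ℂ ℂ) j = ⊥ := Submodule.finrank_eq_zero.1 (by
    rw [finrank_altA, Nat.choose_eq_zero_of_lt (by have := S.finrank_le; omega), zero_mul])
  have h2 : φ.compAlternatingMap α ∈ altA S (⊤ : Submodule ℂ ℂ) j :=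
    ⟨fun _ => trivial, fun v i hi => (congrArg φ (h.2 v i hi)).trans (map_zero φ)⟩
  exact DFunLike.congr_fun (h1.le h2) v

end alg

section cont
variable {W W' : Type} [NormedAddCommGroup W] [NormedSpace ℂ W] [FiniteDimensional ℂ W]
  [NormedAddCommGroup W'] [NormedSpace ℂ W'] [FiniteDimensional ℂ W'] {j : ℕ}

omit [FiniteDimensional ℂ W'] in
theorem continuous_altA (α : W [⋀^Fin j]→ₗ[ℂ] W') : Continuous α := by
  let b := finBasis ℂ W
  have e : (α : (Fin j → W) → W') = fun v => ∑ e : Fin j → Fin (finrank ℂ W),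
      (∏ i, b.coord (e i) (v i)) • α fun i => b (e i) := funext fun v => by
    conv_lhs => rw [show v = fun i => ∑ k, b.repr (v i) k • b k from
      funext fun i => (b.sum_repr _).symm]
    refine (α.toMultilinearMap.map_sum _).trans (Finset.sum_congr rfl fun e _ => ?_)
    exact α.toMultilinearMap.map_smul_univ _ _
  rw [e]
  exact continuous_finsetSum _ fun e _ => (continuous_finsetProd _ fun i _ =>
    (b.coord (e i)).continuous_of_finiteDimensional.comp (continuous_apply i)).smul continuous_const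

/-- every alternating form is continuous -/
noncomputable def toC (W W' : Type) [NormedAddCommGroup W] [NormedSpace ℂ W]
    [FiniteDimensional ℂ W] [NormedAddCommGroup W'] [NormedSpace ℂ W'] (j : ℕ) :
    (W [⋀^Fin j]→ₗ[ℂ] W') ≃ₗ[ℂ] (W [⋀^Fin j]→L[ℂ] W') where
  toFun α := ⟨⟨α.toMultilinearMap, continuous_altA α⟩, α.map_eq_zero_of_eq'⟩
  invFun α := α.toAlternatingMap
  map_add' _ _ := rfl
  map_smul' _ _ := rfl
  left_inv _ := rfl
  right_inv _ := rfl

omit [FiniteDimensional ℂ W'] in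
theorem toC_apply (α : W [⋀^Fin j]→ₗ[ℂ] W') (v : Fin j → W) : toC W W' j α v = α v := rfl

omit [FiniteDimensional ℂ W'] in
theorem toC_toAlt (α : W [⋀^Fin j]→ₗ[ℂ] W') : (toC W W' j α).toAlternatingMap = α := rfl

theorem altA_bot_top {V N : Type*} [AddCommGroup V] [Module ℂ V] [AddCommGroup N] [Module ℂ N] :
    altA (⊥ : Submodule ℂ V) (⊤ : Submodule ℂ N) j = ⊤ :=
  eq_top_iff.2 fun α _ => ⟨fun _ => trivial, fun _ i hi => α.map_coord_zero i hi⟩

instance : FiniteDimensional ℂ (W [⋀^Fin j]→L[ℂ] W') :=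
  have := finite_altA (⊥ : Submodule ℂ W) (⊤ : Submodule ℂ W') j
  ((LinearEquiv.ofTop _ altA_bot_top).trans (toC W W' j)).finiteDimensional

theorem finrank_altC : finrank ℂ (W [⋀^Fin j]→L[ℂ] W') = (finrank ℂ W).choose j * finrank ℂ W' := by
  rw [← ((LinearEquiv.ofTop _ altA_bot_top).trans (toC W W' j)).finrank_eq, finrank_altA,
    finrank_bot, finrank_top, Nat.sub_zero]

theorem finrank_Al (c j : ℕ) : finrank ℂ (Al c j) = c.choose j := by
  rw [finrank_altC, finrank_self, mul_one, Module.finrank_fin_fun]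

theorem tendsto_alt {α : Type*} {l : Filter α} {f : α → W [⋀^Fin j]→L[ℂ] W'}
    {a : W [⋀^Fin j]→L[ℂ] W'} :
    Tendsto f l (𝓝 a) ↔ ∀ v, Tendsto (fun z => f z v) l (𝓝 (a v)) := by
  refine ⟨fun h v => ((continuous_eval_const v).tendsto a).comp h, fun h => ?_⟩
  let φ : (W [⋀^Fin j]→L[ℂ] W') →ₗ[ℂ] (Fin j → Fin (finrank ℂ W)) → W' :=
    { toFun := fun β e => β fun i => finBasis ℂ W (e i)
      map_add' := fun _ _ => rfl
      map_smul' := fun _ _ => rfl }
  have hφ : IsClosedEmbedding φ := φ.isClosedEmbedding_of_injective (LinearMap.ker_eq_bot.2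
    fun _ _ e => ContinuousAlternatingMap.toAlternatingMap_injective
      ((finBasis ℂ W).ext_alternating fun v _ => congrFun e v))
  exact hφ.isEmbedding.tendsto_nhds_iff.2 (tendsto_pi_nhds.2 fun e => h _)

theorem continuous_alt {Z : Type*} [TopologicalSpace Z] {f : Z → W [⋀^Fin j]→L[ℂ] W'} :
    Continuous f ↔ ∀ v, Continuous fun z => f z v := by
  simp only [continuous_iff_continuousAt, ContinuousAt, tendsto_alt]
  exact forall_comm

theorem continuousAt_alt {Z : Type*} [TopologicalSpace Z] {f : Z → W [⋀^Fin j]→L[ℂ] W'} {z : Z} :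
    ContinuousAt f z ↔ ∀ v, ContinuousAt (fun z => f z v) z := tendsto_alt

/-- the Koszul complex of a nonzero vector is exact -/
theorem Al.exact {c : ℕ} {n : Fin c → ℂ} (hn : n ≠ 0) : (∀ κ : Al c 0, ∃ κ' : Al c 1,
    κ'.curryLeft n = κ) ∧ ∀ j (κ : Al c (j + 1)), κ.curryLeft n = 0 →
      ∃ κ' : Al c (j + 2), κ'.curryLeft n = κ := by
  have key : ∀ j (κ : Al c j), κ.toAlternatingMap ∈ altA (⊥ ⊔ ℂ ∙ n) ⊤ j →
      ∃ κ' : Al c (j + 1), κ'.curryLeft n = κ := fun j κ h => by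
    obtain ⟨α, -, e⟩ := exists_curry_eq (S := ⊥) hn h
    exact ⟨toC _ _ _ α, ContinuousAlternatingMap.toAlternatingMap_injective e⟩
  exact ⟨fun κ => key 0 κ ⟨fun _ => trivial, fun _ i => i.elim0⟩, fun j κ h =>
    key _ κ (mem_altA_sup.2 ⟨altA_bot_top.ge trivial,
      congrArg ContinuousAlternatingMap.toAlternatingMap h⟩)⟩

theorem Al.curry_curry {c : ℕ} (κ : Al c (j + 2)) (x y : Fin c → ℂ) :
    (κ.curryLeft x).curryLeft y = -(κ.curryLeft y).curryLeft x :=
  ContinuousAlternatingMap.ext fun v =>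
    DFunLike.congr_fun (curry_curryA κ.toAlternatingMap x y) v

/-- alternating forms as a representation -/
def AltW (_G W W' : Type) [NormedAddCommGroup W] [NormedSpace ℂ W] [NormedAddCommGroup W']
    [NormedSpace ℂ W'] (j : ℕ) : Type := W [⋀^Fin j]→L[ℂ] W'

variable {G : Type} [Group G] [DistribMulAction G W] [SMulCommClass G ℂ W] [DistribMulAction G W']
  [SMulCommClass G ℂ W']

noncomputable instance : NormedAddCommGroup (AltW G W W' j) :=
  inferInstanceAs (NormedAddCommGroup (W [⋀^Fin j]→L[ℂ] W'))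

noncomputable instance : NormedSpace ℂ (AltW G W W' j) :=
  inferInstanceAs (NormedSpace ℂ (W [⋀^Fin j]→L[ℂ] W'))

instance : FiniteDimensional ℂ (AltW G W W' j) :=
  inferInstanceAs (FiniteDimensional ℂ (W [⋀^Fin j]→L[ℂ] W'))

/-- the underlying form -/
def AltW.val (α : AltW G W W' j) : W [⋀^Fin j]→L[ℂ] W' := α

noncomputable instance : DistribMulAction G (AltW G W W' j) where
  smul g α := ((lin W' g).compContinuousAlternatingMap
    (α.val.compContinuousLinearMap (lin W g⁻¹)) : W [⋀^Fin j]→L[ℂ] W')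
  one_smul α := ContinuousAlternatingMap.ext fun v =>
    show (1 : G) • α.val (fun i => (1 : G)⁻¹ • v i) = α.val v by simp only [inv_one, one_smul]
  mul_smul g h α := ContinuousAlternatingMap.ext fun v =>
    show (g * h) • α.val (fun i => (g * h)⁻¹ • v i) = g • h • α.val fun i => h⁻¹ • g⁻¹ • v i by
      simp only [mul_inv_rev, mul_smul]
  smul_zero g := ContinuousAlternatingMap.ext fun _ => smul_zero g
  smul_add g _ _ := ContinuousAlternatingMap.ext fun _ => smul_add g _ _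

theorem AltW.smul_val (g : G) (α : AltW G W W' j) (v : Fin j → W) :
    (g • α).val v = g • α.val fun i => g⁻¹ • v i := rfl

instance : SMulCommClass G ℂ (AltW G W W' j) :=
  ⟨fun g c α => ContinuousAlternatingMap.ext fun v => smul_comm g c (α.val fun i => g⁻¹ • v i)⟩

instance [TopologicalSpace G] [IsTopologicalGroup G] [ContinuousSMul G W] [ContinuousSMul G W'] :
    ContinuousSMul G (AltW G W W' j) :=
  ⟨continuous_alt.2 fun v =>
    show Continuous fun p : G × (W [⋀^Fin j]→L[ℂ] W') => p.1 • p.2 fun i => p.1⁻¹ • v i from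
      continuous_fst.smul (continuous_snd.eval (by fun_prop))⟩

end cont

end Vale.Agent.P269.Grr
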