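import Vale.Agent.P269.Grr.AltA

/-!
# Bundles of alternating forms
-/

namespace Vale.Agent.P269.Grr

open Set Function Topology Filter Module Vale.Agent.P291Z Vale.Agent.P269.Ch PowerSeries

variable {Y Y' : Ch.Sp}

/-- forms on `S.W / S` with values in `E` -/
noncomputable def _root_.Vale.Agent.P269.Ch.VB.alt (S E : VB Y) (j : ℕ) : VB Y where
  W := AltW Y.G S.W E.W j
  F t := (altA (S.F t) (E.F t) j).comap
    (ContinuousAlternatingMap.toAlternatingMapLinear :
      (S.W [⋀^Fin j]→L[ℂ] E.W) →ₗ[ℂ] (S.W [⋀^Fin j]→ₗ[ℂ] E.W))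
  r := (finrank ℂ S.W - S.r).choose j * E.r
  closed := by
    have h1 : IsClosed (⋂ v, {x : Y.T × (S.W [⋀^Fin j]→L[ℂ] E.W) | E.P x.1 (x.2 v) = x.2 v}) :=
      isClosed_iInter fun v => isClosed_eq (E.continuous_P continuous_fst
        (continuous_snd.eval_const v)) (continuous_snd.eval_const v)
    have h2 : IsClosed (⋂ v, ⋂ i, {x : Y.T × (S.W [⋀^Fin j]→L[ℂ] E.W) |
        x.2 (update v i (S.P x.1 (v i))) = 0}) :=
      isClosed_iInter fun v => isClosed_iInter fun i => isClosed_eq (continuous_snd.eval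
        (continuous_const.update i (S.continuous_P continuous_fst continuous_const)))
        continuous_const
    refine (Set.ext fun x => ?_ : _ = {x : Y.T × (S.W [⋀^Fin j]→L[ℂ] E.W) |
      (∀ v, x.2 v ∈ E.F x.1) ∧ ∀ v i, v i ∈ S.F x.1 → x.2 v = 0}) ▸ h1.inter h2
    simp only [mem_inter_iff, mem_iInter, mem_ofPred_eq]
    refine ⟨fun h => ⟨fun v => E.P_eq_iff.1 (h.1 v), fun v i hi => ?_⟩,
      fun h => ⟨fun v => E.P_eq (h.1 v), fun v i => h.2 _ i ?_⟩⟩
    · have := h.2 v i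
      rwa [S.P_eq hi, update_eq_self] at this
    · rw [update_self]
      exact S.P_mem _ _
  rank t := by
    rw [← S.rank t, ← E.rank t, ← finrank_altA, ← (toC S.W E.W j).finrank_map_eq,
      Submodule.map_equiv_eq_comap_symm]
    rfl
  inv g t α h := ⟨fun v => E.inv g _ _ (h.1 _), fun v i hi =>
    (congrArg (g • ·) (h.2 (fun i => g⁻¹ • v i) i (S.smul_mem_iff.1
      (show g • g⁻¹ • v i ∈ S.F (g • t) by rwa [smul_inv_smul])))).trans (smul_zero g)⟩

/-- an element of the fibre as a form -/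
def alv {S E : VB Y} {j : ℕ} (α : (S.alt E j).W) : S.W [⋀^Fin j]→L[ℂ] E.W := α

/-- a form as an element of the fibre -/
def ala (S E : VB Y) {j : ℕ} (α : S.W [⋀^Fin j]→L[ℂ] E.W) : (S.alt E j).W := α

theorem alv_ala (S E : VB Y) {j : ℕ} (α : S.W [⋀^Fin j]→L[ℂ] E.W) : alv (ala S E α) = α := rfl

theorem ala_alv {S E : VB Y} {j : ℕ} (α : (S.alt E j).W) : ala S E (alv α) = α := rfl

theorem alv_ext {S E : VB Y} {j : ℕ} {α β : (S.alt E j).W} (h : ∀ v, alv α v = alv β v) : α = β :=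
  ContinuousAlternatingMap.ext h

theorem alv_smul {S E : VB Y} {j : ℕ} (g : Y.G) (α : (S.alt E j).W) (v : Fin j → S.W) :
    alv (g • α) v = g • alv α fun i => g⁻¹ • v i := rfl

theorem alv_add {S E : VB Y} {j : ℕ} (α β : (S.alt E j).W) : alv (α + β) = alv α + alv β := rfl

theorem alv_csmul {S E : VB Y} {j : ℕ} (c : ℂ) (α : (S.alt E j).W) : alv (c • α) = c • alv α := rfl

theorem alv_zero {S E : VB Y} {j : ℕ} : alv (0 : (S.alt E j).W) = 0 := rfl

@[fun_prop] theorem continuous_alv {S E : VB Y} {j : ℕ} : Continuous (alv : (S.alt E j).W → _) :=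
  continuous_id

theorem alt_r (S E : VB Y) (j : ℕ) : (S.alt E j).r = (finrank ℂ S.W - S.r).choose j * E.r := rfl

/-- the zero subbundle -/
@[reducible] def _root_.Vale.Agent.P269.Ch.VB.bot (E : VB Y) : VB Y :=
  E.sub (fun _ => ⊥) 0 (isClosed_eq continuous_snd continuous_const) (fun _ => finrank_bot ℂ _)
    fun g _ _ h => (congrArg (g • ·) h).trans (smul_zero g)

/-- the whole representation as a bundle -/
@[reducible] noncomputable def _root_.Vale.Agent.P269.Ch.VB.amb (E : VB Y) : VB Y :=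
  E.sub (fun _ => ⊤) (finrank ℂ E.W) isClosed_univ (fun _ => finrank_top ℂ _) fun _ _ _ _ => trivial

theorem mem_alt {S E : VB Y} {j : ℕ} {t : Y.T} {α : (S.alt E j).W} : α ∈ (S.alt E j).F t ↔
    (∀ v, alv α v ∈ E.F t) ∧ ∀ v i, v i ∈ S.F t → alv α v = 0 := Iff.rfl

/-- maps into a bundle of forms -/
theorem hom_alt {m : Mor Y' Y} {D : VB Y'} {S E : VB Y} {j : ℕ}
    {A : Y'.T → D.W →ₗ[ℂ] (S.alt E j).W} (mem : ∀ t w, w ∈ D.F t → A t w ∈ (S.alt E j).F (m.f t))
    (cont : ∀ v, Continuous fun x : D.V => alv (A x.1.1 x.1.2) v)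
    (eqv : ∀ (g : Y'.G) t w v, w ∈ D.F t →
      alv (A (g • t) (g • w)) (fun i => m.ρ g • v i) = m.ρ g • alv (A t w) v) :
    Hom m D (S.alt E j) A :=
  ⟨mem, continuous_alt.2 cont, fun g t w hw => alv_ext fun v => by
    rw [alv_smul, ← eqv g t w _ hw]
    simp only [smul_inv_smul]⟩

end Vale.Agent.P269.Grr
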