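import Vale.Agent.P269.Grr.KZ2

/-!
# Divided differences of forms; Koszul classes pulled back along them
-/

namespace Vale.Agent.P269.Grr

open Set Function Topology Filter Module Vale.Agent.P269.Base

namespace Bei

variable {ι : Type} [Fintype ι] {M : ι → ℕ}

theorem pol_multi {σ : Type} [Fintype σ] {n : σ → ℕ}
    (G : MultilinearMap ℂ (fun s => Fin (n s) → ℂ) ℂ) {p : ∀ s, V M → Fin (n s) → ℂ}
    {d : σ → ι → ℕ} (h : ∀ s l, (fun c => p s c l) ∈ Pol M (d s)) :
    (fun c => G fun s => p s c) ∈ Pol M (∑ s, d s) := by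
  classical
  have e : (fun c => G fun s => p s c) = ∑ r : ∀ s, Fin (n s),
      G (fun s => Pi.single (r s) 1) • ∏ s, fun c => p s c (r s) := by
    funext c
    rw [show (fun s => p s c) = fun s => ∑ l, p s c l • (Pi.single l 1 : Fin (n s) → ℂ) from
      funext fun s => pi_eq_sum_univ' _, G.map_sum]
    simp [G.map_smul_univ, mul_comm]
  rw [e]
  exact Submodule.sum_mem _ fun r _ => Submodule.smul_mem _ _ (Pol.prod _ fun s _ => h s (r s))

theorem pol_const (z : ℂ) : (fun _ : V M => z) ∈ Pol M 0 := by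
  have h := (Pol M 0).smul_mem z Pol.one
  rwa [show z • (1 : V M → ℂ) = fun _ => z from funext fun _ => mul_one z] at h

theorem exists_dd' (M : ι → ℕ) {σ : Type} [Fintype σ] [LinearOrder σ] (τ : σ → ι) :
    ∃ D : Tn M τ → V M → V M → V M →ₗ[ℂ] ℂ,
    (∀ μ p q, D μ p q (p - q) = μ (fun s => p (τ s)) - μ fun s => q (τ s)) ∧
    Continuous (fun x : (Tn M τ × V M) × V M × V M => D x.1.1 x.1.2 x.2.1 x.2.2) ∧
    ∀ μ z (e : ι → ℕ) (P Q : V M → V M), (∀ i l, (fun c => P c i l) ∈ Pol M e) →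
      (∀ i l, (fun c => Q c i l) ∈ Pol M e) →
        (fun c => D μ (P c) (Q c) z) ∈ Pol M ((Fintype.card σ - 1) • e) := by
  refine ⟨fun μ p q => ∑ k, μ.toMultilinearMap.toLinearMap
    (fun s => if s < k then p (τ s) else q (τ s)) k ∘ₗ LinearMap.proj (τ k), fun μ p q => ?_, ?_,
    fun μ z e P Q hP hQ => ?_⟩
  · have h := μ.toMultilinearMap.map_sub_map_piecewise (fun s => p (τ s)) (fun s => q (τ s))
      Finset.univ
    rw [Finset.piecewise_univ] at h
    refine (LinearMap.sum_apply _ _ _).trans (Eq.trans (Finset.sum_congr rfl fun k _ =>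
      congrArg μ.toMultilinearMap (funext fun s => ?_)) h.symm)
    by_cases h1 : k = s
    · subst h1
      simp
    · simp [update_of_ne (Ne.symm h1), h1]
  · simp only [LinearMap.sum_apply]
    refine continuous_finsetSum _ fun k _ => continuous_fst.fst.eval
      (Continuous.update (continuous_pi fun s => ?_) k ((continuous_apply _).comp continuous_snd.snd))
    split_ifs <;> fun_prop
  · simp only [LinearMap.sum_apply]
    rw [← Finset.sum_fn]
    refine Submodule.sum_mem _ fun k _ => ?_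
    have h := pol_multi μ.toMultilinearMap (d := update (fun _ => e) k 0)
      (p := fun s c => update (fun s => if s < k then P c (τ s) else Q c (τ s)) k (z (τ k)) s)
      fun s l => by
        by_cases h1 : s = k
        · subst h1
          simpa using pol_const _
        · simp only [update_of_ne h1]
          split_ifs
          exacts [hP _ _, hQ _ _]
    rwa [Finset.sum_update_of_mem (Finset.mem_univ k), zero_add, Finset.sum_const,
      Finset.card_univ_sdiff, Finset.card_singleton] at h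

/-- divided differences -/
theorem exists_dd (M : ι → ℕ) (b : ι → ℕ) : ∃ D : Tens M b → V M → V M → V M →ₗ[ℂ] ℂ,
    (∀ μ p q, D μ p q (p - q) = val μ p - val μ q) ∧
    Continuous (fun x : (Tens M b × V M) × V M × V M => D x.1.1 x.1.2 x.2.1 x.2.2) ∧
    ∀ μ z (e : ι → ℕ) (P Q : V M → V M), (∀ i l, (fun c => P c i l) ∈ Pol M e) →
      (∀ i l, (fun c => Q c i l) ∈ Pol M e) →
        (fun c => D μ (P c) (Q c) z) ∈ Pol M ((∑ i, b i - 1) • e) := by
  have h := @exists_dd' ι _ M (Σ i, Fin (b i)) _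
    (LinearOrder.lift' _ (Fintype.equivFin _).injective) Sigma.fst
  rwa [Fintype.card_sigma, Finset.sum_congr rfl fun i _ => Fintype.card_fin (b i)] at h

variable [DecidableEq ι] {o : ι}

theorem val_single {d : ℕ} (μ : Tens M (d • Pi.single o 1)) (c : V M) :
    val μ (Pi.single o (c o)) = val μ c := KZ.val_congr μ fun i hi => by
  obtain rfl : i = o := by_contra fun h => hi (by simp [h])
  exact Pi.single_eq_same _ _

theorem val_single_smul {d : ℕ} (μ : Tens M (d • Pi.single o 1)) (s : ℂ) (w : Fin (M o) → ℂ) :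
    val μ (Pi.single o (s • w)) = s ^ d * val μ (Pi.single o w) := by
  rw [Pi.single_smul, show s • (Pi.single o w : V M) = (fun _ => s : ι → ℂ) • Pi.single o w from rfl,
    val_smul, chr, Finset.prod_pow_eq_pow_sum]
  simp [← Finset.mul_sum]

/-- the division of quartic forms along a line -/
theorem exists_div (u : (Fin (M o) → ℂ) →L[ℂ] ℂ) (r : ℕ) :
    ∃ A : (Fin r → Tens M (4 • Pi.single o 1)) → (Fin (M o) → ℂ) → (Fin (M o) → ℂ) →
      (Fin (M o) → ℂ) →L[ℂ] (Fin r → ℂ), (∀ f w v, u w ≠ 0 → A f w v w = 0) ∧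
      (∀ f w (c : V M), A f w (c o) (c o) =
        vals f c + u (c o) ^ 4 • -(u w ^ 4)⁻¹ • vals f (Pi.single o w)) ∧
      (∀ f w z i, (fun c : V M => A f w (c o) z i) ∈ Pol M (3 • Pi.single o 1)) ∧
      ∀ z x, u x.1.2 ≠ 0 → ContinuousAt (fun x : (_ × _) × _ => A x.1.1 x.1.2 x.2 z) x := by
  obtain ⟨D, h1, h2, h3⟩ := exists_dd M (4 • Pi.single o 1)
  let J := ContinuousLinearMap.single ℂ (fun i => Fin (M i) → ℂ) o
  let L : (Fin (M o) → ℂ) → (Fin (M o) → ℂ) →L[ℂ] (Fin (M o) → ℂ) := fun w =>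
    u.smulRight ((u w)⁻¹ • w)
  refine ⟨fun f w v => LinearMap.toContinuousLinearMap (LinearMap.pi fun i =>
    D (f i) (J v) (J (L w v)) ∘ₗ (J ∘L (1 - L w)).toLinearMap), fun f w v h => funext fun i => ?_,
    fun f w c => funext fun i => ?_, fun f w z i => ?_, fun z x h => continuousAt_pi.2 fun i => ?_⟩
  · show D _ _ _ (J (w - u w • (u w)⁻¹ • w)) = 0
    rw [smul_inv_smul₀ h, sub_self, map_zero, map_zero]
  · show D _ _ _ (J (c o - L w (c o))) = val (f i) c + u (c o) ^ 4 * (-(u w ^ 4)⁻¹ * val (f i) _)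
    rw [map_sub J, h1]
    show val _ (Pi.single o (c o)) - val _ (Pi.single o (u (c o) • (u w)⁻¹ • w)) = _
    rw [val_single, val_single_smul, val_single_smul, inv_pow]
    ring
  · have h := h3 (f i) (J ((1 - L w) z)) (Pi.single o 1) (fun c => J (c o))
      (fun c => J (L w (c o))) (fun k l => Pol.lin o ((ContinuousLinearMap.proj l).comp
        ((ContinuousLinearMap.proj k).comp J))) fun k l => Pol.lin o
          ((ContinuousLinearMap.proj l).comp ((ContinuousLinearMap.proj k).comp (J.comp (L w))))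
    rwa [show ∑ i, (4 • Pi.single o 1 : ι → ℕ) i - 1 = 3 by simp [← Finset.mul_sum]] at h
  · have h4 : ∀ v : _ → Fin (M o) → ℂ, ContinuousAt v x →
        ContinuousAt (fun y => u (v y) • (u y.1.2)⁻¹ • y.1.2) x := fun v hv =>
      (u.continuous.continuousAt.comp hv).smul (((u.continuous.continuousAt.comp
        continuousAt_fst.snd).inv₀ h).smul continuousAt_fst.snd)
    exact h2.continuousAt.comp (f := fun y : ((Fin r → _) × _) × _ =>
      ((y.1.1 i, J y.2), J (L y.1.2 y.2), J (z - L y.1.2 z)))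
      (((continuousAt_apply i _ |>.comp continuousAt_fst.fst).prodMk
        (J.continuous.continuousAt.comp continuousAt_snd)).prodMk
        ((J.continuous.continuousAt.comp (h4 _ continuousAt_snd)).prodMk
          (J.continuous.continuousAt.comp (continuousAt_const.sub (h4 _ continuousAt_const)))))

section jets
variable {E W N : Type*} [NormedAddCommGroup E] [NormedSpace ℂ E] [NormedAddCommGroup W]
  [NormedSpace ℂ W] [NormedAddCommGroup N] [NormedSpace ℂ N] [CompleteSpace N]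

theorem jets {A : E → W →L[ℂ] N} (hA : ∀ c, AnalyticAt ℂ A c) (L : E →L[ℂ] W) {y : E}
    {F : E → N} (hF : ∀ c, F c = A c (L c - L y)) :
    (∀ ζ, fderiv ℂ F y ζ = A y (L ζ)) ∧ ∀ ζ ζ', fderiv ℂ (fderiv ℂ F) y ζ ζ' =
      fderiv ℂ A y ζ (L ζ') + fderiv ℂ A y ζ' (L ζ) := by
  obtain rfl : F = fun c => A c (L c - L y) := funext hF
  have h0 : ∀ c, HasFDerivAt (fun c => L c - L y) L c := fun c => L.hasFDerivAt.sub_const _
  have h1 : ∀ c ζ, fderiv ℂ (fun c => A c (L c - L y)) c ζ =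
      A c (L ζ) + fderiv ℂ A c ζ (L c - L y) := fun c ζ => by
    rw [((hA c).differentiableAt.hasFDerivAt.clm_apply (h0 c)).fderiv]
    rfl
  refine ⟨fun ζ => by rw [h1, sub_self, map_zero, add_zero], fun ζ ζ' => ?_⟩
  have h2 : AnalyticAt ℂ (fun c => A c (L c - L y)) y :=
    ((ContinuousLinearMap.apply ℂ N).flip.analyticAt_bilinear _).comp₂ (hA y)
      ((L.analyticAt y).sub analyticAt_const)
  have h3 := (h2.fderiv.differentiableAt.hasFDerivAt.clm_apply (hasFDerivAt_const ζ' y)).unique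
    ((((hA y).differentiableAt.hasFDerivAt.clm_apply (hasFDerivAt_const (L ζ') y)).add
      (((hA y).fderiv.differentiableAt.hasFDerivAt.clm_apply (hasFDerivAt_const ζ' y)).clm_apply
        (h0 y))).congr_of_eventuallyEq (.of_forall fun c => h1 c ζ'))
  simpa using DFunLike.congr_fun h3 ζ

end jets

theorem le_sup_range {X K : Type*} [AddCommGroup X] [Module ℂ X] [AddCommGroup K] [Module ℂ K]
    [FiniteDimensional ℂ K] {Z B T : Submodule ℂ X} [FiniteDimensional ℂ T] (h : Z ≤ B ⊔ T)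
    (β : K →ₗ[ℂ] X) (h1 : ∀ κ, β κ ∈ Z) (h2 : ∀ κ, β κ ∈ B → κ = 0)
    (hr : finrank ℂ T ≤ finrank ℂ K) {z : X} (hz : z ∈ Z) : ∃ κ, z - β κ ∈ B := by
  have h3 : Z.map B.mkQ ≤ T.map B.mkQ := (Submodule.map_mono h).trans (by
    rw [Submodule.map_sup, Submodule.mkQ_map_self, bot_sup_eq])
  have h4 : LinearMap.range (B.mkQ ∘ₗ β) = T.map B.mkQ := Submodule.eq_of_le_of_finrank_le
    (by rintro _ ⟨κ, rfl⟩; exact h3 ⟨_, h1 κ, rfl⟩) (by
      rw [LinearMap.finrank_range_of_inj ((injective_iff_map_eq_zero _).2 fun κ e =>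
        h2 κ ((Submodule.Quotient.mk_eq_zero B).1 e))]
      exact (Submodule.finrank_map_le _ _).trans hr)
  obtain ⟨κ, e⟩ := h4.ge (h3 ⟨z, hz, rfl⟩)
  exact ⟨κ, (Submodule.Quotient.eq B).1 e.symm⟩

variable {r j : ℕ} {C : Set (V M)} {A : V M → (Fin (M o) → ℂ) →L[ℂ] (Fin r → ℂ)}

omit [Fintype ι] [DecidableEq ι] in
variable (C A j) in
/-- forms pulled back along `A` -/
noncomputable def bL (g : V M → ℂ) :
    Al r j →ₗ[ℂ] ((Fin (M o) → ℂ) [⋀^Fin j]→ₗ[ℂ] (C → ℂ)) where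
  toFun κ := AlternatingMap.pi fun c : C =>
    (κ.toAlternatingMap.compLinearMap (A c).toLinearMap).smulRight (g c)
  map_add' _ _ := AlternatingMap.ext fun _ => funext fun _ => add_mul _ _ _
  map_smul' _ _ := AlternatingMap.ext fun _ => funext fun _ => mul_assoc _ _ _

omit [Fintype ι] [DecidableEq ι] in
theorem bL_apply (g : V M → ℂ) (κ : Al r j) (v : Fin j → Fin (M o) → ℂ) (c : C) :
    bL j C A g κ v c = κ (fun i => A c (v i)) * g c := rfl

theorem al_zero (h : r < j) (κ : Al r j) : κ = 0 :=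
  (finrank_zero_iff_forall_zero.1 (by rw [finrank_Al, Nat.choose_eq_zero_of_lt h])) κ

variable {u : (Fin (M o) → ℂ) →L[ℂ] ℂ} {a : ι → ℕ} {m₀ : V M → ℂ}

theorem bL_mem (hA : ∀ z i, (fun c => A c z i) ∈ Pol M (3 • Pi.single o 1)) {w : Fin (M o) → ℂ}
    (h0 : ∀ c, A c w = 0) (hm : m₀ ∈ Pol M a) (κ : Al r j) :
    bL j C A (fun c => u (c o) ^ (4 * (r - j)) * m₀ c) κ ∈
      altA (ℂ ∙ w) (Hs C (a + (4 * r - j) • Pi.single o 1)) j := by
  rcases lt_or_ge r j with h | h
  · rw [al_zero h κ, map_zero]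
    exact zero_mem _
  refine ⟨fun v => mem_Hs.2 ⟨_, Pol.mul' (pol_multi κ.toMultilinearMap fun i l => hA (v i) l)
    (Pol.mul' (Pol.pow (Pol.lin o u) (4 * (r - j))) hm rfl) ?_, fun _ => rfl⟩, fun v i hi => ?_⟩
  · rw [Finset.sum_const, Finset.card_fin, smul_smul, ← add_assoc, ← add_smul, add_comm]
    congr 2
    omega
  · obtain ⟨s, e⟩ := Submodule.mem_span_singleton.1 hi
    exact funext fun c => (bL_apply ..).trans (by
      rw [κ.map_coord_zero i (by rw [← e, map_smul, h0, smul_zero]), zero_mul]; rfl)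

omit [Fintype ι] [DecidableEq ι] in
theorem dK_bL {f : Fin r → ℂ} (hf : ∀ c ∈ C, A c (c o) = u (c o) ^ 4 • f) (κ : Al r (j + 1)) :
    dK (fun c : C => c.1 o) j (bL (j + 1) C A (fun c => u (c o) ^ (4 * (r - (j + 1))) * m₀ c) κ) =
      bL j C A (fun c => u (c o) ^ (4 * (r - j)) * m₀ c) (κ.curryLeft f) := by
  rcases lt_or_ge r (j + 1) with h | h
  · rw [al_zero h κ, map_zero, map_zero]
    exact (map_zero _).symm
  refine AlternatingMap.ext fun v => funext fun c => ?_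
  rw [dK_apply, bL_apply, bL_apply, show (fun i => A c (Matrix.vecCons (c.1 o) v i)) =
    Matrix.vecCons (u (c.1 o) ^ 4 • f) fun i => A c (v i) from
      funext (Fin.cases (hf c c.2) fun _ => rfl), κ.vecCons_smul,
    show 4 * (r - j) = 4 + 4 * (r - (j + 1)) by omega, pow_add, smul_eq_mul,
    κ.curryLeft_apply_apply]
  ring

theorem bL_inj {g : ℤ} {m : ι → ℤ} (h : IsCurve o g m C) {y : V M} {γ : Bool → ℂ → V M}
    (hγ : Loc o C y γ) {b d e : ι → ℕ} {f : Fin r → Tens M b} (h0 : ∀ c ∈ C, vals f c = 0)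
    (h1 : (γ true = γ false ∧ ∀ w, ∃ v, fderiv ℂ (vals f) y (Pi.single o v) = w) ∨
      (γ true ≠ γ false ∧ ∀ w, ∃ v, ∃ z : ℂ, w = fderiv ℂ (vals f) y (Pi.single o v) +
        z • fderiv ℂ (fderiv ℂ (vals f)) y (deriv (γ true) 0) (deriv (γ false) 0)))
    (hA : ∀ z i, (fun c => A c z i) ∈ Pol M d) (a1 : ∀ c, A c (y o) = 0)
    (a2 : ∀ c, A c (c o) = vals f c) {n : V M → ℂ} (hn : Continuous n) (n0 : n y ≠ 0) {κ : Al r j}
    (hκ : bL j C A n κ ∈ BK (fun c : C => c.1 o) (ℂ ∙ y o) (Hs C e) j) : κ = 0 := by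
  have hA' : ∀ c, AnalyticAt ℂ A c := fun c => Holo.analyticAt_of_apply fun z =>
    AnalyticAt.pi fun i => Pol.an (hA z i) c
  obtain ⟨j1, j2⟩ := jets hA' (ContinuousLinearMap.proj o) (y := y) (F := vals f) fun c => by
    rw [map_sub, ← a2]
    exact (sub_zero _).symm.trans (congrArg _ (a1 c).symm)
  obtain ⟨η, η1, η2⟩ := hκ
  refine koszul_indep h hγ (hA' y) hn.continuousAt n0
    (h1.imp (fun k w => ?_) fun k => ⟨k.1, fun b => ?_, fun w => ?_⟩) η1 fun v z => by
      rw [η2]; rfl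
  · obtain ⟨v, hv⟩ := k.2 w
    exact ⟨_, (j1 _).symm.trans hv⟩
  · refine (j1 _).symm.trans ?_
    rw [← hγ.zero b]
    exact ((analyticAt_vals f _).differentiableAt.hasFDerivAt.comp_hasDerivAt 0
      (hγ.br b).holo.differentiableAt.hasDerivAt).unique ((hasDerivAt_const (0 : ℂ) 0).congr_of_eventuallyEq
        ((hγ.br b).mem.mono fun t ht => h0 _ ht))
  · obtain ⟨v, z, hv⟩ := k.2 w
    exact ⟨_, z, hv.trans (by rw [j1, j2]; rfl)⟩

theorem exists_sub {g : ℤ} {m : ι → ℤ} (h : IsCurve o g m C) (ha : a ≠ 0) (hM : 3 ≤ M o) {y : V M}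
    (hy : y ∈ C) (β : ∀ j, Al (M o - 2) j →ₗ[ℂ] ((Fin (M o) → ℂ) [⋀^Fin j]→ₗ[ℂ] (C → ℂ)))
    (b1 : ∀ j κ, β j κ ∈ altA (ℂ ∙ y o) (Hs C (a + (4 * (M o - 2) - j) • Pi.single o 1)) j)
    (b2 : ∀ j κ, dK (fun c : C => c.1 o) j (β (j + 1) κ) = 0)
    (inj : ∀ κ, β j κ ∈ BK (fun c : C => c.1 o) (ℂ ∙ y o)
      (Hs C (a + (4 * (M o - 2) - (j + 1)) • Pi.single o 1)) j → κ = 0)
    {z : (Fin (M o) → ℂ) [⋀^Fin j]→ₗ[ℂ] (C → ℂ)} (hz : z ∈ ZK (fun c : C => c.1 o) (ℂ ∙ y o)
      (Hs C (a + (4 * (M o - 2) - j) • Pi.single o 1)) j) : ∃ κ, z - β j κ ∈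
        BK (fun c : C => c.1 o) (ℂ ∙ y o) (Hs C (a + (4 * (M o - 2) - (j + 1)) • Pi.single o 1)) j := by
  rcases le_or_gt (j + 2) (4 * (M o - 2)) with k3 | k3
  · obtain ⟨T, t1, t2, t3⟩ := koszul_le h ha hM hy j (4 * (M o - 2) - (j + 1)) (by omega)
    rw [show 4 * (M o - 2) - (j + 1) + 1 = 4 * (M o - 2) - j by omega] at t3
    refine le_sup_range t3 (β j) (fun κ => ?_) inj (t2.trans_eq (finrank_Al _ _).symm) hz
    cases j
    exacts [b1 _ κ, ⟨b1 _ κ, b2 _ κ⟩]
  · refine ⟨0, ?_⟩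
    rw [map_zero, sub_zero, eq_zero_of_lt (ZK_le _ _ _ j hz) (by
      rw [finrank_span_singleton (h.ne_zero y hy o), finrank_fin_fun]; omega)]
    exact zero_mem _

end Bei

end Vale.Agent.P269.Grr
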