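import Vale.Agent.P269.Grr.KD

/-!
# Local equations of the universal curve
-/

namespace Vale.Agent.P269.Grr

open Set Function Topology Filter Module Vale.Agent.P291Z Vale.Agent.P269.Ch Vale.Agent.P269.Holo
  Vale.Agent.P269.Loc Vale.Agent.P269.Base PowerSeries

namespace EqA

variable {T A B : Type*} [TopologicalSpace T] [NormedAddCommGroup A] [NormedSpace ℂ A]
  [NormedAddCommGroup B] [NormedSpace ℂ B]

/-- an arc on which `τ` is the parameter -/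
theorem exists_arc {j : T → A} {n : ℕ} {t : T} (h : IsMfd j n t) {τ : A → ℂ}
    (hτ : AnalyticAt ℂ τ (j t)) (h0 : τ (j t) = 0) {v : A} (hv : v ∈ tan j t)
    (hd : fderiv ℂ τ (j t) v ≠ 0) : ∃ u : ℂ → T, u 0 = t ∧ ContinuousAt u 0 ∧
      AnalyticAt ℂ (fun r => j (u r)) 0 ∧ ∀ᶠ r in 𝓝 0, τ (j (u r)) = r := by
  obtain ⟨ψ, hψ, rfl⟩ := h
  rw [hψ.tan_eq] at hv
  obtain ⟨e, rfl⟩ := hv
  have a1 : AnalyticAt ℂ (fun s : ℂ => s • e) 0 := by fun_prop
  have a2 := hψ.an.comp_of_eq a1 (zero_smul _ _)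
  have a3 := hτ.comp_of_eq a2 (by simp)
  have a4 := hτ.differentiableAt.hasFDerivAt.comp_hasDerivAt_of_eq 0
    (hψ.an.differentiableAt.hasFDerivAt.comp_hasDerivAt_of_eq 0
      ((hasDerivAt_id (0 : ℂ)).smul_const e) (by simp)) (by simp)
  obtain ⟨-, κ, k1, k2, -, k3⟩ := ift a3 (bijective_of_injective _
    ((injective_iff_map_eq_zero _).2 fun s hs => by
      rw [fderiv_eq_smul] at hs
      exact (smul_eq_zero.1 hs).resolve_right (ne_of_eq_of_ne a4.deriv (by simpa using hd))) rfl)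
  simp only [comp_apply, zero_smul, h0] at k1 k2 k3
  exact ⟨fun r => ψ (κ r • e), by simp [k2], hψ.lh.cont.comp_of_eq
    (a1.comp_of_eq k1 k2).continuousAt (by simp [k2]), a2.comp_of_eq k1 k2, k3⟩

/-- the Hessian at a critical point along a curve -/
theorem hess [CompleteSpace A] [CompleteSpace B] {F : A → B} {δ : ℂ → A} {c v : A}
    (hF : ∀ y, AnalyticAt ℂ F y) (hδ : AnalyticAt ℂ δ 0) (h0 : δ 0 = c) (hv : HasDerivAt δ v 0)
    (ℓ : B →L[ℂ] ℂ) (h1 : ∀ v, ℓ (fderiv ℂ F c v) = 0) (h2 : Dv 3 fun t => ℓ (F (δ t))) :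
    ℓ (fderiv ℂ (fderiv ℂ F) c v v) = 0 := by
  have h3 : deriv (fun t => ℓ (F (δ t))) =ᶠ[𝓝 0] fun t => ℓ (fderiv ℂ F (δ t) (deriv δ t)) :=
    hδ.eventually_analyticAt.mono fun t ht => (ℓ.hasFDerivAt.comp_hasDerivAt t
      ((hF _).differentiableAt.hasFDerivAt.comp_hasDerivAt t ht.differentiableAt.hasDerivAt)).deriv
  have h4 := ℓ.hasFDerivAt.comp_hasDerivAt 0
    (((hF _).fderiv.differentiableAt.hasFDerivAt.comp_hasDerivAt 0 hv).clm_apply
      hδ.deriv.differentiableAt.hasDerivAt)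
  have h5 := congrFun ((dv_iff_jet h2.an).1 h2) 2
  rw [jet, show ((2 : Fin 3) : ℕ) = 1 + 1 from rfl, iteratedDeriv_succ, iteratedDeriv_one,
    h3.deriv_eq] at h5
  simpa [h0, h1, hv.deriv] using h4.deriv.symm.trans h5

end EqA

open EqA

namespace CF

variable {ι : Type} [Fintype ι] [DecidableEq ι] {U : HO} {M : ι → ℕ} {o : ι} {g : ℤ} {m : ι → ℤ}
  {F : CF U M o g m}

omit [DecidableEq ι] in
/-- forms vanishing on one curve extend to the family -/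
theorem exists_an {a : ι → ℕ} (ha : a ≠ 0) (t₀ : U.T) (μ₀ : Tens M a)
    (h0 : ∀ c ∈ F.C t₀, val μ₀ c = 0) : ∃ μ : U.A → Tens M a, AnalyticAt ℂ μ (U.ι t₀) ∧
      μ (U.ι t₀) = μ₀ ∧ ∀ᶠ t in 𝓝 t₀, ∀ c ∈ F.C t, val (μ (U.ι t)) c = 0 := by
  classical
  obtain ⟨y, h1, h2⟩ := (F.fam t₀).exists_ev (F.crv t₀) ha ((F.crv t₀).finrank_Hs ha)
  obtain ⟨S, hS⟩ := exists_rightInv (l := evP a fun k => y k (U.ι t₀)) h2.self_of_nhds.2.1
  obtain ⟨h3, h4⟩ := exists_proj_ker (Q := fun p => evP a fun k => y k p)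
    ((analyticAt_evP _).comp (f := fun q k => y k q) (AnalyticAt.pi fun k => (h1 k).1)) hS μ₀
  have h5 : evP a (fun k => y k (U.ι t₀)) μ₀ = 0 := funext fun k => h0 _ (h2.self_of_nhds.1 k)
  refine ⟨_, (analyticAt_const (v := μ₀)).sub ((S.analyticAt _).comp h3), ?_, ?_⟩
  · simp [h5]
  filter_upwards [h2, U.cι.continuousAt.eventually h4] with t k1 k2
  exact k1.2.2 _ (Pol.isSec (val_mem _)) (congrFun k2)

/-- local equations of the universal curve in the factor `o` -/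
theorem exists_eqs (x : F.UT) {γ : Bool → ℂ → V M} (hγ : Loc o (F.C x.t) x.c γ) :
    ∃ μ : U.A → Fin (M o - 2) → Tens M (4 • Pi.single o 1), AnalyticAt ℂ μ (U.ι x.t) ∧
      (∀ᶠ t in 𝓝 x.t, ∀ c ∈ F.C t, vals (μ (U.ι t)) c = 0) ∧
      ((γ true = γ false ∧ ∀ w, ∃ v, fderiv ℂ (vals (μ (U.ι x.t))) x.c (Pi.single o v) = w) ∨
        (γ true ≠ γ false ∧ ∀ w, ∃ v, ∃ z : ℂ,
          w = fderiv ℂ (vals (μ (U.ι x.t))) x.c (Pi.single o v) +
            z • fderiv ℂ (fderiv ℂ (vals (μ (U.ι x.t)))) x.c (deriv (γ true) 0)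
              (deriv (γ false) 0))) ∧
      ∀ w, ∃ a ∈ tan U.ι x.t, ∃ v, fderiv ℂ (fun q : U.A × (Fin (M o) → ℂ) =>
        vals (μ q.1) (Pi.single o q.2)) (U.ι x.t, x.c o) (a, v) = w := by
  obtain ⟨f, f1, f2⟩ := exists_eqs_o (F.crv x.t) F.three hγ
  choose μ' m1 m2 m3 using fun i => exists_an (F := F)
    (fun e => by simpa using congrFun e o) x.t (f i) (f1 i)
  obtain ⟨μ, hμ⟩ : ∃ μ : U.A → Fin (M o - 2) → Tens M (4 • Pi.single o 1),
    ∀ p i, μ p i = μ' i p := ⟨_, fun _ _ => rfl⟩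
  have m4 : AnalyticAt ℂ μ (U.ι x.t) := AnalyticAt.pi fun i => by simpa only [hμ] using m1 i
  have m5 : ∀ᶠ t in 𝓝 x.t, ∀ c ∈ F.C t, vals (μ (U.ι t)) c = 0 :=
    (eventually_all.2 m3).mono fun t ht c hc => funext fun i => by
      rw [vals, hμ]; exact ht i c hc
  obtain rfl : μ (U.ι x.t) = f := funext fun i => (hμ _ i).trans (m2 i)
  refine ⟨μ, m4, m5, f2, fun w => ?_⟩
  set G := fun q : U.A × (Fin (M o) → ℂ) => vals (μ q.1) (Pi.single o q.2)
  have g1 : ∀ p y, vals (μ p) y = G (p, y o) := fun p y => funext fun i =>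
    KZ.val_congr _ fun j hj => by
      obtain rfl : j = o := by_contra fun k => hj (by simp [k])
      simp
  have g2 : AnalyticAt ℂ G (U.ι x.t, x.c o) := an_vals (m4.comp_of_eq analyticAt_fst rfl)
    (((ContinuousLinearMap.single ℂ (fun i => Fin (M i) → ℂ) o).analyticAt _).comp analyticAt_snd)
  have g3 : ∀ {p : ℂ → U.A} {y : ℂ → V M} {p' y'}, HasDerivAt p p' 0 → HasDerivAt y y' 0 →
      p 0 = U.ι x.t → y 0 = x.c → HasDerivAt (fun r => vals (μ (p r)) (y r))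
        (fderiv ℂ G (U.ι x.t, x.c o) (p', y' o)) 0 := fun hp hy e e' => by
    simp only [g1]
    exact g2.differentiableAt.hasFDerivAt.comp_hasDerivAt_of_eq 0
      (hp.prodMk (hasDerivAt_pi.1 hy o)) (by rw [e, e'])
  have g4 : ∀ v, fderiv ℂ (vals (μ (U.ι x.t))) x.c v = fderiv ℂ G (U.ι x.t, x.c o) (0, v o) :=
    fun v => ((analyticAt_vals _ _).differentiableAt.hasFDerivAt.comp_hasDerivAt_of_eq 0
      (KZ.der_line x.c v 0) (by simp)).unique
        (g3 (hasDerivAt_const _ _) (KZ.der_line x.c v 0) rfl (by simp))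
  rcases f2 with ⟨-, f2⟩ | ⟨he, f2⟩
  · obtain ⟨v, rfl⟩ := f2 w
    exact ⟨0, zero_mem _, _, (g4 _).symm⟩
  suffices h : w ∈ ((tan U.ι x.t).prod ⊤).map (fderiv ℂ G (U.ι x.t, x.c o)).toLinearMap from
    h.elim fun q hq => ⟨q.1, hq.1.1, q.2, hq.2⟩
  obtain ⟨v, z, rfl⟩ := f2 w
  refine add_mem ⟨_, ⟨zero_mem _, trivial⟩, (g4 _).symm⟩ (Submodule.smul_mem _ _ (by_contra fun hn => ?_))
  obtain ⟨ℓ₀, l1, l2⟩ := Submodule.exists_le_ker_of_notMem hn
  set ℓ := LinearMap.toContinuousLinearMap ℓ₀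
  have l3 : ∀ a ∈ tan U.ι x.t, ∀ v, ℓ (fderiv ℂ G (U.ι x.t, x.c o) (a, v)) = 0 := fun a ha v =>
    l2 ⟨(a, v), ⟨ha, trivial⟩, rfl⟩
  obtain ⟨τ, ⟨σ, s0, t1, t2, hσ⟩, a₀, t3, t4⟩ := F.vers _ _ (hγ.isNode_iff.2 he)
  obtain ⟨u, u0, u1, u2, u3⟩ := exists_arc (U.mfd x.t) t1 t2 t3 t4
  have p1 : AnalyticAt ℂ (fun q : ℂ × ℂ × ℂ => U.ι (u q.1)) (0, 0) := u2.comp_of_eq analyticAt_fst rfl
  have p2 : AnalyticAt ℂ (fun q : ℂ × ℂ × ℂ => σ (U.ι (u q.1), q.2)) (0, 0) :=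
    hσ.an.comp_of_eq (p1.prod analyticAt_snd) (by rw [u0])
  obtain ⟨b, b1, b2⟩ := exists_div ((ℓ.analyticAt _).comp
    (an_vals (m4.comp_of_eq p1 (by rw [u0])) p2))
  simp only [comp_apply, u0] at b2
  have p3 := analyticAt_id (𝕜 := ℂ) (z := (0 : ℂ)).prod (analyticAt_const (v := (0 : ℂ × ℂ)))
  have b3 : b (0, 0) = 0 := by
    have k1 := ℓ.hasFDerivAt.comp_hasDerivAt 0 (g3 u2.differentiableAt.hasDerivAt
      (p2.comp_of_eq p3 rfl).differentiableAt.hasDerivAt (by rw [u0]) (by simp [u0, s0]))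
    rw [l3 _ (by simpa only [u0, fderiv_apply_one_eq_deriv] using fderiv_mem_tan u1 u2 1)] at k1
    simpa using (((hasDerivAt_id (0 : ℂ)).smul
      (b1.comp_of_eq p3 rfl).differentiableAt.hasDerivAt).const_add
        (ℓ (vals (μ (U.ι x.t)) (σ (U.ι x.t, 0))))).unique
          (k1.congr_of_eventuallyEq (.of_forall fun r => (b2 (r, 0)).symm))
  have key : ∀ (s : ι → ℂ) (e : ℂ × ℂ), ℓ (fderiv ℂ (fderiv ℂ (vals (μ (U.ι x.t)))) x.c
      (s • x.c + fderiv ℂ (fun z => σ (U.ι x.t, z)) 0 e)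
      (s • x.c + fderiv ℂ (fun z => σ (U.ι x.t, z)) 0 e)) = 0 := fun s e => by
    have a1 : AnalyticAt ℂ (fun t : ℂ => (1 : ι → ℂ) + t • s) 0 := by fun_prop
    have a2 : AnalyticAt ℂ (fun t : ℂ => t • e) 0 := by fun_prop
    have a3 : AnalyticAt ℂ (fun t : ℂ => (t ^ 2 * (e.1 * e.2), t • e)) 0 := by fun_prop
    have a4 : Tendsto (fun t : ℂ => (t ^ 2 * (e.1 * e.2), t • e)) (𝓝 0) (𝓝 (0, 0)) := by
      simpa using a3.continuousAt.tendsto
    refine hess (analyticAt_vals _) (an_smul a1 (hσ.an0.comp_of_eq a2 (zero_smul _ _)))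
      (by simp [s0]) ?_ ℓ (fun v => by rw [g4]; exact l3 _ (zero_mem _) _) ?_
    · simpa [s0] using hasDerivAt_smul (((hasDerivAt_id (0 : ℂ)).smul_const s).const_add 1)
        (hσ.an0.differentiableAt.hasFDerivAt.comp_hasDerivAt_of_eq 0
          ((hasDerivAt_id (0 : ℂ)).smul_const e) (by simp))
    refine ((Dv.mul (r := 2) ⟨_, analyticAt_const (v := -(e.1 * e.2)), .of_forall fun _ => rfl⟩
      (.one (b1.comp_of_eq a3 (by simp)) (by simp [b3]))).mul_an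
        ((analyticAt_chr (a := 4 • Pi.single o 1) _).comp a1)).congr ?_
    have a5 : Tendsto (fun q : ℂ × ℂ × ℂ => (u q.1, q.2)) (𝓝 (0, 0)) (𝓝 (x.t, 0)) :=
      u0 ▸ tendsto_pm u1 0
    filter_upwards [a4.eventually (a5.eventually (hσ.mem.and (continuousAt_fst.eventually m5))),
      a4.eventually (continuousAt_fst.eventually u3)] with t k1 k2
    have k3 := b2 (t ^ 2 * (e.1 * e.2), t • e)
    rw [k1.2 _ (k1.1 (k2.symm ▸ (by simp; ring :
      (t • e).1 * (t • e).2 = t ^ 2 * (e.1 * e.2)))), map_zero] at k3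
    simp only [comp_apply, vals_smul, map_smul, smul_eq_mul] at k3 ⊢
    linear_combination Base.chr (4 • Pi.single o 1) (1 + t • s) * k3
  have br : ∀ j, ∃ (s : ι → ℂ) (e : ℂ × ℂ),
      deriv (γ j) 0 = s • x.c + fderiv ℂ (fun z => σ (U.ι x.t, z)) 0 e := fun j => by
    obtain ⟨s, φ, -, -, -, -, -, k⟩ := hσ.factor U.cι.continuousAt (s0 ▸ x.ne) (F.fam _).cone
      (hγ.an j) ((hγ.zero j).trans s0.symm) (hγ.br j).mem
    exact ⟨_, _, s0 ▸ k⟩
  choose s e hs using br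
  have e1 := key (s true) (e true)
  have e2 := key (s false) (e false)
  have e3 := key (s true + s false) (e true + e false)
  rw [add_smul, map_add (fderiv ℂ _ 0), add_add_add_comm, ← hs, ← hs] at e3
  rw [← hs] at e1 e2
  have e4 := (analyticAt_vals (μ (U.ι x.t)) x.c).contDiffAt.isSymmSndFDerivAt_of_omega
    (deriv (γ false) 0) (deriv (γ true) 0)
  simp only [map_add, add_apply, e1, e2, e4] at e3
  exact l1 (show ℓ _ = 0 by linear_combination e3 / 2)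

end CF

end Vale.Agent.P269.Grr
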