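import Vale.Agent.P269.Grr.Kos
import Vale.Agent.P269.Grr.Eq
import Vale.Agent.P269.Grr.BeiA

/-!
# The local Koszul model along the universal curve
-/

namespace Vale.Agent.P269.Grr

open Set Function Topology Filter Module Vale.Agent.P291Z Vale.Agent.P269.Ch Vale.Agent.P269.Holo
  Vale.Agent.P269.Loc Vale.Agent.P269.Base PowerSeries Bei

namespace CF

variable {ι : Type} [Fintype ι] [DecidableEq ι] {U : HO} {M : ι → ℕ} {o : ι} {g : ℤ} {m : ι → ℤ}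
  {F : CF U M o g m} {a : ι → ℕ} {E : ℕ → VB U.toSp} {ev : ∀ k, F.UT → (E k).W →ₗ[ℂ] ℂ}

omit [DecidableEq ι] in
variable (F) in
theorem bei_le : M o - F.sbT.s ≤ 4 * (M o - 2) := by
  have := F.three
  show M o - 1 ≤ _
  omega

omit [DecidableEq ι] in
/-- families of forms with values in sections -/
theorem exists_phi {D : VB U.toSp} {e : F.UT → D.W →ₗ[ℂ] ℂ} {χ : U.G →ₜ* ℂˣ} (h : F.IsH0 a χ D e)
    (ha : a ≠ 0) {Y : Ch.Sp} {p : Mor Y U.toSp} (S : F.SB p) (j : ℕ) {K : Type}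
    [NormedAddCommGroup K] [NormedSpace ℂ K] [FiniteDimensional ℂ K]
    (β : ∀ y : Y.T, K →ₗ[ℂ] ((Fin (M o) → ℂ) [⋀^Fin j]→ₗ[ℂ] (F.C (p.f y) → ℂ)))
    (B : Y.T × V M → K → (Fin j → Fin (M o) → ℂ) → ℂ) (hB : ∀ y κ v c, β y κ v c = B (y, c) κ v) :
    ∃ φ : Y.T → K →L[ℂ] (S.vb.alt (D.pb p) j).W,
      (∀ y κ, β y κ ∈ altA (S.W y) (Hs (F.C (p.f y)) a) j →
        φ y κ ∈ (S.vb.alt (D.pb p) j).F y ∧ kΨ S e j y (φ y κ) = β y κ) ∧
      ∀ y, (∀ᶠ z in 𝓝 y, ∀ κ, β z κ ∈ altA (S.W z) (Hs (F.C (p.f z)) a) j) →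
        (∀ κ v c, ContinuousAt (fun x => B x κ v) (y, c)) → ContinuousAt φ y := by
  obtain ⟨q, hq⟩ := h.exists_lift
  let φ : Y.T → K →L[ℂ] (S.vb.alt (D.pb p) j).W := fun y => LinearMap.toContinuousLinearMap
    ((toC (Fin (M o) → ℂ) D.W j).toLinearMap ∘ₗ (q (p.f y)).compAlternatingMapₗ (S := ℂ) ∘ₗ β y)
  have h1 : ∀ y κ v, alv (φ y κ) v = q (p.f y) (β y κ v) := fun _ _ _ => rfl
  refine ⟨φ, fun y κ hm => ⟨⟨fun v => (hq _ _ (hm.1 v)).1, fun v i hi =>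
      (congrArg (q (p.f y)) (hm.2 v i hi)).trans (map_zero _)⟩,
    AlternatingMap.ext fun v => (hq _ _ (hm.1 v)).2⟩, fun y hy hc => continuousAt_clm_apply.2
      fun κ => (continuousAt_alt (W := Fin (M o) → ℂ) (W' := D.W)).2 fun v => h.continuousAt ha
        (τ := p.f) p.cf.continuousAt (hy.mono fun z hz => (hq _ _ ((hz κ).1 v)).1) fun x hx hx' => ?_⟩
  refine ((hc κ v _).comp (f := fun z => (z, (x z).c))
    (continuousAt_id.prodMk (UT.continuous_c.continuousAt.comp hx))).congr ?_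
  filter_upwards [hy, hx'] with z e1 e2
  exact ((hB z κ v ⟨_, e2 ▸ (x z).mem⟩).symm.trans (congrFun (hq _ _ ((e1 κ).1 v)).2 _).symm).trans
    (congrArg (e · _) (UT.ext e2.symm rfl))

/-- a chain map into the complex of functions gives a local model -/
theorem loc_of (h : F.HF a E ev) (x : F.UT) {f : (F.Vb o).PT → Fin (M o - 2) → ℂ}
    (β : ∀ j (y : (F.Vb o).PT),
      Al (M o - 2) j →ₗ[ℂ] ((Fin (M o) → ℂ) [⋀^Fin j]→ₗ[ℂ] (F.C y.t → ℂ)))
    (B : ∀ j, (F.Vb o).PT × V M → Al (M o - 2) j → (Fin j → Fin (M o) → ℂ) → ℂ)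
    (hB : ∀ j y κ v c, β j y κ v c = B j (y, c) κ v) (f0 : f (x.p o) = 0)
    (b1 : ∀ᶠ y : (F.Vb o).PT in 𝓝 (x.p o), ∀ j κ, β j y κ ∈ altA (ℂ ∙ pw y)
      (Hs (F.C y.t) (a + (4 * (M o - 2) - j) • Pi.single o 1)) j)
    (b2 : ∀ᶠ y : (F.Vb o).PT in 𝓝 (x.p o), ∀ j κ,
      dK (fun c : F.C y.t => c.1 o) j (β (j + 1) y κ) = β j y (κ.curryLeft (f y)))
    (b3 : ∀ᶠ y : (F.Vb o).PT in 𝓝 (x.p o), ∀ j κ v c, ContinuousAt (fun q => B j q κ v) (y, c))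
    (inj : ∀ j κ, β j (x.p o) κ ∈ BK (fun c : F.C x.t => c.1 o) (ℂ ∙ x.c o)
      (Hs (F.C x.t) (a + (4 * (M o - 2) - (j + 1)) • Pi.single o 1)) j → κ = 0) :
    ∃ φ, (kos h F.sbT (4 * (M o - 2)) F.bei_le).Loc (M o - 2) f φ (x.p o) := by
  choose φ p1 p2 using fun j => exists_phi (h.h (4 * (M o - 2) - j)) (add_ne h.ne _) F.sbT j (β j)
    (B j) (hB j)
  have b0 := b1.self_of_nhds
  refine ⟨φ, fun j => ?_, fun j => b1.mono fun y hy κ => (p1 j y κ (hy j κ)).1,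
    fun j => ?_, fun j κ hκ => inj j κ ?_, fun j w hw => ?_⟩
  · filter_upwards [b1.eventually_nhds, b3] with y k1 k2
    exact p2 j y (k1.mono fun z hz => hz j) (k2 j)
  · filter_upwards [b1, b2] with y k1 k2 κ
    have k4 := p1 (j + 1) y κ (k1 _ κ)
    have k5 := p1 j y (κ.curryLeft (f y)) (k1 _ _)
    have k3 := ((kos h F.sbT _ F.bei_le).hom j).mem y _ k4.1
    refine sub_eq_zero.1 (kΨ_inj (h.h _) F.sbT (sub_mem k3 k5.1) ((map_sub _ _ _).trans ?_))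
    exact sub_eq_zero.2 ((kos_d h F.sbT F.bei_le k4.1).trans
      ((congrArg _ k4.2).trans ((k2 j κ).trans k5.2.symm)))
  · have k := p1 j _ κ (b0 j κ)
    exact k.2 ▸ (mem_Bd h F.sbT F.bei_le k.1).1 hκ
  · have k1 : w ∈ ((kos h F.sbT _ F.bei_le).E j).F (x.p o) := by
      cases j
      exacts [hw, hw.1]
    obtain ⟨κ, k4⟩ := exists_sub (F.crv x.t) h.ne F.three x.mem (fun j => β j (x.p o)) b0
      (fun j κ => (b2.self_of_nhds j κ).trans (by rw [f0, map_zero, map_zero]; rfl)) (inj j)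
      ((mem_Zy h F.sbT F.bei_le k1).1 hw)
    have k := p1 j _ κ (b0 j κ)
    refine ⟨κ, (mem_Bd h F.sbT F.bei_le (sub_mem k1 k.1)).2 ?_⟩
    exact ((map_sub _ _ _).trans (congrArg₂ (· - ·) rfl k.2)).symm ▸ k4

-- the local Koszul model of the Beilinson type complex
theorem bei_loc (h : F.HF a E ev) (x : F.UT) : ∃ (f : F.P.T → Fin (M o - 2) → ℂ) (φ : _)
    (Φ : U.A × (Fin (M o) → ℂ) → Fin (M o - 2) → ℂ),
    (kos h F.sbT (4 * (M o - 2)) F.bei_le).Loc (M o - 2) f φ (x.p o) ∧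
      AnalyticAt ℂ Φ (U.ι x.t, x.c o) ∧
      (∀ᶠ y : (F.Vb o).PT in 𝓝 (x.p o), f y = Φ (U.ι y.t, pw y)) ∧
      (∀ᶠ y : (F.Vb o).PT in 𝓝 (x.p o), y ∈ F.Z → f y = 0) ∧
      ∀ w, ∃ a ∈ tan U.ι x.t, ∃ v, fderiv ℂ Φ (U.ι x.t, x.c o) (a, v) = w := by
  obtain ⟨γ, hγ⟩ := (F.crv x.t).nod.exists_loc x.mem
  obtain ⟨μ, hμ, h0, h1, h2⟩ := exists_eqs x hγ
  choose ζ hζ using fun i => SeparatingDual.exists_ne_zero (R := ℂ) (x.ne i)
  obtain ⟨A, a1, a2, a3, a4⟩ := exists_div (ζ o) (M o - 2)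
  have hm := Pol.mono ζ a
  set m₀ : V M → ℂ := fun c => ∏ i, ζ i (c i) ^ a i
  let G : U.A × (Fin (M o) → ℂ) → Fin (M o - 2) → ℂ := fun q => vals (μ q.1) (Pi.single o q.2)
  let s : U.A × (Fin (M o) → ℂ) → ℂ := fun q => -(ζ o q.2 ^ 4)⁻¹
  have e1 : ∀ᶠ y : (F.Vb o).PT in 𝓝 (x.p o), ζ o (pw y) ≠ 0 :=
    ((ζ o).continuous.comp F.continuous_pw).continuousAt.eventually_ne (hζ o)
  have e2 : ∀ᶠ y : (F.Vb o).PT in 𝓝 (x.p o), ∀ c ∈ F.C y.t, vals (μ (U.ι y.t)) c = 0 :=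
    (VB.PT.continuous_t.tendsto (x.p o)).eventually h0
  have e3 : ∀ᶠ y : (F.Vb o).PT in 𝓝 (x.p o), AnalyticAt ℂ μ (U.ι y.t) :=
    ((U.cι.comp VB.PT.continuous_t).tendsto (x.p o)).eventually hμ.eventually_analyticAt
  have g0 : ∀ (y : (F.Vb o).PT), (∀ c ∈ F.C y.t, vals (μ (U.ι y.t)) c = 0) → y ∈ F.Z →
      G (U.ι y.t, pw y) = 0 := fun y hy hz => by
    obtain ⟨c, c1, c2⟩ := F.mem_Z.1 hz
    rw [← c2, ← hy c c1]
    exact funext fun i => val_single _ c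
  have g1 : G (U.ι x.t, x.c o) = 0 := g0 (x.p o) e2.self_of_nhds ⟨x, rfl⟩
  have hG : AnalyticAt ℂ G (U.ι x.t, x.c o) := an_vals (hμ.comp_of_eq analyticAt_fst rfl)
    (((ContinuousLinearMap.single ℂ (fun i => Fin (M i) → ℂ) o).analyticAt _).comp analyticAt_snd)
  have hs : AnalyticAt ℂ s (U.ι x.t, x.c o) :=
    (((((ζ o).analyticAt _).comp analyticAt_snd).pow 4).inv (by exact pow_ne_zero 4 (hζ o))).neg
  have hn : ∀ k, Continuous fun c : V M => ζ o (c o) ^ k * m₀ c := fun k =>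
    (((ζ o).continuous.comp (continuous_apply o)).pow _).mul (Pol.cont hm)
  obtain ⟨φ, hφ⟩ := loc_of h x (f := fun y => s (U.ι y.t, pw y) • G (U.ι y.t, pw y))
    (fun j y => bL j (F.C y.t) (fun c => A (μ (U.ι y.t)) (pw y) (c o))
      fun c => ζ o (c o) ^ (4 * (M o - 2 - j)) * m₀ c)
    (fun j q κ v => κ (fun i => A (μ (U.ι q.1.t)) (pw q.1) (q.2 o) (v i)) *
      (ζ o (q.2 o) ^ (4 * (M o - 2 - j)) * m₀ q.2)) (fun _ _ _ _ _ => rfl)
    ((congrArg _ g1).trans (smul_zero _))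
    (e1.mono fun y hy j κ => bL_mem (a3 _ _) (fun c => a1 _ _ _ hy) hm κ)
    (e2.mono fun y hy j κ => dK_bL (fun c hc => (a2 _ _ c).trans (by rw [hy c hc, zero_add])) κ)
    ((e1.and e3).mono fun y k j κ v c => by
      have k1 : ContinuousAt (fun q : (F.Vb o).PT × V M => ((μ (U.ι q.1.t), pw q.1), q.2 o))
          (y, c) := ((k.2.continuousAt.comp_of_eq ((U.cι.comp VB.PT.continuous_t).comp
            continuous_fst).continuousAt rfl).prodMk (F.continuous_pw.comp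
              continuous_fst).continuousAt).prodMk ((continuous_apply o).comp
                continuous_snd).continuousAt
      have k2 : ∀ z, ContinuousAt (fun q : (F.Vb o).PT × V M =>
          A (μ (U.ι q.1.t)) (pw q.1) (q.2 o) z) (y, c) := fun z =>
        (a4 z ((μ (U.ι y.t), pw y), c o) k.1).comp_of_eq k1 rfl
      exact (κ.cont.continuousAt.comp (continuousAt_pi.2 fun i => k2 (v i))).mul
        ((hn _).comp continuous_snd).continuousAt)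
    fun j κ => bL_inj (F.crv x.t) hγ h0.self_of_nhds h1 (a3 _ _) (fun c => a1 _ _ _ (hζ o))
      (fun c => (a2 _ _ c).trans (by
        rw [show vals (μ (U.ι (x.p o).t)) (Pi.single o (x.c o)) = 0 from g1, smul_zero,
          smul_zero, add_zero]; rfl)) (hn _) (mul_ne_zero (pow_ne_zero _ (hζ o))
            (Finset.prod_ne_zero_iff.2 fun i _ => pow_ne_zero _ (hζ i)))
  refine ⟨_, φ, fun q => s q • G q, hφ, hs.smul hG, .of_forall fun _ => rfl,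
    e2.mono fun y hy hz => (congrArg _ (g0 y hy hz)).trans (smul_zero _), fun w => ?_⟩
  obtain ⟨b, k1, v, k2⟩ := h2 ((s (U.ι x.t, x.c o))⁻¹ • w)
  refine ⟨b, k1, v, ?_⟩
  rw [(hs.differentiableAt.hasFDerivAt.fun_smul hG.differentiableAt.hasFDerivAt).fderiv, g1]
  simp only [add_apply, smul_apply, ContinuousLinearMap.smulRight_apply, smul_zero, add_zero]
  rw [show fderiv ℂ G _ (b, v) = _ from k2,
    smul_inv_smul₀ (neg_ne_zero.2 (inv_ne_zero (pow_ne_zero 4 (hζ o))))]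

end CF

end Vale.Agent.P269.Grr
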