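import Vale.Agent.P269.Grr.RD

/-!
# Invariant norms, the real oriented blow-up
-/

namespace Vale.Agent.P269.Grr

open Set Function Topology Filter Module Vale.Agent.P291Z Vale.Agent.P269.Ch PowerSeries

variable {Y Y' : Ch.Sp} {K : Cx Y} {N : VB Y} {σ : Y.T → N.W} {Z : SubMulAction Y.G Y.T}

namespace BlP

/-- the absolute value as a character -/
noncomputable def absU : ℂˣ →ₜ* ℂˣ where
  toMonoidHom := Units.map ((Complex.ofRealHom : ℝ →* ℂ).comp (normHom : ℂ →*₀ ℝ))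
  continuous_toFun := Continuous.units_map _ (Complex.continuous_ofReal.comp continuous_norm)

theorem absU_val (z : ℂˣ) : (absU z : ℂ) = (‖(z : ℂ)‖ : ℝ) := rfl

theorem exists_pos (N : VB Y) : ∃ s : N.PT → ℝ, Continuous s ∧ (∀ x, 0 < s x) ∧
    ∀ (g : Y.G × ℂˣ) x, s (g • x) = ‖(g.2 : ℂ)‖ * s x := by
  let L : VB N.PS := char (absU.comp N.o1)
  have := smulCommClass_real (G := N.PS.G) (W := L.W)
  have hs : ∀ (g : N.PS.G) (z : L.W), Complex.re (g • z : L.W) = ‖(g.2 : ℂ)‖ * Complex.re z :=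
    fun _ z => Complex.re_ofReal_mul _ z
  obtain ⟨s, h1, h2, h3⟩ := exists_section N.PS.free (M := L.W)
    (C := fun _ => {z : ℂ | 0 < z.re}) (fun _ => convex_halfSpace_re_gt 0)
    (fun g _ z hz => (mul_pos (norm_pos_iff.2 g.2.ne_zero) hz).trans_eq (hs g z).symm)
    fun _ => ⟨univ, univ_mem, fun _ => (1 : ℂ), continuousOn_const,
      fun _ _ => (one_pos : (0 : ℝ) < 1)⟩
  exact ⟨fun x => Complex.re (s x), Complex.continuous_re.comp h1, h3,
    fun g x => (congrArg Complex.re (h2 g x)).trans (hs g _)⟩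

theorem isCompact_sph (N : VB Y) {L : Set Y.T} (hL : IsCompact L) :
    IsCompact {x : N.PT | x.t ∈ L ∧ ‖x.w‖ = 1} := by
  have := FiniteDimensional.proper ℂ N.W
  refine IsInducing.subtypeVal.isCompact_iff.2 ?_
  refine (congrArg IsCompact (Set.ext fun x => ⟨fun hx => ?_, ?_⟩)).mp
    ((hL.prod (isCompact_sphere (0 : N.W) 1)).inter_right N.closed)
  · have h2 : ‖x.2‖ = 1 := by simpa using hx.1.2
    exact ⟨⟨x, hx.2, fun h0 => by simp [h0] at h2⟩, ⟨hx.1.1, h2⟩, rfl⟩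
  · rintro ⟨y, hy, rfl⟩
    exact ⟨⟨hy.1, mem_sphere_zero_iff_norm.2 hy.2⟩, y.2.1⟩

theorem exists_bounds {s : N.PT → ℝ} (h1 : Continuous s) (h2 : ∀ x, 0 < s x)
    (h3 : ∀ (g : Y.G × ℂˣ) x, s (g • x) = ‖(g.2 : ℂ)‖ * s x) {L : Set Y.T} (hL : IsCompact L) :
    ∃ C : ℝ, ∀ x : N.PT, x.t ∈ L → s x ≤ C * ‖x.w‖ ∧ ‖x.w‖ ≤ C * s x := by
  obtain ⟨C, hC⟩ := (isCompact_sph N hL).bddAbove_image
    (h1.max (h1.inv₀ fun x => (h2 x).ne')).continuousOn
  refine ⟨C, fun x hx => ?_⟩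
  have h0 : 0 < ‖x.w‖ := norm_pos_iff.2 x.ne
  let u : ℂˣ := Units.mk0 (‖x.w‖⁻¹ : ℝ) (by exact_mod_cast (inv_pos.2 h0).ne')
  have hu : ‖(u : ℂ)‖ = ‖x.w‖⁻¹ := by simp [u]
  have h4 := hC (mem_image_of_mem _ (show ((1, u) : Y.G × ℂˣ) • x ∈ _ from
    ⟨by simpa using hx, by
      rw [VB.PT.smul_w, one_smul, norm_smul, hu, inv_mul_cancel₀ h0.ne']⟩))
  simp only [h3, hu, max_le_iff, Pi.inv_apply, mul_inv, inv_inv] at h4
  exact ⟨by rw [mul_comm]; exact (inv_mul_le_iff₀ h0).1 h4.1, (mul_inv_le_iff₀ (h2 x)).1 h4.2⟩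

end BlP

open BlP

/-- an invariant norm -/
theorem exists_nu (N : VB Y) : ∃ ν : N.V → ℝ, Continuous ν ∧ (∀ (g : Y.G) x, ν (g • x) = ν x) ∧
    (∀ x, 0 ≤ ν x) ∧ (∀ x, ν x = 0 ↔ x.1.2 = 0) ∧
    (∀ (x x' : N.V) (z : ℂ), x'.1.1 = x.1.1 → x'.1.2 = z • x.1.2 → ν x' = ‖z‖ * ν x) ∧
    ∀ y : Y.T, ∃ C : ℝ, ∀ᶠ t in 𝓝 y, ∀ x : N.V, x.1.1 = t → ‖x.1.2‖ ≤ C * ν x := by
  classical
  obtain ⟨s, h1, h2, h3⟩ := exists_pos N
  let ν : N.V → ℝ := fun x => if h : x.1.2 = 0 then 0 else s (VB.PT.mk x.1.1 x.1.2 x.2 h)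
  have e0 : ∀ x : N.V, x.1.2 = 0 → ν x = 0 := fun x h => dif_pos h
  have e1 : ∀ (x : N.V) (h : x.1.2 ≠ 0), ν x = s (VB.PT.mk x.1.1 x.1.2 x.2 h) :=
    fun x h => dif_neg h
  have hb : ∀ y : Y.T, ∃ C : ℝ, ∀ᶠ t in 𝓝 y, ∀ x : N.V, x.1.1 = t →
      ν x ≤ C * ‖x.1.2‖ ∧ ‖x.1.2‖ ≤ C * ν x := fun y => by
    obtain ⟨L, hL, hy⟩ := exists_compact_mem_nhds y
    obtain ⟨C, hC⟩ := exists_bounds h1 h2 h3 hL
    refine ⟨C, mem_of_superset hy fun t ht x hx => ?_⟩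
    by_cases h : x.1.2 = 0
    · simp [e0 x h, h]
    · rw [e1 x h]
      exact hC (VB.PT.mk x.1.1 x.1.2 x.2 h) (show x.1.1 ∈ L from hx ▸ ht)
  have hn : ∀ x, 0 ≤ ν x := fun x => by
    by_cases h : x.1.2 = 0
    · exact (e0 x h).ge
    · exact e1 x h ▸ (h2 _).le
  have hw : Continuous fun x : N.V => x.1.2 := by fun_prop
  have ht : Continuous fun x : N.V => x.1.1 := by fun_prop
  refine ⟨ν, continuous_iff_continuousAt.2 fun x => ?_, fun g x => ?_, hn,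
    fun x => ⟨fun h => by_contra fun h' => (h2 _).ne' ((e1 x h').symm.trans h), e0 x⟩,
    fun x x' z e e' => ?_, fun y => (hb y).imp fun C hC => hC.mono fun t h x hx => (h x hx).2⟩
  · by_cases h : x.1.2 = 0
    · obtain ⟨C, hC⟩ := hb x.1.1
      rw [ContinuousAt, e0 x h]
      refine squeeze_zero' (Eventually.of_forall hn)
        ((ht.continuousAt.eventually hC).mono fun x' h' => (h' x' rfl).1) ?_
      simpa [h] using (hw.norm.const_mul C).tendsto x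
    · have ho : IsOpen {x : N.V | x.1.2 ≠ 0} := isOpen_ne.preimage hw
      refine ContinuousOn.continuousAt ?_ (ho.mem_nhds h)
      rw [continuousOn_iff_continuous_domRestrict]
      exact (h1.comp (VB.PT.continuous_mk (ht.comp continuous_subtype_val)
        (hw.comp continuous_subtype_val) (fun x => x.1.2) fun x => x.2)).congr
        fun x => (e1 x.1 x.2).symm
  · by_cases h : x.1.2 = 0
    · rw [e0 x h, e0 _ (show g • x.1.2 = 0 by rw [h, smul_zero])]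
    · rw [e1 x h, e1 _ (show g • x.1.2 ≠ 0 from (smul_ne_zero_iff_ne g).2 h)]
      have := h3 (g, 1) (VB.PT.mk x.1.1 x.1.2 x.2 h)
      rw [Units.val_one, norm_one, one_mul] at this
      refine Eq.trans (congrArg s (VB.PT.ext ?_ ?_)) this
      exacts [rfl, (one_smul ℂ _).symm]
  · by_cases h : x.1.2 = 0
    · rw [e0 x h, e0 x' (by rw [e', h, smul_zero]), mul_zero]
    · by_cases hz : z = 0
      · rw [e0 x' (by rw [e', hz, zero_smul]), hz, norm_zero, zero_mul]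
      · rw [e1 x h, e1 x' (by rw [e']; exact smul_ne_zero hz h)]
        refine Eq.trans (congrArg s (VB.PT.ext ?_ ?_)) (h3 (1, Units.mk0 z hz) _)
        · exact e.trans (one_smul _ _).symm
        · exact e'.trans (congrArg (z • ·) (one_smul Y.G _).symm)

theorem exists_bl (hσ : N.IsSec σ) (hZ : IsClosed (Z : Set Y.T)) (h0 : ∀ t, σ t = 0 ↔ t ∈ Z) :
    Nonempty (Bl N σ hZ) := by
  obtain ⟨ν, h1, h2, h3, h4, h5, h6⟩ := exists_nu N
  let A := N.tot.ext (ℝ × ℝ)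
  let S : SubMulAction A.G A.T :=
    { carrier := {x : (ℝ × ℝ) × N.V | 0 ≤ x.1.2 ∧ σ x.2.1.1 = (x.1.2 : ℂ) • x.2.1.2 ∧
        ν x.2 ^ 2 + x.1.1 ^ 2 = 1}
      smul_mem' := fun (g : Y.G) (x : (ℝ × ℝ) × N.V) hx => ⟨hx.1, by
        show σ (g • x.2.1.1) = (x.1.2 : ℂ) • g • x.2.1.2
        rw [hσ.eqv, hx.2.1, smul_comm], by
        show ν (g • x.2) ^ 2 + x.1.1 ^ 2 = 1
        rw [h2, hx.2.2]⟩ }
  have hS : IsClosed {x : (ℝ × ℝ) × N.V | 0 ≤ x.1.2 ∧ σ x.2.1.1 = (x.1.2 : ℂ) • x.2.1.2 ∧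
      ν x.2 ^ 2 + x.1.1 ^ 2 = 1} := by
    have := hσ.cont
    exact IsClosed.and (isClosed_le (by fun_prop) (by fun_prop))
      (IsClosed.and (isClosed_eq (by fun_prop) (by fun_prop))
        (isClosed_eq (by fun_prop) (by fun_prop)))
  let sv : Y.T → N.V := fun t => ⟨(t, σ t), hσ.mem t⟩
  let ρ : ℝ × Y.T → ℝ := fun q => √(ν (sv q.2) ^ 2 + q.1 ^ 2)
  have hm : Continuous fun t => ν (sv t) := h1.comp hσ.mor.cf
  have hρ : Continuous ρ := (((hm.comp continuous_snd).pow 2).add (continuous_fst.pow 2)).sqrt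
  have hp : ∀ q : ℝ × Y.T, q ∈ omS Y Z → 0 < ν (sv q.2) ^ 2 + q.1 ^ 2 := fun q hq => by
    rcases hq with hq | hq
    · have : ν (sv q.2) ≠ 0 := fun h => hq ((h0 _).1 ((h4 _).1 h))
      positivity
    · positivity
  have hρ0 : ∀ q : ℝ × Y.T, q ∈ omS Y Z → 0 < ρ q := fun q hq => Real.sqrt_pos.2 (hp q hq)
  let b : ℝ × Y.T → (ℝ × ℝ) × N.V := fun q =>
    ((q.1 / ρ q, ρ q), ⟨(q.2, (ρ q : ℂ)⁻¹ • σ q.2), (N.F _).smul_mem _ (hσ.mem _)⟩)
  have hb : ∀ q : ℝ × Y.T, q ∈ omS Y Z → b q ∈ S := fun q hq => by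
    have h7 := hρ0 q hq
    refine ⟨h7.le, (smul_inv_smul₀ (by exact_mod_cast h7.ne') _).symm, ?_⟩
    rw [h5 (sv q.2) (b q).2 (ρ q : ℂ)⁻¹ rfl rfl, norm_inv, Complex.norm_real,
      Real.norm_of_nonneg h7.le]
    have h8 : ρ q ^ 2 = _ := Real.sq_sqrt (hp q hq).le
    show ((ρ q)⁻¹ * _) ^ 2 + (q.1 / ρ q) ^ 2 = 1
    field_simp
    exact h8.symm
  have hρi : ∀ (g : Y.G) (q : ℝ × Y.T), ρ (q.1, g • q.2) = ρ q := fun g q => by
    exact congrArg (fun a => √(a ^ 2 + q.1 ^ 2)) ((congrArg ν (hσ.mor.eqv g q.2)).trans (h2 g _))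
  have hw : Continuous fun x : N.V => x.1.2 := by fun_prop
  have hv : Continuous fun t : S => (t.1 : (ℝ × ℝ) × N.V) := continuous_subtype_val
  have hv' : Continuous fun z : omS Y Z => (z.1 : ℝ × Y.T) := continuous_subtype_val
  refine ⟨{
    O := A.sub S hS.isLocallyClosed
    p := N.proj.comp ((N.tot.extP _).comp (A.subI S _))
    n := fun t : S => (show (ℝ × ℝ) × N.V from t.1).2.1.2
    l := fun t : S => (show (ℝ × ℝ) × N.V from t.1).1.1
    r := fun t : S => (show (ℝ × ℝ) × N.V from t.1).1.2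
    β := ⟨MonoidHom.id _, fun z : omS Y Z => (⟨b z.1, hb _ z.2⟩ : S), continuous_id, ?_, ?_⟩
    sec := ⟨fun t : S => (show (ℝ × ℝ) × N.V from t.1).2.2,
      hw.comp hv.snd, fun _ _ => rfl⟩
    cl := hv.fst.fst
    il := fun _ _ => rfl
    cr := hv.fst.snd
    ir := fun _ _ => rfl
    nonneg := fun t : S => t.2.1
    σ_eq := fun t : S => t.2.2.1
    ne := fun t : S => by_contra fun h => ?_
    ρ_β := fun _ => rfl
    p_β := fun _ => rfl
    r_β := fun z : omS Y Z => hρ0 _ z.2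
    l_β := fun z : omS Y Z => (mul_div_cancel₀ _ (hρ0 _ z.2).ne').symm
    prop := ?_ }⟩
  · have h7 : Continuous fun z : omS Y Z => ρ z.1 := hρ.comp hv'
    refine (((hv'.fst.div h7 fun z => (hρ0 _ z.2).ne').prodMk h7).prodMk
      ((hv'.snd.prodMk (((Complex.continuous_ofReal.comp h7).inv₀ fun z => ?_).smul
        (hσ.cont.comp hv'.snd))).subtype_mk _)).subtype_mk _
    exact Complex.ofReal_ne_zero.2 (hρ0 _ z.2).ne'
  · intro (g : Y.G) (z : omS Y Z)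
    have h7 := hρi g z.1
    refine Subtype.ext (Prod.ext (Prod.ext (congrArg (_ / ·) h7) h7) (Subtype.ext (Prod.ext rfl ?_)))
    show (ρ (_, g • (show ℝ × Y.T from z.1).2) : ℂ)⁻¹ • σ (g • (show ℝ × Y.T from z.1).2) =
      g • (ρ z.1 : ℂ)⁻¹ • σ (show ℝ × Y.T from z.1).2
    rw [h7, hσ.eqv, smul_comm g]
  · have h7 := t.2.2.2
    rw [not_or, not_not, not_not] at h
    rw [(h4 _).2 h.1, h.2] at h7
    norm_num at h7
  · intro (V : Set S) hV hr y hy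
    have := FiniteDimensional.proper ℂ N.W
    obtain ⟨C, hC⟩ := h6 y
    let e : S → (ℝ × ℝ) × Y.T × N.W := fun t => Prod.map id Subtype.val (show (ℝ × ℝ) × N.V from t.1)
    have he : IsClosedEmbedding e :=
      (IsClosedEmbedding.id.prodMap N.closed.isClosedEmbedding_subtypeVal).comp
        hS.isClosedEmbedding_subtypeVal
    have hF : IsOpen {z : (ℝ × Y.T) × ℝ × N.W | ((z.2.1, ρ z.1), (z.1.2, z.2.2)) ∉ e '' Vᶜ} :=
      (he.isClosedMap _ hV.isClosed_compl).isOpen_compl.preimage (by fun_prop)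
    have h7 : ρ (0, y) = 0 := by
      simp only [ρ]
      rw [(h4 (sv y)).2 ((h0 y).2 hy)]
      simp
    have h8 := ((isCompact_Icc (a := (-1 : ℝ)) (b := 1)).prod
      (isCompact_closedBall (0 : N.W) |C|)).eventually_forall_of_forall_eventually
      (x₀ := ((0 : ℝ), y)) (P := fun q k => ((k.1, ρ q), (q.2, k.2)) ∉ e '' Vᶜ)
      fun k _ => hF.mem_nhds (by
        rintro ⟨t, ht, et⟩
        exact ht (hr t ((congrArg (·.1.2) et).trans h7)))
    filter_upwards [h8, continuous_snd.continuousAt.eventually hC] with q hq hq' h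
    by_contra hn
    have h9 := (hb q h).2.2
    have h10 := h3 (b q).2
    refine hq ((b q).1.1, (b q).2.1.2) ⟨abs_le.1 (by
      rw [← sq_le_one_iff_abs_le_one]; nlinarith), mem_closedBall_zero_iff.2
      ((hq' (b q).2 rfl).trans ?_)⟩ ⟨_, hn, rfl⟩
    have h11 : ν (b q).2 ≤ 1 := by nlinarith [sq_nonneg (b q).1.1]
    nlinarith [le_abs_self C, abs_nonneg C]

end Vale.Agent.P269.Grr
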