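import Vale.Agent.P269.Grr.SD
import Vale.Agent.P269.Grr.Line
import Vale.Agent.P269.Base.Mark

/-!
# The divisor of a section of the universal curve
-/

namespace Vale.Agent.P269.Grr

open Set Function Topology Filter Module Vale.Agent.P291Z Vale.Agent.P269.Ch Vale.Agent.P269.Holo
  Vale.Agent.P269.Loc Vale.Agent.P269.Base PowerSeries

/-- two quotients of `K` by the same subbundle -/
theorem eu_eq_of_quot {Y : Ch.Sp} {K N Λ E O : VB Y} {e : Y.T → K.W →ₗ[ℂ] N.W}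
    {p : Y.T → K.W →ₗ[ℂ] E.W} {j : Y.T → Λ.W →ₗ[ℂ] E.W} {c : Y.T → O.W →ₗ[ℂ] E.W}
    (he : Ch.Hom (Mor.id Y) K N e) (hp : Ch.Hom (Mor.id Y) K E p) (hj : Ch.Hom (Mor.id Y) Λ E j)
    (hc : Ch.Hom (Mor.id Y) O E c) (hr : N.r = Λ.r)
    (surj : ∀ t n, n ∈ N.F t → ∃ w ∈ K.F t, e t w = n)
    (cinj : ∀ t z, z ∈ O.F t → c t z = 0 → z = 0)
    (jinj : ∀ t, ∀ l ∈ Λ.F t, ∀ z ∈ O.F t, c t z = j t l → l = 0)
    (rel : ∀ t, ∀ w ∈ K.F t, ∃ l ∈ Λ.F t, ∃ z ∈ O.F t, p t w = j t l + c t z ∧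
      (l = 0 → e t w = 0)) : N.eu = Λ.eu := by
  obtain ⟨S, s1, s2⟩ := he.exists_sect surj
  obtain ⟨Q, B, -, hB⟩ := hc.exists_coker cinj
  obtain ⟨R, r1, r2, r3, r4⟩ := (hB.hB.comp hj).pb.exists_retr fun t l hl h =>
    let ⟨z, h1, h2⟩ := (hB.ex t _ (hj.mem t l hl)).1 h
    jinj t l hl z h1 h2
  have hR : Ch.Hom (Mor.id Y) (Q.pb ((Mor.id Y).comp (Mor.id Y))) Λ fun t => (R t).toLinearMap :=
    Hom.of_continuous (fun t w _ => r3 t w) ((r1.comp continuous_fst).clm_apply continuous_snd)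
      fun g t w _ => r2 g t w
  have h1 := hR.comp ((hB.hB.comp ((hp.comp s1 :))).pb :)
  refine (Iso.of_inj (m := Mor.id Y) ⟨h1.mem, h1.cont, h1.eqv⟩ (fun t n hn h => ?_) hr).eu'
  obtain ⟨l, h2, z, h3, h4, h5⟩ := rel t _ (s1.mem t n hn)
  have h6 : R t (B t (p t (S t n))) = 0 := h
  rw [h4, map_add, (hB.ex t _ (hc.mem t z h3)).2 ⟨z, h3, rfl⟩, add_zero] at h6
  exact (s2 t n hn).symm.trans (h5 ((r4 t l h2).symm.trans h6))

namespace CF

variable {ι : Type} [Fintype ι] {U : HO} {M : ι → ℕ} {o : ι} {g : ℤ} {m : ι → ℤ}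
  {F : CF U M o g m}

theorem mfd_ιU (x : F.UT) : IsMfd F.ιU (finrank ℂ F.UC.L + (U.n + 1)) x := F.UC.mfd x

/-- a curve in a fibre as a curve in the universal curve -/
theorem exists_vert {x : F.UT} {γ : ℂ → V M} (h1 : AnalyticAt ℂ γ 0)
    (h2 : ∀ᶠ z in 𝓝 0, γ z ∈ F.C x.t) (h0 : γ 0 = x.c) : (0, deriv γ 0) ∈ tan F.ιU x ∧
      ∃ u : ℂ → F.UT, Tendsto u (𝓝 0) (𝓝 x) ∧ ∀ᶠ z in 𝓝 0, F.ιU (u z) = (U.ι x.t, γ z) := by
  classical
  let u : ℂ → F.UT := fun z => if h : γ z ∈ F.C x.t then UT.mk _ _ h else x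
  have h3 : ∀ᶠ z in 𝓝 0, F.ιU (u z) = (U.ι x.t, γ z) :=
    h2.mono fun z hz => congrArg F.ιU (dif_pos hz)
  have h4 : u 0 = x := F.isEmbedding_ιU.injective (h3.self_of_nhds.trans (by rw [h0]; rfl))
  have h5 : AnalyticAt ℂ (fun z => F.ιU (u z)) 0 :=
    (analyticAt_const.prod h1).congr (h3.mono fun _ h => h.symm)
  have h6 : ContinuousAt u 0 := F.isEmbedding_ιU.continuousAt_iff.2 h5.continuousAt
  refine ⟨?_, u, h4 ▸ h6, h3⟩
  have := fderiv_mem_tan h6 h5 1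
  rwa [h4, EventuallyEq.fderiv_eq h3, ((hasFDerivAt_const _ _).prodMk
    h1.differentiableAt.hasFDerivAt).fderiv] at this

namespace Sec

variable (s : F.Sec)

theorem mem_D_self (t : U.T) : s.m.f t ∈ s.D :=
  s.mem_D.2 ((congrArg s.p (s.t t)).symm ▸ Base.Orb.refl _)

theorem exists_smul {x : F.UT} (hx : x ∈ s.D) : ∃ a : F.US.G, a • s.m.f x.t = x := by
  obtain ⟨τ, h1, h2⟩ := hx
  refine ⟨((1, fun i => Units.mk0 (τ i) (h1 i)) : U.G × Loc.Tor ι),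
    UT.ext ((one_smul U.G _).trans (s.t _)) (funext fun i => ?_)⟩
  rw [h2]
  exact congrArg (τ i • ·) (F.ρ_one i _)

theorem range_map : range s.m.map = F.US.π '' s.D := by
  refine subset_antisymm ?_ ?_
  · rintro _ ⟨x, rfl⟩
    obtain ⟨t, rfl⟩ := U.toSp.surj x
    exact ⟨_, s.mem_D_self t, (s.m.map_π t).symm⟩
  · rintro _ ⟨x, hx, rfl⟩
    obtain ⟨τ, h⟩ := s.exists_smul hx
    exact ⟨_, (s.m.map_π _).trans ((F.US.π_smul _ _).symm.trans (congrArg F.US.π h))⟩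

theorem isClosedEmbedding : IsClosedEmbedding s.m.map :=
  LeftInverse.isClosedEmbedding s.pr_map F.pr.map.continuous s.m.map.continuous

theorem isClosed_D : IsClosed (s.D : Set F.US.T) := by
  have e : (s.D : Set F.US.T) = F.US.π ⁻¹' range s.m.map := by
    rw [range_map]
    refine Set.ext fun x => ⟨fun h => ⟨x, h, rfl⟩, fun ⟨y, h, e⟩ => ?_⟩
    obtain ⟨a, rfl⟩ := (F.US.fib _ _).1 e
    exact s.D.smul_mem a h
  exact e ▸ s.isClosedEmbedding.isClosed_range.preimage F.US.cont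

theorem not_mem_UN {x : F.UT} (hx : x ∈ s.D) : x ∉ F.UN := fun h => by
  obtain ⟨τ, e⟩ := s.exists_smul hx
  exact s.sm _ ((F.UN.smul_mem_iff' τ).1 (e.symm ▸ h))

theorem chart_all {x : F.UT} (hx : x ∈ s.D) : ∃ (σ : U.A × ℂ → V M) (ρ : U.A × V M → ℂ),
    σ (U.ι x.t, 0) = x.c ∧ Chart o F.C U.ι x.t σ (fun _ => univ) ∧
      (∀ᶠ t in 𝓝 x.t, Base.Orb (s.p t) (σ (U.ι t, 0))) ∧ AnalyticAt ℂ ρ (F.ιU x) ∧
      (∀ᶠ q : U.A × (ι → ℂ) × ℂ in 𝓝 (U.ι x.t, 1, 0), ρ (q.1, q.2.1 • σ (q.1, q.2.2)) = q.2.2) ∧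
      (∀ᶠ y in 𝓝 x, y ∈ s.D ↔ ρ (F.ιU y) = 0) ∧
      (0, deriv (fun z => σ (U.ι x.t, z)) 0) ∈ tan F.ιU x ∧
      fderiv ℂ ρ (F.ιU x) (0, deriv (fun z => σ (U.ι x.t, z)) 0) = 1 ∧ (∃ᶠ y in 𝓝 x, y ∉ s.D) ∧
      ∀ v, (0, v) ∈ tan F.ιU x → ∃ α : ℂ,
        v o = α • x.c o + fderiv ℂ ρ (F.ιU x) (0, v) • deriv (fun z => σ (U.ι x.t, z)) 0 o := by
  classical
  obtain ⟨τ, h1, h2⟩ := id hx
  obtain ⟨Φ, h3, h4⟩ := s.hol x.t
  have h5 : τ • Φ (U.ι x.t) = x.c := by rw [h2, ← h4.self_of_nhds]; rfl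
  obtain ⟨σ, h6, h7⟩ := (F.fam x.t).chart_at (z := fun a => τ • Φ a) (an_smul analyticAt_const h3)
    (h4.mono fun t ht => (F.crv t).cone _ h1 _ (ht ▸ s.p_mem t)) (h5.symm ▸ s.not_mem_UN hx)
  have h8 : σ (U.ι x.t, 0) = x.c := h7.self_of_nhds.trans h5
  obtain ⟨ρ, r1, r2, r3, r4⟩ := h6.exists_mem_iff U.cι.continuousAt (h8 ▸ x.ne) (F.fam _).cone
  rw [h8] at r1 r2 r4
  have o1 : ∀ᶠ t in 𝓝 x.t, Base.Orb (s.p t) (σ (U.ι t, 0)) := by
    filter_upwards [h4, h7] with t a b using ⟨τ, h1, b.trans (congrArg (τ • ·) a.symm)⟩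
  have o2 : ∀ᶠ y in 𝓝 x, y.c = (ρ (F.ιU y)).1 • σ (U.ι y.t, (ρ (F.ιU y)).2) :=
    (UT.isEmbedding.continuous.continuousAt.eventually r4).mono fun y hy => (hy.1 y.mem).2
  have a1 : AnalyticAt ℂ (fun a => (ρ a).2) (F.ιU x) := analyticAt_snd.comp r1
  have t1 : Tendsto (fun y => (U.ι y.t, (0 : ℂ), (ρ (F.ιU y)).2)) (𝓝 x) (𝓝 (U.ι x.t, 0, 0)) := by
    have := a1.continuousAt.tendsto.comp F.isEmbedding_ιU.continuous.continuousAt
    rw [show (ρ (F.ιU x)).2 = 0 from congrArg Prod.snd r2] at this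
    exact ((U.cι.comp UT.continuous_t).tendsto x).prodMk_nhds (tendsto_const_nhds.prodMk_nhds this)
  have o3 : ∀ᶠ y in 𝓝 x, y ∈ s.D ↔ (ρ (F.ιU y)).2 = 0 := by
    filter_upwards [o2, UT.continuous_t.continuousAt.eventually o1,
      t1.eventually (h6.inj (h8 ▸ x.ne))] with y b1 b2 b3
    have b4 := (Base.Orb.of_smul y.ne b1).symm
    refine ⟨fun h => ?_, fun h => b2.trans (h ▸ b4.symm)⟩
    obtain ⟨a, -, e⟩ := (b2.symm.trans h).trans b4
    exact (b3 a e).2.symm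
  have o4 : ∀ᶠ z in 𝓝 (0 : ℂ), (ρ (U.ι x.t, σ (U.ι x.t, z))).2 = z :=
    ((Continuous.tendsto (f := fun z : ℂ => (U.ι x.t, (1 : ι → ℂ), z)) (by fun_prop) 0).eventually
      r3).mono fun z hz => by simpa using congrArg Prod.snd hz
  obtain ⟨v1, u, v2, v3⟩ := exists_vert h6.an0 (h6.mem0.mono fun _ h => h trivial) h8
  refine ⟨σ, fun a => (ρ a).2, h8, h6, o1, a1, r3.mono fun q hq => congrArg Prod.snd hq, o3, v1,
    ?_, ?_, fun v hv => ?_⟩
  · have e := fderiv_comp_an (f := fun z => (U.ι x.t, σ (U.ι x.t, z))) (x := 0)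
      (g := fun a => (ρ a).2) (h8.symm ▸ a1) (analyticAt_const.prod h6.an0)
    rw [EventuallyEq.fderiv_eq o4, h8, ((hasFDerivAt_const _ _).prodMk
      h6.an0.differentiableAt.hasFDerivAt).fderiv, fderiv_fun_id] at e
    exact (DFunLike.congr_fun e 1).symm
  · refine (v2.mono_left (nhdsWithin_le_nhds (s := {0}ᶜ))).frequently (Eventually.frequently ?_)
    filter_upwards [self_mem_nhdsWithin, nhdsWithin_le_nhds (v2.eventually o3),
      nhdsWithin_le_nhds v3, nhdsWithin_le_nhds o4] with z b1 b2 b3 b4 b5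
    exact b1 (b4.symm.trans (b3 ▸ b2.1 b5))
  · have a2 : AnalyticAt ℂ (fun a : U.A × V M => (ρ a).1) (F.ιU x) := analyticAt_fst.comp r1
    have a3 : AnalyticAt ℂ (fun a : U.A × V M => (a.1, (ρ a).2)) (F.ιU x) := analyticAt_fst.prod a1
    have e0 : ((F.ιU x).1, (ρ (F.ιU x)).2) = (U.ι x.t, 0) := Prod.ext rfl (congrArg Prod.snd r2 :)
    have a4 := h6.an.comp_of_eq a3 e0
    have e := (mfd_ιU x).fderiv_eq_zero (analyticAt_snd.fun_sub (an_smul a2 a4))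
      (o2.mono fun y hy => sub_eq_zero.2 hy) hv
    rw [fderiv_fun_sub differentiableAt_snd (an_smul a2 a4).differentiableAt,
      sub_apply, sub_eq_zero, fderiv_snd,
      fderiv_smul_apply a2.differentiableAt a4.differentiableAt, comp_def,
      fderiv_comp_an (e0.symm ▸ h6.an) a3, e0,
      (hasFDerivAt_fst.prodMk a1.differentiableAt.hasFDerivAt).fderiv,
      show (ρ (F.ιU x)).1 = 1 from congrArg Prod.fst r2, one_smul] at e
    simp only [e0, h8] at e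
    refine ⟨fderiv ℂ (fun a => (ρ a).1) (F.ιU x) (0, v) o,
      (congrFun e o).trans ((Pi.add_apply _ _ _).trans (congrArg₂ (· + ·) rfl ?_))⟩
    exact congrFun ((fderiv_inr h6.an _).symm.trans (fderiv_eq_smul _ _ _)) o

theorem dense_compl : Dense (s.D : Set F.US.T)ᶜ := fun x => by
  by_cases hx : x ∈ s.D
  · obtain ⟨-, -, -, -, -, -, -, -, -, -, h, -⟩ := s.chart_all hx
    exact mem_closure_iff_frequently.2 h
  · exact subset_closure hx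

-- a chart of the family centred at the section
theorem exists_chart {x : F.UT} (hx : x ∈ s.D) : ∃ (σ : U.A × ℂ → V M) (ρ : U.A × V M → ℂ),
    σ (U.ι x.t, 0) = x.c ∧ Chart o F.C U.ι x.t σ (fun _ => univ) ∧
      (∀ᶠ t in 𝓝 x.t, Base.Orb (s.p t) (σ (U.ι t, 0))) ∧ AnalyticAt ℂ ρ (F.ιU x) ∧
      (∀ᶠ q : U.A × (ι → ℂ) × ℂ in 𝓝 (U.ι x.t, 1, 0), ρ (q.1, q.2.1 • σ (q.1, q.2.2)) = q.2.2) ∧
      (∀ᶠ y in 𝓝 x, y ∈ s.D ↔ ρ (F.ιU y) = 0) ∧
      ∃ v ∈ tan F.ιU x, fderiv ℂ ρ (F.ιU x) v ≠ 0 := by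
  obtain ⟨σ, ρ, h1, h2, h3, h4, h5, h6, h7, h8, -⟩ := s.chart_all hx
  exact ⟨σ, ρ, h1, h2, h3, h4, h5, h6, _, h7, h8.trans_ne one_ne_zero⟩

theorem loc_D (x : s.D) : IsMfd (fun y : s.D => F.ιU y.1) (finrank ℂ F.UC.L + U.n) x ∧
    ∃ (γ : ℂ → V M) (l : U.A × V M →L[ℂ] ℂ), IsBranch o (F.C (UT.t x.1)) γ ∧ γ 0 = UT.c x.1 ∧
      (0, deriv γ 0) ∈ tan F.ιU x.1 ∧ l (0, deriv γ 0) = 1 ∧
      (∀ w ∈ tan F.ιU x.1, l w = 0 → w ∈ tan (fun y : s.D => F.ιU y.1) x) ∧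
      ∀ v, (0, v) ∈ tan F.ιU x.1 → ∃ α : ℂ, v o = α • UT.c x.1 o + l (0, v) • deriv γ 0 o := by
  obtain ⟨σ, ρ, h1, h2, -, h4, -, h6, h7, h8, -, h9⟩ := s.chart_all x.2
  obtain ⟨a, b⟩ := IsMfd.sub (ι := F.ιU) (j := fun y : s.D => y.1) IsEmbedding.subtypeVal (z := x)
    (mfd_ιU x.1) h4 (fun b => ⟨_, Submodule.smul_mem _ b h7, by
      rw [map_smul, h8, smul_eq_mul, mul_one]⟩)
    (h6.mono fun y hy => Iff.trans ⟨fun ⟨z, e⟩ => e ▸ z.2, fun h => ⟨⟨_, h⟩, rfl⟩⟩ hy)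
    (n := finrank ℂ F.UC.L + U.n) (by rw [finrank_self]; rfl)
  exact ⟨a, _, _, h2.isBranch0 (h1 ▸ UT.ne x.1 o), h1, h7, h8, fun w h h' => b.ge ⟨h, h'⟩, h9⟩

theorem mfd_D : ∀ t : s.D, IsMfd (fun y : s.D => F.UC.ι y.1) (finrank ℂ F.UC.L + U.n) t :=
  fun t => (s.loc_D t).1

/-- the image of the section as a complex orbifold -/
noncomputable def DH : HO := F.UC.sub s.D s.isClosed_D.isLocallyClosed U.n s.mfd_D

/-- the projection of the image of the section -/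
noncomputable def q : Mor s.DH.toSp U.toSp :=
  F.pr.comp (F.UC.subI s.D s.isClosed_D.isLocallyClosed U.n s.mfd_D)

/-- the section as a map to its image -/
noncomputable def mD : Mor U.toSp s.DH.toSp :=
  ⟨s.m.ρ, fun t => (⟨s.m.f t, s.mem_D_self t⟩ : s.D), s.m.cρ, s.m.cf.subtype_mk _,
    fun a t => Subtype.ext (s.m.eqv a t)⟩

theorem etale_q : IsOpenEmbedding s.q.map ∧ res s.q.map U.fund = s.DH.fund :=
  have h := etale s.DH U rfl s.q
    (fun _ => ⟨ContinuousLinearMap.fst ℂ U.A (V M),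
      (ContinuousLinearMap.fst ℂ U.A (V M)).analyticAt _, Eventually.of_forall fun _ => rfl⟩)
    (ContinuousLinearMap.fst ℂ U.L (ι → ℂ)) (fun _ => rfl) Prod.fst_surjective
    Prod.fst_surjective fun (x : s.D) (y : s.D) (e : UT.t x.1 = UT.t y.1) => by
      obtain ⟨τ, h1, h2⟩ := (s.mem_D.1 x.2).symm.trans (e ▸ s.mem_D.1 y.2)
      refine ⟨((1, fun i => Units.mk0 (τ i) (h1 i)) : U.G × Tor ι), ⟨rfl, Subtype.ext (UT.ext
        ((one_smul U.G _).trans e) (funext fun i => ?_))⟩, fun (a : U.G × Tor ι) ha => ?_⟩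
      · rw [h2]
        exact congrArg (τ i • ·) (F.ρ_one i _)
      · have h5 : a.1 = 1 := ha.1
        refine Prod.ext h5 (funext fun i => Units.ext (smul_left_injective ℂ (UT.ne x.1 i) ?_))
        have : F.act a (UT.c x.1) i = UT.c y.1 i :=
          congrFun (congrArg (fun z : s.D => UT.c z.1) ha.2) i
        rw [h2, act_apply, h5, F.ρ_one] at this
        exact this
  ⟨h.1, h.2.2.2.1⟩

theorem push_fund : push s.m.map U.fund = push (F.US.subI s.D s.isClosed_D.isLocallyClosed).map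
    (F.UC.sub s.D s.isClosed_D.isLocallyClosed U.n s.mfd_D).fund := by
  have h := s.q.isHomeomorph_of_surj s.etale_q.1 fun t => ⟨s.mD.f t, s.t t⟩
  rw [← push_res_homeo h U.fund, s.etale_q.2,
    push_push (.of_isHomeomorph h) (.of_isClosedEmbedding s.isClosedEmbedding)]
  refine congrArg (fun f => push f s.DH.fund)
    ((F.US.subI s.D s.isClosed_D.isLocallyClosed).map_eq fun x => ?_)
  obtain ⟨τ, e⟩ := s.exists_smul x.2
  exact (congrArg s.m.map (s.q.map_π x)).trans ((s.m.map_π _).trans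
    ((F.US.π_smul _ _).symm.trans (congrArg F.US.π e)))

theorem eu_NS [DecidableEq ι] {c : Cut F.US s.D} {e : s.D → F.UC.A →ₗ[ℂ] c.N.W} (hr : c.N.r = 1)
    (hE : Ch.Exact s.DH.tanB (F.UC.tanB.pb c.i) c.NS (fun _ => LinearMap.id) e)
    {Λ : VB F.US} {j : F.UT → Λ.W →ₗ[ℂ] (Fin (M o) → ℂ)} (h : F.IsOm Λ j) :
    (c.NS.pb s.mD).eu = (Λ.pb s.m).eu := by
  have h1 : Ch.Hom (Mor.id U.toSp) ((F.UC.tanB.pb c.i).pb s.mD) U.tanB
      fun _ => LinearMap.fst ℂ U.A (V M) :=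
    Hom.of_continuous (fun t w hw => by
      have := (mfd_ιU (s.m.f t)).fderiv_mem_tan (ι' := U.ι) (u := UT.t) (Φ := Prod.fst)
        UT.continuous_t.continuousAt analyticAt_fst (.of_forall fun _ => rfl) hw
      rwa [fderiv_fst, s.t] at this) continuous_snd.fst
      fun a _ w _ => congrArg (· • (show U.A × V M from w).1) (s.ρ a)
  obtain ⟨k, -⟩ := h1.exists_exact fun t a ha => by
    obtain ⟨Φ, a1, a2⟩ := s.hol t
    have := (U.mfd t).fderiv_mem_tan (ι' := F.ιU) (u := s.m.f) s.m.cf.continuousAt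
      (analyticAt_id.prod a1) (a2.mono fun y hy => Prod.ext (congrArg U.ι (s.t y)) hy) ha
    refine ⟨_, this, ?_⟩
    rw [((hasFDerivAt_id _).prodMk a1.differentiableAt.hasFDerivAt).fderiv]
    rfl
  have h2 := hE.hB.pb' s.mD
  have z0 : ∀ t w, w ∈ tan (fun y : s.D => F.ιU y.1) (s.mD.f t) → e (s.mD.f t) w = 0 :=
    fun t w hw => (hE.ex _ _ (hE.hA.mem _ w hw)).2 ⟨w, hw, rfl⟩
  refine eu_eq_of_quot (K := h1.ker _ k) (O := char 1) (e := fun t => e (s.mD.f t))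
    (E := ((F.Vb o).tw F.pr (F.ch (Pi.single o 1))).pb s.m) (p := fun _ =>
      (LinearMap.proj o : V M →ₗ[ℂ] (Fin (M o) → ℂ)) ∘ₗ LinearMap.snd ℂ U.A (V M))
    (c := fun t => LinearMap.toSpanSingleton ℂ (Fin (M o) → ℂ) (s.p t o))
    ⟨fun t w hw => h2.mem t w hw.1, h2.continuous (continuous_fst.comp continuous_subtype_val)
      (continuous_snd.comp continuous_subtype_val) fun x => x.2.1,
      fun a t w hw => h2.eqv a t w hw.1⟩
    (Hom.of_continuous (fun _ _ _ => trivial) ((continuous_apply o).comp continuous_snd.snd)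
      fun a _ w _ => congrArg (fun u : ℂˣ => (u : ℂ) • F.ρ _ o ((show U.A × V M from w).2 o))
        (F.ch_single (s.m.ρ a)).symm)
    (h.hom.pb' s.m) (Hom.of_continuous (fun _ _ _ => trivial) (show Continuous
      fun x : U.T × ℂ => x.2 • s.p x.1 o from continuous_snd.smul ((continuous_apply o).comp
        ((UT.continuous_c.comp s.m.cf).comp continuous_fst)))
      fun a t (z : ℂ) _ => ?_) (hr.trans h.rank.symm) (fun t n hn => ?_)
    (fun t z _ hz => (smul_eq_zero.1 hz).resolve_right (UT.ne _ o)) (fun t l hl (z : ℂ) _ hz => ?_)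
    fun t w hw => ?_
  · show ((1 : ℂ) • z) • UT.c (s.m.f (a • t)) o =
      (F.ch (Pi.single o 1) (s.m.ρ a) : ℂ) • F.ρ _ o (z • s.p t o)
    rw [s.m.eqv, F.ch_single (s.m.ρ a), map_smul, one_smul, smul_comm]
    rfl
  · obtain ⟨-, γ, l, -, -, a3, a4, a5, -⟩ := s.loc_D (s.mD.f t)
    obtain ⟨w : U.A × V M, b1, rfl⟩ := hE.surj _ n hn
    have b2 := Submodule.smul_mem _ (l w) a3
    refine ⟨_, ⟨b2, smul_zero (l w)⟩, ?_⟩
    have := z0 t _ (a5 _ (sub_mem b1 b2) (by rw [map_sub, map_smul, a4, smul_eq_mul, mul_one,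
      sub_self]))
    exact (sub_eq_zero.1 ((map_sub (e (s.mD.f t)) _ _).symm.trans this)).symm
  · obtain ⟨-, γ, -, a1, a2, -⟩ := s.loc_D (s.mD.f t)
    by_contra l0
    obtain ⟨α, β, b1, b2⟩ := h.sm (s.m.f t) γ (s.sm t) a1 a2 l hl l0
    refine b1 (of_li_pair a1.imm (s := z - α) ?_)
    rw [a2, sub_smul, eq_sub_iff_add_eq']
    exact b2.symm.trans hz.symm
  · obtain ⟨-, γ, l, a1, a2, -, -, a5, a6⟩ := s.loc_D (s.mD.f t)
    obtain ⟨l₀, c1, c2⟩ := (Submodule.ne_bot_iff (Λ.F (s.m.f t))).1 fun e0 => by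
      have := Λ.rank (s.m.f t)
      rw [e0, finrank_bot, h.rank] at this
      exact zero_ne_one this
    obtain ⟨α, β, b1, b2⟩ := h.sm (s.m.f t) γ (s.sm t) a1 a2 l₀ c1 c2
    obtain ⟨a, v⟩ := w
    obtain rfl : a = 0 := hw.2
    obtain ⟨α', b3⟩ := a6 v hw.1
    refine ⟨(l (0, v) / β) • l₀, Submodule.smul_mem _ _ c1, α' - l (0, v) / β * α, trivial, ?_,
      fun e0 => z0 t _ (a5 _ hw.1 ?_)⟩
    · refine b3.trans ?_
      show α' • UT.c (s.m.f t) o + _ = j (s.m.f t) ((l (0, v) / β) • l₀) +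
        (α' - l (0, v) / β * α) • UT.c (s.m.f t) o
      rw [map_smul, b2, smul_add, smul_smul _ β, div_mul_cancel₀ _ b1]
      module
    · exact (div_eq_zero_iff.1 ((smul_eq_zero.1 e0).resolve_right c2)).resolve_right b1

theorem exists_dv [DecidableEq ι] : ∃ (L : VB F.US) (σ : F.UT → L.W), s.IsDv L σ := by
  obtain ⟨c, e, hr, hg, hE, hF⟩ : ∃ (c : Cut F.US s.D) (e : s.D → F.UC.A →ₗ[ℂ] c.N.W), c.N.r = 1 ∧
      gys c.i.map c.t F.UC.fund = s.DH.fund ∧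
      Ch.Exact s.DH.tanB (F.UC.tanB.pb c.i) c.NS (fun _ => LinearMap.id) e ∧
      ∀ y : c.O, y.1 ∈ s.D → ∀ (f : F.UT → Fin 1 → ℂ) (Φ : U.A × V M → Fin 1 → ℂ),
        AnalyticAt ℂ Φ (F.ιU y.1) → (∀ᶠ x in 𝓝 y.1, f x = Φ (F.ιU x)) →
        (∀ᶠ x in 𝓝 y.1, x ∈ s.D → f x = 0) →
        (∀ w, ∃ v ∈ tan F.ιU y.1, fderiv ℂ Φ (F.ιU y.1) v = w) → c.Fits f y :=
    exists_cut F.UC s.D s.isClosed_D s.mfd_D fun _ => rfl
  obtain ⟨L, σ, l1, l2, l3, l4, l5⟩ := c.exists_line hr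
  obtain ⟨g', g1, g2, g3⟩ := c.exists_g
  have l6 : L.eu = g' 1 := l4.trans (g1 1).symm
  refine ⟨L, σ, l1, l2, l3, fun a => ?_, fun Λ j h => ?_, fun x hx f Φ a1 a2 a3 ⟨v, a4, a5⟩ => ?_⟩
  · have e1 : cap (a * L.eu).1 F.UC.fund = push c.i.map (cap (H.map c.i.map a.1) s.DH.fund) := by
      rw [l6, ← g2, g1, mul_one]
      exact (c.cap_g _ _).trans (congrArg (fun b => push c.i.map (cap _ b)) hg)
    rw [e1, Hev.coe_map, push_cap (.of_isClosedEmbedding s.isClosedEmbedding), s.push_fund]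
    exact push_cap (.of_isClosedEmbedding c.isClosedEmbedding) _ _
  · have e1 : s.m.map = c.i.map.comp s.mD.map :=
      (Mor.map_ext fun _ => rfl).trans (Mor.map_comp c.i s.mD)
    rw [← VB.eu_pb Λ, ← s.eu_NS hr hE h, e1]
    refine (Hev.map_map s.mD.map c.i.map _).symm.trans
      ((congrArg _ ?_).trans (c.NS.eu_pb s.mD).symm)
    exact l6 ▸ (g3 1).trans (mul_one _)
  · refine l5 ⟨x, c.le x hx⟩ hx (fun y _ => f y) (hF _ hx _ (fun a _ => Φ a)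
      (analyticAt_pi_iff.2 fun _ => a1) (a2.mono fun y hy => funext fun _ => hy)
      (a3.mono fun y hy h => funext fun _ => hy h) fun w =>
        ⟨(w 0 / fderiv ℂ Φ (F.ιU x) v) • v, Submodule.smul_mem _ _ a4, funext fun i => ?_⟩)
    rw [map_smul, fderiv_pi fun _ => a1.differentiableAt, Subsingleton.elim i 0]
    exact div_mul_cancel₀ _ a5

-- divisors of disjoint sections
theorem IsDv.map_eu [DecidableEq ι] {s s' : F.Sec} {L : VB F.US} {σ : F.UT → L.W} (h : s.IsDv L σ)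
    (hd : ∀ t, ¬Base.Orb (s.p t) (s'.p t)) : Hev.map s'.m.map L.eu = 0 :=
  (L.eu_pb s'.m).symm.trans ((h.sec.pb s'.m).eu_eq_zero fun t e =>
    hd t ((congrArg s.p (s'.t t)) ▸ s.mem_D.1 ((h.zero _).1 e)))

end Sec

end CF

end Vale.Agent.P269.Grr
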