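import Vale.Agent.P269.Grr.Alg

/-!
# Riemann-Roch: Mumford's series
-/

set_option linter.unusedSectionVars false

namespace Vale.Agent.P269.Grr

open Set Function Vale.Agent.P291Z Vale.Agent.P269.Ch PowerSeries
open scoped Polynomial

variable {R S : Type*} [CommRing R] [Algebra ℂ R] [CommRing S] [Algebra ℂ S]

theorem coeff_mapL {R S : Type*} [Semiring R] [Semiring S] (g : R → S) (A : R⟦X⟧) (k : ℕ) :
    coeff k (mapL g A) = g (coeff k A) := coeff_mk _ _

theorem mapL_add (g : S →ₗ[ℂ] R) (A B : S⟦X⟧) : mapL g (A + B) = mapL g A + mapL g B := by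
  ext k
  simp only [coeff_mapL, map_add]

theorem mapL_hd (g : S →ₗ[ℂ] R) (f : ℕ → ℂ) (A : S⟦X⟧) : mapL g (hd f A) = hd f (mapL g A) := by
  ext k
  simp only [coeff_mapL, coeff_hd, map_smul]

theorem mapL_map_mul (ι : R →ₐ[ℂ] S) (g : S →ₗ[ℂ] R) (hg : ∀ a q, g (ι a * q) = a * g q)
    (B : R⟦X⟧) (A : S⟦X⟧) : mapL g (PowerSeries.map (ι : R →+* S) B * A) = B * mapL g A := by
  ext k
  simp only [coeff_mapL, coeff_mul, map_sum, coeff_map, RingHom.coe_coe, hg]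

theorem map_mumS (φ : R →ₐ[ℂ] S) (a b : R) :
    PowerSeries.map (φ : R →+* S) (mumS a b) = mumS (φ a) (φ b) := by
  ext k
  simp only [mumS, coeff_map, coeff_mk, RingHom.coe_coe, map_smul, map_sum, map_mul, map_pow,
    map_neg]

namespace MumP

/-- the rescaled series -/
noncomputable def gm (γ : R⟦X⟧) : R⟦X⟧ :=
  hd (fun k => ((k + 2).factorial : ℂ) * coeff (k + 2) tdL) γ

/-- the series of the statement -/
noncomputable def Phi (γ : R⟦X⟧) (e : R) : R⟦X⟧ :=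
  hd (fun k => -((k : ℂ) + 2)⁻¹) (gm γ * tdOf (-(C e * (X ^ 2 * γ))))

theorem D_hd (W : R⟦X⟧) :
    X * d⁄dX R (X ^ 2 * hd (fun k => -((k : ℂ) + 2)⁻¹) W) = -(X ^ 2 * W) := by
  ext k
  rw [coeff_X_mul_derivative, map_neg, coeff_X_pow_mul', coeff_X_pow_mul']
  split_ifs with h
  · obtain ⟨m, rfl⟩ := Nat.exists_eq_add_of_le' h
    have h2 : (m : ℂ) + 2 ≠ 0 := by exact_mod_cast Nat.succ_ne_zero (m + 1)
    rw [Nat.add_sub_cancel, coeff_hd, smul_smul, Nat.cast_add, Nat.cast_ofNat, mul_neg,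
      mul_inv_cancel₀ h2, neg_smul, one_smul]
  · rw [smul_zero, neg_zero]

theorem eq_of_D {A B : R⟦X⟧} (h0 : constantCoeff A = constantCoeff B)
    (h : X * d⁄dX R A = X * d⁄dX R B) : A = B := by
  ext k
  cases k with
  | zero => rw [coeff_zero_eq_constantCoeff_apply, coeff_zero_eq_constantCoeff_apply, h0]
  | succ k =>
    have h1 := congrArg (coeff (k + 1)) h
    rw [coeff_X_mul_derivative, coeff_X_mul_derivative] at h1
    have h3 := congrArg (fun z => ((k + 1 : ℕ) : ℂ)⁻¹ • z) h1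
    simpa only [smul_smul, inv_mul_cancel₀ (Nat.cast_ne_zero.2 (Nat.succ_ne_zero k) :
      ((k + 1 : ℕ) : ℂ) ≠ 0), one_smul] using h3

theorem D_tdOf (γ : R⟦X⟧) :
    X * d⁄dX R (tdOf (-(X ^ 2 * γ))) = -(X ^ 2 * gm γ) * tdOf (-(X ^ 2 * γ)) := by
  have h := (sol_spec (-(X ^ 2 * gm γ))).2
  have h0 : constantCoeff (-(X ^ 2 * gm γ)) = 0 := by simp
  rw [h0, map_zero, sub_zero] at h
  rw [tdOf, hd_neg, hd_X_pow_mul]
  exact h

theorem eq_tdOf {γ B : R⟦X⟧} (h0 : constantCoeff B = 1)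
    (h : X * d⁄dX R B = -(X ^ 2 * gm γ) * B) : B = tdOf (-(X ^ 2 * γ)) := by
  have h1 : constantCoeff (-(X ^ 2 * gm γ)) = 0 := by simp
  rw [tdOf, hd_neg, hd_X_pow_mul]
  exact eq_sol h0 (by rw [h]; erw [h1]; rw [map_zero, sub_zero]; rfl)

theorem tdOf_eq (γ : R⟦X⟧) (e : R) :
    tdOf (-(C e * (X ^ 2 * γ))) = 1 + C e * (X ^ 2 * Phi γ e) := by
  refine eq_of_D (by rw [constantCoeff_tdOf]; simp) ?_
  have h1 := D_tdOf (C e * γ)
  have h2 := D_hd (gm γ * tdOf (-(C e * (X ^ 2 * γ))))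
  rw [gm, hd_C_mul, ← gm, mul_left_comm (X ^ 2) (C e) γ] at h1
  rw [h1, map_add, Derivation.map_one_eq_zero, Derivation.leibniz, derivative_C, smul_zero,
    add_zero, zero_add, smul_eq_mul, mul_left_comm X (C e), Phi, h2]
  ring

theorem map_Phi (φ : R →ₐ[ℂ] S) (γ : R⟦X⟧) (e : R) :
    PowerSeries.map (φ : R →+* S) (Phi γ e) = Phi (PowerSeries.map (φ : R →+* S) γ) (φ e) := by
  rw [Phi, Phi, map_hd, map_mul, gm, map_hd, ← gm, ← tdOf_map, map_neg, map_mul, map_mul, map_C,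
    map_pow, map_X]
  rfl

theorem part1 (γ : S⟦X⟧) (e : S) (ι : R →ₐ[ℂ] S) (g : S →ₗ[ℂ] R) (x : R)
    (hg : ∀ a q, g (ι a * q) = a * g q) (he : ∀ q, ι (g q) = e * q) (hx : ι x = 0) :
    tdOf (ex (-x) - X ^ 2 * mapL g γ) = ev (-x) tdS + X ^ 2 * mapL g (Phi γ e) := by
  have h1 : PowerSeries.map (ι : R →+* S) (mapL g (gm γ)) = C e * gm γ := by
    ext k
    rw [coeff_map, coeff_mapL, coeff_C_mul]
    exact he _
  have h2 : mapL g (gm γ * tdOf (-(C e * (X ^ 2 * γ)))) =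
      mapL g (gm γ) * (1 + X ^ 2 * mapL g (Phi γ e)) := by
    have h3 := mapL_map_mul ι g hg (X ^ 2 * mapL g (gm γ)) (Phi γ e)
    rw [map_mul, map_pow, map_X, h1] at h3
    rw [tdOf_eq, show gm γ * (1 + C e * (X ^ 2 * Phi γ e)) =
      gm γ + X ^ 2 * (C e * gm γ) * Phi γ e by ring, mapL_add, h3]
    ring
  have h4 : 1 + X ^ 2 * mapL g (Phi γ e) = tdOf (-(X ^ 2 * mapL g γ)) := by
    refine eq_tdOf (by simp) ?_
    have h5 : gm (mapL g γ) = mapL g (gm γ) := (mapL_hd g _ γ).symm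
    rw [map_add, Derivation.map_one_eq_zero, zero_add, h5]
    conv_lhs => rw [Phi, mapL_hd, D_hd, h2]
    ring
  have h6 : ev (-x) tdS * mapL g (Phi γ e) = mapL g (Phi γ e) := by
    rw [← mapL_map_mul ι g hg, map_ev, map_neg, hx, neg_zero, ev_zero_tdS, one_mul]
  rw [sub_eq_add_neg, tdOf_add, tdOf_ex, ← h4, mul_add, mul_one, mul_left_comm, h6]

theorem geom (a b : R) (m : ℕ) :
    (a + b) * ∑ p ∈ Finset.HasAntidiagonal.antidiagonal m, (-a) ^ p.1 * b ^ p.2 =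
      b ^ (m + 1) - (-a) ^ (m + 1) := by
  have h := geom_sum₂_mul (-a) b (m + 1)
  rw [Finset.Nat.sum_antidiagonal_eq_sum_range_succ (fun i j => (-a) ^ i * b ^ j)]
  simp only [Nat.add_sub_cancel] at h
  linear_combination -h

theorem mum_eq (a b : R) : C (a + b) * (1 + C (a * b) * (X ^ 2 * mumS a b)) =
    C a * ev b tdS + C b * ev a tdS - C (a * b) * X := by
  ext k
  rw [coeff_C_mul]
  simp only [map_add, map_sub, coeff_C_mul, coeff_ev, coeff_tdS, coeff_X_pow_mul', coeff_one,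
    coeff_X]
  rcases k with _ | _ | m
  · simp
  · have h : ((1 / 2 : ℂ)) • (a * b) + ((1 / 2 : ℂ)) • (a * b) = a * b := by
      rw [← add_smul]; norm_num
    simp only [zero_add, one_ne_zero, if_false, if_true, Nat.not_ofNat_le_one, mul_zero,
      bernoulli'_one, Nat.factorial_one, Nat.cast_one, div_one, pow_one, mul_smul_comm]
    push_cast
    rw [mul_comm b a, h]
    simp
  · have h1 : 2 ≤ m + 1 + 1 := by omega
    have h2 : m + 1 + 1 - 2 = m := by omega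
    have h3 : m + 1 + 1 ≠ 1 := by omega
    rw [if_pos h1, h2, if_neg (Nat.succ_ne_zero _), if_neg h3, mumS,
      coeff_mk, ← bernoulli_eq_bernoulli'_of_ne_one h3]
    simp only [mul_smul_comm, mul_zero, sub_zero, zero_add, ← smul_add]
    rcases Nat.even_or_odd m with hm | hm
    · congr 1
      have h4 := geom a b m
      rw [Odd.neg_pow hm.add_one] at h4
      linear_combination (a * b) * h4
    · have h5 : bernoulli (m + 2) = 0 :=
        bernoulli_eq_zero_of_odd (hm.add_even even_two) (by omega)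
      simp [h5]

theorem key {γ : R⟦X⟧} {a b : R} (h : γ * (ev a tdS * ev b tdS) = ex (a + b)) :
    C (a + b) * X * (1 + C (a * b) * (X ^ 2 * Phi γ (a * b))) =
      C (a + b) * X * (1 + C (a * b) * (X ^ 2 * mumS a b)) := by
  have ha := ev_tdS_mul a
  have hb := ev_tdS_mul b
  have hab := ev_tdS_mul (a + b)
  have ea := ex_mul_neg a
  have eb := ex_mul_neg b
  rw [neg_add, ex_add] at hab
  have h1 : -(C (a * b) * (X ^ 2 * γ)) + (ex (a + b) + 1) = ex a + ex b := by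
    rw [ex_add] at h ⊢
    rw [map_mul]
    linear_combination (γ * (C b * X)) * ha + (γ * ev a tdS * (1 - ex (-a))) * hb -
      ((1 - ex (-a)) * (1 - ex (-b))) * h + (ex b - ex b * ex (-b)) * ea + (ex a - 1) * eb
  have h2 := congrArg tdOf h1
  rw [tdOf_add, tdOf_add, tdOf_add, tdOf_one, tdOf_ex, tdOf_ex, tdOf_ex, mul_one, tdOf_eq] at h2
  have h3 := mum_eq a b
  generalize 1 + C (a * b) * (X ^ 2 * Phi γ (a * b)) = T at h2 ⊢
  generalize 1 + C (a * b) * (X ^ 2 * mumS a b) = M at h3 ⊢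
  rw [map_mul] at h3
  linear_combination (-T) * hab + (1 - ex (-a) * ex (-b)) * h2 +
    (ev b tdS - C b * X) * ha + (ev a tdS * ex (-a)) * hb - X * h3

/-- the universal series -/
noncomputable def Gam (a b : R) : R⟦X⟧ := ex (a + b) * (tdOf (-ex a) * tdOf (-ex b))

theorem Gam_mul (a b : R) : Gam a b * (ev a tdS * ev b tdS) = ex (a + b) := by
  have ha := tdOf_mul_neg (ex a)
  have hb := tdOf_mul_neg (ex b)
  rw [tdOf_ex] at ha hb
  rw [Gam]
  linear_combination (ex (a + b) * (ev b tdS * tdOf (-ex b))) * ha + ex (a + b) * hb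

theorem eq_Gam {γ : R⟦X⟧} {a b : R} (h : γ * (ev a tdS * ev b tdS) = ex (a + b)) :
    γ = Gam a b := by
  have ha : IsUnit (ev a tdS * ev b tdS) := by
    rw [← tdOf_ex, ← tdOf_ex, ← tdOf_add]
    exact isUnit_tdOf _
  exact ha.mul_right_cancel (h.trans (Gam_mul a b).symm)

theorem map_Gam (φ : R →ₐ[ℂ] S) (a b : R) :
    PowerSeries.map (φ : R →+* S) (Gam a b) = Gam (φ a) (φ b) := by
  rw [Gam, Gam, map_mul, map_mul, map_ex, ← tdOf_map, ← tdOf_map, map_neg, map_neg, map_ex, map_ex,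
    map_add]

theorem part2_dom [IsDomain R] {a b : R} (ha : a ≠ 0) (hb : b ≠ 0) (hab : a + b ≠ 0) :
    Phi (Gam a b) (a * b) = mumS a b := by
  have hC : ∀ {z : R}, z ≠ 0 → (C z : R⟦X⟧) ≠ 0 := fun hz h =>
    hz (by simpa using congrArg constantCoeff h)
  have h1 := mul_left_cancel₀ (mul_ne_zero (hC hab) X_ne_zero) (key (Gam_mul a b))
  exact mul_left_cancel₀ (pow_ne_zero 2 X_ne_zero)
    (mul_left_cancel₀ (hC (mul_ne_zero ha hb)) (add_left_cancel h1))

theorem part2 (a b : R) : Phi (Gam a b) (a * b) = mumS a b := by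
  have h := part2_dom (R := MvPolynomial (Fin 2) ℂ) (a := MvPolynomial.X 0) (b := MvPolynomial.X 1)
    (MvPolynomial.X_ne_zero _) (MvPolynomial.X_ne_zero _) fun h => by
      simpa using congrArg (MvPolynomial.eval fun _ => (1 : ℂ)) h
  have h1 := congrArg (PowerSeries.map
    ((MvPolynomial.aeval ![a, b] : MvPolynomial (Fin 2) ℂ →ₐ[ℂ] R) : _ →+* R)) h
  rw [map_Phi, map_Gam, map_mumS] at h1
  simpa using h1

end MumP

theorem exists_mum (γ : S⟦X⟧) (e : S) : ∃ Φ : S⟦X⟧,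
    (∀ (R : Type) [CommRing R] [Algebra ℂ R] (ι : R →ₐ[ℂ] S) (g : S →ₗ[ℂ] R) (x : R),
      (∀ a q, g (ι a * q) = a * g q) → (∀ q, ι (g q) = e * q) → ι x = 0 →
      tdOf (ex (-x) - X ^ 2 * mapL g γ) = ev (-x) tdS + X ^ 2 * mapL g Φ) ∧
    ∀ (R : Type) [CommRing R] [Algebra ℂ R] (κ : S →ₐ[ℂ] R) (a b : R), κ e = a * b →
      PowerSeries.map (κ : S →+* R) γ * (ev a tdS * ev b tdS) = ex (a + b) →
      PowerSeries.map (κ : S →+* R) Φ = mumS a b :=
  ⟨MumP.Phi γ e, fun _ _ _ ι g x hg he hx => MumP.part1 γ e ι g x hg he hx,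
    fun _ _ _ κ a b he h => by rw [MumP.map_Phi, he, MumP.eq_Gam h, MumP.part2]⟩

end Vale.Agent.P269.Grr
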