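import Vale.Agent.P269.Grr.NLA
import Vale.Agent.P269.Loc.SI

/-!
# Closed suborbifolds are cut out by a section of an extension of the normal bundle
-/

set_option linter.unusedSectionVars false

namespace Vale.Agent.P269.Grr

open Set Function Topology Filter Module Asymptotics Vale.Agent.P291Z Vale.Agent.P269.Ch
  Vale.Agent.P269.Holo Vale.Agent.P269.Loc

namespace NL

variable {T Z A B : Type*} [TopologicalSpace T] [TopologicalSpace Z] [NormedAddCommGroup A]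
  [NormedSpace ℂ A] [NormedAddCommGroup B] [NormedSpace ℂ B]

theorem exists_dual' {E : Type*} [NormedAddCommGroup E] [InnerProductSpace ℂ E] (e : A ≃L[ℂ] E) :
    ∃ (l : A → A →L[ℂ] ℂ) (K : ℝ), (∀ a, a ≠ 0 → l a a = 1 ∧ ContinuousAt l a) ∧
      ∀ a, ‖l a‖ * ‖a‖ ≤ K := by
  refine ⟨fun a => ((‖e a‖ : ℂ) ^ 2)⁻¹ • (innerSL ℂ (e a)).comp (e : A →L[ℂ] E),
    ‖(e : A →L[ℂ] E)‖ * ‖(e.symm : E →L[ℂ] A)‖, fun a ha => ?_, fun a => ?_⟩
  · have h0 : ((‖e a‖ : ℂ) ^ 2) ≠ 0 := by simpa using ha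
    have h1 : Continuous fun a => innerSL ℂ (e a) := (innerSL ℂ).continuous.comp e.continuous
    have h2 : Continuous fun a => (‖e a‖ : ℂ) ^ 2 := by fun_prop
    refine ⟨?_, (h2.continuousAt.inv₀ h0).smul (h1.clm_comp continuous_const).continuousAt⟩
    rw [smul_apply, ContinuousLinearMap.comp_apply, innerSL_apply_apply,
      ContinuousLinearEquiv.coe_coe, inner_self_eq_norm_sq_to_K, smul_eq_mul]
    exact inv_mul_cancel₀ h0
  · have h1 : ‖a‖ ≤ ‖(e.symm : E →L[ℂ] A)‖ * ‖e a‖ := by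
      simpa using (e.symm : E →L[ℂ] A).le_opNorm (e a)
    have h2 := (innerSL ℂ (e a)).opNorm_comp_le (e : A →L[ℂ] E)
    rw [innerSL_apply_norm] at h2
    rw [norm_smul, norm_inv, norm_pow, Complex.norm_real, norm_norm]
    rcases eq_or_ne ‖e a‖ 0 with h | h
    · rw [h, zero_pow two_ne_zero, inv_zero, zero_mul, zero_mul]
      positivity
    · refine (mul_le_mul (mul_le_mul_of_nonneg_left h2 (by positivity)) h1 (norm_nonneg _)
        (by positivity)).trans_eq ?_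
      field_simp

/-- division of a function that vanishes to higher order -/
theorem exists_div [FiniteDimensional ℂ A] {σ : T → A} {R : T → B} {y : T}
    (h : ∀ᶠ x in 𝓝 y, ContinuousAt σ x ∧ ContinuousAt R x ∧ (σ x = 0 → R =o[𝓝 x] σ)) :
    ∃ C : T → A →L[ℂ] B, ∀ᶠ x in 𝓝 y, ContinuousAt C x ∧ C x (σ x) = R x ∧ (σ x = 0 → C x = 0) := by
  obtain ⟨l, K, h1, h2⟩ := exists_dual' (ContinuousLinearEquiv.ofFinrankEq (𝕜 := ℂ) (E := A)
    (F := EuclideanSpace ℂ (Fin (finrank ℂ A))) (by simp))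
  refine ⟨fun x => (l (σ x)).smulRight (R x), h.mono fun x ⟨a1, a2, a3⟩ => ?_⟩
  rcases eq_or_ne (σ x) 0 with e | e
  · have h3 : R x = 0 := (a3 e).isBigO.eq_zero_imp.self_of_nhds e
    have h4 : (l (σ x)).smulRight (R x) = 0 := by rw [h3, ContinuousLinearMap.smulRight_zero]
    refine ⟨?_, (DFunLike.congr_fun h4 _).trans h3.symm, fun _ => h4⟩
    rw [ContinuousAt, h4, ← isLittleO_one_iff ℝ, ← isLittleO_norm_left]
    simp only [ContinuousLinearMap.norm_smulRight_apply]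
    refine ((isBigO_refl (fun x => ‖l (σ x)‖) _).mul_isLittleO (a3 e).norm_norm).trans_isBigO
      (IsBigO.of_bound K (Eventually.of_forall fun x => ?_))
    rw [norm_one, mul_one, Real.norm_of_nonneg (by positivity)]
    exact h2 _
  · refine ⟨?_, by rw [ContinuousLinearMap.smulRight_apply, (h1 _ e).1, one_smul],
      fun e' => absurd e' e⟩
    exact ((ContinuousLinearMap.smulRightL ℂ A B).continuous.continuousAt.comp
      ((h1 _ e).2.comp a1)).clm_apply a2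

variable {ι : T → A} {j : Z → T} {z : Z} {m r : ℕ} {P : A →L[ℂ] A} {σ : T → A}

/-- a chart adapted to a submanifold and a normal coordinate -/
theorem exists_chart (h' : IsMfd (fun z => ι (j z)) m z) (hm : IsMfd ι (m + r) (j z))
    (hj : ContinuousAt j z) (hP : ∀ v ∈ tan ι (j z), P v = 0 → v ∈ tan (fun z => ι (j z)) z)
    (hσ : (fun p : T × Z => σ p.1 - P (ι p.1 - ι (j p.2))) =o[𝓝 (j z, z)]
      fun p => ι p.1 - ι (j p.2)) :
    ∃ (Ψ : (Fin m → ℂ) × (Fin r → ℂ) → T) (ψ : (Fin m → ℂ) → Z), IsParam ι Ψ (0, 0) ∧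
      Ψ (0, 0) = j z ∧ Tendsto ψ (𝓝 0) (𝓝 z) ∧ (∀ᶠ a in 𝓝 0, Ψ (a, 0) = j (ψ a)) ∧
      (∀ b, P (fderiv ℂ (fun p => ι (Ψ p)) (0, 0) (0, b)) = 0 → b = 0) ∧
      (fun p => σ (Ψ p) - P (fderiv ℂ (fun p => ι (Ψ p)) (0, 0) (0, p.2))) =o[𝓝 (0, 0)]
        fun p => p.2 := by
  obtain ⟨ψ, h1, rfl⟩ := h'
  obtain ⟨Ψ, h2, h3⟩ := exists_adapt h1 hm hj (r := r) (by simp)
  obtain ⟨h4, h5⟩ := littleO_adapt h1 h2 h3 hP hσ
  exact ⟨Ψ, ψ, h2, h3.self_of_nhds, h1.lh.cont, h3, h4, h5⟩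

/-- every normal direction is a limit of directions of the section -/
theorem exists_dir [FiniteDimensional ℂ A] (h' : IsMfd (fun z => ι (j z)) m z)
    (hm : IsMfd ι (m + r) (j z)) (hj : ContinuousAt j z)
    (hP : ∀ v ∈ tan ι (j z), P v = 0 → v ∈ tan (fun z => ι (j z)) z)
    (hσ : (fun p : T × Z => σ p.1 - P (ι p.1 - ι (j p.2))) =o[𝓝 (j z, z)]
      fun p => ι p.1 - ι (j p.2)) (hr : finrank ℂ (LinearMap.range (P : A →ₗ[ℂ] A)) = r)
    {n : A} (hn : n ∈ LinearMap.range (P : A →ₗ[ℂ] A)) :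
    ∃ x : ℝ → T, Tendsto x (𝓝[>] 0) (𝓝 (j z)) ∧
      Tendsto (fun s : ℝ => (s : ℂ)⁻¹ • σ (x s)) (𝓝[>] 0) (𝓝 n) := by
  obtain ⟨Ψ, ψ, h1, h2, -, -, h3, h4⟩ := exists_chart h' hm hj hP hσ
  let L : (Fin r → ℂ) →L[ℂ] A := P.comp
    ((fderiv ℂ (fun p => ι (Ψ p)) (0, 0)).comp (ContinuousLinearMap.inr ℂ _ _))
  have h5 : LinearMap.range (L : (Fin r → ℂ) →ₗ[ℂ] A) = LinearMap.range (P : A →ₗ[ℂ] A) :=
    Submodule.eq_of_le_of_finrank_eq (by rintro _ ⟨b, rfl⟩; exact ⟨_, rfl⟩) (by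
      rw [hr, LinearMap.finrank_range_of_inj ((injective_iff_map_eq_zero _).2 h3),
        finrank_fin_fun])
  obtain ⟨b, rfl⟩ := h5.ge hn
  have t1 : Tendsto (fun s : ℝ => ((0 : Fin m → ℂ), (s : ℂ) • b)) (𝓝[>] 0) (𝓝 (0, 0)) :=
    (Continuous.tendsto' (by fun_prop) _ _ (by simp)).mono_left nhdsWithin_le_nhds
  refine ⟨fun s => Ψ (0, (s : ℂ) • b), (h2 ▸ h1.lh.cont.tendsto).comp t1, ?_⟩
  have h6 : (fun s : ℝ => (s : ℂ)⁻¹ • (σ (Ψ (0, (s : ℂ) • b)) - L ((s : ℂ) • b))) =o[𝓝[>] 0]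
      fun s : ℝ => (s : ℂ)⁻¹ • (s : ℂ) • b :=
    (isBigO_refl (fun s : ℝ => (s : ℂ)⁻¹) _).smul_isLittleO (h4.comp_tendsto t1)
  have h7 : ∀ᶠ s : ℝ in 𝓝[>] 0, (s : ℂ) ≠ 0 :=
    eventually_mem_nhdsWithin.mono fun s hs => Complex.ofReal_ne_zero.2 (ne_of_gt hs)
  rw [← tendsto_sub_nhds_zero_iff, ← isLittleO_one_iff ℝ]
  refine (h6.congr' (h7.mono fun s hs => ?_)
    (h7.mono fun s hs => inv_smul_smul₀ hs b)).trans_isBigO (isBigO_const_const b one_ne_zero _)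
  simp only [smul_sub, map_smul, inv_smul_smul₀ hs]
  rfl

theorem fderiv_proj (h' : IsMfd (fun z => ι (j z)) m z)
    (hP : ∀ v ∈ tan ι (j z), P v = 0 → v ∈ tan (fun z => ι (j z)) z)
    (h1 : ∀ v, P v ∈ tan ι (j z)) (h2 : ∀ v, P (P v) = P v) {Φ : A → B}
    (hΦ : AnalyticAt ℂ Φ (ι (j z))) (h0 : ∀ᶠ s in 𝓝 z, Φ (ι (j s)) = 0) {v : A}
    (hv : v ∈ tan ι (j z)) : fderiv ℂ Φ (ι (j z)) (P v) = fderiv ℂ Φ (ι (j z)) v := by
  rw [eq_comm, ← sub_eq_zero, ← map_sub]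
  exact h'.fderiv_eq_zero hΦ h0 (hP _ (sub_mem hv (h1 v)) (by rw [map_sub, h2, sub_self]))

/-- a function vanishing on the submanifold is, to first order, linear in the normal coordinate -/
theorem littleO_fit [FiniteDimensional ℂ A] [CompleteSpace B] (h' : IsMfd (fun z => ι (j z)) m z)
    (hm : IsMfd ι (m + r) (j z)) (hj : ContinuousAt j z)
    (hP : ∀ v ∈ tan ι (j z), P v = 0 → v ∈ tan (fun z => ι (j z)) z)
    (h1 : ∀ v, P v ∈ tan ι (j z)) (h2 : ∀ v, P (P v) = P v)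
    (hσ : (fun p : T × Z => σ p.1 - P (ι p.1 - ι (j p.2))) =o[𝓝 (j z, z)]
      fun p => ι p.1 - ι (j p.2)) {Φ : A → B}
    (hΦ : AnalyticAt ℂ Φ (ι (j z))) (h0 : ∀ᶠ s in 𝓝 z, Φ (ι (j s)) = 0) :
    (fun x => Φ (ι x) - fderiv ℂ Φ (ι x) (σ x)) =o[𝓝 (j z)] σ := by
  obtain ⟨Ψ, ψ, a1, a2, a3, a4, a5, a6⟩ := exists_chart h' hm hj hP hσ
  refine IsLittleO.congr_left (IsLittleO.sub (f₁ := fun x => Φ (ι x) - fderiv ℂ Φ (ι (j z)) (σ x))
    ?_ (clm_isLittleO (hΦ.fderiv.continuousAt.tendsto.comp hm.cont) σ)) fun x => by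
      simp only [comp_apply, sub_sub_sub_cancel_right]
  set D := fderiv ℂ (fun p => ι (Ψ p)) (0, 0) with hD
  let L : (Fin r → ℂ) →L[ℂ] A := P.comp (D.comp (ContinuousLinearMap.inr ℂ _ _))
  obtain ⟨K, -, hK⟩ := L.toLinearMap.exists_antilipschitzWith (LinearMap.ker_eq_bot'.2 a5)
  have o1 : (fun p : (Fin m → ℂ) × (Fin r → ℂ) => p.2) =O[𝓝 (0, 0)] fun p => L p.2 :=
    IsBigO.of_bound K (Eventually.of_forall fun p => by simpa using hK.le_mul_dist p.2 0)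
  have o2 : (fun p : (Fin m → ℂ) × (Fin r → ℂ) => p.2) =O[𝓝 (0, 0)] fun p => σ (Ψ p) :=
    o1.trans ((a6.trans_isBigO o1).right_isBigO_add.congr_right fun p => sub_add_cancel _ _)
  have t2 : Tendsto (fun p : (Fin m → ℂ) × (Fin r → ℂ) => (p, ((p.1, 0) : _ × (Fin r → ℂ))))
      (𝓝 (0, 0)) (𝓝 ((0, 0), (0, 0))) := Continuous.tendsto' (by fun_prop) _ _ rfl
  have an : AnalyticAt ℂ Φ (ι (Ψ (0, 0))) := a2 ▸ hΦ
  have e1 : ∀ p : (Fin m → ℂ) × (Fin r → ℂ), p - (p.1, 0) = (0, p.2) := fun p =>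
    Prod.ext (sub_self _) (sub_zero _)
  have s1 := ((an.comp (f := fun p => ι (Ψ p)) a1.an).hasStrictFDerivAt.isLittleO.comp_tendsto
    t2).trans_isBigO (((ContinuousLinearMap.inr ℂ (Fin m → ℂ) (Fin r → ℂ)).isBigO_comp
      (fun p : (Fin m → ℂ) × (Fin r → ℂ) => p.2) _).congr_left fun p => (e1 p).symm)
  rw [← a2, ← a1.lh.map_nhds, isLittleO_map, a2]
  refine ((s1.sub (((fderiv ℂ Φ (ι (j z))).isBigO_comp _ _).trans_isLittleO a6)).congr' ?_
    EventuallyEq.rfl).trans_isBigO o2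
  filter_upwards [(continuousAt_fst (p := ((0, 0) : (Fin m → ℂ) × (Fin r → ℂ)))).eventually
    (a4.and (a3.eventually h0))] with p hp
  have e2 : fderiv ℂ (Φ ∘ fun p => ι (Ψ p)) (0, 0) = _ := a1.fderiv_comp_eq an
  simp only [comp_apply, e1, e2, hp.1, hp.2, a2, ContinuousLinearMap.comp_apply, ← hD]
  rw [map_sub, fderiv_proj h' hP h1 h2 hΦ h0 (by rw [← a2, a1.tan_eq]; exact ⟨_, rfl⟩)]
  abel

theorem inj_fit [FiniteDimensional ℂ A] {D : A →L[ℂ] (Fin r → ℂ)} {S : Submodule ℂ A}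
    (hr : finrank ℂ (LinearMap.range (P : A →ₗ[ℂ] A)) = r) (h1 : ∀ v ∈ S, D (P v) = D v)
    (h2 : ∀ w, ∃ v ∈ S, D v = w) {n : A} (hn : n ∈ LinearMap.range (P : A →ₗ[ℂ] A))
    (h0 : D n = 0) : n = 0 := by
  have h3 : Injective ((D : A →ₗ[ℂ] (Fin r → ℂ)) ∘ₗ (LinearMap.range (P : A →ₗ[ℂ] A)).subtype) :=
    (LinearMap.injective_iff_surjective_of_finrank_eq_finrank (by rw [hr, finrank_fin_fun])).2
      fun w => by
        obtain ⟨v, hv, rfl⟩ := h2 w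
        exact ⟨⟨P v, v, rfl⟩, h1 v hv⟩
  exact congrArg Subtype.val ((injective_iff_map_eq_zero _).1 h3 ⟨n, hn⟩ h0)

section cut

variable {Y : Ch.Sp} {Z : SubMulAction Y.G Y.T}

theorem isOpenEmbedding_subI (O : SubMulAction Y.G Y.T) (hO : IsOpen (O : Set Y.T)) :
    IsOpenEmbedding (Y.subI O hO.isLocallyClosed).map :=
  (Sat.of_surj (m := Y.subI O hO.isLocallyClosed) surjective_id).isOpenEmbedding
    hO.isOpenEmbedding_subtypeVal

theorem isClosed_image (hZ : IsClosed (Z : Set Y.T)) : IsClosed (Y.π '' Z) := by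
  have := ((Sat.of_surj (m := Y.subI Z hZ.isLocallyClosed) surjective_id).isClosedEmbedding
    hZ.isClosedEmbedding_subtypeVal).isClosed_range
  rwa [(range_map _).trans (congrArg (Y.π '' ·) Subtype.range_val)] at this

variable (c : Cut Y Z)

theorem subI_k (x : c.S.X) :
    (Y.subI c.O c.isOpen.isLocallyClosed).map (c.k.map x) = c.i.map x :=
  (DFunLike.congr_fun (Mor.map_comp (Y.subI c.O c.isOpen.isLocallyClosed) c.k) x).symm

theorem isClosedEmbedding_k : IsClosedEmbedding c.k.map :=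
  IsClosedEmbedding.of_comp (isOpenEmbedding_subI c.O c.isOpen).isEmbedding
    (by rw [show _ ∘ c.k.map = _ from funext (subI_k c)]; exact c.isClosedEmbedding)

/-- the Gysin map can be computed in the neighbourhood -/
theorem gys_eq (β : BM Y.X) : gys c.i.map c.t β =
    gys c.k.map c.sec.eul (res (Y.subI c.O c.isOpen.isLocallyClosed).map β) := by
  have ho := isOpenEmbedding_subI c.O c.isOpen
  have hs : (Y.subI c.O c.isOpen.isLocallyClosed).map ⁻¹' range c.i.map ⊆ range c.k.map :=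
    fun x ⟨y, hy⟩ => ⟨y, ho.injective ((subI_k c y).trans hy)⟩
  have e₁ := res_gys c.isClosedEmbedding (isClosedEmbedding_k c) ho IsOpenEmbedding.id (subI_k c)
    hs c.isCo'.cocycle c.isCo'.supp β
  have e₂ := res_push_homeo IsHomeomorph.id (gys c.i.map c.t β)
  rw [push_id'] at e₂
  rw [← e₂, e₁, gys_congr (isClosedEmbedding_k c) (cocycle_pull ho.continuous c.isCo.cocycle)
    ((supp_pull ho.continuous _).trans ((preimage_mono c.isCo'.supp).trans hs))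
    c.sec.isCo.cocycle (c.sec.isCo.supp.trans ?_) (c.cohom.mono (c.range_i ▸ hs))]
  rintro _ ⟨t, ht, rfl⟩
  exact ⟨_, c.k.map_π (⟨t.1, (c.zero t).1 ht⟩ : Z)⟩

end cut

theorem bm_eq {X : Type} [TopologicalSpace X] [IsEmpty X] (β β' : BM X) : β = β' :=
  BM.ext_ev fun a _ => by rw [Subsingleton.elim a 0, ev_eq, ev_eq, cls_zero, map_zero, map_zero]

section nrm

variable {X : HO} {Z : SubMulAction X.G X.T} [ContinuousSMul X.G Z] {n r : ℕ} {U : Set X.T}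
  {e : X.T → X.A →L[ℂ] X.A} {σ : X.T → X.A} (h : X.IsNrm (Subtype.val : Z → X.T) r U e σ)
  (hm : ∀ t : Z, IsMfd (fun s : Z => X.ι s) (finrank ℂ X.L + n) t) (hr : ∀ _ : Z, n + r = X.n)

theorem zero_iff (t : h.O) : σ t.1 = 0 ↔ t.1 ∈ Z :=
  (h.zero _ t.2).trans (by rw [Subtype.range_val]; rfl)

include hr in
theorem mfd (z : Z) : IsMfd X.ι (finrank ℂ X.L + n + r) z.1 := by
  rw [add_assoc, hr z]
  exact X.mfd _

include hm hr

theorem dir (y : h.O) (hy : y.1 ∈ Z) (v : X.A) (hv : v ∈ LinearMap.range (e y.1).toLinearMap) :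
    ∃ x : ℝ → h.O, Tendsto x (𝓝[>] 0) (𝓝 y) ∧
      Tendsto (fun r : ℝ => (r : ℂ)⁻¹ • σ (x r).1) (𝓝[>] 0) (𝓝 v) := by
  classical
  obtain ⟨x, h1, h2⟩ := exists_dir (hm ⟨y.1, hy⟩) (mfd hr _) continuous_subtype_val.continuousAt
    (fun v hv => (h.ker _ v hv).1) (h.tr _) (h.rank _ y.2) hv
  have h3 : ∀ᶠ s in 𝓝[>] 0, x s = (if a : x s ∈ h.O then (⟨x s, a⟩ : h.O) else y).1 :=
    (h1.eventually (h.isOpen.mem_nhds y.2)).mono fun s (hs : x s ∈ h.O) => by rw [dif_pos hs]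
  exact ⟨fun s => if a : x s ∈ h.O then ⟨x s, a⟩ else y, tendsto_subtype_rng.2 (h1.congr' h3),
    h2.congr' (h3.mono fun s hs => congrArg (fun u => (s : ℂ)⁻¹ • σ u) hs)⟩

theorem fits (y : h.O) (hy : y.1 ∈ Z) (f : X.T → Fin r → ℂ) (Φ : X.A → Fin r → ℂ)
    (a1 : AnalyticAt ℂ Φ (X.ι y.1)) (a2 : ∀ᶠ x in 𝓝 y.1, f x = Φ (X.ι x))
    (a3 : ∀ᶠ x in 𝓝 y.1, x ∈ Z → f x = 0)
    (a4 : ∀ w, ∃ v ∈ tan X.ι y.1, fderiv ℂ Φ (X.ι y.1) v = w) :
    ∃ B : h.O → X.A →L[ℂ] (Fin r → ℂ),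
      (∀ v ∈ LinearMap.range (e y.1).toLinearMap, B y v = 0 → v = 0) ∧
        ∀ᶠ x in 𝓝 y, ContinuousAt B x ∧ f x.1 = B x (σ x.1) := by
  have a5 : ∀ᶠ x in 𝓝 y.1, ∀ z : Z, z.1 = x → ∀ᶠ s : Z in 𝓝 z, Φ (X.ι s.1) = 0 := by
    filter_upwards [(a2.and a3).eventually_nhds] with x hx z hz
    subst hz
    filter_upwards [(continuous_subtype_val.tendsto z).eventually hx] with s hs
    exact hs.1.symm.trans (hs.2 s.2)
  have cv : Tendsto (Subtype.val : h.O → X.T) (𝓝 y) (𝓝 y.1) := continuous_subtype_val.tendsto y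
  have c1 : Continuous fun x : h.O => X.ι x.1 := X.cι.comp continuous_subtype_val
  have c2 : Continuous fun x : h.O => σ x.1 := h.isSec.cont
  have c3 : ∀ᶠ x : h.O in 𝓝 y, AnalyticAt ℂ Φ (X.ι x.1) :=
    c1.continuousAt.eventually a1.eventually_analyticAt
  obtain ⟨C, hC⟩ := exists_div (σ := fun x : h.O => σ x.1) (y := y)
    (R := fun x : h.O => Φ (X.ι x.1) - fderiv ℂ Φ (X.ι x.1) (σ x.1)) (by
      filter_upwards [c3, cv.eventually a5] with x b1 b2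
      refine ⟨c2.continuousAt, (b1.continuousAt.comp_of_eq c1.continuousAt rfl).sub
        ((b1.fderiv.continuousAt.comp_of_eq c1.continuousAt rfl).clm_apply c2.continuousAt),
        fun b4 => ?_⟩
      exact (littleO_fit (hm ⟨x.1, (zero_iff h x).1 b4⟩) (mfd hr _)
        continuous_subtype_val.continuousAt (fun v hv => (h.ker _ v hv).1) (h.mem_tan _)
        (h.idem' x.2) (h.tr _) b1 (b2 _ rfl)).comp_tendsto (continuous_subtype_val.tendsto x))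
  refine ⟨fun x : h.O => fderiv ℂ Φ (X.ι x.1) + C x, fun v hv h0 => ?_, ?_⟩
  · simp only [hC.self_of_nhds.2.2 ((zero_iff h y).2 hy), add_zero] at h0
    exact inj_fit (h.rank _ y.2) (fun w hw => fderiv_proj (hm ⟨y.1, hy⟩)
      (fun v hv => (h.ker _ v hv).1) (h.mem_tan _) (h.idem' y.2) a1
      (a5.self_of_nhds _ rfl) hw) a4 hv h0
  · filter_upwards [c3, cv.eventually a2, hC] with x b1 b2 b3
    refine ⟨(b1.fderiv.continuousAt.comp_of_eq c1.continuousAt rfl).add b3.1, ?_⟩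
    rw [b2, add_apply, b3.2.1, add_sub_cancel]

end nrm

end NL

open NL in
/-- a closed suborbifold is cut out by a section of an extension of its normal bundle -/
theorem exists_cut (X : HO) (Z : SubMulAction X.G X.T) (hZ : IsClosed (Z : Set X.T)) {n r : ℕ}
    (hm : ∀ t : Z, IsMfd (fun s : Z => X.ι s) (finrank ℂ X.L + n) t) (hr : ∀ _ : Z, n + r = X.n) :
    ∃ (c : Cut X.toSp Z) (e : Z → X.A →ₗ[ℂ] c.N.W), c.N.r = r ∧
      gys c.i.map c.t X.fund = (X.sub Z hZ.isLocallyClosed n hm).fund ∧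
      Exact (X.sub Z hZ.isLocallyClosed n hm).tanB (X.tanB.pb c.i) c.NS (fun _ => LinearMap.id) e ∧
      ∀ y : c.O, y.1 ∈ Z → ∀ (f : X.T → Fin r → ℂ) (Φ : X.A → Fin r → ℂ),
        AnalyticAt ℂ Φ (X.ι y.1) → (∀ᶠ x in 𝓝 y.1, f x = Φ (X.ι x)) →
        (∀ᶠ x in 𝓝 y.1, x ∈ Z → f x = 0) →
        (∀ w, ∃ v ∈ tan X.ι y.1, fderiv ℂ Φ (X.ι y.1) v = w) → c.Fits f y := by
  have hj : IsClosedEmbedding (Subtype.val : Z → X.T) := hZ.isClosedEmbedding_subtypeVal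
  have : Nice Z := Nice.of_isLocallyClosed hZ.isLocallyClosed
  have : ContinuousSMul X.G Z := (X.orb.sub Z hZ.isLocallyClosed).contSMul
  obtain ⟨U, e, σ, h⟩ : ∃ U e σ, X.IsNrm (Subtype.val : Z → X.T) r U e σ := by
    cases isEmpty_or_nonempty Z with
    | inl _ =>
      exact ⟨∅, 0, 0, isOpen_empty, fun _ _ h => h, isEmptyElim, fun _ h => h.elim,
        fun g _ _ => (smul_zero g).symm, fun _ h => h.elim, fun _ h => h.elim, fun _ h => h.elim,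
        fun g _ => (smul_zero g).symm, fun _ => ⟨0, rfl⟩, fun _ h => h.elim, isEmptyElim,
        isEmptyElim, isEmptyElim⟩
    | inr hne => exact X.exists_isNrm hj (fun _ _ => rfl) hm (hr hne.some)
  obtain ⟨t, t1, t2⟩ := exists_ext (X.isOpenEmbedding_opnI h.O h.isOpen) (isClosed_image hZ)
    (by rintro _ ⟨z, hz, rfl⟩; exact ⟨_, (X.opnI h.O h.isOpen).map_π (h.inc ⟨z, hz⟩)⟩)
    (IsCo.mono' h.isSec.isCo (by
      rintro _ ⟨y, hy, rfl⟩
      exact ⟨_, (zero_iff h y).1 hy, ((X.opnI h.O h.isOpen).map_π y).symm⟩))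
  have t3 : Cohom ((X.opnI h.O h.isOpen).map ⁻¹' (X.π '' Z)) (pull (X.opnI h.O h.isOpen).map t)
      h.isSec.eul := ⟨0, by rw [supp_zero]; exact empty_subset _, by rwa [map_zero, sub_zero]⟩
  let c : Cut X.toSp Z := ⟨hZ, h.O, h.isOpen, fun t ht => h.mem ⟨t, ht⟩, h.N, fun t => σ t.1,
    h.isSec, zero_iff h, dir h hm hr, t, t1, t3⟩
  have hc : Continuous fun x : Z × X.A => e x.1.1 x.2 :=
    (h.cont'.comp (c.k.cf.comp continuous_fst)).clm_apply continuous_snd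
  refine ⟨c, fun z => (e z.1).toLinearMap, rfl, ?_, ⟨Hom.of_continuous
    (fun z w hw => tan_le_of_comp (ι := X.ι) continuous_subtype_val.continuousAt hw) continuous_snd
    fun _ _ _ _ => rfl, Hom.of_continuous (fun z w _ => ⟨w, rfl⟩) hc
      fun g z w _ => h.e_smul g z.1 w, fun _ _ _ h => h, ?_, fun z w hw => (h.ker z w hw).trans
      ⟨fun a => ⟨w, a, rfl⟩, by rintro ⟨_, a, rfl⟩; exact a⟩⟩, fits h hm hr⟩
  · cases isEmpty_or_nonempty Z with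
    | inl _ =>
      have : IsEmpty c.S.T := ‹IsEmpty Z›
      exact bm_eq _ _
    | inr hne =>
      refine (gys_eq c _).trans ((congrArg _ (X.res_opn h.O h.isOpen)).trans ?_)
      exact h.gys_eul hj.isEmbedding (fun _ _ => rfl) hm (hr hne.some) c.S.isQuo
        (isClosedEmbedding_k c) c.k.map_π
  · rintro z _ ⟨v, rfl⟩
    exact ⟨_, h.mem_tan z v, h.idem' (h.mem z) v⟩

end Vale.Agent.P269.Grr
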