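import Vale.Agent.P269.Grr.ThA

/-!
# The clutching class of a complex
-/

namespace Vale.Agent.P269.Grr

open Set Function Topology Filter Module Vale.Agent.P291Z Vale.Agent.P269.Ch PowerSeries ThP

variable {Y Y' : Ch.Sp}

namespace Cx

variable (K : Cx Y)

open Classical in
/-- the class of the clutching bundle minus the odd part (zero if `s` is not admissible) -/
noncomputable def u (K : Cx Y) (s : Y.T → ℝ) : (Hev Y.X)⟦X⟧ :=
  if h : K.Adm s then
    (th h rfl).chc - ∑ j ∈ Finset.range (K.n + 1), if Odd j then (K.E j).chc else 0 else 0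

theorem chi_pb (m : Mor Y' Y) : (K.pb m).chi = pS m.map K.chi := by
  simp only [chi, map_sum, map_mul, map_pow, map_neg, map_one, chc_pb]

variable {K} {s : Y.T → ℝ}

theorem u_def (h : K.Adm s) {N : ℕ} (hN : N = K.n + 1) :
    K.u s = (th h hN).chc - ∑ j ∈ Finset.range N, if Odd j then (K.E j).chc else 0 := by
  subst hN
  exact dif_pos h

theorem u_deg (k : ℕ) : coeff k (K.u s) ∈ Hev.deg Y.X k := by
  by_cases h : K.Adm s
  · rw [u_def h rfl, map_sub, map_sum]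
    refine sub_mem (chc_deg _ k) (sum_mem fun j _ => ?_)
    split_ifs
    exacts [chc_deg _ k, zero_mem _]
  · rw [u, dif_neg h]
    exact zero_mem _

theorem u_pos (h : K.Adm s) (hs : ∀ t, 0 < s t) : K.u s = 0 := by
  rw [u_def h rfl, chc_th h rfl fun t => fre_odd (hs t), sub_self]

theorem u_neg (h : K.Adm s) (hs : ∀ t, s t < 0) : K.u s = K.chi := by
  rw [u_def h rfl, chc_th h rfl fun t => fre_even (hs t), chi, sum_alt]

section iso
variable {K' : Cx Y'} {m : Mor Y' Y} {A : ∀ j, Y'.T → (K'.E j).W →ₗ[ℂ] (K.E j).W}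
  (hA : ∀ j, Iso m (K'.E j) (K.E j) (A j)) {ρ : Y'.T → ℝ} (hρ : ∀ t, 0 < ρ t)
  (hd : ∀ j t, ∀ w ∈ (K'.E (j + 1)).F t,
    K.d j (m.f t) (A (j + 1) t w) = (ρ t : ℂ) • A j t (K'.d j t w))
include hA hρ hd

theorem ex_iso {t : Y'.T} : K'.Ex t ↔ K.Ex (m.f t) := by
  have h : CM K K' (m.f t) t (fun j => A j t) (ρ t) :=
    ⟨fun j => (hA j).mem t, fun j => hd j t, hρ t⟩
  refine forall_congr' fun j => ⟨fun e w hw => ?_, fun e w hw => ?_⟩
  · obtain ⟨v, hv, rfl⟩ := (hA j).surj t w (Zy_le K j _ hw)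
    exact h.Bd (e (h.Zy_of (fun j => (hA j).inj t) hv hw))
  · obtain ⟨v, hv, e'⟩ := (h.map_Bd ((hA _).surj t)).ge (e (h.Zy hw))
    rwa [← sub_eq_zero.1 ((hA j).inj t _ (sub_mem (Zy_le _ _ _ (Bd_le _ _ _ hv)) (Zy_le _ _ _ hw))
      ((map_sub _ _ _).trans (sub_eq_zero.2 e')))]

theorem u_iso (hn : K'.n = K.n) {s' : Y'.T → ℝ} (h : K.Adm s) (h' : K'.Adm s')
    (hs : ∀ t, s (m.f t) = ρ t * s' t) : K'.u s' = pS m.map (K.u s) := by
  have hc : ∀ t, CM K K' (m.f t) t (fun j => A j t) (ρ t) := fun t =>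
    ⟨fun j => (hA j).mem t, fun j => hd j t, hρ t⟩
  rw [u_def h rfl, u_def h' (congrArg (· + 1) hn.symm), map_sub, map_sum,
    Iso.chc (E := th h rfl) ⟨hom_th hc hs fun j => (hA j).toHom, inj_th fun j => (hA j).inj,
      fun t w hw => exists_th hc hs (fun j => (hA j).inj) hw fun j =>
        (hA j).surj t _ (mem_fib.1 hw j).1⟩]
  refine congrArg _ (Finset.sum_congr rfl fun j _ => ?_)
  split_ifs
  exacts [Iso.chc (hA j), (map_zero _).symm]

end iso

theorem Adm.pb (h : K.Adm s) (m : Mor Y' Y) : (K.pb m).Adm fun t => s (m.f t) :=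
  ⟨h.cont.comp m.cf, fun g t => by rw [m.eqv, h.inv], fun t e => (K.ex_pb m).2 (h.ex _ e),
    fun t => h.bal (m.f t)⟩

theorem u_pb (h : K.Adm s) (m : Mor Y' Y) :
    (K.pb m).u (fun t => s (m.f t)) = pS m.map (K.u s) :=
  u_iso (K := K) (K' := K.pb m) (ρ := fun _ => 1) (fun j => iso_pb (K.E j) m) (fun _ => one_pos)
    (fun _ _ _ _ => (one_smul ℂ _).symm) rfl h (h.pb m) fun _ => (one_mul _).symm

theorem bal_of_ex {t : Y.T} (h : K.Ex t) :
    ∑ j ∈ Finset.range (K.n + 1), (-1 : ℤ) ^ j * (K.E j).r = 0 := by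
  rw [sum_r h, z_top h, Nat.cast_zero, mul_zero]

theorem adm_of_ex (hex : ∀ t, K.Ex t) (h1 : Continuous s) (h2 : ∀ (g : Y.G) t, s (g • t) = s t) :
    K.Adm s := ⟨h1, h2, fun t _ => hex t, fun t => bal_of_ex (hex t)⟩

open unitInterval in
theorem u_of_ex (h : K.Adm s) (hex : ∀ t, K.Ex t) : K.u s = 0 := by
  have h1 : (K.pb (Y.extP I)).Adm fun p : I × Y.T => (1 - p.1) * s p.2 + p.1 :=
    adm_of_ex (fun p => (K.ex_pb _).2 (hex _)) (show Continuous fun p : I × Y.T =>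
      (1 - p.1) * s p.2 + p.1 by have := h.cont; fun_prop)
      fun g (p : I × Y.T) => congrArg (fun r : ℝ => (1 - p.1) * r + p.1) (h.inv g p.2)
  have h2 : ∀ (a : I) {s' : Y.T → ℝ}, K.Adm s' → (∀ t, (1 - a) * s t + a = s' t) →
      K.u s' = pS (Y.extI a).map ((K.pb (Y.extP I)).u _) := fun a s' h' e =>
    u_iso (K := K.pb (Y.extP I)) (K' := K) (ρ := fun _ => 1) (fun j => iso_extI (K.E j) a)
      (fun _ => one_pos) (fun _ _ _ _ => (one_smul ℂ _).symm) rfl h1 h'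
      fun t => (e t).trans (one_mul _).symm
  have h3 : K.Adm fun _ => 1 := adm_of_ex hex continuous_const fun _ _ => rfl
  have h4 : H.map (Y.extI (0 : I)).map = H.map (Y.extI (1 : I)).map :=
    H.map_eq_of_homotopic ⟨⟨ContinuousMap.id _, congrFun (Y.extI_map 0), congrFun (Y.extI_map 1)⟩⟩
  rw [← u_pos h3 fun _ => one_pos, h2 0 h fun t => by simp, h2 1 h3 fun t => by simp]
  exact PowerSeries.ext fun k => Subtype.ext (DFunLike.congr_fun h4 _)

theorem chi_eq_zero (hex : ∀ t, K.Ex t) : K.chi = 0 :=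
  have h : K.Adm fun _ => -1 := adm_of_ex hex continuous_const fun _ _ => rfl
  (u_neg h fun _ => neg_one_lt_zero).symm.trans (u_of_ex h hex)

section ses
variable {G L : Cx Y} {A : ∀ j, Y.T → (G.E j).W →ₗ[ℂ] (K.E j).W}
  {B : ∀ j, Y.T → (K.E j).W →ₗ[ℂ] (L.E j).W} (h : SES G K L A B)
include h

theorem SES.pb (m : Mor Y' Y) : SES (G.pb m) (K.pb m) (L.pb m) (fun j t => A j (m.f t))
    fun j t => B j (m.f t) :=
  ⟨h.n₁, h.n₂, fun j => (h.exact j).pb m, fun j t => h.dA j (m.f t), fun j t => h.dB j (m.f t)⟩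

theorem SES.cmA (t : Y.T) : CM K G t t (fun j => A j t) 1 :=
  ⟨fun j => (h.exact j).hA.mem t, fun j w hw => (h.dA j t w hw).trans (one_smul ℂ _).symm, one_pos⟩

theorem SES.cmB (t : Y.T) : CM L K t t (fun j => B j t) 1 :=
  ⟨fun j => (h.exact j).hB.mem t, fun j w hw => (h.dB j t w hw).trans (one_smul ℂ _).symm, one_pos⟩

theorem SES.map_Bd (j : ℕ) (t : Y.T) : (K.Bd j t).map (B j t) = L.Bd j t :=
  (h.cmB t).map_Bd ((h.exact _).surj t)

theorem SES.lift {t : Y.T} (hG : G.Ex t) {j : ℕ} {w : (K.E j).W} (hw : w ∈ K.Zy j t)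
    (h0 : B j t w = 0) : ∃ v ∈ (G.E (j + 1)).F t, K.d j t (A (j + 1) t v) = w := by
  obtain ⟨v, hv, rfl⟩ := ((h.exact j).ex t w (Zy_le K j t hw)).1 h0
  obtain ⟨v', hv', rfl⟩ := hG j ((h.cmA t).Zy_of (fun j => (h.exact j).inj t) hv hw)
  exact ⟨v', hv', h.dA j t v' hv'⟩

theorem SES.map_Zy {t : Y.T} (hG : G.Ex t) (j : ℕ) : (K.Zy j t).map (B j t) = L.Zy j t := by
  refine le_antisymm (by rintro _ ⟨w, hw, rfl⟩; exact (h.cmB t).Zy hw) fun w hw => ?_
  obtain ⟨v, hv, rfl⟩ := (h.exact j).surj t w (Zy_le L j t hw)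
  cases j with
  | zero => exact ⟨v, hv, rfl⟩
  | succ j =>
    obtain ⟨x, hx, e⟩ := h.lift hG (Bd_le K j t ⟨v, hv, rfl⟩) ((h.dB j t v hv).symm.trans hw.2)
    have h1 := (h.exact _).hA.mem t x hx
    exact ⟨v - A _ t x, ⟨sub_mem hv h1, (map_sub _ _ _).trans (sub_eq_zero.2 e.symm)⟩, by
      rw [map_sub, ((h.exact _).ex t _ h1).2 ⟨x, hx, rfl⟩, sub_zero]⟩

theorem SES.mem_Bd {t : Y.T} (hG : G.Ex t) {j : ℕ} {w : (K.E j).W} (hw : w ∈ K.Zy j t)
    (h0 : B j t w ∈ L.Bd j t) : w ∈ K.Bd j t := by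
  obtain ⟨v, hv, e⟩ := (h.map_Bd j t).ge h0
  obtain ⟨x, hx, e'⟩ := h.lift hG (sub_mem hw (Bd_le K j t hv))
    ((map_sub _ _ _).trans (sub_eq_zero.2 e.symm))
  exact sub_add_cancel w v ▸ add_mem ⟨_, (h.exact _).hA.mem t x hx, e'⟩ hv

theorem SES.ex_iff {t : Y.T} (hG : G.Ex t) : L.Ex t ↔ K.Ex t :=
  ⟨fun e j _ hw => h.mem_Bd hG hw (e j ((h.cmB t).Zy hw)), fun e j =>
    h.map_Zy hG j ▸ h.map_Bd j t ▸ Submodule.map_mono (e j)⟩

theorem SES.adm (hG : ∀ t, G.Ex t) : L.Adm s ↔ K.Adm s := by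
  have e : Y.T → ∑ j ∈ Finset.range (K.n + 1), (-1 : ℤ) ^ j * (K.E j).r =
      ∑ j ∈ Finset.range (L.n + 1), (-1 : ℤ) ^ j * (L.E j).r := fun t => by
    have := bal_of_ex (hG t)
    rw [h.n₁] at this
    simp only [(h.exact _).rank t, Nat.cast_add, mul_add, Finset.sum_add_distrib, this, h.n₂,
      zero_add]
  exact ⟨fun a => ⟨a.cont, a.inv, fun t e => (h.ex_iff (hG t)).1 (a.ex t e),
    fun t => (e t).trans (a.bal t)⟩, fun a => ⟨a.cont, a.inv,
      fun t e => (h.ex_iff (hG t)).2 (a.ex t e), fun t => (e t).symm.trans (a.bal t)⟩⟩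

theorem SES.u_eq (hG : ∀ t, G.Ex t) (hs : K.Adm s) : K.u s = L.u s := by
  have h1 : G.Adm s := adm_of_ex hG hs.cont hs.inv
  have h2 := (h.adm hG).2 hs
  have n1 := congrArg (· + 1) h.n₁.symm
  have n2 := congrArg (· + 1) h.n₂.symm
  have e : ∀ t, s ((Mor.id Y).f t) = 1 * s t := fun t => (one_mul _).symm
  have h3 : Exact (th h1 n1) (th hs rfl) (th h2 n2) (pm _ A) (pm _ B) := by
    refine exact_of_mid (hom_th h.cmA e fun j => (h.exact j).hA)
      (hom_th h.cmB e fun j => (h.exact j).hB) (inj_th fun j => (h.exact j).inj)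
      (fun t w hw => ⟨fun h0 => exists_th h.cmA e (fun j => (h.exact j).inj) hw fun j =>
        ((h.exact j).ex t _ (mem_fib.1 hw j).1).1 ?_, ?_⟩) fun t => ?_
    · exact (congrFun (cp_pm t w) j).symm.trans (by rw [h0, cp, map_zero])
    · rintro ⟨v, hv, rfl⟩
      exact xt_ext fun j => (congrFun (cp_pm t _) j).trans (((h.exact j).ex t _
        (mem_fib.1 hw j).1).2 ⟨_, (mem_fib.1 hv j).1, (congrFun (cp_pm t v) j).symm⟩)
    · dsimp only
      rw [← Finset.sum_add_distrib]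
      refine Finset.sum_congr rfl fun j _ => ?_
      split_ifs
      exacts [(h.exact j).rank t, rfl]
  rw [← zero_add (L.u s), ← u_of_ex h1 hG, u_def hs rfl, u_def h1 n1, u_def h2 n2, Exact.chc h3,
    sub_add_sub_comm, ← Finset.sum_add_distrib]
  refine congrArg _ (Finset.sum_congr rfl fun j _ => ?_)
  split_ifs
  exacts [Exact.chc (h.exact j), (add_zero _).symm]

end ses

end Cx

end Vale.Agent.P269.Grr
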