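import Vale.Agent.P269.Grr.Kos
import Vale.Agent.P269.Grr.Th

/-!
# The Chern characters of the Koszul complexes
-/

namespace Vale.Agent.P269.Grr

open Set Function Topology Filter Module Vale.Agent.P291Z Vale.Agent.P269.Ch Vale.Agent.P269.Holo
  Vale.Agent.P269.Loc Vale.Agent.P269.Base PowerSeries

namespace KosC

theorem tele {R : Type*} [CommRing R] {l a : ℕ → R} {e : R} (h0 : l 0 = a 0)
    (h : ∀ j, l (j + 1) = a (j + 1) + e * a j) (n : ℕ) :
    ∑ j ∈ Finset.range (n + 1), (-1) ^ j * (l j * e ^ (n - j)) = (-1) ^ n * a n := by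
  induction n with
  | zero => simp [h0]
  | succ n ih =>
    have : ∑ j ∈ Finset.range (n + 1), (-1) ^ j * (l j * e ^ (n + 1 - j)) = e * ((-1) ^ n * a n) := by
      rw [← ih, Finset.mul_sum]
      refine Finset.sum_congr rfl fun j hj => ?_
      rw [Nat.sub_add_comm (Nat.lt_succ_iff.1 (Finset.mem_range.1 hj))]
      ring
    rw [Finset.sum_range_succ, this, h, Nat.sub_self]
    ring

theorem down {R : Type*} [CommRing R] {l a : ℕ → R} {e : R}
    (h : ∀ j, a j = e * (l (j + 1) - a (j + 1))) (k j : ℕ) (h0 : a (j + k) = 0) :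
    a j = ∑ w ∈ Finset.range k, e ^ (w + 1) * ((-1) ^ w * l (j + 1 + w)) := by
  induction k generalizing j with
  | zero => simpa using h0
  | succ k ih =>
    rw [h, ih (j + 1) (by rw [← h0]; congr 1; omega), Finset.sum_range_succ', mul_sub,
      Finset.mul_sum, sub_eq_neg_add, ← Finset.sum_neg_distrib]
    congr 1
    · refine Finset.sum_congr rfl fun w _ => ?_
      rw [show j + 1 + (w + 1) = j + 1 + 1 + w by omega]
      ring
    · simp

variable {Y Y' : Ch.Sp}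

theorem chc_bot_pb (E : VB Y) (m : Mor Y' Y) (j : ℕ) :
    ((E.pb m).bot.alt (char 1) j).chc = pS m.map (E.bot.alt (char 1) j).chc := by
  rw [← chc_alt_pb, chc_alt _ ((char 1).pb m), chc_pb, chc_char_one, map_one, mul_one]
  rfl

end KosC

open KosC

namespace CF

variable {ι : Type} [Fintype ι] [DecidableEq ι] {U : HO} {M : ι → ℕ} {o : ι} {g : ℤ} {m : ι → ℤ}
  {F : CF U M o g m} {a : ι → ℕ} {E : ℕ → VB U.toSp} {ev : ∀ k, F.UT → (E k).W →ₗ[ℂ] ℂ}

theorem kos_chi (h : F.HF a E ev) {Y : Ch.Sp} {p : Mor Y U.toSp} (S : F.SB p) {n : ℕ}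
    (hn : M o - S.s ≤ n) : (kos h S n hn).chi = ∑ j ∈ Finset.range (M o - S.s + 1),
      (-1) ^ j * ((S.vb.alt (char 1) j).chc * pS p.map (E (n - j)).chc) :=
  Finset.sum_congr rfl fun j _ => congrArg _ ((chc_alt _ _ j).trans (congrArg _ (chc_pb _ _)))

theorem kos_rec (h : F.HF a E ev) :
    ∑ j ∈ Finset.range (M o + 1), (-1) ^ j * (F.lam j * (E (M o - j)).chc) = 0 := by
  have := (kos_chi h _ _).symm.trans (Cx.chi_eq_zero fun y => kos_ex h (F.sbBot (Mor.id _))
    (Nat.sub_le _ _) (y := y) (Nat.le_of_succ_le F.three) fun c hc => (F.crv _).ne_zero c hc o)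
  refine (Finset.sum_congr rfl fun j _ => ?_).trans this
  exact congrArg _ (congrArg₂ _ ((chc_bot_pb _ _ j).trans (pS_id _)).symm (pS_id _).symm)

omit [DecidableEq ι] in
theorem vb_r {Y : Ch.Sp} {p : Mor Y U.toSp} (S : F.SB p) (j : ℕ) :
    (S.vb.alt (char 1) j).r = (M o - S.s).choose j :=
  (mul_one _).trans (congrArg (fun k => (k - S.s).choose j) (finrank_fin_fun ℂ))

omit [DecidableEq ι] in
variable (F) in
theorem isUnit_lam : IsUnit (F.lam (M o)) := by
  rw [lam, chc_line]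
  · exact IsUnit.of_mul_eq_one _ (ex_mul_neg _)
  · exact (vb_r (F.sbBot (Mor.id _)) _).trans (Nat.choose_self _)

omit [DecidableEq ι] in
theorem lam_line {Y : Ch.Sp} {p : Mor Y U.toSp} (S : F.SB p) {χ : Y.G →ₜ* ℂˣ}
    {x : Y.T → Fin (M o) → ℂ} (hx : Continuous x)
    (he : ∀ (g : Y.G) t, x (g • t) = (χ g : ℂ) • F.ρ (p.ρ g) o (x t)) (h0 : ∀ t, x t ≠ 0)
    (hS : ∀ t, S.W t = ℂ ∙ x t) (j : ℕ) : pS p.map (F.lam (j + 1)) =
      (S.vb.alt (char 1) (j + 1)).chc + ex (c1 χ) * (S.vb.alt (char 1) j).chc := by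
  have := chc_alt_curry' ((F.Vb o).pb p).bot (char 1) (χ := χ⁻¹) (h1 := S.closed) (h2 := S.rank)
    (h3 := S.inv) hx (fun g t => show F.ρ (p.ρ g) o (x t) = (((χ g)⁻¹ : ℂˣ) : ℂ) • x (g • t) by
      rw [he, smul_smul, Units.inv_mul, one_smul]) h0
    (fun t => (hS t).trans (bot_sup_eq _).symm) j
  rwa [chc_bot_pb, c1_inv, neg_neg] at this

variable (F) in
/-- the tautological line along the curve -/
noncomputable def sbC : F.SB F.pr where
  W := fun x : F.UT => ℂ ∙ x.c o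
  s := 1
  closed := F.sbT.closed.preimage ((UT.continuous_p o).prodMap continuous_id)
  rank x := finrank_span_singleton (x.ne o)
  inv s x w h := F.sbT.inv ((s.1, s.2 o) : U.G × ℂˣ) (x.p o) w h

variable (F) in
theorem lam_rec : ∑ j ∈ Finset.range (M o + 1), (-1) ^ j *
    (pS F.pr.map (F.lam j) * ex (c1 (F.ch (Pi.single o 1))) ^ (M o - j)) = 0 := by
  rw [tele (a := fun j => (F.sbC.vb.alt (char 1) j).chc) ?_ (lam_line F.sbC
    ((continuous_apply o).comp UT.continuous_c) (fun s x => congrArg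
      (fun z : ℂˣ => (z : ℂ) • F.ρ s.1 o (x.c o)) (Loc.chr_single o s.2).symm)
    (fun x => x.ne o) fun _ => rfl), chc_zero, mul_zero]
  · have := F.three
    exact (vb_r _ _).trans (Nat.choose_eq_zero_of_lt (show M o - 1 < M o by omega))
  · rw [lam, chc_alt_zero, chc_alt_zero, chc_char_one, chc_char_one, map_one]

theorem bei_chi (h : F.HF a E ev) {n : ℕ} (hn : M o - F.sbT.s ≤ n) :
    ∃ c : ℕ → (Hev U.X)⟦X⟧, (kos h F.sbT n hn).chi = pS (F.Vb o).pp.map (E n).chc +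
      ∑ w ∈ Finset.range (M o - 1), ex (-(F.Vb o).xi) ^ (w + 1) * pS (F.Vb o).pp.map (c w) := by
  have h3 := F.three
  have h1 : ∀ j, (F.sbT.vb.alt (char 1) j).chc = ex (-(F.Vb o).xi) *
      (pS (F.Vb o).pp.map (F.lam (j + 1)) - (F.sbT.vb.alt (char 1) (j + 1)).chc) := fun j => by
    rw [lam_line F.sbT (χ := (F.Vb o).o1) F.continuous_pw (fun _ _ => rfl) F.pw_ne fun _ => rfl,
      add_sub_cancel_left, ← mul_assoc, mul_comm (ex _), VB.xi, ex_mul_neg, one_mul]
  let f : (ℕ → (Hev U.X)⟦X⟧) →+ (Hev (F.Vb o).PS.X)⟦X⟧ := AddMonoidHom.mk'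
    (fun c => ∑ w ∈ Finset.range (M o - 1), ex (-(F.Vb o).xi) ^ (w + 1) * pS (F.Vb o).pp.map (c w))
    fun c c' => by simp only [Pi.add_apply, map_add, mul_add, Finset.sum_add_distrib]
  have h2 : ∀ w < M o - 1, ∀ b, ex (-(F.Vb o).xi) ^ (w + 1) * pS (F.Vb o).pp.map b ∈ f.range :=
    fun w hw b => ⟨Pi.single w b, (Finset.sum_eq_single_of_mem w (Finset.mem_range.2 hw)
      fun v _ hv => by rw [Pi.single_eq_of_ne hv, map_zero, mul_zero]).trans
        (by rw [Pi.single_eq_same])⟩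
  suffices H : ∑ j ∈ Finset.range (M o - 1), (-1) ^ (j + 1) * ((F.sbT.vb.alt (char 1) (j + 1)).chc *
      pS (F.Vb o).pp.map (E (n - (j + 1))).chc) ∈ f.range by
    obtain ⟨c, hc⟩ := H
    refine ⟨c, ?_⟩
    rw [kos_chi, Finset.sum_range_succ', chc_alt_zero, chc_char_one, pow_zero, one_mul, one_mul,
      add_comm]
    exact congrArg _ hc.symm
  refine sum_mem fun j hj => ?_
  rw [Finset.mem_range] at hj
  rw [down (l := fun j => pS (F.Vb o).pp.map (F.lam j)) h1 (M o - 1 - j) (j + 1) (chc_zero _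
    ((vb_r _ _).trans (Nat.choose_eq_zero_of_lt (show M o - 1 < _ by omega)))), Finset.sum_mul,
    Finset.mul_sum]
  refine sum_mem fun w hw => ?_
  rw [Finset.mem_range] at hw
  refine (congrArg (· ∈ f.range) ?_).mp (h2 w (by omega)
    ((-1) ^ (j + 1) * ((-1) ^ w * F.lam (j + 1 + 1 + w) * (E (n - (j + 1))).chc)))
  simp only [map_mul, map_pow, map_neg, map_one]
  ring

variable (F) in
theorem exists_HF (ha : a ≠ 0) : ∃ E ev, F.HF a E ev := by
  choose E ev h using fun k : ℕ => F.exists_H0 (a := a + k • Pi.single o 1)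
    (fun e => ha (funext fun i => (Nat.add_eq_zero_iff.1 (congrFun e i)).1)) 1
  exact ⟨E, ev, ha, h⟩

theorem HF.shift (h : F.HF a E ev) (k : ℕ) :
    F.HF (a + k • Pi.single o 1) (fun l => E (k + l)) fun l => ev (k + l) :=
  ⟨fun e => h.ne (funext fun i => (Nat.add_eq_zero_iff.1 (congrFun e i)).1), fun l => by
    rw [add_assoc, ← add_smul]; exact h.h (k + l)⟩

variable (F) in
theorem c1_lb (χ : U.G →ₜ* ℂˣ) (k : ℕ) : c1 (F.lb χ (a + k • Pi.single o 1)) =
    Hev.map F.pr.map (c1 χ) + c1 (F.lb 1 a) + k • c1 (F.ch (Pi.single o 1)) := by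
  rw [map_c1, ← c1_pow, ← c1_mul, ← c1_mul]
  refine congrArg _ (ContinuousMonoidHom.ext fun s => ?_)
  have e : (fun i => ((a + k • Pi.single o 1 : ι → ℕ) i : ℤ)) =
      (fun i => (a i : ℤ)) + k • Pi.single o 1 := funext fun i => by
    by_cases hi : i = o <;> simp [hi]
  rw [ContinuousMonoidHom.mul_apply, ContinuousMonoidHom.pow_apply]
  show χ s.1 * Loc.chr _ s.2 = χ s.1 * (1 * Loc.chr _ s.2) * Loc.chr _ s.2 ^ k
  rw [e, Loc.chr_add, Loc.chr_nsmul, one_mul, mul_assoc]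

end CF

end Vale.Agent.P269.Grr
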