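import Vale.Agent.P269.Grr.TD
import Vale.Agent.P269.Grr.KosC

/-!
# Integration along the fibres of the universal curve
-/

namespace Vale.Agent.P269.Grr

open Set Function Topology Filter Module Vale.Agent.P291Z Vale.Agent.P269.Ch Vale.Agent.P269.Holo
  Vale.Agent.P269.Loc Vale.Agent.P269.Base PowerSeries

namespace CF

variable {ι : Type} [Fintype ι] {U : HO} {M : ι → ℕ} {o : ι} {g : ℤ} {m : ι → ℤ}
  {F : CF U M o g m} {A A' : (Hev F.US.X)⟦X⟧} {B B' L : (Hev U.X)⟦X⟧}

namespace IsPush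

variable (U) in
/-- duality on the base -/
noncomputable def dB : Hev U.X →ₗ[ℂ] BM U.X := pd U.fund ∘ₗ (Hev U.X).val.toLinearMap

variable (F) in
/-- integration along the fibres -/
noncomputable def dA : Hev F.US.X →ₗ[ℂ] BM U.X :=
  push F.pr.map ∘ₗ pd F.UC.fund ∘ₗ (Hev F.US.X).val.toLinearMap

theorem iff : F.IsPush A B ↔ ∀ k, dB U (coeff k (X * B)) = dA F (coeff k A) := Iff.rfl

theorem dB_mul (l b : Hev U.X) : dB U (l * b) = cap l.1 (dB U b) := cap_mul _ _ _

theorem dA_mul (l : Hev U.X) (a : Hev F.US.X) :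
    dA F (Hev.map F.pr.map l * a) = cap l.1 (dA F a) :=
  (congrArg _ (cap_mul _ _ _)).trans (push_cap F.isPr_pr _ _)

theorem zero : F.IsPush 0 0 := iff.2 fun k => by simp only [mul_zero, map_zero]

theorem add (h : F.IsPush A B) (h' : F.IsPush A' B') : F.IsPush (A + A') (B + B') :=
  iff.2 fun k => by simp only [mul_add, map_add, iff.1 h k, iff.1 h' k]

theorem neg (h : F.IsPush A B) : F.IsPush (-A) (-B) :=
  iff.2 fun k => by simp only [mul_neg, map_neg, iff.1 h k]

theorem sub (h : F.IsPush A B) (h' : F.IsPush A' B') : F.IsPush (A - A') (B - B') :=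
  iff.2 fun k => by simp only [mul_sub, map_sub, iff.1 h k, iff.1 h' k]

theorem sum {κ : Type*} (s : Finset κ) {A : κ → (Hev F.US.X)⟦X⟧} {B : κ → (Hev U.X)⟦X⟧}
    (h : ∀ i ∈ s, F.IsPush (A i) (B i)) : F.IsPush (∑ i ∈ s, A i) (∑ i ∈ s, B i) :=
  iff.2 fun k => by
    simp only [Finset.mul_sum, map_sum]
    exact Finset.sum_congr rfl fun i hi => iff.1 (h i hi) k

theorem mul (h : F.IsPush A B) (L : (Hev U.X)⟦X⟧) :
    F.IsPush (pS F.pr.map L * A) (L * B) := iff.2 fun k => by
  rw [mul_left_comm, coeff_mul, coeff_mul, map_sum, map_sum]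
  refine Finset.sum_congr rfl fun p _ => ?_
  rw [dB_mul, iff.1 h, coeff_map]
  exact (dA_mul _ _).symm

theorem of_unit (hL : IsUnit L) (h : F.IsPush (pS F.pr.map L * A) (L * B)) : F.IsPush A B := by
  obtain ⟨L', e⟩ := hL.exists_left_inv
  have := h.mul L'
  rwa [← mul_assoc, ← mul_assoc, ← map_mul, e, map_one, one_mul, one_mul] at this

-- the coefficient zero is automatic
theorem of_succ (h0 : coeff 0 A ∈ Hev.deg F.US.X 0) (h : ∀ k, cap (coeff k B).1 U.fund =
    push F.pr.map (cap (coeff (k + 1) A).1 F.UC.fund)) : F.IsPush A B := by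
  rintro (_ | k)
  · rw [coeff_zero_X_mul]
    refine (map_zero (dB U)).trans (Orb.Top.eq_zero U.ori.top ((F.UC.ori.deg.cap h0).push _) ?_).symm
    show _ < 2 * ((U.n + 1 : ℕ) : ℤ) - 2 * 0
    omega
  · rw [coeff_succ_X_mul]
    exact h k

theorem succ (h : F.IsPush A B) (k : ℕ) :
    cap (coeff k B).1 U.fund = push F.pr.map (cap (coeff (k + 1) A).1 F.UC.fund) := by
  rw [← h (k + 1), coeff_succ_X_mul]

end IsPush

variable [DecidableEq ι]

-- descending induction with the Koszul relations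
theorem isPush_down {T : (Hev F.US.X)⟦X⟧} {n : ℕ}
    (h : ∀ a E ev, F.HF a E ev → F.IsPush (ex (c1 (F.lb 1 (a + n • Pi.single o 1))) * T) (E n).chc)
    {a : ι → ℕ} (ha : a ≠ 0) {χ : U.G →ₜ* ℂˣ} {E : VB U.toSp} {ev : F.UT → E.W →ₗ[ℂ] ℂ}
    (hE : F.IsH0 a χ E ev) : F.IsPush (ex (c1 (F.lb χ a)) * T) E.chc := by
  obtain ⟨E', ev', h'⟩ := F.exists_HF ha
  have e : ∀ k : ℕ, ex (c1 (F.lb 1 (a + k • Pi.single o 1))) =
      ex (c1 (F.lb 1 a)) * ex (c1 (F.ch (Pi.single o 1))) ^ k := fun k => by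
    rw [F.c1_lb, c1_one, map_zero, zero_add, ex_add, ex_nsmul]
  have key : ∀ j k, n ≤ k + j →
      F.IsPush (ex (c1 (F.lb 1 (a + k • Pi.single o 1))) * T) (E' k).chc := fun j => by
    induction j with
    | zero =>
      intro k hk
      obtain ⟨k, rfl⟩ := Nat.exists_eq_add_of_le' hk
      have := h _ _ _ (h'.shift k)
      rwa [add_assoc, ← add_smul] at this
    | succ j ih =>
      intro k hk
      have h1 := (IsPush.sum (Finset.range (M o)) fun i hi => (ih (k + (M o - i)) (by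
        have := Finset.mem_range.1 hi; omega)).mul ((-1) ^ i * F.lam i)).neg
      have h2 := kos_rec (h'.shift k)
      have h3 := congrArg (· * (ex (c1 (F.lb 1 (a + k • Pi.single o 1))) * T)) F.lam_rec
      simp only [Finset.sum_range_succ, Nat.sub_self, add_zero, pow_zero, mul_one, ← mul_assoc,
        add_mul, Finset.sum_mul, zero_mul, add_eq_zero_iff_neg_eq] at h2 h3
      refine IsPush.of_unit (L := (-1) ^ M o * F.lam (M o))
        ((isUnit_one.neg.pow _).mul F.isUnit_lam) ?_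
      rw [← h2, map_mul, map_pow, map_neg, map_one, ← mul_assoc, ← h3]
      refine (congrArg (fun A => F.IsPush (-A) _) (Finset.sum_congr rfl fun i _ => ?_)).mp h1
      simp only [e, map_mul, map_pow, map_neg, map_one]
      ring
  have h0 := h'.h 0
  have h1 := (key n 0 (zero_add n).ge).mul (ex (c1 χ))
  have h2 := F.c1_lb (a := a) χ 0
  rw [zero_smul, add_zero] at h0 h1 h2
  rw [zero_smul, add_zero] at h2
  rwa [hE.chc_eq h0 ha, h2, ex_add, ← pS_ex, mul_assoc]

end CF

end Vale.Agent.P269.Grr
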