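import Vale.Agent.P269.Grr.Sec
import Vale.Agent.P269.Grr.Push
import Vale.Agent.P269.Grr.Mum
import Vale.Agent.P269.Grr.HG
import Vale.Agent.P269.Grr.NL

/-!
# Mumford's formula from the relative Todd class, the logarithmic derivative of the Chern class
-/

namespace Vale.Agent.P269.Grr

open Set Function Topology Filter Module Vale.Agent.P291Z Vale.Agent.P269.Ch Vale.Agent.P269.Holo
  Vale.Agent.P269.Loc Vale.Agent.P269.Base PowerSeries

section alg

variable {R : Type*} [CommRing R] [Algebra ℂ R]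

/-- the logarithmic derivative of the total Chern class in terms of the Chern character -/
noncomputable def lg (A : R⟦X⟧) : R⟦X⟧ :=
  hd (fun k => if k = 0 then 0 else (-1) ^ (k + 1) * k.factorial) A

theorem lg_sub (A B : R⟦X⟧) : lg (A - B) = lg A - lg B := by
  rw [lg, lg, lg, sub_eq_add_neg, hd_add, hd_neg, ← sub_eq_add_neg]

theorem map_lg {S : Type*} [CommRing S] [Algebra ℂ S] (φ : R →ₐ[ℂ] S) (A : R⟦X⟧) :
    PowerSeries.map (φ : R →+* S) (lg A) = lg (PowerSeries.map (φ : R →+* S) A) := map_hd φ _ A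

theorem deriv_reflect {r : ℕ} {P : Polynomial R} (hP : Mon r P) :
    X * d⁄dX R (P.reflect r : R⟦X⟧) = lg (chP r P) * (P.reflect r : R⟦X⟧) := by
  have h1 : lg (chP r P) = rescale (-1) (X * d⁄dX R (revS r P) * invOfUnit (revS r P) 1) := by
    ext k
    rw [lg, chP, coeff_hd, coeff_hd, smul_smul, psum, map_sub, coeff_rescale]
    rcases k with _ | k
    · rw [if_pos rfl, zero_mul, zero_smul, mul_assoc X, coeff_zero_X_mul, mul_zero]
    · rw [if_neg k.succ_ne_zero, mul_assoc, mul_inv_cancel₀ (Nat.cast_ne_zero.2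
        (Nat.factorial_ne_zero _)), mul_one, ← map_natCast (C (R := R)), coeff_C,
        if_neg k.succ_ne_zero, zero_sub, Algebra.smul_def, map_pow, map_neg, map_one]
      ring
  have h2 : (P.reflect r : R⟦X⟧) = rescale (-1) (revS r P) := by
    rw [AlgP.revS_eq hP, rescale_rescale, neg_mul_neg, mul_one, rescale_one, RingHom.id_apply]
  rw [h1, h2, ← map_mul, mul_assoc, mul_comm (invOfUnit _ _), AlgP.revS_inv hP, mul_one]
  ext k
  rw [coeff_X_mul_derivative, coeff_rescale, coeff_rescale, coeff_X_mul_derivative, mul_smul_comm]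

omit [Algebra ℂ R] in
theorem deriv_div {A B a b : R⟦X⟧} (hB : constantCoeff B = 1) (h₁ : X * d⁄dX R A = a * A)
    (h₂ : X * d⁄dX R B = b * B) :
    X * d⁄dX R (A * invOfUnit B 1) = (a - b) * (A * invOfUnit B 1) := by
  have h3 : B * invOfUnit B 1 = 1 := mul_invOfUnit _ _ hB
  have h4 := congrArg (d⁄dX R) h3
  rw [Derivation.leibniz, Derivation.map_one_eq_zero, smul_eq_mul, smul_eq_mul] at h4
  rw [Derivation.leibniz, smul_eq_mul, smul_eq_mul]
  generalize invOfUnit B 1 = I at *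
  linear_combination I * h₁ - (X * A * d⁄dX R I + b * A * I) * h3 + A * I * X * h4 -
    A * I ^ 2 * h₂

theorem FinA.pow_eq {B : Type*} [AddCommGroup B] [Module ℂ B] (d : R →ₗ[ℂ] B) {x D ω : R}
    (h1 : ∀ a, d (a * (ω - (x + D))) = 0) (h2 : ∀ a, d (a * (x + D) * D) = 0) (r : ℕ) (l : R) :
    d (x ^ r * l) = d (ω ^ r * l) - if r = 0 then 0 else d (x ^ (r - 1) * l * D) := by
  obtain ⟨c, hc⟩ := sub_dvd_pow_sub_pow ω (x + D) r
  rw [show ω ^ r * l = (x + D) ^ r * l + c * l * (ω - (x + D)) by linear_combination l * hc,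
    map_add, h1, add_zero]
  rcases r with _ | r
  · rw [if_pos rfl, sub_zero, pow_zero, pow_zero]
  · obtain ⟨G, hG⟩ : ∃ G, (x + D) ^ (r + 1) = x ^ (r + 1) + D * x ^ r + D * (x + D) * G := by
      clear hc
      induction r with
      | zero => exact ⟨0, by ring⟩
      | succ r ih =>
        obtain ⟨G, hG⟩ := ih
        exact ⟨x ^ r + (x + D) * G, by linear_combination (x + D) * hG⟩
    rw [if_neg r.succ_ne_zero, Nat.add_sub_cancel, show (x + D) ^ (r + 1) * l =
      x ^ (r + 1) * l + x ^ r * l * D + G * l * (x + D) * D by linear_combination l * hG,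
      map_add, map_add, h2, add_zero, add_sub_cancel_right]

theorem FinA.coeff_td (x l : R) (k : ℕ) : coeff k (ex l * ev (-x) tdS) =
    ∑ q ∈ Finset.HasAntidiagonal.antidiagonal k,
      ((bernoulli q.1 : ℂ) / (q.1.factorial * q.2.factorial)) • (x ^ q.1 * l ^ q.2) := by
  rw [mul_comm, coeff_mul]
  refine Finset.sum_congr rfl fun q _ => ?_
  rw [coeff_ev_neg_tdS, coeff_ex, smul_mul_smul_comm, ← div_div, div_eq_mul_inv (_ / _)]

theorem FinA.coeff_nod {S : Type*} [CommRing S] [Algebra ℂ S] (ι : R →ₐ[ℂ] S) (g : S →ₗ[ℂ] R)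
    (hg : ∀ a q, g (ι a * q) = a * g q) (l : R) (Φ : S⟦X⟧) (k : ℕ) :
    coeff k (ex l * (X ^ 2 * mapL g Φ)) = g (coeff k (X ^ 2 * (ex (ι l) * Φ))) := by
  rw [mul_left_comm, ← mapL_map_mul ι g hg, map_ex, coeff_X_pow_mul', coeff_X_pow_mul']
  split_ifs
  · exact coeff_mapL _ _ _
  · exact (map_zero g).symm

end alg

namespace CF

variable {ι : Type} [Fintype ι] [DecidableEq ι] {U : HO} {M : ι → ℕ} {o : ι} {g : ℤ} {m : ι → ℤ}
  {F : CF U M o g m}

variable (F) in
/-- the smooth points -/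
def Sm : SubMulAction F.US.G F.US.T :=
  ⟨F.UNᶜ, fun g _ hx h => hx (by simpa using F.UN.smul_mem g⁻¹ h)⟩

variable (F) in
omit [DecidableEq ι] in
theorem isOpen_Sm : IsOpen (F.Sm : Set F.US.T) := F.isClosed_UN.isOpen_compl

variable (F) in
omit [DecidableEq ι] in
theorem FinA.closed_iN : IsClosedEmbedding F.iN.map :=
  Sp.isClosedEmbedding_subI F.isClosed_UN

omit [DecidableEq ι] in
-- a class of degree two that vanishes off the nodes
theorem cap_eq_zero {c : Hev F.US.X} (hc : c ∈ Hev.deg F.US.X 1)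
    (h0 : Hev.map (F.US.subI F.Sm F.isOpen_Sm.isLocallyClosed).map c = 0) :
    cap c.1 F.UC.fund = 0 := by
  obtain ⟨a, h1, h2, h3, h4⟩ :=
    exists_rel (Sp.isOpenEmbedding_subI F.isOpen_Sm) hc (congrArg Subtype.val h0)
  have h5 : supp a ⊆ range F.iN.map :=
    Sp.subset_range_subI F.isClosed_UN.isLocallyClosed fun t ht => by_contra fun h =>
      h3 ht (by rw [Sp.range_subI]; exact ⟨t, h, rfl⟩)
  have h6 : gys F.iN.map a F.UC.fund = 0 := by
    by_cases hN : 1 ≤ U.n
    · refine Orb.Top.eq_zero F.UNH.ori.top (F.UC.ori.deg.gys _ h2) ?_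
      show 2 * ((U.n - 1 : ℕ) : ℤ) < 2 * ((U.n + 1 : ℕ) : ℤ) - 2 * 1
      omega
    · have : IsEmpty F.UNH.X := ⟨fun x => by
        obtain ⟨t, -⟩ := F.UNH.toSp.surj x
        exact hN (F.one_le (show F.UN from t).2)⟩
      exact NL.bm_eq _ _
  exact (congrArg (fun b => cap b F.UC.fund) h4).symm.trans
    ((push_gys_eq_cap (FinA.closed_iN F) h1 h5 _).symm.trans
      ((congrArg _ h6).trans (map_zero _)))

omit [DecidableEq ι] in
theorem FinA.push_sec (s : F.Sec) (β : BM U.X) : push F.pr.map (push s.m.map β) = β := by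
  rw [P291Z.push_push (IsPr.of_isClosedEmbedding s.isClosedEmbedding) F.isPr_pr,
    show F.pr.map ∘ s.m.map = id from funext s.pr_map, push_id']

-- Mumford's formula
theorem IsTd.mumford {Λ j gN Φ} (hT : F.IsTd Λ j gN Φ) {ν : Type} [Fintype ν] {s : ν → F.Sec}
    (hd : ∀ n n' t, Base.Orb ((s n).p t) ((s n').p t) → n = n') {L : ν → VB F.US}
    {σ : ∀ n, F.UT → (L n).W} (hL : ∀ n, (s n).IsDv (L n) (σ n)) {ω : Hev F.US.X}
    (hω : P291Z.cap (Λ.eu + ω - ∑ n, (L n).eu).1 F.UC.fund = 0) (ℓ : Hev F.US.X) (k : ℕ) :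
    push F.pr.map (P291Z.cap (coeff k (ex ℓ * tdC Λ gN Φ)).1 F.UC.fund) =
      ∑ q ∈ Finset.HasAntidiagonal.antidiagonal k,
        ((bernoulli q.1 : ℂ) / (q.1.factorial * q.2.factorial)) •
        (push F.pr.map (P291Z.cap (ω ^ q.1 * ℓ ^ q.2).1 F.UC.fund) - if q.1 = 0 then 0 else
          ∑ n, P291Z.cap ((-Hev.map (s n).m.map Λ.eu) ^ (q.1 - 1) *
            Hev.map (s n).m.map ℓ ^ q.2).1 U.fund) +
      push (F.pr.comp F.iN).map
        (P291Z.cap (coeff k (X ^ 2 * (ex (Hev.map F.iN.map ℓ) * Φ))).1 F.UNH.fund) := by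
  have h1 : ∀ a, IsPush.dA F (a * (ω - (-Λ.eu + ∑ n, (L n).eu))) = 0 := fun a => by
    rw [show ω - (-Λ.eu + ∑ n, (L n).eu) = Λ.eu + ω - ∑ n, (L n).eu by ring]
    exact (congrArg (push F.pr.map) ((cap_mul _ _ _).trans
      ((congrArg _ hω).trans (map_zero _)))).trans (map_zero _)
  have h2 : ∀ a, IsPush.dA F (a * ∑ n, (L n).eu) = ∑ n, IsPush.dB U (Hev.map (s n).m.map a) :=
    fun a => by
      rw [Finset.mul_sum, map_sum]
      exact Finset.sum_congr rfl fun n _ =>
        (congrArg (push F.pr.map) ((hL n).cap a)).trans (FinA.push_sec (s n) _)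
  have h3 : ∀ n, Hev.map (s n).m.map (-Λ.eu + ∑ n, (L n).eu) = 0 := fun n => by
    rw [map_add, map_neg, map_sum, Finset.sum_eq_single n (fun n' _ h =>
      (hL n').map_eu fun t e => h (hd _ _ t e)) (fun h => absurd (Finset.mem_univ n) h),
      (hL n).eu Λ j hT.om, neg_add_cancel]
  have h4 := FinA.pow_eq (IsPush.dA F) h1 fun a => by
    rw [h2]
    exact Finset.sum_eq_zero fun n _ => by rw [map_mul, h3, mul_zero, map_zero]
  show IsPush.dA F _ = _
  rw [tdC, mul_add, map_add, map_add, ← neg_neg Λ.eu, FinA.coeff_td, neg_neg, map_sum,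
    FinA.coeff_nod (Hev.map F.iN.map) gN hT.mul]
  refine congrArg₂ (· + ·) (Finset.sum_congr rfl fun q _ => ?_) ?_
  · rw [map_smul, h4, h2]
    simp only [map_mul, map_pow, map_neg]
    rfl
  · rw [Mor.map_comp, ContinuousMap.coe_comp,
      ← P291Z.push_push (IsPr.of_isClosedEmbedding (FinA.closed_iN F)) F.isPr_pr, ← hT.cap]
    rfl

end CF

end Vale.Agent.P269.Grr
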