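import Vale.Agent.P269.Grr.CofA

/-!
# The cofactor line bundle
-/

namespace Vale.Agent.P269.Grr

open Set Function Topology Filter Module Vale.Agent.P291Z Vale.Agent.P269.Ch

/-- `Λ = det Q ⊗ (det N)⁻¹` with the map `j` given by the cofactors of `A : Q → N` -/
structure IsCof {Y : Ch.Sp} (Q N Λ : VB Y) (A : Y.T → Q.W →ₗ[ℂ] N.W) (j : Y.T → Λ.W →ₗ[ℂ] Q.W) :
    Prop where
  rank : Λ.r = 1
  hom : Hom (Mor.id Y) Λ Q j
  comp : ∀ t w, w ∈ Λ.F t → A t (j t w) = 0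
  sm : ∀ t, (Q.F t).map (A t) = N.F t → (∀ w ∈ Λ.F t, j t w = 0 → w = 0) ∧
    ∀ v ∈ Q.F t, A t v = 0 → ∃ w ∈ Λ.F t, j t w = v
  nd : ∀ (Z : Type) [TopologicalSpace Z] (z₀ : Z) (τ : Z → Y.T) (v₁ v₂ : Z → Q.W) (h : Z → N.W)
    (a b : Z → ℂ), (∀ᶠ z in 𝓝 z₀, ContinuousAt τ z ∧ ContinuousAt v₁ z ∧ ContinuousAt v₂ z ∧
      ContinuousAt h z ∧ ContinuousAt a z ∧ ContinuousAt b z ∧ v₁ z ∈ Q.F (τ z) ∧ v₂ z ∈ Q.F (τ z) ∧
      h z ∈ N.F (τ z) ∧ A (τ z) (v₁ z) = b z • h z ∧ A (τ z) (v₂ z) = a z • h z) →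
    a z₀ = 0 → b z₀ = 0 → LinearIndependent ℂ ![v₁ z₀, v₂ z₀] →
    (Q.F (τ z₀)).map (A (τ z₀)) ⊔ ℂ ∙ h z₀ = N.F (τ z₀) →
    ∃ l : Z → Λ.W, l z₀ ≠ 0 ∧ ∀ᶠ z in 𝓝 z₀, ContinuousAt l z ∧ l z ∈ Λ.F (τ z) ∧
      j (τ z) (l z) = a z • v₁ z - b z • v₂ z

variable {Y : Ch.Sp} {Q N : VB Y} {A : Y.T → Q.W →ₗ[ℂ] N.W} {c : ℕ}

/-- contraction of the projected form with a vector -/
noncomputable def ctrB (Q : VB Y) (c : ℕ) (t : Y.T) :
    Q.W →ₗ[ℂ] (frm Q (c + 1)).W →ₗ[ℂ] (frm Q c).W :=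
  LinearMap.mk₂ ℂ (fun v θ => fa Q ((fc ((frm Q (c + 1)).P t θ)).curryLeft v))
    (fun _ _ _ => map_add _ _ _) (fun _ _ _ => map_smul _ _ _)
    (fun _ _ _ => by rw [map_add]; rfl) fun _ _ _ => by rw [map_smul]; rfl

theorem fc_ctrB (t : Y.T) (v : Q.W) (θ : (frm Q (c + 1)).W) (u : Fin c → Q.W) :
    fc (ctrB Q c t v θ) u = fc ((frm Q (c + 1)).P t θ) (Matrix.vecCons v u) := rfl

theorem iso_ctrB (hQ : Q.r = c + 1) (t₀ : Y.T) : Iso (Mor.id Y) Q (hm (frm Q (c + 1)) (frm Q c))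
    fun t => ha _ _ (ctrB Q c t) := by
  refine Iso.of_inj (hom_hm (fun t v θ _ => mem_frm.2 ⟨fun _ => trivial, fun u i hi =>
      (mem_frm.1 ((frm Q (c + 1)).P_mem t θ)).2 (Matrix.vecCons v u) i.succ hi⟩)
    (fun t v θ _ h => fc_ext fun u => by rw [fc_ctrB, h]; rfl)
    (fun θ => continuous_frm fun u => (continuous_fc.comp ((frm Q (c + 1)).continuous_P
      continuous_fst continuous_const)).eval (continuous_snd.matrixVecCons continuous_const))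
    fun g t v θ => fc_ext fun u => ?_) (fun t v hv e => ?_) ?_
  · rw [fc_ctrB, VB.P_smul, fc_smul, fc_smul, fc_ctrB]
    exact congrArg _ (funext (Fin.cases (inv_smul_smul g v) fun _ => rfl))
  · obtain ⟨θ, h1, x, h2, h3⟩ := exists_frm hQ t
    refine (smul_eq_zero.1 ((frm_cramer' h1 hQ hv h2).trans
      (Finset.sum_eq_zero fun i _ => ?_))).resolve_left h3
    rw [← (frm Q (c + 1)).P_eq h1, ← fc_ctrB, ← hv_ha, e]
    exact (congrArg _ (zero_smul ℂ (x i))).trans (smul_zero _)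
  · rw [hm_r _ _ t₀, frm_r _ _ t₀, frm_r _ _ t₀, hQ, Nat.choose_self, Nat.choose_succ_self_right,
      one_mul]

/-- the pull-back of forms along `A` -/
noncomputable def pbB (hA : Hom (Mor.id Y) Q N A) (c : ℕ) (t : Y.T) :
    (hm (frm Q (c + 1)) (frm N c)).W →ₗ[ℂ] (frm Q (c + 1)).W →ₗ[ℂ] (frm Q c).W :=
  LinearMap.mk₂ ℂ (fun l θ => fa Q ((fc (hv l θ)).compContinuousLinearMap (hA.clm t)))
    (fun _ _ _ => rfl) (fun _ _ _ => rfl)
    (fun _ _ _ => by rw [map_add]; rfl) fun _ _ _ => by rw [map_smul]; rfl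

theorem fc_pbB (hA : Hom (Mor.id Y) Q N A) (t : Y.T) (l : (hm (frm Q (c + 1)) (frm N c)).W)
    (θ : (frm Q (c + 1)).W) (u : Fin c → Q.W) :
    fc (pbB hA c t l θ) u = fc (hv l θ) fun i => hA.clm t (u i) := rfl

theorem hom_pbB (hA : Hom (Mor.id Y) Q N A) : Hom (Mor.id Y) (hm (frm Q (c + 1)) (frm N c))
    (hm (frm Q (c + 1)) (frm Q c)) fun t => ha _ _ (pbB hA c t) := by
  refine hom_hm (fun t l θ _ => mem_frm.2 ⟨fun _ => trivial, fun u i hi =>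
      (fc (hv l θ)).map_coord_zero i ((congrArg (A t) hi).trans (map_zero _))⟩)
    (fun t l θ hl h => fc_ext fun u => by rw [fc_pbB, (mem_hm.1 hl).2 θ h]; rfl)
    (fun θ => continuous_frm fun u => (continuous_fc.comp (continuous_hv.comp
      (continuous_snd.prodMk continuous_const))).eval (continuous_pi fun i =>
        (hA.continuous_clm.comp continuous_fst).clm_apply continuous_const))
    fun g t l θ => fc_ext fun u => ?_
  rw [fc_pbB, hv_smul, fc_smul, fc_smul, fc_pbB]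
  refine congrArg _ (funext fun i => ?_)
  rw [inv_smul_eq_iff, ← smul_inv_smul g (u i), hA.clm_smul, smul_inv_smul]
  rfl

theorem exists_cofMap (hQ : Q.r = c + 1) (hA : Hom (Mor.id Y) Q N A) (t₀ : Y.T) :
    ∃ j, Hom (Mor.id Y) (hm (frm Q (c + 1)) (frm N c)) Q j ∧
      ∀ t, ∀ l ∈ (hm (frm Q (c + 1)) (frm N c)).F t, ∀ θ ∈ (frm Q (c + 1)).F t, ∀ u,
        (∀ i, u i ∈ Q.F t) → fc θ (Matrix.vecCons (j t l) u) = fc (hv l θ) fun i => A t (u i) := by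
  obtain ⟨R, h1, -, h2⟩ := (iso_ctrB hQ t₀).exists_symm
  have h3 := h1.toHom.comp (hom_pbB hA)
  refine ⟨fun t => R t ∘ₗ ha _ _ (pbB hA c t), ⟨h3.mem, h3.cont, h3.eqv⟩, fun t l hl θ hθ u hu => ?_⟩
  have h4 := congrArg (fun x => fc (hv x θ) u) (h2 t _ ((hom_pbB hA).mem t l hl))
  simp only [hv_ha, fc_ctrB, fc_pbB, (frm Q (c + 1)).P_eq hθ, fun i => hA.clm_eq (hu i)] at h4
  exact h4

theorem notMem_ker {E : VB Y} {t : Y.T} {v w : E.W} (hv : v ∈ E.F t) (hw : w ∈ E.F t)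
    (h : ∀ a : ℂ, a • v ≠ w) : w ∉ LinearMap.ker (E.P t : E.W →ₗ[ℂ] E.W) ⊔ ℂ ∙ v := fun h1 => by
  obtain ⟨k, hk, _, h2, rfl⟩ := Submodule.mem_sup.1 h1
  obtain ⟨a, rfl⟩ := Submodule.mem_span_singleton.1 h2
  have h3 := E.P_eq hw
  rw [map_add, show E.P t k = 0 from hk, zero_add, E.P_eq ((E.F t).smul_mem a hv)] at h3
  exact h a h3

theorem notMem_pair {t : Y.T} {v₁ v₂ : Q.W} (h1 : v₁ ∈ Q.F t) (h2 : v₂ ∈ Q.F t)
    (hi : LinearIndependent ℂ ![v₁, v₂]) : v₁ ∉ LinearMap.ker (Q.P t : Q.W →ₗ[ℂ] Q.W) ∧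
      v₂ ∉ LinearMap.ker (Q.P t : Q.W →ₗ[ℂ] Q.W) ⊔ ℂ ∙ v₁ := by
  obtain ⟨h3, h4⟩ := linearIndependent_fin2.1 (LinearIndependent.pair_symm_iff.1 hi)
  exact ⟨fun h => h3 ((Q.P_eq h1).symm.trans h), notMem_ker h1 h2 h4⟩

theorem two_le_r {t : Y.T} {v₁ v₂ : Q.W} (h1 : v₁ ∈ Q.F t) (h2 : v₂ ∈ Q.F t)
    (hi : LinearIndependent ℂ ![v₁, v₂]) : 2 ≤ Q.r := by
  obtain ⟨h5, h6⟩ := notMem_pair h1 h2 hi
  have h7 := finrank_ker_P Q t
  have h8 := Submodule.finrank_sup_span_singleton h5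
  have h9 := Submodule.finrank_sup_span_singleton h6
  have := (LinearMap.ker (Q.P t : Q.W →ₗ[ℂ] Q.W) ⊔ ℂ ∙ v₁ ⊔ ℂ ∙ v₂).finrank_le
  omega

/-- completion of two independent vectors to a frame -/
theorem exists_tuple (hQ : Q.r = c + 2) {t : Y.T} {v₁ v₂ : Q.W} (h1 : v₁ ∈ Q.F t)
    (h2 : v₂ ∈ Q.F t) (hi : LinearIndependent ℂ ![v₁, v₂]) {θ : (frm Q (c + 2)).W}
    (hθ : θ ∈ (frm Q (c + 2)).F t) (h0 : θ ≠ 0) : ∃ u : Fin c → Q.W,
      (∀ i, u i ∈ Q.F t) ∧ fc θ (Matrix.vecCons v₁ (Matrix.vecCons v₂ u)) ≠ 0 := by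
  obtain ⟨h5, h6⟩ := notMem_pair h1 h2 hi
  have h7 := finrank_ker_P Q t
  have h8 := Submodule.finrank_sup_span_singleton h5
  have h9 := curry_mem (mem_frm.1 hθ) v₁
  have h10 := curry_ne_zero h9 (by omega) (curry_ne_zero (mem_frm.1 hθ) (by omega)
    (fun e => h0 (fc_ext fun v => DFunLike.congr_fun e v)) h5) h6
  refine by_contra fun h => h10 (eq_zero_of_span (curry_mem h9 v₂) (T := Q.F t) ?_
    fun u hu => by_contra fun h11 => h ⟨u, hu, h11⟩)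
  rw [Submodule.span_eq, eq_top_iff, ← ker_sup Q t]
  exact sup_le_sup_right (le_sup_left.trans le_sup_left) _

theorem isCof_of (hQ : Q.r = c + 1) (hN : N.r = c) (hA : Hom (Mor.id Y) Q N A) (t₀ : Y.T)
    {j : Y.T → (hm (frm Q (c + 1)) (frm N c)).W →ₗ[ℂ] Q.W}
    (hj : Hom (Mor.id Y) (hm (frm Q (c + 1)) (frm N c)) Q j)
    (key : ∀ t, ∀ l ∈ (hm (frm Q (c + 1)) (frm N c)).F t, ∀ θ ∈ (frm Q (c + 1)).F t, ∀ u,
      (∀ i, u i ∈ Q.F t) → fc θ (Matrix.vecCons (j t l) u) = fc (hv l θ) fun i => A t (u i)) :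
    IsCof Q N (hm (frm Q (c + 1)) (frm N c)) A j := by
  have r1 : (frm Q (c + 1)).r = 1 := by rw [frm_r _ _ t₀, hQ, Nat.choose_self]
  have r2 : (hm (frm Q (c + 1)) (frm N c)).r = 1 := by
    rw [hm_r _ _ t₀, r1, frm_r _ _ t₀, hN, Nat.choose_self]
  have cr : ∀ t, ∀ l ∈ (hm (frm Q (c + 1)) (frm N c)).F t, ∀ θ ∈ (frm Q (c + 1)).F t, ∀ x,
      (∀ i, x i ∈ Q.F t) → fc θ x • j t l = ∑ i : Fin (c + 1), (-1) ^ (i : ℕ) •
        fc (hv l θ) (i.removeNth fun k => A t (x k)) • x i := fun t l hl θ hθ x hx =>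
    (frm_cramer' hθ hQ (hj.mem t l hl) hx).trans (Finset.sum_congr rfl fun i _ => by
      rw [key t l hl θ hθ (i.removeNth x) fun k => hx _]; rfl)
  have comp : ∀ t, ∀ l ∈ (hm (frm Q (c + 1)) (frm N c)).F t, A t (j t l) = 0 := fun t l hl => by
    obtain ⟨θ, h1, x, h2, h3⟩ := exists_frm hQ t
    refine (smul_eq_zero.1 ?_).resolve_left h3
    rw [← map_smul, cr t l hl θ h1 x h2, map_sum]
    simp only [map_zsmul, map_smul]
    exact frm_cramer ((mem_hm.1 hl).1 θ) hN fun i => hA.mem t _ (h2 i)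
  refine ⟨r2, hj, comp, fun t ht => ?_, fun Z _ z₀ τ v₁ v₂ h a b hz a0 b0 hi hs => ?_⟩
  · have inj : ∀ l ∈ (hm (frm Q (c + 1)) (frm N c)).F t, j t l = 0 → l = 0 := fun l hl e =>
      hm_eq_zero hl fun θ hθ => frm_eq_zero ((mem_hm.1 hl).1 θ) fun n hn => by
        choose u h1 h2 using fun i => ht.ge (hn i)
        rw [← funext h2, ← key t l hl θ hθ u h1, e]
        exact (fc θ).map_coord_zero 0 rfl
    refine ⟨inj, fun v h1 h2 => (Submodule.eq_of_le_of_finrank_eq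
      (S₁ := ((hm (frm Q (c + 1)) (frm N c)).F t).map (j t)) (S₂ := Q.F t ⊓ LinearMap.ker (A t))
      (by rintro _ ⟨l, hl, rfl⟩; exact ⟨hj.mem t l hl, comp t l hl⟩) ?_).ge ⟨h1, h2⟩⟩
    have h3 := finrank_inf_ker (Q.F t) (A t)
    rw [ht, N.rank, Q.rank] at h3
    rw [finrank_map_of_inj inj, VB.rank, r2]
    omega
  obtain ⟨l₀, hl, hl0⟩ := exists_ne_zero _ r2 (τ z₀)
  obtain ⟨θ, hθ, hθ0⟩ := exists_ne_zero _ r1 (τ z₀)
  obtain ⟨c1, c2, c3, c4, -, -, m1, m2, m3, e1, e2⟩ := hz.self_of_nhds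
  obtain ⟨c, rfl⟩ : ∃ c', c = c' + 1 := ⟨c - 1, by have := two_le_r m1 m2 hi; omega⟩
  obtain ⟨u, hu, p0⟩ := exists_tuple hQ m1 m2 hi hθ hθ0
  let x : Z → Fin (c + 2) → Q.W := fun z =>
    Matrix.vecCons (v₁ z) (Matrix.vecCons (v₂ z) fun i => Q.P (τ z) (u i))
  let y : Z → Fin (c + 1) → N.W := fun z => Matrix.vecCons (h z) fun i => hA.clm (τ z) (u i)
  let p : Z → ℂ := fun z => fc ((frm Q (c + 2)).P (τ z) θ) (x z)
  let L : Z → _ := fun z => (hm (frm Q (c + 2)) (frm N (c + 1))).P (τ z) l₀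
  let ω : Z → _ := fun z => hv (L z) ((frm Q (c + 2)).P (τ z) θ)
  have x0 : x z₀ = Matrix.vecCons (v₁ z₀) (Matrix.vecCons (v₂ z₀) u) := by
    simp only [x, fun i => Q.P_eq (hu i)]
  have p0' : p z₀ ≠ 0 := by
    simp only [p, x0, (frm Q (c + 2)).P_eq hθ]
    exact p0
  have L0 : L z₀ ≠ 0 := (VB.P_eq _ hl).trans_ne hl0
  have xm : ∀ z, v₁ z ∈ Q.F (τ z) → v₂ z ∈ Q.F (τ z) → ∀ i, x z i ∈ Q.F (τ z) := fun z h1 h2 =>
    Fin.cases h1 (Fin.cases h2 fun i => Q.P_mem _ _)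
  have q0 : fc (ω z₀) (y z₀) ≠ 0 := fun e => by
    refine hv_ne_zero r1 (VB.P_mem _ (τ z₀) l₀) L0 (VB.P_mem _ (τ z₀) θ)
      (((frm Q (c + 2)).P_eq hθ).trans_ne hθ0) (fc_ext fun v => DFunLike.congr_fun
        (eq_zero_of_tuple (mem_frm.1 ((mem_hm.1 (VB.P_mem _ (τ z₀) l₀)).1 _)) (x := y z₀) ?_ e) v)
    rw [eq_top_iff, ← ker_sup N (τ z₀), ← hs]
    refine sup_le_sup_left (sup_le ?_ ((Submodule.span_singleton_le_iff_mem _ _).2
      (Submodule.subset_span (mem_range_self (f := y z₀) 0)))) _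
    rintro _ ⟨v, h1, rfl⟩
    refine (Submodule.smul_mem_iff _ p0').1 ?_
    rw [← map_smul, frm_cramer' (VB.P_mem _ _ θ) hQ h1 (xm z₀ m1 m2), map_sum]
    refine sum_mem fun i _ => ?_
    rw [map_zsmul, map_smul]
    refine zsmul_mem (Submodule.smul_mem _ _ ?_) _
    refine Fin.cases ?_ (Fin.cases ?_ fun k => Submodule.subset_span ⟨k.succ, rfl⟩) i
    · exact (e1.trans (by rw [b0, zero_smul])).symm ▸ zero_mem _
    · exact (e2.trans (by rw [a0, zero_smul])).symm ▸ zero_mem _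
  have cP : ∀ (E : VB Y) (w : E.W) z, ContinuousAt τ z → ContinuousAt (fun z => E.P (τ z) w) z :=
    fun E w z hz => (E.continuous_P continuous_id continuous_const).continuousAt.comp hz
  have cq : ∀ z, ContinuousAt τ z → ContinuousAt h z →
      ContinuousAt (fun z => fc (ω z) (y z)) z := fun z h1 h2 =>
    (continuous_fc.continuousAt.comp (continuous_hv.continuousAt.comp
      ((cP _ l₀ z h1).prodMk (cP _ θ z h1)))).eval (continuousAt_pi.2 (Fin.cases h2 fun i =>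
        (hA.continuous_clm.continuousAt.comp h1).clm_apply continuousAt_const))
  refine ⟨fun z => (p z / fc (ω z) (y z)) • L z, smul_ne_zero (div_ne_zero p0' q0) L0, ?_⟩
  filter_upwards [hz, (cq z₀ c1 c4).eventually_ne q0] with z
    ⟨d1, d2, d3, d4, _, _, n1, n2, _, f1, f2⟩ hq
  refine ⟨(ContinuousAt.div ((continuous_fc.continuousAt.comp (cP _ θ z d1)).eval
    (continuousAt_pi.2 (Fin.cases d2 (Fin.cases d3 fun i => cP Q _ z d1)))) (cq z d1 d4) hq).smul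
      (cP _ l₀ z d1), Submodule.smul_mem _ _ (VB.P_mem _ _ _), ?_⟩
  have g1 : ∀ v s, A (τ z) v = s • h z → fc (ω z) (fun k => A (τ z) (Matrix.vecCons v
      (fun i => Q.P (τ z) (u i)) k)) = s * fc (ω z) (y z) := fun v s e =>
    (congrArg _ (funext (Fin.cases e fun _ => rfl))).trans ((fc (ω z)).vecCons_smul _ s (h z))
  rw [map_smul, div_eq_inv_mul, mul_smul, cr _ _ (VB.P_mem _ _ _) _ (VB.P_mem _ _ _) _ (xm z n1 n2),
    inv_smul_eq_iff₀ hq, Fin.sum_univ_succ, Fin.sum_univ_succ, Finset.sum_eq_zero, add_zero,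
    smul_sub, smul_smul, smul_smul, mul_comm _ (a z), mul_comm _ (b z), ← g1 _ _ f2, ← g1 _ _ f1,
    sub_eq_add_neg]
  · congr 1
    · exact one_smul _ _
    · refine Eq.trans ?_ (neg_one_zsmul _)
      congr 3
      exact funext (Fin.cases rfl fun _ => rfl)
  · intro i _
    obtain ⟨k, hk⟩ := Fin.exists_succAbove_eq (Fin.succ_ne_zero i.succ).symm
    obtain ⟨k', hk'⟩ := Fin.exists_succAbove_eq (x := (0 : Fin (c + 1)).succ) (y := i.succ.succ)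
      fun e => Fin.succ_ne_zero i (Fin.succ_injective _ e).symm
    rw [show fc (hv _ _) _ = 0 from zero_of_smul (fc (ω z)).toAlternatingMap (i := k) (k := k')
      (fun e => Fin.succ_ne_zero 0 (by rw [← hk', ← e, hk]))
      ((congrArg (fun k => A (τ z) (x z k)) hk).trans f1)
      ((congrArg (fun k => A (τ z) (x z k)) hk').trans f2), zero_smul, smul_zero]

theorem exists_cof {Y : Ch.Sp} (Q N : VB Y) (hr : Q.r = N.r + 1) {A : Y.T → Q.W →ₗ[ℂ] N.W}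
    (hA : Hom (Mor.id Y) Q N A) : ∃ (Λ : VB Y) (j : Y.T → Λ.W →ₗ[ℂ] Q.W), IsCof Q N Λ A j := by
  rcases isEmpty_or_nonempty Y.T with h | ⟨⟨t⟩⟩
  · exact ⟨char 1, fun _ => 0, rfl, ⟨fun t => h.elim t, continuous_const, fun _ t => h.elim t⟩,
      fun t => h.elim t, fun t => h.elim t, fun _ _ z τ => h.elim (τ z)⟩
  obtain ⟨j, h1, h2⟩ := exists_cofMap hr hA t
  exact ⟨_, j, isCof_of hr rfl hA t h1 h2⟩

end Vale.Agent.P269.Grr
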