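import Vale.Agent.P269.Grr.TD
import Vale.Agent.P269.Grr.Cof

/-!
# Vertical tangent data of the universal curve
-/

namespace Vale.Agent.P269.Grr

open Set Function Topology Filter Module Vale.Agent.P291Z Vale.Agent.P269.Ch Vale.Agent.P269.Holo
  Vale.Agent.P269.Loc Vale.Agent.P269.Base PowerSeries

section lin

variable {V W : Type} [AddCommGroup V] [Module ℂ V] [AddCommGroup W] [Module ℂ W]
  {G : Submodule ℂ V} {x : V}

theorem isCompl_ker {R : V →ₗ[ℂ] ℂ} (h : ∀ z : ℂ, R (z • x) = z) :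
    IsCompl (⊤ ⊓ LinearMap.ker R) (ℂ ∙ x) := by
  refine ⟨Submodule.disjoint_def.2 fun v hv hv' => ?_, codisjoint_iff_le_sup.2 fun v _ =>
    Submodule.mem_sup.2 ⟨v - R v • x, ⟨trivial, ?_⟩, _,
      Submodule.smul_mem _ _ (Submodule.mem_span_singleton_self _), sub_add_cancel _ _⟩⟩
  · obtain ⟨z, rfl⟩ := Submodule.mem_span_singleton.1 hv'
    rw [show z = 0 from (h z).symm.trans hv.2, zero_smul]
  · exact (map_sub R _ _).trans (sub_eq_zero.2 (h _).symm)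

theorem compl_split (h : IsCompl G (ℂ ∙ x)) (v : V) : ∃ a ∈ G, ∃ z : ℂ, a + z • x = v := by
  obtain ⟨a, ha, b, hb, e⟩ := Submodule.mem_sup.1
    (codisjoint_iff_le_sup.1 h.2 (Submodule.mem_top (x := v)))
  obtain ⟨z, rfl⟩ := Submodule.mem_span_singleton.1 hb
  exact ⟨a, ha, z, e⟩

theorem compl_inj (h : IsCompl G (ℂ ∙ x)) (hx : x ≠ 0) {a : V} (ha : a ∈ G) {z : ℂ}
    (e : a + z • x = 0) : a = 0 ∧ z = 0 := by
  have e1 : a = -(z • x) := eq_neg_of_add_eq_zero_left e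
  have e2 : a = 0 := Submodule.disjoint_def.1 h.1 _ ha (e1 ▸ neg_mem
    (Submodule.smul_mem _ _ (Submodule.mem_span_singleton_self _)))
  exact ⟨e2, (smul_eq_zero.1 (neg_eq_zero.1 (e1.symm.trans e2))).resolve_right hx⟩

theorem finrank_compl_inf [FiniteDimensional ℂ V] (h : IsCompl G (ℂ ∙ x)) (hx : x ≠ 0)
    {T : Submodule ℂ V} (hT : x ∈ T) (h3 : finrank ℂ T = 3) :
    finrank ℂ (G ⊓ T : Submodule ℂ V) = 2 := by
  have h5 := Submodule.finrank_sup_add_finrank_inf_eq (T ⊓ G) (ℂ ∙ x)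
  rw [inf_sup_assoc_of_le _ ((Submodule.span_singleton_le_iff_mem _ _).2 hT), h.sup_eq_top,
    inf_top_eq, h3, inf_assoc, h.inf_eq_bot, inf_bot_eq, finrank_bot, finrank_span_singleton hx,
    inf_comm] at h5
  omega

theorem map_eq_of_rank [FiniteDimensional ℂ V] [FiniteDimensional ℂ W] (hx : x ≠ 0)
    {K : Submodule ℂ V} {N : Submodule ℂ W} {B : V →ₗ[ℂ] W} (l1 : ∀ w ∈ K, B w ∈ N)
    (l2 : ∀ w ∈ K, B w = 0 → w ∈ ℂ ∙ x) (hK : finrank ℂ K = 3) (hN : finrank ℂ N = 2) :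
    (∀ n ∈ N, ∃ w ∈ K, B w = n) ∧ ∀ z : ℂ, B (z • x) = 0 := by
  have h4 := finrank_inf_ker K B
  have l3 : K.map B ≤ N := by rintro _ ⟨w, hw, rfl⟩; exact l1 w hw
  have l4 : K ⊓ LinearMap.ker B ≤ ℂ ∙ x := fun w hw => l2 w hw.1 hw.2
  have r1 := Submodule.finrank_mono l3
  have r2 := Submodule.finrank_mono l4
  have r4 := finrank_span_singleton (K := ℂ) hx
  exact ⟨(Submodule.eq_of_le_of_finrank_eq l3 (by omega)).ge, fun z =>
    ((Submodule.eq_of_le_of_finrank_eq l4 (by omega)).ge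
      (Submodule.mem_span_singleton.2 ⟨z, rfl⟩)).2⟩

theorem li_of_proj {v w : Fin 2 → V} (h : LinearIndependent ℂ ![x, v 0, v 1])
    (hw : ∀ k, ∃ z : ℂ, v k = w k + z • x) : LinearIndependent ℂ w := by
  refine Fintype.linearIndependent_iff.2 fun s hs => ?_
  obtain ⟨z, hz⟩ := hw 0
  obtain ⟨z', hz'⟩ := hw 1
  rw [Fin.sum_univ_two] at hs
  exact Fin.forall_fin_two.2 (of_li_triple h (e := s 0) (e' := s 1) (s := s 0 * z + s 1 * z') (by
    rw [hz, hz', smul_add, smul_add, add_add_add_comm, hs, zero_add, add_smul, mul_smul, mul_smul]))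

theorem eq_smul_neg {B : V →ₗ[ℂ] W} {a ξ : V} {z : ℂ} {n : W} (h : B (a + z • ξ) = 0)
    (hn : n = B ξ) : B a = z • -n := by
  rw [map_add, map_smul] at h
  rw [hn, smul_neg]
  exact eq_neg_of_add_eq_zero_left h

theorem eq_neg_smul_neg {B : V →ₗ[ℂ] W} {a ξ : V} {z : ℂ} {n : W} (h : B (a - z • ξ) = 0)
    (hn : n = B ξ) : -z • -n = B a := by
  rw [map_sub, map_smul] at h
  rw [hn, neg_smul_neg]
  exact (sub_eq_zero.1 h).symm

end lin

namespace CF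

variable {ι : Type} [Fintype ι] {U : HO} {M : ι → ℕ} {o : ι} {g : ℤ} {m : ι → ℤ}
  {F : CF U M o g m}

variable (F) in
theorem hom_pw : Ch.Hom (Mor.id F.Cv) (char 1) F.VT
    fun y : F.Z => LinearMap.toSpanSingleton ℂ (Fin (M o) → ℂ) (pw y.1) :=
  Hom.of_continuous (fun _ _ _ => trivial)
    (show Continuous fun x : F.Z × ℂ => x.2 • F.wZ x.1 from
      continuous_snd.smul (F.continuous_wZ.comp continuous_fst))
    fun (s : U.G × ℂˣ) (y : F.Z) (z : ℂ) _ =>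
      show (((1 : ℂˣ) : ℂ) * z) • (s.2 : ℂ) • F.ρ s.1 o (pw y.1) =
          (s.2 : ℂ) • F.ρ s.1 o (z • pw y.1) by
        rw [Units.val_one, one_mul, map_smul, smul_comm]

variable (F) in
-- a complement of the tautological line
theorem exists_Q : ∃ (G : F.Z → Submodule ℂ (Fin (M o) → ℂ)) (h1 : _) (h2 : _) (h3 : _),
    (∀ y, IsCompl (G y) (ℂ ∙ pw y.1)) ∧ F.VT.chc = 1 + (F.VT.sub G (M o - 1) h1 h2 h3).chc := by
  have h3 := F.three
  obtain ⟨R, hR, hr, h1, h2⟩ := F.hom_pw.exists_compl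
    (fun y z _ e => (smul_eq_zero.1 e).resolve_right (F.pw_ne y.1)) (k := M o - 1)
    (show M o = 1 + (M o - 1) by omega)
  refine ⟨_, (hR.ker _ hr).closed, hr, (hR.ker _ hr).inv,
    fun y => isCompl_ker fun z => h1 y z trivial, ?_⟩
  rw [Exact.chc h2, chc_char_one, add_comm]

theorem pw_mem_tC (y : F.Z) : (0, pw y.1) ∈ F.tC y := by
  obtain ⟨x, rfl⟩ := F.surjective_fZ y
  obtain ⟨γ, hγ⟩ := (F.crv x.t).nod.exists_loc x.mem
  exact (F.mem_tC hγ).2 ⟨1, 0, 0, by rw [one_smul, zero_smul, zero_smul, add_zero, add_zero]; rfl⟩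

/-- the projection to a complement of the tautological line -/
theorem exists_pr {G : F.Z → Submodule ℂ (Fin (M o) → ℂ)} {h1 h2 h3}
    (_ : ∀ _ : F.Z, (F.VT.sub G (M o - 1) h1 h2 h3).r = M o - 1)
    (hG : ∀ y, IsCompl (G y) (ℂ ∙ pw y.1)) :
    ∃ p : F.Z × (Fin (M o) → ℂ) → Fin (M o) → ℂ, Continuous p ∧
      ∀ y v, p (y, v) ∈ G y ∧ ∃ z : ℂ, v = p (y, v) + z • pw y.1 := by
  have h0 : Ch.Hom (Mor.id F.Cv) (F.VT.sub G (M o - 1) h1 h2 h3) F.VT fun _ => LinearMap.id :=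
    Hom.of_continuous (fun _ _ _ => trivial) continuous_snd fun _ _ _ _ => rfl
  have hS : Ch.Iso (Mor.id F.Cv) ((F.VT.sub G (M o - 1) h1 h2 h3).sum (char 1)) F.VT
      fun y : F.Z => LinearMap.coprod LinearMap.id
        (LinearMap.toSpanSingleton ℂ (Fin (M o) → ℂ) (pw y.1)) := by
    refine ⟨⟨fun _ _ _ => trivial, (h0.comp (hom_fst _ _)).cont.add
      (F.hom_pw.comp (hom_snd _ _)).cont, fun s y w _ => ?_⟩, fun y w hw e => ?_, fun y v _ => ?_⟩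
    · exact (congrArg ((show F.VT.W from s • w.1) + ·) (F.hom_pw.eqv s y w.2 trivial)).trans
        (smul_add s (show F.VT.W from w.1) _).symm
    · exact Prod.ext (compl_inj (hG y) (F.pw_ne y.1) hw.1 e).1
        (compl_inj (hG y) (F.pw_ne y.1) hw.1 e).2
    · obtain ⟨a, ha, z, e⟩ := compl_split (hG y) v
      exact ⟨(a, z), ⟨ha, trivial⟩, e⟩
  obtain ⟨R, hR, -, h4⟩ := hS.exists_symm
  exact ⟨fun q => (R q.1 q.2).1, (hR.continuous continuous_fst continuous_snd fun _ => trivial).fst,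
    fun y v => ⟨(hR.mem y v trivial).1, _, (h4 y v trivial).symm⟩⟩

variable {c : Cut F.P F.Z} {e : F.Z → F.PX.A →ₗ[ℂ] c.N.W}
  (hE : Ch.Exact F.CH.tanB (F.PX.tanB.pb c.i) c.NS (fun _ => LinearMap.id) e)
  {G : F.Z → Submodule ℂ (Fin (M o) → ℂ)} {h1 h2 h3} (hG : ∀ y, IsCompl (G y) (ℂ ∙ pw y.1))

theorem mem_tan_PX {y : (F.Vb o).PT} {v : U.A × (Fin (M o) → ℂ)} :
    v ∈ tan F.PX.ι y ↔ v.1 ∈ tan U.ι y.t := mem_tan_ps

include hE

theorem hom_eV : Ch.Hom (Mor.id F.Cv) F.VT c.NS (eV e) := by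
  have h := hE.hB.comp (Hom.of_continuous (m := Mor.id F.Cv) (E' := F.VT)
    (A := fun _ => LinearMap.inr ℂ U.A (Fin (M o) → ℂ)) (fun _ _ _ => mem_tan_PX.2 (zero_mem _))
    (continuous_const.prodMk continuous_snd) fun (s : U.G × ℂˣ) _ _ _ =>
      Prod.ext (smul_zero (A := U.A) s.1).symm rfl)
  exact ⟨h.mem, h.cont, h.eqv⟩

theorem e_eq_zero {y : F.Z} {v : U.A × (Fin (M o) → ℂ)} (hv : v ∈ F.tC y) : e y v = 0 :=
  (hE.ex y v (hE.hA.mem y v hv)).2 ⟨v, hv, rfl⟩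

theorem eV_eq_zero {y : F.Z} {v : Fin (M o) → ℂ} : eV e y v = 0 ↔ (0, v) ∈ F.tC y :=
  ⟨fun h => by
    obtain ⟨w, h1, h2⟩ := (hE.ex y ((0, v) : U.A × (Fin (M o) → ℂ))
      (mem_tan_PX.2 (zero_mem _))).1 h
    exact (show w = ((0, v) : U.A × (Fin (M o) → ℂ)) from h2) ▸ h1, e_eq_zero hE⟩

theorem eV_pw (y : F.Z) : eV e y (pw y.1) = 0 := (eV_eq_zero hE).2 (pw_mem_tC y)

theorem eV_add_pw {y : F.Z} {v w : Fin (M o) → ℂ} {z : ℂ} (h : v = w + z • pw y.1) :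
    eV e y v = eV e y w := by
  rw [h, map_add, map_smul, eV_pw hE, smul_zero, add_zero]

omit hE in
theorem e_split (y : F.Z) (a : U.A) (u u' : Fin (M o) → ℂ) :
    e y ((a, u) : U.A × (Fin (M o) → ℂ)) =
      eV e y (u - u') + e y ((a, u') : U.A × (Fin (M o) → ℂ)) :=
  (congrArg (e y) (Prod.ext (zero_add a).symm (sub_add_cancel u u').symm)).trans (map_add _ _ _)

include hG

theorem eV_mem (y : F.Z) (v : Fin (M o) → ℂ) : eV e y v ∈ (G y).map (eV e y) := by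
  obtain ⟨a, ha, z, h⟩ := compl_split (hG y) v
  exact ⟨a, ha, (eV_add_pw hE h.symm).symm⟩

theorem map_eV {y : F.Z} (hy : y ∉ F.Nd) : (G y).map (eV e y) = c.NS.F y := by
  refine le_antisymm (by rintro _ ⟨v, -, rfl⟩; exact (hom_eV hE).mem y v trivial) fun n hn => ?_
  obtain ⟨x, rfl⟩ := F.surjective_fZ y
  obtain ⟨⟨a, u⟩, h4, rfl⟩ := hE.surj _ n hn
  obtain ⟨u', h5⟩ := F.smooth_loc (fun h => hy (F.mem_Nd.2 h)) a (mem_tan_PX.1 h4)
  exact ((e_split (e := e) _ a u u').trans ((congrArg (_ + ·) (e_eq_zero hE h5)).trans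
    (add_zero _))).symm ▸ eV_mem hE hG _ _

theorem nd_data {y : F.Z} (hy : y ∈ F.Nd) : ∃ (Φ : F.CH.A → Fin 2 → ℂ)
      (v : F.Z → Fin 2 → Fin (M o) → ℂ) (n : F.Z → c.N.W), AnalyticAt ℂ Φ (F.CH.ι y) ∧
      (∀ᶠ x : F.Z in 𝓝 y, x ∈ F.Nd → Φ (F.CH.ι x) = 0) ∧
      (∀ w, ∃ a ∈ tan F.CH.ι y, fderiv ℂ Φ (F.CH.ι y) a = w) ∧
      (∀ᶠ x : F.Z in 𝓝 y, ContinuousAt v x ∧ ContinuousAt n x ∧ n x ∈ c.NS.F x ∧
        ∀ k, v x k ∈ (F.VT.sub G (M o - 1) h1 h2 h3).F x ∧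
          eV e x (v x k) = Φ (F.CH.ι x) k • n x) ∧
      LinearIndependent ℂ (v y) ∧ (G y).map (eV e y) ⊔ ℂ ∙ n y = c.NS.F y := by
  obtain ⟨x, hx, rfl⟩ := hy
  obtain ⟨Φ, v, ξ, a1, a2, a3, a4, a5, a6⟩ := F.node_loc hx
  obtain ⟨p, p1, p2⟩ := exists_pr (h1 := h1) (h2 := h2) (h3 := h3) (fun _ => rfl) hG
  have hn : ∀ y : F.Z, -hE.hB.clm y (ξ y) ∈ c.NS.F y := fun y =>
    neg_mem (hE.hB.mem y _ ((F.PX.tanB.pb c.i).P_mem y _))
  have hc : ∀ y : F.Z, (ξ y).1 ∈ tan U.ι (VB.PT.t y.1) → hE.hB.clm y (ξ y) = e y (ξ y) :=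
    fun y h => hE.hB.clm_eq (mem_tan_PX.2 h)
  refine ⟨Φ, fun y k => p (y, v y k), fun y => -hE.hB.clm y (ξ y), a1, a2, a3,
    a4.mono fun y ⟨b1, b2, b3, b4⟩ => ⟨continuousAt_pi.2 fun k => p1.continuousAt.comp
      (continuousAt_id.prodMk (continuousAt_pi.1 b1 k)),
      (hE.hB.continuous_clm.continuousAt.clm_apply b2).neg, hn y, fun k => ⟨(p2 y _).1, ?_⟩⟩,
    li_of_proj a5 fun k => (p2 (F.toCv.f x) _).2, le_antisymm (sup_le ?_ ?_) fun n hn => ?_⟩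
  · obtain ⟨z, hz⟩ := (p2 y (v y k)).2
    exact (eV_add_pw hE hz).symm.trans (eq_smul_neg (B := e y) (e_eq_zero hE (b4 k)) (hc y b3))
  · rintro _ ⟨w, -, rfl⟩
    exact (hom_eV hE).mem _ w trivial
  · exact (Submodule.span_singleton_le_iff_mem _ _).2 (hn _)
  · obtain ⟨⟨a, u⟩, h4, rfl⟩ := hE.surj _ n hn
    obtain ⟨u', z, h5⟩ := a6 a (mem_tan_PX.1 h4)
    have h6 := eq_neg_smul_neg (B := e (F.toCv.f x)) (e_eq_zero hE h5) (hc _ a4.self_of_nhds.2.2.1)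
    exact (e_split (e := e) _ a u u').symm ▸ Submodule.add_mem_sup (eV_mem hE hG _ _)
      (h6 ▸ Submodule.smul_mem _ _ (Submodule.mem_span_singleton_self _))

theorem isOm [DecidableEq ι] {Λ : VB F.Cv} {j : F.Z → Λ.W →ₗ[ℂ] (Fin (M o) → ℂ)}
    (h : IsCof (F.VT.sub G (M o - 1) h1 h2 h3) c.NS Λ (eV e) j) :
    F.IsOm (Λ.pb F.toCv) fun x => j (F.toCv.f x) := by
  refine ⟨h.rank, ⟨fun _ _ _ => trivial, h.hom.continuous (F.toCv.cf.comp (by fun_prop))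
    (continuous_snd.comp continuous_subtype_val) fun x => x.2, fun s x w hw => ?_⟩,
    fun x γ hx hγ h0 l hl hl0 => ?_⟩
  · exact (h.hom.eqv (F.toCv.ρ s) (F.toCv.f x) w hw).trans
      (congrArg (fun u : ℂˣ => (u : ℂ) • F.ρ s.1 o (j (F.toCv.f x) w)) (F.ch_single s).symm)
  · have h4 := (h.sm _ (map_eV hE hG fun h => hx (F.mem_Nd.1 h))).1 l hl
    obtain ⟨α, β, β', h5⟩ := (F.mem_tC (h0 ▸ (F.crv x.t).nod.loc_of_branch hγ (h0 ▸ hx))).1
      ((eV_eq_zero hE).1 (h.comp _ l hl))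
    refine ⟨α, β + β', fun h6 => hl0 (h4 (Submodule.disjoint_def.1 (hG _).1 _ (h.hom.mem _ l hl)
      (Submodule.mem_span_singleton.2 ⟨α, ?_⟩))), by rw [add_smul, ← add_assoc]; exact h5⟩
    rw [add_assoc, ← add_smul, h6, zero_smul, add_zero] at h5
    exact h5.symm

section nd

variable {c' : Cut F.Cv F.Nd} {e' : F.Nd → F.CH.A →ₗ[ℂ] c'.N.W} (hr : c'.N.r = 2)
  (hE' : Ch.Exact F.NH.tanB (F.CH.tanB.pb c'.i) c'.NS (fun _ => LinearMap.id) e')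

omit hE hG in
include hE' in
theorem span_of_e {y : F.Nd} {v : Fin (M o) → ℂ} (hv : (0, v) ∈ F.tC y.1)
    (h : e' y ((0, v) : U.A × (Fin (M o) → ℂ)) = 0) : v ∈ ℂ ∙ pw y.1.1 := by
  obtain ⟨w, h4, h5⟩ := (hE'.ex y _ hv).1 h
  obtain ⟨α, h6⟩ := F.tan_Nd y ((show w = ((0, v) : U.A × (Fin (M o) → ℂ)) from h5) ▸ h4)
  exact Submodule.mem_span_singleton.2 ⟨α, h6.symm⟩

include hr hE'

theorem exists_K : ∃ (K : VB c'.S) (i : F.Nd → K.W →ₗ[ℂ] (Fin (M o) → ℂ)),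
    Ch.Hom c'.i K (F.VT.sub G (M o - 1) h1 h2 h3) i ∧ (∀ t, ∀ w ∈ K.F t, i t w = 0 → w = 0) ∧
      (∀ t, ∀ w ∈ K.F t, eV e t.1 (i t w) = 0) ∧ K.r = 2 ∧ K.chc = c'.NS.chc := by
  have h0 : Ch.Hom c'.i ((F.VT.sub G (M o - 1) h1 h2 h3).pb c'.i) F.VT fun _ => LinearMap.id :=
    Hom.of_continuous (fun _ _ _ => trivial) continuous_snd fun _ _ _ _ => rfl
  have hB := (hom_eV hE).comp h0
  have hk : ∀ t : F.Nd, finrank ℂ (G t.1 ⊓ LinearMap.ker (eV e t.1) :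
      Submodule ℂ (Fin (M o) → ℂ)) = 2 := by
    rintro ⟨_, x, hx, rfl⟩
    exact finrank_compl_inf (hG _) (F.pw_ne _) (eV_pw hE _) ((congrArg
      (fun S : Submodule ℂ (Fin (M o) → ℂ) => finrank ℂ S)
      (Submodule.ext fun _ => eV_eq_zero hE)).trans (F.finrank_vert hx))
  have hI := hE'.hB.comp (Hom.of_continuous (m := Mor.id c'.S) (E' := hB.ker 2 hk)
    (A := fun _ => LinearMap.inr ℂ U.A (Fin (M o) → ℂ)) (fun _ _ h => (eV_eq_zero hE).1 h.2)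
    (continuous_const.prodMk continuous_snd) fun (s : U.G × ℂˣ) _ _ _ =>
      Prod.ext (smul_zero (A := U.A) s.1).symm rfl)
  refine ⟨hB.ker 2 hk, fun _ => LinearMap.id, Hom.of_continuous (fun _ _ h => h.1) continuous_snd
    fun _ _ _ _ => rfl, fun _ _ _ h => h, fun _ _ h => h.2, rfl,
    Iso.chc' (Iso.of_inj ⟨hI.mem, hI.cont, hI.eqv⟩ (fun t w hw h => ?_) hr.symm)⟩
  exact Submodule.disjoint_def.1 (hG t.1).1 _ hw.1 (span_of_e hE' ((eV_eq_zero hE).1 hw.2) h)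

omit hE hG in
theorem chc_Kn [DecidableEq ι] : F.Kn.chc = 1 + pS F.toNd.map c'.NS.chc := by
  have hA : Ch.Hom (Mor.id _) (char 1) F.Kn
      fun x : F.UN => LinearMap.toSpanSingleton ℂ (Fin (M o) → ℂ) (UT.c x.1 o) :=
    Hom.of_continuous (fun x (z : ℂ) _ => F.Kn.F x |>.smul_mem z (pw_mem_tC (F.toCv.f x.1)))
      (show Continuous fun x : F.UNH.T × ℂ => x.2 • UT.c (F.iN.f x.1) o from
        continuous_snd.smul ((continuous_apply o).comp (UT.continuous_c.comp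
          (F.iN.cf.comp continuous_fst))))
      fun (s : U.G × Tor ι) (x : F.UN) (z : ℂ) _ =>
        show (((1 : ℂˣ) : ℂ) * z) • (s.2 o : ℂ) • F.ρ s.1 o (UT.c x.1 o) =
            (F.ch (Pi.single o 1) s : ℂ) • F.ρ s.1 o (z • UT.c x.1 o) by
          rw [Units.val_one, one_mul, map_smul, smul_comm, F.ch_single]
  have hB := (hE'.hB.comp (Hom.of_continuous (m := F.toNd) (E' := F.Kn)
    (A := fun _ => LinearMap.inr ℂ U.A (Fin (M o) → ℂ)) (fun _ _ h => h)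
    (continuous_const.prodMk continuous_snd) fun (s : U.G × Tor ι) _ w _ =>
      Prod.ext (smul_zero (A := U.A) s.1).symm
        (congrArg (fun u : ℂˣ => (u : ℂ) • F.ρ s.1 o w) (F.ch_single s)))).pb
  have key := fun x : F.UN => map_eq_of_rank (V := F.Kn.W) (UT.ne x.1 o) (hB.mem x)
    (fun w hw h => span_of_e hE' (y := F.toNd.f x) hw h) (F.Kn.rank x) ((c'.NS.rank _).trans hr)
  have hX := Exact.of_rank hA hB
    (fun x (z : ℂ) _ e => (smul_eq_zero.1 (show z • UT.c x.1 o = 0 from e)).resolve_right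
      (UT.ne x.1 o)) (fun x => (key x).1) (fun x (z : ℂ) _ => (key x).2 z)
    (congrArg (1 + ·) hr.symm)
  rw [Exact.chc hX, chc_char_one]
  exact congrArg (1 + ·) (chc_pb c'.NS F.toNd)

end nd

end CF

end Vale.Agent.P269.Grr
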