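import Vale.Agent.P269.Grr.NdA
import Vale.Agent.P269.Grr.NdB
import Vale.Agent.P269.Grr.NL

/-!
# The relative Todd class of the universal curve
-/

namespace Vale.Agent.P269.Grr

open Set Function Topology Filter Module Vale.Agent.P291Z Vale.Agent.P269.Ch Vale.Agent.P269.Holo
  Vale.Agent.P269.Loc Vale.Agent.P269.Base PowerSeries

section tr

variable {X X' Z Z' : Type} [TopologicalSpace X] [TopologicalSpace X'] [TopologicalSpace Z]
  [TopologicalSpace Z']

theorem ndc_bij {f : C(X', X)} (hf : IsHomeomorph f) : Bijective (Hev.map f) := by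
  let k : C(X, X') := ⟨(hf.homeomorph f).symm, (hf.homeomorph f).symm.continuous⟩
  refine bijective_iff_has_inverse.2 ⟨Hev.map k, fun a => ?_, fun a => ?_⟩
  · exact (Hev.map_map k f a).trans (Hev.map_id (hf.homeomorph f).apply_symm_apply a)
  · exact (Hev.map_map f k a).trans (Hev.map_id (hf.homeomorph f).symm_apply_apply a)

variable [Nice X] [Nice X'] [Nice Z] [Nice Z']

/-- transport of a Gysin map along homeomorphisms -/
theorem ndc_transport {f : C(X', X)} {h : C(Z', Z)} {i : C(Z, X)} {i' : C(Z', X')}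
    (hf : IsHomeomorph f) (hh : IsHomeomorph h) (hi : IsClosedEmbedding i)
    (sq : f.comp i' = i.comp h) {g : Hev Z →ₗ[ℂ] Hev X}
    (mul : ∀ a q, g (Hev.map i a * q) = a * g q) {β : BM X} {γ : BM Z}
    (hc : ∀ q, cap (g q).1 β = push i (cap q.1 γ)) : ∃ g' : Hev Z' →ₗ[ℂ] Hev X',
      (∀ q, g' (Hev.map h q) = Hev.map f (g q)) ∧ (∀ a q, g' (Hev.map i' a * q) = a * g' q) ∧
      ∀ q, cap (g' q).1 (res f β) = push i' (cap q.1 (res h γ)) := by
  let e := LinearEquiv.ofBijective (Hev.map h).toLinearMap (ndc_bij hh)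
  have sq' : ∀ z, i (h z) = f (i' z) := fun z => (DFunLike.congr_fun sq z).symm
  have h0 : ∀ q, ((Hev.map f).toLinearMap ∘ₗ g ∘ₗ e.symm.toLinearMap) (Hev.map h q) =
      Hev.map f (g q) := fun q => congrArg (fun x => Hev.map f (g x)) (e.symm_apply_apply q)
  refine ⟨_, h0, fun a q => ?_, fun q => ?_⟩
  · obtain ⟨a, rfl⟩ := (ndc_bij hf).2 a
    obtain ⟨q, rfl⟩ := (ndc_bij hh).2 q
    rw [Hev.map_map, sq, ← Hev.map_map, ← map_mul, h0, h0, mul, map_mul]
  · obtain ⟨q, rfl⟩ := (ndc_bij hh).2 q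
    have hi' : IsClosedEmbedding i' := hf.isClosedEmbedding.of_comp_iff.1
      ((funext sq' : i ∘ h = f ∘ i') ▸ hi.comp hh.isClosedEmbedding)
    rw [h0, Hev.coe_map, Hev.coe_map, ← res_cap hf.isOpenEmbedding, ← res_cap hh.isOpenEmbedding,
      hc]
    exact res_push hf.isOpenEmbedding hh.isOpenEmbedding (.of_isClosedEmbedding hi)
      (.of_isClosedEmbedding hi') sq' (fun z _ => hh.surjective z) _

end tr

namespace CF

variable {ι : Type} [Fintype ι] [DecidableEq ι] {U : HO} {M : ι → ℕ} {o : ι} {g : ℤ} {m : ι → ℤ}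
  {F : CF U M o g m}

-- the relative Todd class of the universal curve
theorem exists_td {c : Cut F.P F.Z} {e : F.Z → F.PX.A →ₗ[ℂ] c.N.W} (hr : c.N.r = M o - 2)
    (hE : Ch.Exact F.CH.tanB (F.PX.tanB.pb c.i) c.NS (fun _ => LinearMap.id) e) :
    ∃ Λ j gN Φ, F.IsTd Λ j gN Φ ∧
      pS F.toCv.map (tdOf (F.VT.chc - (show VB F.Cv from c.NS).chc)) = tdC Λ gN Φ := by
  obtain ⟨G, h1, h2, h3, hG, hQ⟩ := F.exists_Q
  have hA : Ch.Hom (Mor.id F.Cv) (F.VT.sub G (M o - 1) h1 h2 h3) c.NS (eV e) :=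
    ⟨fun t w _ => (hom_eV hE).mem t w trivial, (hom_eV hE).continuous
      (continuous_fst.comp continuous_subtype_val) (continuous_snd.comp continuous_subtype_val)
      fun _ => trivial, fun s t w _ => (hom_eV hE).eqv s t w trivial⟩
  have hrk : (F.VT.sub G (M o - 1) h1 h2 h3).r = (show VB F.Cv from c.NS).r + 1 := by
    have := F.three
    show M o - 1 = c.N.r + 1
    omega
  obtain ⟨Λ, j, hΛ⟩ := exists_cof _ _ hrk hA
  obtain ⟨c', e', hr', hg', hE', hF⟩ := exists_cut F.CH F.Nd F.isClosed_Nd (r := 2) F.mfd_Nd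
    fun ⟨_, x, hx, _⟩ => by
      have := F.one_le hx
      show U.n - 1 + 2 = U.n + 1
      omega
  obtain ⟨K, i, k1, k2, k3, k4, k5⟩ := exists_K (h1 := h1) (h2 := h2) (h3 := h3) hE hG hr' hE'
  obtain ⟨t1, Φ, t2, t3⟩ := IsCof.td (Y := F.Cv) c' hr' hΛ hA hrk (fun t ht => map_eV hE hG ht)
    (fun y hy => by
      obtain ⟨Φ, v, n, a1, a2, a3, a4, a5, a6⟩ := nd_data (h1 := h1) (h2 := h2) (h3 := h3) hE hG hy
      refine ⟨fun x => Φ (F.CH.ι x), v, n, hF y hy _ Φ a1 (.of_forall fun _ => rfl) a2 a3, ?_,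
        a5, a6⟩
      filter_upwards [a4, F.CH.cι.continuousAt.eventually a1.eventually_analyticAt] with x b1 b2
      exact ⟨b2.continuousAt.comp F.CH.cι.continuousAt, b1⟩) k1 k2 k3 k4 k5
  obtain ⟨g', g1, g2, -⟩ := c'.exists_g
  have g3 : ∀ q, cap (g' q).1 F.CH.fund = push c'.i.map (cap q.1 F.NH.fund) := fun q => by
    rw [g1, c'.cap_g, hg']
    rfl
  have sq : F.toCv.map.comp F.iN.map = c'.i.map.comp F.toNd.map :=
    (Mor.map_comp _ _).symm.trans ((Mor.map_ext fun _ => rfl).trans (Mor.map_comp c'.i F.toNd))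
  obtain ⟨gN, n1, n2, n3⟩ := ndc_transport F.isHomeomorph_toCv F.isHomeomorph_toNd
    c'.isClosedEmbedding sq g2 (β := F.CH.fund) (γ := F.NH.fund) g3
  rw [F.res_toCv, F.res_toNd] at n3
  refine ⟨Λ.pb F.toCv, fun x => j (F.toCv.f x), gN, pS F.toNd.map Φ, ⟨isOm hE hG hΛ, n2, n3,
    ?_, fun S _ κ a b h => ?_⟩, ?_⟩
  · rw [VB.eu_pb, Hev.map_map, sq]
    exact (Hev.map_map F.toNd.map c'.i.map _).symm.trans ((congrArg _ t1).trans (map_zero _))
  · rw [chc_Kn hr' hE', map_add, map_one, add_assoc, add_right_inj] at h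
    exact (pS_pS κ F.toNd.map _).trans (t3 S _ a b ((pS_pS κ F.toNd.map _).symm.trans h))
  · rw [hQ, add_sub_assoc, tdOf_add, tdOf_one, one_mul]
    refine (congrArg _ t2).trans ?_
    rw [map_add, map_mul, map_pow, map_X, map_ev, ← VB.eu_pb]
    refine congrArg (fun A => ev (Λ.pb F.toCv).eu tdS + X ^ 2 * A) (PowerSeries.ext fun k => ?_)
    rw [coeff_map, coeff_mapL, coeff_mapL]
    exact (congrArg _ (g1 _).symm).trans (n1 _).symm

end CF

end Vale.Agent.P269.Grr
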