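import Vale.Agent.P269.Grr.Push
import Vale.Agent.P269.Grr.NdC
import Vale.Agent.P269.Grr.Bei
import Vale.Agent.P269.Grr.PB

/-!
# Grothendieck-Riemann-Roch for the universal curve
-/

namespace Vale.Agent.P269.Grr

open Set Function Topology Filter Module Vale.Agent.P291Z Vale.Agent.P269.Ch Vale.Agent.P269.Holo
  Vale.Agent.P269.Loc Vale.Agent.P269.Base PowerSeries

theorem pS_mul_tdOf {S T : Type} [TopologicalSpace S] [TopologicalSpace T] (f : C(S, T))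
    {A B D γ : (Hev T)⟦X⟧} (h : γ * tdOf B = D) :
    pS f D * pS f (tdOf (A - B)) = pS f (tdOf A * γ) := by
  rw [← map_mul, ← h, mul_assoc, ← tdOf_add, add_sub_cancel, mul_comm]

namespace CF

variable {ι : Type} [Fintype ι] [DecidableEq ι] {U : HO} {M : ι → ℕ} {o : ι} {g : ℤ} {m : ι → ℤ}
  (F : CF U M o g m)

omit [DecidableEq ι] in
/-- integration over the curve in the projective bundle -/
theorem push_cut (c : Cut F.P F.Z) (hg : gys c.i.map c.t F.PX.fund = F.CH.fund) (q : Hev F.Cv.X) :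
    push (F.Vb o).pp.map (cap (c.g q).1 F.PX.fund) =
      push F.pr.map (cap (Hev.map F.toCv.map q).1 F.UC.fund) := by
  have h1 : IsPr F.toCv.map := IsPr.of_isClosedEmbedding F.isHomeomorph_toCv.isClosedEmbedding
  have h2 : IsPr F.iC.map := IsPr.of_isClosedEmbedding c.isClosedEmbedding
  have h3 : cap q.1 F.CH.fund = push F.toCv.map (cap (Hev.map F.toCv.map q).1 F.UC.fund) :=
    (push_res_homeo F.isHomeomorph_toCv _).symm.trans (congrArg _
      ((res_cap F.etale_toCv.1 _ _).trans (congrArg _ F.res_toCv)))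
  have h4 : ((F.Vb o).pp.map ∘ F.iC.map) ∘ F.toCv.map = F.pr.map := F.pr.map_eq fun t => by
    rw [comp_apply, comp_apply, Mor.map_π, Mor.map_π, Mor.map_π]
    rfl
  refine (congrArg _ ((c.cap_g q _).trans (congrArg (fun β => push F.iC.map (cap q.1 β)) hg))).trans ?_
  rw [h3, push_push h2 (F.Vb o).isPr_pp, push_push h1 ((F.Vb o).isPr_pp.comp h2), h4]

omit [DecidableEq ι] in
theorem chc_VT : F.VT.chc =
    pS F.iC.map (ex (F.Vb o).xi * pS (F.Vb o).pp.map (F.Vb o).chc) := by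
  rw [chc_tw, map_mul, pS_ex, pS_pS, ← Mor.map_comp, VB.xi, map_c1]

variable {F}

theorem isPush_top {c : Cut F.P F.Z} (hr : c.N.r = M o - 2)
    (hg : gys c.i.map c.t F.PX.fund = F.CH.fund)
    (hF : ∀ y : c.O, y.1 ∈ F.Z → ∀ (f : F.P.T → Fin (M o - 2) → ℂ) (Φ : F.PX.A → Fin (M o - 2) → ℂ),
      AnalyticAt ℂ Φ (F.PX.ι y.1) → (∀ᶠ x in 𝓝 y.1, f x = Φ (F.PX.ι x)) →
      (∀ᶠ x in 𝓝 y.1, x ∈ F.Z → f x = 0) →
      (∀ w, ∃ v ∈ tan F.PX.ι y.1, fderiv ℂ Φ (F.PX.ι y.1) v = w) → c.Fits f y)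
    {a : ι → ℕ} {E : ℕ → VB U.toSp} {ev : ∀ k, F.UT → (E k).W →ₗ[ℂ] ℂ} (h : F.HF a E ev) :
    F.IsPush (ex (c1 (F.lb 1 (a + (4 * (M o - 2)) • Pi.single o 1))) *
      pS F.toCv.map (tdOf (F.VT.chc - (show VB F.Cv from c.NS).chc))) (E (4 * (M o - 2))).chc := by
  have h3 := F.three
  obtain ⟨H, γ, R⟩ := rre c (kos h F.sbT (4 * (M o - 2)) F.bei_le) hr (by omega)
    (fun t ht => bei_ex h _ ht) fun ⟨y, hy⟩ hz => by
      obtain ⟨x, rfl⟩ := id hz
      obtain ⟨f, φ, Φ, k1, k2, k3, k4, k5⟩ := bei_loc h x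
      refine ⟨f, φ, k1, hF _ hz f Φ k2 k3 k4 fun w => ?_⟩
      obtain ⟨b, hb, v, hv⟩ := k5 w
      exact ⟨(b, v), mem_tan_ps.2 hb, hv⟩
  obtain ⟨B, b1, b2, b3⟩ := bei_quo h F.bei_le
  have q := (chc_char _).symm.trans (R.quo F.US F.toCv _ B b1 (fun t w _ => b2 t w) b3 rfl)
  obtain ⟨cc, hchi⟩ := bei_chi h F.bei_le
  obtain ⟨G, g1, g2, -⟩ := c.exists_g
  refine IsPush.of_succ ?_ fun k => ?_
  · rw [coeff_zero_eq_constantCoeff, map_mul, ← coeff_zero_eq_constantCoeff_apply (pS _ _),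
      coeff_map, coeff_zero_eq_constantCoeff_apply, constantCoeff_tdOf, map_one, mul_one, ex,
      constantCoeff_ev, constantCoeff_exp, map_one]
    exact Hev.one_deg
  · have e1 := push_ps_td (U := U) (E := F.Vb o) (hE := fun _ => rfl) (han := F.an_Vb o)
      (r := M o - 1) (hr := (Nat.sub_add_cancel (le_trans (by norm_num) F.three)).symm)
      (E (4 * (M o - 2))).chc cc k
    have e2 : mapL c.g γ = mapL G γ := congrArg (mapL · γ) (funext g1).symm
    have e3 : tdOf F.VT.chc =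
        pS F.iC.map (tdOf (ex (F.Vb o).xi * pS (F.Vb o).pp.map (F.Vb o).chc)) := by
      rw [F.chc_VT, tdOf_map]
    have e4 := pS_mul_tdOf F.toCv.map (A := F.VT.chc) R.td
    rw [← hchi, R.chi, e2, mul_left_comm, ← mapL_map_mul _ G g2,
      show k + (M o - 1) = k + 1 + (M o - 2) by omega, coeff_X_pow_mul, coeff_mapL, g1] at e1
    rw [q]
    rw [e3] at e4
    exact e1.symm.trans ((F.push_cut c hg _).trans (congrArg
      (fun z : Hev F.US.X => push F.pr.map (cap z.1 F.UC.fund))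
      ((congrArg (coeff (k + 1)) e4).trans (coeff_map _ _ _)).symm))

variable (F)

/-- **Grothendieck-Riemann-Roch for the universal curve** -/
theorem grr : ∃ Λ j gN Φ, F.IsTd Λ j gN Φ ∧ ∀ a ≠ 0, ∀ (χ : U.G →ₜ* ℂˣ) (E : VB U.toSp)
    (ev : F.UT → E.W →ₗ[ℂ] ℂ), F.IsH0 a χ E ev →
      F.IsPush (ex (c1 (F.lb χ a)) * tdC Λ gN Φ) E.chc := by
  have h3 := F.three
  obtain ⟨c, e, hr, hg, hE, hF⟩ := exists_cut F.PX F.Z F.isClosed_Z (r := M o - 2) F.mfd_Z
    fun _ => show U.n + 1 + (M o - 2) = U.n + (M o - 1) by omega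
  obtain ⟨Λ, j, gN, Φ, hT, hTd⟩ := exists_td hr hE
  exact ⟨Λ, j, gN, Φ, hT, fun a ha χ E ev hH =>
    isPush_down (fun a E ev h => hTd ▸ isPush_top hr hg hF h) ha hH⟩

end CF

end Vale.Agent.P269.Grr
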