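import Vale.Agent.P269.Grr.ChL
import Vale.Agent.P269.Grr.ChK
import Vale.Agent.P269.Grr.ChN
import Vale.Agent.P269.Grr.Main
import Vale.Agent.P269.Qrr.AlgA

/-!
# Grothendieck-Riemann-Roch for the index bundles on a smooth domain of a chart
-/

set_option linter.unusedSectionVars false

namespace Vale.Agent.P269.Grr

open Set Function Topology Filter Module Vale.Agent.P291Z Vale.Agent.P269.Ch Vale.Agent.P269.Holo
  Vale.Agent.P269.Loc Vale.Agent.P269.Base PowerSeries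

theorem chc_eq_chT {Y : Ch.Sp} (E : VB Y) : E.chc = (E.r : (Hev Y.X)⟦X⟧) + Qrr.chT E.chR :=
  Qrr.chP_eq E.chern_mon

theorem constantCoeff_chR {Y : Ch.Sp} (E : VB Y) : constantCoeff E.chR = 1 := by
  rw [← coeff_zero_eq_constantCoeff_apply, E.coeff_chR, if_pos (Nat.zero_le _)]
  exact E.chern_mon.1

theorem coeff_chT_div {Y : Ch.Sp} {Z : Type} [TopologicalSpace Z] (e : C(Z, Y.X)) (A D : VB Y)
    (n : ℕ) : coeff (n + 1) (Qrr.chT (pS e A.chR * (pS e D.chR).invOfUnit 1)) =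
      Hev.map e (coeff (n + 1) (A.chc - D.chc)) := by
  have h : ∀ E : VB Y, constantCoeff (pS e E.chR) = 1 := fun E => by
    rw [← coeff_zero_eq_constantCoeff_apply, coeff_map, coeff_zero_eq_constantCoeff_apply,
      constantCoeff_chR, map_one]
  have h' : ∀ E : VB Y, coeff (n + 1) (Qrr.chT (pS e E.chR)) =
      Hev.map e (coeff (n + 1) E.chc) := fun E => by
    rw [chc_eq_chT, map_add, ← map_natCast (C (R := Hev Y.X)), coeff_C, if_neg n.succ_ne_zero,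
      zero_add, ← Qrr.map_chT (Hev.map e), coeff_map]
    rfl
  rw [Qrr.chT_mul (h A) (Qrr.AlgA.cc_inv _), Qrr.chT_inv (h D), map_add, map_neg, h', h', map_sub,
    map_sub, sub_eq_add_neg]

variable {S Λ R J ι ν κ : Type} [Fintype S] [Fintype Λ] [Fintype R] [Fintype J] [Fintype ι]
  [DecidableEq ι] [Fintype ν] [Fintype κ] {ch : Ch ι J} {W : Wt S Λ R J}
  {O : Set (ch.WF ν κ Λ)} {U : HO}

namespace IsCh

variable {F : CF U ch.M ch.o ch.g ch.m} {p : Pres U.toSp (actF W) O} {τ : U.G →* (ch.AF ν κ S)ˣ}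
  (h : IsCh F p τ)
include h

theorem ind {T : (Hev F.US.X)⟦X⟧}
    (hT : ∀ a ≠ 0, ∀ (χ : U.G →ₜ* ℂˣ) (E : VB U.toSp) (ev : F.UT → E.W →ₗ[ℂ] ℂ),
      F.IsH0 a χ E ev → F.IsPush (ex (c1 (F.lb χ a)) * T) E.chc) {j : J}
    (hb : ch.b j ch.o ≠ 0) : ∃ I : (Hev U.X)⟦X⟧, F.IsPush (ex (h.ℓ j) * T) I ∧
      ∀ n, coeff (n + 1) (Qrr.chT (indC W O j)) = Hev.map p.e (coeff (n + 1) I) := by
  have ha := h.cuts.ne (some j)
  obtain ⟨E₀, e₀, h₀⟩ := F.exists_H0 ha (h.χ j)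
  obtain ⟨E₁, e₁, h₁⟩ := F.exists_H0 (a := ch.a (some j) + ch.b j)
    (fun e => hb (Nat.eq_zero_of_add_eq_zero_left (congrFun e ch.o))) (h.χ j)
  obtain ⟨r, h1, h2, h3, hP⟩ := CF.isPush_ind hT ha hb h₀ h₁
  exact ⟨_, hP, fun n => by rw [indC_eq, h.chX j h₀, h.chK j h₁, coeff_chT_div]⟩

/-- **Mumford's formula** for the index bundles -/
theorem grr (hk : ch.k ≠ 0) (hb : ∀ j, ch.b j ch.o ≠ 0) :
    ∃ (ψ : Mk ν κ → Hev U.X) (Φ : (Hev F.UNH.X)⟦X⟧) (I : J → (Hev U.X)⟦X⟧),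
      (∀ n, hcls (psiF n : Coch (Quo (actF W) O)) = H.map p.e (ψ n).1) ∧
      (∀ (T : Type) [TopologicalSpace T] (f : C(T, F.UNH.X)) (a b : Hev T),
        pS f F.Kn.chR = (1 + PowerSeries.C a * X) * (1 + PowerSeries.C b * X) →
          pS f Φ = mumS a b) ∧
      (∀ j n, coeff (n + 1) (Qrr.chT (indC W O j)) = Hev.map p.e (coeff (n + 1) (I j))) ∧
      ∀ j n, cap (coeff (n + 1) (I j)).1 U.fund =
        ∑ q ∈ Finset.HasAntidiagonal.antidiagonal (n + 2),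
          ((bernoulli q.1 : ℂ) / (q.1.factorial * q.2.factorial)) •
            (push F.pr.map (cap (((ch.k : ℂ)⁻¹ • c1 (F.ch ch.χ)) ^ q.1 * h.ℓ j ^ q.2).1
              F.UC.fund) - if q.1 = 0 then 0 else ∑ a, cap (ψ a ^ (q.1 - 1) *
                Hev.map (h.sec a).m.map (h.ℓ j) ^ q.2).1 U.fund) +
        ∑ q ∈ Finset.HasAntidiagonal.antidiagonal n, (q.2.factorial : ℂ)⁻¹ •
          push (F.pr.comp F.iN).map
            (cap (Hev.map F.iN.map (h.ℓ j) ^ q.2 * coeff q.1 Φ).1 F.UNH.fund) := by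
  obtain ⟨T, i, gN, Φ, hT, hP⟩ := F.grr
  choose L σ hL using fun n => (h.sec n).exists_dv
  choose I hI hI' using fun j => h.ind hP (hb j)
  have hω : cap (T.eu + (ch.k : ℂ)⁻¹ • c1 (F.ch ch.χ) - ∑ n, (L n).eu).1 F.UC.fund = 0 := by
    have e : T.eu + (ch.k : ℂ)⁻¹ • c1 (F.ch ch.χ) - ∑ n, (L n).eu = (ch.k : ℂ)⁻¹ •
        (ch.k • T.eu + c1 (F.ch ch.χ) - ch.k • ∑ n, (L n).eu) := by
      have : (ch.k : ℂ) ≠ 0 := Nat.cast_ne_zero.2 hk
      rw [← Nat.cast_smul_eq_nsmul ℂ, ← Nat.cast_smul_eq_nsmul ℂ, smul_sub, smul_add,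
        inv_smul_smul₀ this, inv_smul_smul₀ this]
    rw [e]
    exact (map_smul (pd F.UC.fund) _ _).trans (smul_eq_zero_of_right _ (h.log hT.om hL))
  refine ⟨_, Φ, I, h.psi hT.om, fun T _ f a b => hT.mum' f, hI', fun j n => ?_⟩
  rw [(hI j).succ, add_assoc n, hT.mumford h.sec_inj hL hω _ (n + 2), coeff_X_pow_mul, mul_comm _ Φ, coeff_mul]
  congr 1
  let l : Hev F.UNH.X →ₗ[ℂ] BM U.X :=
    push (F.pr.comp F.iN).map ∘ₗ pd F.UNH.fund ∘ₗ (Hev F.UNH.X).val.toLinearMap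
  refine (map_sum l _ _).trans (Finset.sum_congr rfl fun q _ => ?_)
  rw [coeff_ex, mul_smul_comm, map_smul, mul_comm]
  rfl

end IsCh

end Vale.Agent.P269.Grr
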