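import Vale.Agent.P269.Grr.ChM
import Vale.Agent.P269.Grr.ChF
import Vale.Agent.P269.Qrr.Stm
import Vale.Agent.P269.Fg.Unv

/-!
# Mumford's formula on the orbit spaces of a chart
-/

set_option linter.unusedSectionVars false

namespace Vale.Agent.P269.Grr

open Set Function Topology Filter Module Vale.Agent.P291Z Vale.Agent.P269.Ch Vale.Agent.P269.Holo
  Vale.Agent.P269.Loc Vale.Agent.P269.Base PowerSeries

theorem hpull_map {X Y : Type} [TopologicalSpace X] [TopologicalSpace Y] (f : C(X, Y)) (c : H Y) :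
    hpull f c = H.map f c := by
  rw [hpull, ← H.map_hcls f (a := rep c) (Classical.epsilon fun a : Zs Y => H.mk a = c).2,
    show hcls (rep c) = c from (hcls_val _).trans
      (Classical.epsilon_spec (p := fun a : Zs Y => H.mk a = c) (H.mk_surj c))]

variable {S Λ R J ι ν κ : Type} [Fintype S] [Fintype Λ] [Fintype R] [Fintype J] [Fintype ι]
  [DecidableEq ι] [Fintype ν] [Fintype κ] {ch : Ch ι J} {W : Wt S Λ R J}
  {O : Set (ch.WF ν κ Λ)} {U : HO}

variable (W O) in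
/-- The first Chern class of the line bundle of the field `j` on the universal curve. -/
noncomputable def lC (j : J) : H (Quo (actC W) (unv O)) :=
  hcls (eulerC (actC W)
    (fun s (z : ℂ) => ((∏ i, s.1.1 i ^ W.wt j i) * ∏ i, s.2 i ^ ch.wd j i) * z) (unv O)
    (fun _ => ⊤) fun _ => ⊥)

theorem lC_eq [IsEmpty S] (j : J) : lC W O j = oC W O (ch.wd j) := by
  simp only [lC, oC, Finset.univ_eq_empty, Finset.prod_empty, one_mul]

theorem continuous_inN : Continuous (inN W O) :=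
  continuous_quot_lift _ (continuous_quot_mk.comp (continuous_inclusion _))

variable {F : CF U ch.M ch.o ch.g ch.m} {p : Pres U.toSp (actF W) O} {τ : U.G →* (ch.AF ν κ S)ˣ}

variable (F p) in
/-- the obvious presentation of the universal curve -/
structure IsPC (q : Pres F.US (actC W) (unv O)) : Prop where
  u : ∀ s : U.G × Tor ι, q.u s = (p.u s.1, fun i => (s.2 i : ℂ))
  i : ∀ x : F.UT, q.i x = (p.i x.t, x.c)

variable (F p) in
/-- the obvious presentation of the nodes -/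
structure IsPN (q : Pres F.UNH.toSp (actC W) (nod O)) : Prop where
  u : ∀ s : U.G × Tor ι, q.u s = (p.u s.1, fun i => (s.2 i : ℂ))
  i : ∀ x : F.UN, q.i x = (p.i x.1.t, x.1.c)

variable {pC : Pres F.US (actC W) (unv O)} {pN : Pres F.UNH.toSp (actC W) (nod O)}

theorem IsPC.oC_eq (q : IsPC F p pC) (a : ι → ℤ) : oC W O a = H.map pC.e (c1 (F.ch a)).1 :=
  hcls_char pC (F.ch a) (c := fun s => ∏ i, s.2 i ^ a i) fun s : U.G × Tor ι => by
    rw [q.u]
    show _ = ((∏ i, s.2 i ^ a i : ℂˣ) : ℂ)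
    simp

theorem IsPC.pr (q : IsPC F p pC) (z : Quo (actC W) (unv O)) :
    p.e (prC W O z) = F.pr.map (pC.e z) := by
  obtain ⟨x, rfl⟩ := pC.isQuotientMap_mk'.surjective z
  rw [pC.map', Mor.map_π]
  exact (congrArg (fun y => p.e (Quo.mk _ y)) (Subtype.ext (congrArg Prod.fst (q.i x)))).trans
    (p.map _)

theorem IsPN.iN (q : IsPC F p pC) (q' : IsPN F p pN) (z : Quo (actC W) (nod O)) :
    pC.e (inN W O z) = F.iN.map (pN.e z) := by
  obtain ⟨x, rfl⟩ := pN.isQuotientMap_mk'.surjective z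
  rw [pN.map', Mor.map_π]
  exact (congrArg (fun y => pC.e (Quo.mk _ y))
    (Subtype.ext ((q'.i x).trans (q.i _).symm))).trans (pC.map _)

variable (τ) in
/-- the group of the universal curve -/
noncomputable def τC : U.G × Tor ι →* (ch.AU ν κ S)ˣ :=
  MulEquiv.prodUnits.symm.toMonoidHom.comp (τ.prodMap MulEquiv.piUnits.symm.toMonoidHom)

theorem HolP.unv (hp : HolP p τ) {Y : HO} {Z : Set (ch.WC ν κ Λ)} {q : Pres Y.toSp (actC W) Z}
    {u : Y.G →* U.G × Tor ι} {i : Y.T → F.UT} (hu : IsHomeomorph u) (hi : Continuous i)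
    (h1 : ∀ t, HolAt Y.ι (fun s => F.ιU (i s)) t) (h2 : ∀ t, HolAt (fun s => F.ιU (i s)) Y.ι t)
    (e1 : ∀ s, q.u s = (p.u (u s).1, fun i => ((u s).2 i : ℂ)))
    (e2 : ∀ y, q.i y = (p.i (i y).t, (i y).c)) : HolP q ((τC τ).comp u) := by
  have k : ∀ {B B' : Type} [NormedAddCommGroup B] [NormedSpace ℂ B] [NormedAddCommGroup B']
      [NormedSpace ℂ B'] {f : U.T → B} {f' : U.T → B'}, (∀ t, HolAt f f' t) → ∀ y,
      HolAt (fun y => (f (i y).t, (i y).c)) (fun y => (f' (i y).t, (i y).c)) y := fun a y =>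
    let ⟨Φ, b, c⟩ := a (i y).t
    ⟨Prod.map Φ id, (b.comp_of_eq analyticAt_fst rfl).prod analyticAt_snd,
      ((CF.UT.continuous_t.comp hi).continuousAt.eventually c).mono fun _ e => Prod.ext e rfl⟩
  refine ⟨(Homeomorph.prodUnits.symm.isHomeomorph.comp (hp.homeo.prodMap
    ContinuousMulEquiv.piUnits.symm.toHomeomorph.isHomeomorph)).comp hu,
    fun s => (e1 s).trans (Prod.ext (hp.u _) rfl), fun t => ?_, fun t => ?_⟩ <;>
    rw [show q.i = _ from funext e2]
  exacts [(k hp.hol t).trans (h1 t), (h2 t).trans (k hp.inv t)]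

theorem IsPC.holP (q : IsPC F p pC) (hp : HolP p τ) : HolP (Y := F.UC) pC (τC τ) :=
  hp.unv (F := F) (Y := F.UC) (u := MonoidHom.id _) (i := id) .id continuous_id
    (fun _ => .self) (fun _ => .self) q.u q.i

theorem IsPN.holP (q : IsPN F p pN) (hp : HolP p τ) : HolP pN (τC τ) :=
  hp.unv (F := F) (Y := F.UNH) (u := MonoidHom.id _) (i := fun x : F.UN => x.1) .id
    continuous_subtype_val (fun _ => .self) (fun _ => .self) q.u q.i

omit [DecidableEq ι] in
theorem ivt_of_pres {A W : Type} [NormedRing A] [NormedAddCommGroup W] {act : A → W → W}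
    {S : Set W} {Y : Ch.Sp} (q : Pres Y act S) : ∀ a, IsUnit a → ∀ x ∈ S, act a x ∈ S := by
  intro a ha x hx
  obtain ⟨g, rfl⟩ := q.usurj a ha
  obtain ⟨t, rfl⟩ := q.surj x hx
  exact q.eqv g t ▸ q.mem _

namespace IsCh

variable (h : IsCh F p τ)
include h

theorem act_eq (s : U.G × Tor ι) (x : F.UT) :
    (p.i (s • x).t, (s • x).c) = actC W (p.u s.1, fun i => (s.2 i : ℂ)) (p.i x.t, x.c) :=
  Prod.ext (p.eqv _ _) (funext fun i => by
    refine (F.act_apply s x.c i).trans ?_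
    rw [h.ρ, h.u]
    rfl)

theorem exists_sub {Y : Ch.Sp} {Z : Set (ch.WC ν κ Λ)} {u : Y.G → U.G × Tor ι} {i : Y.T → F.UT}
    (hu : Surjective u) (hi : IsEmbedding i) (he : ∀ g t, i (g • t) = u g • i t)
    (hZ : Z ⊆ unv O) (hm : ∀ x : F.UT, (p.i x.t, x.c) ∈ Z ↔ x ∈ range i) :
    ∃ q : Pres Y (actC W) Z, (∀ s, q.u s = (p.u (u s).1, fun i => ((u s).2 i : ℂ))) ∧
      ∀ y, q.i y = (p.i (i y).t, (i y).c) := by
  obtain ⟨q, h1, h2⟩ := exists_pres (Y := Y) (act := actC W) (S := Z)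
    (u := fun s => (p.u (u s).1, fun i => ((u s).2 i : ℂ))) (i := fun y => (p.i (i y).t, (i y).c))
    (((p.emb.prodMap .id).comp CF.UT.isEmbedding).comp hi) (fun y => (hm _).2 ⟨y, rfl⟩)
    (fun z hz => by
      obtain ⟨t, ht⟩ := p.surj _ (hZ hz).1
      have e : (p.i t, z.2) = z := Prod.ext ht rfl
      obtain ⟨y, hy⟩ := (hm (CF.UT.mk t z.2 (by rw [h.C, ht]; exact (hZ hz).2))).1 (e ▸ hz)
      exact ⟨y, by rw [hy]; exact e⟩)
    (fun s => Prod.isUnit_iff.2 ⟨p.unit _, isUnit_pi_iff.2 fun _ => Units.ne_zero _⟩)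
    (fun a ha => by
      obtain ⟨g, hg⟩ := p.usurj _ (Prod.isUnit_iff.1 ha).1
      obtain ⟨s, hs⟩ := hu (g, fun i => Units.mk0 _ (isUnit_pi_iff.1 (Prod.isUnit_iff.1 ha).2 i))
      exact ⟨s, by rw [hs]; exact Prod.ext hg rfl⟩)
    fun g t => by rw [he, h.act_eq]
  exact ⟨q, congrFun h1, congrFun h2⟩

theorem exists_pC : ∃ q, IsPC F p q :=
  let ⟨q, h1, h2⟩ := h.exists_sub (Y := F.US) (Z := unv O) surjective_id IsEmbedding.id
    (fun _ _ => rfl) subset_rfl fun x => iff_of_true ⟨p.mem _, h.C _ ▸ x.mem⟩ ⟨x, rfl⟩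
  ⟨q, h1, h2⟩

theorem exists_pN : ∃ q, IsPN F p q :=
  let ⟨q, h1, h2⟩ := h.exists_sub (Y := F.UNH.toSp) (Z := nod O) (i := fun x : F.UN => x.1)
    surjective_id IsEmbedding.subtypeVal (fun _ _ => rfl) (fun _ h => h.1) fun x =>
      ⟨fun k => ⟨⟨x, show IsNode _ (F.C x.t) _ from h.C _ ▸ k.2⟩, rfl⟩, fun ⟨y, k⟩ =>
        ⟨⟨p.mem _, h.C _ ▸ x.mem⟩, h.C _ ▸ show IsNode _ (F.C x.t) x.c from k ▸ y.2⟩⟩
  ⟨q, h1, h2⟩

theorem lC_eq (q : IsPC F p pC) (j : J) : lC W O j = H.map pC.e (h.ℓ j).1 :=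
  hcls_char pC _ (c := fun s => (∏ i, s.1.1 i ^ W.wt j i) * ∏ i, s.2 i ^ ch.wd j i)
    fun s : U.G × Tor ι => by
      rw [q.u, h.u]
      show _ = ((h.χ j s.1 * ∏ i, s.2 i ^ ch.wd j i : ℂˣ) : ℂ)
      rw [Units.val_mul, h.coe_χ]
      simp

theorem secC_eq (q : IsPC F p pC) (n : Mk ν κ) (z : Quo (actF W) O) :
    pC.e (secC W h.base n z) = (h.sec n).m.map (p.e z) := by
  obtain ⟨t, rfl⟩ := p.isQuotientMap_mk'.surjective z
  rw [p.map', Mor.map_π]
  exact (congrArg (fun y => pC.e (Quo.mk _ y))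
    (Subtype.ext (q.i ((h.sec n).m.f t)).symm)).trans (pC.map _)

theorem ch_sdT (q : IsPN F p pN) :
    (ch.sdT S Λ ν κ).ch (actC W) (nod O) = pS pN.e F.Kn.chR :=
  CF.ch_Kn pN (fun s v => funext fun i => by rw [q.u, F.act_apply, h.ρ, h.u])
    (fun x => by rw [q.i, h.C]) fun x => by rw [q.i]

/-- **Mumford's formula** on the orbit spaces -/
theorem grrQ (hk : ch.k ≠ 0) (hb : ∀ j, ch.b j ch.o ≠ 0) (q : IsPC F p pC) (q' : IsPN F p pN)
    {β βC βN} (hβ : push p.e β = U.fund) (hC : push pC.e βC = F.UC.fund)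
    (hN : push pN.e βN = F.UNH.fund) : ∃ Φ : ℕ → Hev (Quo (actC W) (nod O)),
      (∀ n, Roots W O (Φ n) fun _ _ _ a b => coeff n (mumS a b)) ∧
      ∀ j n, cap (coeff (n + 1) (Qrr.chT (indC W O j))).1 β =
        ∑ q ∈ Finset.HasAntidiagonal.antidiagonal (n + 2),
          ((bernoulli q.1 : ℚ) / (q.1.factorial * q.2.factorial) : ℂ) •
            (push (prC W O) (cap (((ch.k : ℂ)⁻¹ • oC W O ch.χ) ^ q.1 * lC W O j ^ q.2) βC) -
              if q.1 = 0 then 0 else ∑ a, cap (hcls (psiF a) ^ (q.1 - 1) *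
                hpull (secC W h.base a) (lC W O j ^ q.2)) β) +
        ∑ q ∈ Finset.HasAntidiagonal.antidiagonal n, (q.2.factorial : ℂ)⁻¹ •
          push (prC W O ∘ inN W O) (cap (hpull (inN W O) (lC W O j ^ q.2) * (Φ q.1).1) βN) := by
  obtain ⟨ψ, Φ, I, h1, h2, h3, h4⟩ := h.grr hk hb
  have := p.nice
  have := pC.nice
  have := pN.nice
  have e0 : ∀ c, push p.e (cap (H.map p.e c) β) = cap c U.fund := fun c => by
    rw [push_cap (isPr_homeo p.isHomeomorph_e), hβ]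
  have e1 : ∀ {T T' : Type} [TopologicalSpace T] [TopologicalSpace T'] {f : T → Quo (actC W) (unv O)}
      (e : C(T, T')) (g : C(T', F.US.X)), Continuous f → (∀ z, pC.e (f z) = g (e z)) → ∀ j (m : ℕ),
      hpull f (lC W O j ^ m) = H.map e (Hev.map g (h.ℓ j) ^ m).1 := fun {_ _ _ _ f} e g hf k j m => by
    rw [h.lC_eq q, ← map_pow, ← map_pow]
    refine (hpull_map ⟨f, hf⟩ _).trans ((H.map_map _ _ _).trans (Eq.trans ?_ (H.map_map _ _ _).symm))
    exact congrArg (H.map · _) (ContinuousMap.ext k)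
  refine ⟨fun n => Hev.map pN.e (coeff n Φ), fun n T _ f a b e => ?_, fun j n =>
    push_injective p.isHomeomorph_e ?_⟩
  · exact (Hev.map_map _ _ _).trans (congrArg (coeff n)
      (h2 T (pN.e.comp f) a b (by rw [← pS_pS, ← h.ch_sdT q']; exact e)))
  rw [h3, map_add, map_sum, map_sum]
  refine (e0 _).trans ((h4 j n).trans (congrArg₂ _ (Finset.sum_congr rfl fun r _ => ?_)
    (Finset.sum_congr rfl fun r _ => ?_)))
  · rw [map_smul, map_sub, ← hC, ← push_sq p.isHomeomorph_e pC.isHomeomorph_e F.isPr_pr q.pr,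
      q.oC_eq, h.lC_eq q, ← H.map_smulC, ← map_pow, ← map_pow, ← map_mul]
    refine congrArg (_ • ·) (congrArg₂ _ rfl ?_)
    split_ifs
    · exact (map_zero _).symm
    rw [map_sum]
    refine Finset.sum_congr rfl fun a _ => ?_
    rw [map_pow, ← h.lC_eq q, e1 p.e _ (continuous_secC _ a) (h.secC_eq q a), h1,
      ← map_pow (H.map p.e), ← map_mul, e0]
    rfl
  · rw [map_smul, ← hN, e1 pN.e _ continuous_inN (q'.iN q), Hev.coe_map, ← map_mul,
      push_sq p.isHomeomorph_e pN.isHomeomorph_e (g := (F.pr.comp F.iN).map)]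
    · rfl
    · rw [Mor.map_comp]
      exact F.isPr_pr.comp (.of_isClosedEmbedding (CF.FinA.closed_iN F))
    · exact fun z => (q.pr _).trans (by rw [q'.iN q, Mor.map_comp]; rfl)

theorem isAct_nod : IsAct (actC W) (nod O) :=
  let ⟨q, _⟩ := h.exists_pN
  isActC_of (ivt_of_pres q)

theorem mfdAt_nod (hp : HolP p τ) (hL : finrank ℂ U.L = finrank ℂ (ch.AF ν κ S)) {x}
    (hx : x ∈ nod O) : MfdAt (nod O) (finrank ℂ (ch.AU ν κ S) + (U.n - 1)) x := by
  obtain ⟨q, hq⟩ := h.exists_pN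
  have := (hq.holP hp).mfdAt hx
  rwa [show finrank ℂ F.UNH.L = finrank ℂ (ch.AU ν κ S) from
    finrank_prod.trans (by rw [hL, finrank_AU, finrank_fintype_fun_eq_card])] at this

/-- **Mumford's formula** for the fundamental classes -/
theorem grrF (hk : ch.k ≠ 0) (hb : ∀ j, ch.b j ch.o ≠ 0) (hp : HolP p τ) [IsAct (actF W) O]
    [IsAct (actC W) (nod O)] : ∃ Φ : ℕ → Hev (Quo (actC W) (nod O)),
      (∀ n, Roots W O (Φ n) fun _ _ _ a b => coeff n (mumS a b)) ∧
      ∀ j n, cap (coeff (n + 1) (Qrr.chT (indC W O j))).1 (fnd (actF W) O U.n) =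
        ∑ q ∈ Finset.HasAntidiagonal.antidiagonal (n + 2),
          ((bernoulli q.1 : ℚ) / (q.1.factorial * q.2.factorial) : ℂ) •
            (push (prC W O) (cap (((ch.k : ℂ)⁻¹ • oC W O ch.χ) ^ q.1 * lC W O j ^ q.2)
              (fnd (actC W) (unv O) (U.n + 1))) -
              if q.1 = 0 then 0 else ∑ a, cap (hcls (psiF a) ^ (q.1 - 1) *
                hpull (secC W h.base a) (lC W O j ^ q.2)) (fnd (actF W) O U.n)) +
        ∑ q ∈ Finset.HasAntidiagonal.antidiagonal n, (q.2.factorial : ℂ)⁻¹ •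
          push (prC W O ∘ inN W O) (cap (hpull (inN W O) (lC W O j ^ q.2) * (Φ q.1).1)
            (fnd (actC W) (nod O) (U.n - 1))) :=
  let ⟨_, q⟩ := h.exists_pC
  let ⟨_, q'⟩ := h.exists_pN
  h.grrQ hk hb q q' hp.push_fnd (q.holP hp).push_fnd (q'.holP hp).push_fnd

end IsCh

end Vale.Agent.P269.Grr
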