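import Vale.Agent.P269.Grr.KW
import Vale.Agent.P269.Grr.Push

/-!
# The Chern character of the bundle of closed two-forms; the index bundle
-/

namespace Vale.Agent.P269.Grr

open Set Function Topology Filter Module Vale.Agent.P291Z Vale.Agent.P269.Ch Vale.Agent.P269.Holo
  Vale.Agent.P269.Loc Vale.Agent.P269.Base PowerSeries

namespace CF

variable {ι : Type} [Fintype ι] {U : HO} {M : ι → ℕ} {o : ι} {g : ℤ} {m : ι → ℤ}
  {F : CF U M o g m} {a : ι → ℕ} (b : ι → ℕ) {χ : U.G →ₜ* ℂˣ}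

variable (F) in
/-- alternating forms on the space of forms of degree `b` with values in `E` -/
noncomputable abbrev AT (E : VB U.toSp) (j : ℕ) : VB U.toSp := (F.Tb b).bot.alt E j

variable (F) in
/-- the Chern characters of the exterior powers of the dual of the space of forms -/
noncomputable def lamT (j : ℕ) : (Hev U.X)⟦X⟧ := (F.AT b (char 1) j).chc

/-- forms with values in sections as forms with values in functions on the curve -/
noncomputable def wΨ {E : VB U.toSp} (ev : F.UT → E.W →ₗ[ℂ] ℂ) (j : ℕ) (t : U.T) :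
    (F.AT b E j).W →ₗ[ℂ] (Tens M b [⋀^Fin j]→ₗ[ℂ] (F.C t → ℂ)) where
  toFun α := (sL ev t).compAlternatingMap (alv α).toAlternatingMap
  map_add' _ _ := AlternatingMap.ext fun _ => map_add (sL ev t) _ _
  map_smul' _ _ := AlternatingMap.ext fun _ => map_smul (sL ev t) _ _

theorem wΨ_apply {E : VB U.toSp} (ev : F.UT → E.W →ₗ[ℂ] ℂ) (j : ℕ) (t : U.T)
    (α : (F.AT b E j).W) (v : Fin j → Tens M b) (c : F.C t) :
    wΨ b ev j t α v c = ev (UT.mk t c c.2) (alv α v) := rfl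

/-- the closed forms -/
noncomputable def zW {E : VB U.toSp} (ev : F.UT → E.W →ₗ[ℂ] ℂ) (j : ℕ) (t : U.T) :
    Submodule ℂ (F.AT b E j).W :=
  (F.AT b E j).F t ⊓ LinearMap.ker (wK (evW (F.C t) b) j ∘ₗ wΨ b ev j t)

theorem AT_r (E : VB U.toSp) {j : ℕ} (hj : finrank ℂ (Tens M b) < j) : (F.AT b E j).r = 0 :=
  (alt_r _ _ _).trans (mul_eq_zero_of_left (Nat.choose_eq_zero_of_lt hj) _)

variable (F) in
theorem lamT_rec : ∑ j ∈ Finset.range (finrank ℂ (Tens M b) + 1), (-1) ^ j *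
    (pS F.pr.map (F.lamT b j) * ex (c1 (F.ch fun i => b i)) ^ j) = 0 := by
  classical
  rcases isEmpty_or_nonempty F.US.T with k | ⟨⟨x₀⟩⟩
  · exact (subsingleton_series (Y := F.US)).elim _ _
  obtain ⟨S, h1, h2⟩ := (F.hom_evT b).exists_sect fun (x : F.UT) (z : ℂ) _ =>
    (exists_val_one (a := b) x.ne).elim fun μ e => ⟨z • μ, trivial,
      (congrArg (z * ·) e).trans (mul_one z)⟩
  have hx : Continuous fun t => S t (1 : ℂ) :=
    h1.continuous continuous_id continuous_const fun _ => trivial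
  have he : ∀ (s : F.US.G) t, s • S t (1 : ℂ) = (F.lb 1 b s : ℂ) • S (s • t) (1 : ℂ) := fun s t =>
    (h1.eqv s t (1 : ℂ) trivial).symm.trans (map_smul (S (s • t)) (F.lb 1 b s : ℂ) (1 : ℂ))
  have h0 : ∀ t, S t (1 : ℂ) ∉ ((F.Tb b).pb F.pr).bot.F t := fun t e => one_ne_zero (α := ℂ)
    ((h2 t _ trivial).symm.trans ((congrArg _ e).trans (map_zero _)))
  have e : F.lb 1 b = F.ch fun i => b i := ContinuousMonoidHom.ext fun s => one_mul _
  let A := fun j => ((((F.Tb b).pb F.pr).bot.adj hx he h0).alt (char 1) j).chc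
  have h3 := KosC.tele (e := 1) (l := fun j => pS F.pr.map (F.lamT b j) * ex (c1 (F.lb 1 b)) ^ j)
    (a := fun j => A j * ex (c1 (F.lb 1 b)) ^ j) (by
      simp only [A, lamT, chc_alt_zero, chc_char_one, map_one]) (fun j => by
      rw [lamT, ← KosC.chc_bot_pb, chc_alt_curry' ((F.Tb b).pb F.pr).bot (char 1) hx he h0
        (fun _ => rfl) j, add_mul, pow_succ' _ j, mul_mul_mul_comm, mul_comm (ex (-_)), ex_mul_neg]) (finrank ℂ (Tens M b))
  have : Nontrivial (Tens M b) := ⟨_, _, h0 x₀⟩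
  simp only [one_pow, mul_one] at h3
  rw [← e, h3, show A (finrank ℂ (Tens M b)) = 0 from chc_zero _ ((alt_r _ _ _).trans
    (mul_eq_zero_of_left (Nat.choose_eq_zero_of_lt (Nat.sub_lt (finrank_pos (R := ℂ) (M := Tens M b))
      one_pos)) _)), zero_mul, mul_zero]

variable {b}

section psi
variable {D D' : VB U.toSp} {e : F.UT → D.W →ₗ[ℂ] ℂ} {e' : F.UT → D'.W →ₗ[ℂ] ℂ}
  (h : F.IsH0 a χ D e) {j : ℕ} {t : U.T}

theorem wΨ_ev (α : (F.AT b D j).W) (v : Fin j → Tens M b) (x : F.UT) (hx : x.t = t) :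
    wΨ b e j t α v ⟨x.c, hx ▸ x.mem⟩ = e x (alv α v) :=
  congrArg (fun z => e z (alv α v)) (UT.ext hx.symm rfl)

include h

theorem wΨ_mem {α : (F.AT b D j).W} (hα : α ∈ (F.AT b D j).F t) :
    wΨ b e j t α ∈ altA ⊥ (Hs (F.C t) a) j :=
  ⟨fun v => h.sL_mem (hα.1 v), fun v i hi =>
    (congrArg (sL e t) (hα.2 v i hi)).trans (map_zero _)⟩

theorem wΨ_inj {α : (F.AT b D j).W} (hα : α ∈ (F.AT b D j).F t) (h0 : wΨ b e j t α = 0) : α = 0 :=
  alv_ext fun v => h.inj _ _ (hα.1 v) fun c => congrFun (DFunLike.congr_fun h0 v) c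

theorem wΨ_surj {β : Tens M b [⋀^Fin j]→ₗ[ℂ] (F.C t → ℂ)} (hβ : β ∈ altA ⊥ (Hs (F.C t) a) j) :
    ∃ α ∈ (F.AT b D j).F t, wΨ b e j t α = β := by
  obtain ⟨q, hq⟩ := h.exists_lift
  exact ⟨ala _ _ (toC (Tens M b) D.W j ((q _).compAlternatingMap β)),
    ⟨fun v => (hq _ _ (hβ.1 v)).1, fun v i hi =>
      (congrArg (q _) (hβ.2 v i hi)).trans (map_zero _)⟩,
    AlternatingMap.ext fun v => (hq _ _ (hβ.1 v)).2⟩

/-- the exterior product as a homomorphism of bundles -/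
theorem exists_dW {a' : ι → ℕ} (h' : F.IsH0 a' χ D' e') (ha : a' ≠ 0) (j : ℕ)
    (hm : ∀ t μ, ∀ f ∈ Hs (F.C t) a, (fun c => evW (F.C t) b c μ * f c) ∈ Hs (F.C t) a') :
    ∃ d : U.T → (F.AT b D j).W →ₗ[ℂ] (F.AT b D' (j + 1)).W,
      Ch.Hom (Mor.id U.toSp) (F.AT b D j) (F.AT b D' (j + 1)) d ∧
      ∀ t, ∀ α ∈ (F.AT b D j).F t,
        wΨ b e' (j + 1) t (d t α) = wK (evW (F.C t) b) j (wΨ b e j t α) := by
  obtain ⟨q, hq⟩ := h'.exists_lift
  let d : U.T → (F.AT b D j).W →ₗ[ℂ] (F.AT b D' (j + 1)).W := fun t =>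
    { toFun := fun α => ala _ _ (toC (Tens M b) D'.W (j + 1) ((q _).compAlternatingMap
        (wK (evW (F.C t) b) j (wΨ b e j t α))))
      map_add' := fun α β => alv_ext fun v => by
        rw [map_add, map_add]
        exact map_add (q _) _ _
      map_smul' := fun c α => alv_ext fun v => by
        rw [map_smul, map_smul]
        exact map_smul (q _) _ _ }
  have h0 := fun t α (hα : α ∈ (F.AT b D j).F t) => wK_mem _ (hm t) (wΨ_mem h hα)
  have h1 : ∀ t, ∀ α ∈ (F.AT b D j).F t, d t α ∈ (F.AT b D' (j + 1)).F t :=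
    fun t α hα => ⟨fun v => (hq _ _ ((h0 t α hα).1 v)).1, fun v i hi =>
      (congrArg (q _) ((h0 t α hα).2 v i hi)).trans (map_zero _)⟩
  have h2 : ∀ t, ∀ α ∈ (F.AT b D j).F t,
      wΨ b e' (j + 1) t (d t α) = wK (evW (F.C t) b) j (wΨ b e j t α) := fun t α hα =>
    AlternatingMap.ext fun v => (hq _ _ ((h0 t α hα).1 v)).2
  have h3 : ∀ t, ∀ α ∈ (F.AT b D j).F t, ∀ (v : Fin (j + 1) → Tens M b) (x : F.UT), x.t = t →
      e' x (alv (d t α) v) = ∑ i : Fin (j + 1), (-1) ^ (i : ℕ) *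
        (F.evT b x (v i) * e x (alv α (i.removeNth v))) := fun t α hα v x hx => by
    rw [← wΨ_ev _ v x hx, h2 t α hα, wK_apply]
    exact Finset.sum_congr rfl fun i _ => congrArg (fun z => _ * (_ * z)) (wΨ_ev α _ x hx)
  refine ⟨d, hom_alt h1 (fun v => continuous_iff_continuousAt.2 fun z₀ => h'.continuousAt ha
    (τ := fun z : (F.AT b D j).V => z.1.1) (by fun_prop)
    (.of_forall fun z => (h1 _ _ z.2).1 v) fun x hx hτ => ?_) fun s t α v hα => ?_, h2⟩
  · have k : ∀ i : Fin (j + 1), ContinuousAt (fun z : (F.AT b D j).V => (-1) ^ (i : ℕ) *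
        (F.evT b (x z) (v i) * e (x z) (alv z.1.2 (i.removeNth v)))) z₀ := fun i =>
      continuousAt_const.mul ((continuous_val₂.continuousAt.comp (continuousAt_const.prodMk
        (UT.continuous_c.continuousAt.comp hx))).mul (h.continuousAt_ev hx ((continuous_alv.comp
          (continuous_snd.comp continuous_subtype_val)).eval_const _).continuousAt
          (hτ.mono fun z hz => hz.symm ▸ z.2.1 _)))
    exact ContinuousAt.congr (tendsto_finsetSum _ fun i _ => k i)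
      (hτ.mono fun z hz => (h3 _ _ z.2 v _ hz).symm)
  · have h4 := (h1 _ _ ((F.AT b D j).inv s t α hα)).1 fun i => s • v i
    have h5 := D'.inv s t _ ((h1 _ _ hα).1 v)
    refine h'.ext h4 h5 fun x hx => ?_
    obtain ⟨x, rfl⟩ := MulAction.surjective ((s, 1) : U.G × Tor ι) x
    have hx' : x.t = t := MulAction.injective s hx
    refine (h3 _ _ ((F.AT b D j).inv s t α hα) _ _ hx).trans ?_
    refine Eq.trans ?_ (h'.ev_smul (s, 1) x (hx'.symm ▸ (h1 _ _ hα).1 v)).symm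
    rw [h3 t α hα v x hx', F.coe_lb_inl, Finset.mul_sum]
    refine Finset.sum_congr rfl fun i _ => ?_
    have h6 : (fun l => s⁻¹ • (i.removeNth fun i => s • v i : Fin j → (F.Tb b).W) l) =
        i.removeNth v := funext fun l => inv_smul_smul s _
    have h7 := (congrArg (fun u => e _ (s • (show D.W from alv α u))) h6).trans
      (h.ev_smul (s, 1) x (hx'.symm ▸ hα.1 (i.removeNth v)))
    have h8 := ((F.hom_evT b).eqv ((s, 1) : U.G × Tor ι) x (v i) trivial).trans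
      ((congrArg (· * F.evT b x (v i)) (F.coe_lb_inl 1 b s)).trans (one_mul _))
    rw [F.coe_lb_inl] at h7
    exact (congrArg₂ (fun y z : ℂ => (-1) ^ (i : ℕ) * (y * z)) h8 h7).trans
      ((congrArg _ (mul_left_comm _ _ _)).trans (mul_left_comm _ _ _))

end psi

-- the Chern character of the bundle of closed two-forms
theorem exists_ob (ha : a ≠ 0) (hb : b o ≠ 0) {E : ℕ → VB U.toSp}
    {ev : ∀ k, F.UT → (E k).W →ₗ[ℂ] ℂ} (h : ∀ k, F.IsH0 (a + k • b) χ (E k) (ev k)) :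
    ∃ (r : ℕ) (h1 : _) (h2 : _) (h3 : _),
      ((F.AT b (E 1) 2).sub (zW b (ev 1) 2) r h1 h2 h3).chc =
        ∑ j ∈ Finset.range (finrank ℂ (Tens M b)), (-1) ^ j * (F.lamT b (j + 2) * (E (j + 1)).chc) := by
  choose d d1 d2 using fun k j => exists_dW (h k) (h (k + 1)) (add_ne ha _) j
    fun t => Hs_mulW k
  have z : ∀ k j, zW b (ev k) j = fun t => (F.AT b (E k) j).F t ⊓ LinearMap.ker (d k j t) :=
    fun k j => funext fun t => Submodule.ext fun α => and_congr_right fun hα =>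
      ⟨fun e => wΨ_inj (h _) ((d1 k j).mem t α hα) ((d2 k j t α hα).trans e),
        fun e => (d2 k j t α hα).symm.trans ((congrArg _ e).trans (map_zero _))⟩
  suffices H : ∀ k i, finrank ℂ (Tens M b) < i + 2 + k → ∃ (r : ℕ) (h1 : _) (h2 : _) (h3 : _),
      ((F.AT b (E (i + 1)) (i + 2)).sub (zW b (ev (i + 1)) (i + 2)) r h1 h2 h3).chc =
        ∑ j ∈ Finset.range k, (-1) ^ j * (F.lamT b (j + (i + 2)) * (E (j + (i + 1))).chc) from
    H _ 0 (by omega)
  intro k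
  induction k with
  | zero =>
    intro i hi
    rw [z]
    have hr := fun t => Nat.le_zero.1 ((Submodule.finrank_mono (inf_le_left (b := LinearMap.ker
      (d (i + 1) (i + 2) t)))).trans_eq (((F.AT b _ _).rank t).trans (AT_r b _ hi)))
    exact ⟨0, _, hr, ((d1 _ _).ker 0 hr).inv, chc_zero ((d1 _ _).ker 0 hr) rfl⟩
  | succ k ih =>
    intro i hi
    obtain ⟨r, h1, h2, h3, e⟩ := ih (i + 1) (by omega)
    have k1 : Ch.Hom (Mor.id _) _ ((F.AT b (E (i + 1 + 1)) (i + 1 + 2)).sub _ r h1 h2 h3)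
        (d (i + 1) (i + 2)) := ⟨fun t α hα => ⟨(d1 _ _).mem t α hα,
          (congrArg _ (d2 _ _ t α hα)).trans (wK_wK _ _ _)⟩, (d1 _ _).cont, (d1 _ _).eqv⟩
    obtain ⟨hr, k2⟩ := k1.exists_exact fun t w hw => by
      obtain ⟨β, b1, b2⟩ := wedge_exact (F.crv t) ha hb F.three (fun _ => Nat.le_add_left 1 i)
        (wΨ_mem (h _) hw.1) hw.2
      obtain ⟨α, b3, rfl⟩ := wΨ_surj (h _) b1
      exact ⟨α, b3, sub_eq_zero.1 (wΨ_inj (h _) (sub_mem ((d1 _ _).mem t α b3) hw.1)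
        ((map_sub _ _ _).trans (sub_eq_zero.2 ((d2 _ _ t α b3).trans b2))))⟩
    rw [z]
    refine ⟨_, k1.isClosed_ker, hr, (k1.ker _ hr).inv, (eq_sub_of_add_eq (Exact.chc k2).symm).trans ?_⟩
    rw [e, chc_alt, Finset.sum_range_succ', sub_eq_neg_add, ← Finset.sum_neg_distrib, pow_zero,
      one_mul, zero_add, zero_add]
    refine congrArg (· + _) (Finset.sum_congr rfl fun j _ => ?_)
    rw [show j + 1 + (i + 2) = j + (i + 1 + 2) by omega,
      show j + 1 + (i + 1) = j + (i + 1 + 1) by omega, pow_succ]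
    ring

theorem c1_ind (χ : U.G →ₜ* ℂˣ) (k : ℕ) : c1 (F.lb χ (a + k • b)) =
    c1 (F.pr.chr χ * F.ch fun i => a i - b i) + (k + 1) • c1 (F.ch fun i => b i) := by
  rw [← c1_pow, ← c1_mul]
  refine congrArg _ (ContinuousMonoidHom.ext fun s => ?_)
  have e : (fun i => ((a + k • b : ι → ℕ) i : ℤ)) =
      (fun i => (a i : ℤ) - b i) + (k + 1) • fun i => (b i : ℤ) := funext fun i => by
    simp
    ring
  rw [ContinuousMonoidHom.mul_apply, ContinuousMonoidHom.pow_apply]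
  show χ s.1 * Loc.chr _ s.2 = χ s.1 * Loc.chr _ s.2 * Loc.chr _ s.2 ^ (k + 1)
  rw [e, Loc.chr_add, Loc.chr_nsmul, mul_assoc]

-- Riemann-Roch for the index bundle of `O(a - b)`
theorem isPush_ind {T : (Hev F.US.X)⟦X⟧}
    (hT : ∀ a ≠ 0, ∀ (χ : U.G →ₜ* ℂˣ) (E : VB U.toSp) (ev : F.UT → E.W →ₗ[ℂ] ℂ),
      F.IsH0 a χ E ev → F.IsPush (ex (c1 (F.lb χ a)) * T) E.chc)
    (ha : a ≠ 0) (hb : b o ≠ 0) {E₀ E₁ : VB U.toSp} {ev₀ : F.UT → E₀.W →ₗ[ℂ] ℂ}
    {ev₁ : F.UT → E₁.W →ₗ[ℂ] ℂ} (h₀ : F.IsH0 a χ E₀ ev₀) (h₁ : F.IsH0 (a + b) χ E₁ ev₁) :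
    ∃ (r : ℕ) (h1 : _) (h2 : _) (h3 : _),
      F.IsPush (ex (c1 (F.pr.chr χ * F.ch fun i => a i - b i)) * T)
        ((F.AT b E₀ 1).chc - ((F.AT b E₁ 2).sub (zW b ev₁ 2) r h1 h2 h3).chc) := by
  choose E ev h using fun k : ℕ => F.exists_H0 (add_ne ha (k • b)) χ
  let E' : ℕ → VB U.toSp := fun k => match k with
    | 0 => E₀
    | 1 => E₁
    | k + 2 => E (k + 2)
  let ev' : ∀ k, F.UT → (E' k).W →ₗ[ℂ] ℂ := fun k => match k with
    | 0 => ev₀
    | 1 => ev₁
    | k + 2 => ev (k + 2)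
  have h' : ∀ k, F.IsH0 (a + k • b) χ (E' k) (ev' k) := fun k => match k with
    | 0 => by rwa [zero_smul, add_zero]
    | 1 => by rwa [one_smul]
    | k + 2 => h (k + 2)
  obtain ⟨r, h1, h2, h3, e⟩ := exists_ob ha hb h'
  refine ⟨r, h1, h2, h3, ?_⟩
  have k1 := IsPush.sum (Finset.range (finrank ℂ (Tens M b))) fun j _ =>
    (hT _ (add_ne ha _) _ _ _ (h' j)).mul ((-1) ^ j * F.lamT b (j + 1))
  have k2 := congrArg (· * (ex (c1 (F.pr.chr χ * F.ch fun i => a i - b i)) * T)) (F.lamT_rec b)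
  have k3 := (Finset.sum_range_succ (fun j => (-1) ^ j * F.lamT b (j + 1) * (E' j).chc)
    (finrank ℂ (Tens M b))).symm.trans (Finset.sum_range_succ' _ _)
  rw [show F.lamT b (_ + 1) = 0 from chc_zero _ (AT_r b _ (Nat.lt_succ_self _)), mul_zero,
    zero_mul, add_zero] at k3
  simp only [Finset.sum_range_succ', add_mul, Finset.sum_mul, zero_mul, lamT, chc_alt_zero,
    chc_char_one, map_one, pow_zero, one_mul, add_eq_zero_iff_neg_eq] at k2
  refine (congrArg₂ F.IsPush ?_ (k3.trans ?_)).mp k1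
  · rw [← k2, ← Finset.sum_neg_distrib]
    refine Finset.sum_congr rfl fun j _ => ?_
    simp only [c1_ind, ex_add, ex_nsmul, map_mul, map_pow, map_neg, map_one, lamT]
    ring
  · refine Eq.trans ?_ (congrArg₂ (· - ·) (chc_alt _ E₀ 1) e).symm
    rw [sub_eq_neg_add, ← Finset.sum_neg_distrib, pow_zero, one_mul]
    exact congrArg (· + _) (Finset.sum_congr rfl fun j _ => by ring)

end CF

end Vale.Agent.P269.Grr
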