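import Vale.Agent.P269.Grr.ChD
import Vale.Agent.P269.Grr.KWb
import Vale.Agent.P269.Map.SQ
import Vale.Agent.P269.Map.Hol

/-!
# The framed spaces of sections as direct image bundles
-/

set_option linter.unusedSectionVars false

namespace Vale.Agent.P269.Grr

open Set Function Topology Filter Module Vale.Agent.P291Z Vale.Agent.P269.Ch Vale.Agent.P269.Holo
  Vale.Agent.P269.Loc Vale.Agent.P269.Base PowerSeries

section alt

variable {Y : Ch.Sp} (S : VB Y) {E E' : VB Y} (j : ℕ)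

/-- composition of forms with a linear map -/
noncomputable def altM (A : E.W →ₗ[ℂ] E'.W) : (S.alt E j).W →ₗ[ℂ] (S.alt E' j).W where
  toFun α := ala _ _ (toC S.W E'.W j (A.compAlternatingMap (alv α).toAlternatingMap))
  map_add' _ _ := alv_ext fun _ => map_add A _ _
  map_smul' _ _ := alv_ext fun _ => map_smul A _ _

theorem altM_apply (A : E.W →ₗ[ℂ] E'.W) (α : (S.alt E j).W) (v : Fin j → S.W) :
    alv (altM S j A α) v = A (alv α v) := rfl

theorem hom_altM {A : Y.T → E.W →ₗ[ℂ] E'.W} (h : Ch.Hom (Mor.id Y) E E' A) :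
    Ch.Hom (Mor.id Y) (S.alt E j) (S.alt E' j) fun t => altM S j (A t) :=
  hom_alt (fun t _ hα => ⟨fun v => h.mem t _ (hα.1 v), fun v i hi =>
      (congrArg (A t) (hα.2 v i hi)).trans (map_zero _)⟩)
    (fun v => h.continuous (continuous_fst.comp continuous_subtype_val)
      ((continuous_alv.comp (continuous_snd.comp continuous_subtype_val)).eval_const v)
      fun x => x.2.1 v)
    fun g t α v hα => (congrArg (fun u => A (g • t) (g • alv α u))
      (funext fun i => inv_smul_smul g (v i))).trans (h.eqv g t _ (hα.1 v))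

theorem iso_altM {A : Y.T → E.W →ₗ[ℂ] E'.W} (h : Iso (Mor.id Y) E E' A) :
    Iso (Mor.id Y) (S.alt E j) (S.alt E' j) fun t => altM S j (A t) := by
  obtain ⟨B, hB, e⟩ := h.toHom.exists_sect h.surj
  exact ⟨hom_altM S j h.toHom, fun t α hα e => alv_ext fun v =>
    h.inj t _ (hα.1 v) (congrArg (alv · v) e), fun t α hα =>
      ⟨altM S j (B t) α, (hom_altM S j hB).mem t α hα, alv_ext fun v => e t _ (hα.1 v)⟩⟩

end alt

variable {S Λ R J ι ν κ : Type} [Fintype S] [Fintype Λ] [Fintype R] [Fintype J] [Fintype ι]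
  [DecidableEq ι] [Fintype ν] [Fintype κ] {ch : Ch ι J} {W : Wt S Λ R J}
  {O : Set (ch.WF ν κ Λ)} {U : HO}

namespace IsCh

variable {F : CF U ch.M ch.o ch.g ch.m} {p : Pres U.toSp (actF W) O} {τ : U.G →* (ch.AF ν κ S)ˣ}
  (h : IsCh F p τ)
include h

/-- the bundle of the framed spaces of sections -/
noncomputable def Eb (l : Option J) : VB U.toSp :=
  VB.ofLin (ch.E l) (fun g => (τ g : ch.AF ν κ S).2.2.1 l) (fun w => by rw [map_one]; rfl)
    (fun g g' w => by rw [map_mul]; rfl)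
    (((show Continuous fun s : ch.AF ν κ S => s.2.2.1 l by fun_prop).comp
      (Units.continuous_val.comp (h.cont.comp continuous_fst))).clm_apply continuous_snd)
    (fun _ => ⊤) (ch.h l) isClosed_univ (fun _ => by simp) fun _ _ _ _ => trivial

omit h in
variable (p) in
/-- the evaluations at a point of the curve -/
noncomputable def _root_.Vale.Agent.P269.Grr.uE (x : F.UT) : ∀ l, ch.E l →L[ℂ] ℂ :=
  Classical.epsilon fun u => (x.c, u) ∈ gr (p.i x.t).2

theorem uE_mem (x : F.UT) : (x.c, uE p x) ∈ gr (p.i x.t).2 :=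
  Classical.epsilon_spec (mem_crv.1 (h.C x.t ▸ x.mem))

theorem uE_Q (x : F.UT) (l : Option J) (μ : Tens ch.M (ch.a l)) :
    uE p x l ((p.i x.t).2.Q l μ) = val μ x.c := (h.uE_mem x).2 l μ

theorem continuous_uE : Continuous (uE p : F.UT → _) := by
  refine continuous_iff_continuousAt.2 fun x => ?_
  obtain ⟨Φ, h1, h2⟩ := exists_evU (h.mem_base x.t).1
  have h3 : Continuous fun y : F.UT => (p.i y.t).2 :=
    continuous_snd.comp (p.emb.continuous.comp CF.UT.continuous_t)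
  refine (ContinuousAt.comp (f := fun y : F.UT => ((p.i y.t).2, y.c)) (h1 x.c).continuousAt
    (h3.prodMk CF.UT.continuous_c).continuousAt).congr ?_
  filter_upwards [h3.continuousAt.eventually h2] with y hy
  exact funext fun l => gr_unique (hy _ (h.C y.t ▸ y.mem)) (h.uE_mem y) ((h.mem_base y.t).1 l)

theorem uE_smul (s : U.G × Tor ι) (x : F.UT) (l : Option J) (w : ch.E l) :
    uE p (s • x) l ((τ s.1 : ch.AF ν κ S).2.2.1 l w) =
      Base.chr (ch.a l) (fun i => s.2 i) * uE p x l w := by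
  obtain ⟨μ, rfl⟩ := (h.mem_base x.t).1 l w
  obtain ⟨μ, rfl⟩ := Cv.sub_surj (isUnit_dupF (τ s.1).isUnit) _ μ
  have h1 := h.uE_Q (s • x) l μ
  rw [CF.UT.smul_t, h.eqv, CF.UT.smul_c, CF.act_eq, val_smul] at h1
  rw [h.uE_Q, Ch.val_sub]
  refine h1.trans (congrArg (_ * ·) (congrArg (val μ) (funext fun i => ?_)))
  exact congrArg (· (x.c i)) (h.ρ s.1 i)

theorem isH0_Eb (l : Option J) :
    F.IsH0 (ch.a l) 1 (h.Eb l) fun x => (uE p x l : ch.E l →ₗ[ℂ] ℂ) := by
  refine ⟨Ch.Hom.of_continuous (fun _ _ _ => trivial) (((continuous_apply l).comp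
    (h.continuous_uE.comp continuous_fst)).clm_apply continuous_snd)
    fun (s : U.G × Tor ι) (x : F.UT) (w : ch.E l) _ => (h.uE_smul s x l w).trans ?_,
    fun t (w : ch.E l) _ => ?_, ?_, fun t (w : ch.E l) _ e => ?_⟩
  · exact congrArg (· * uE p x l w) ((one_mul _).symm.trans (F.coe_lb 1 _ s).symm)
  · obtain ⟨μ, rfl⟩ := (h.mem_base t).1 l w
    exact ⟨μ, funext fun c => (h.uE_Q (CF.UT.mk t c c.2) l μ).symm⟩
  · rintro t _ ⟨μ, rfl⟩
    exact ⟨(p.i t).2.Q l μ, trivial, fun c => h.uE_Q (CF.UT.mk t c c.2) l μ⟩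
  · obtain ⟨μ, rfl⟩ := (h.mem_base t).1 l w
    exact (h.mem_base t).2.1 l μ fun c hc =>
      (h.uE_Q (CF.UT.mk t c (h.C t ▸ hc)) l μ).symm.trans (e ⟨c, h.C t ▸ hc⟩)

/-- one-forms as linear maps -/
noncomputable def iX (j : J) : (F.AT (ch.b j) ((h.Eb (some j)).tw (Mor.id _) (h.χ j)) 1).W →ₗ[ℂ]
    (Tens ch.M (ch.b j) →L[ℂ] ch.E (some j)) where
  toFun α := (ContinuousAlternatingMap.ofSubsingleton ℂ _ _ (0 : Fin 1)).symm (alv α)
  map_add' _ _ := rfl
  map_smul' _ _ := rfl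

theorem iX_apply (j : J) (α) (μ : Tens ch.M (ch.b j)) : h.iX j α μ = alv α fun _ => μ := rfl

theorem iX_eq_zero (j : J) (α) (e : h.iX j α = 0) : α = 0 := alv_ext fun v =>
  (congrArg (alv α) (funext fun i => congrArg v (Subsingleton.elim i 0))).trans
    (congrArg (· (v 0)) e)

theorem isMod_X (j : J) : IsMod p (ρX W j) (fun _ => ⊤) (fun _ => ⊥)
    (F.AT (ch.b j) ((h.Eb (some j)).tw (Mor.id _) (h.χ j)) 1)
    (F.AT (ch.b j) ((h.Eb (some j)).tw (Mor.id _) (h.χ j)) 1) (h.iX j) fun _ => LinearMap.id := by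
  have := LinearMap.isClosedEmbedding_of_injective (f := h.iX j)
    (F := Tens ch.M (ch.b j) →L[ℂ] ch.E (some j)) (eq_bot_iff.2 (h.iX_eq_zero j))
  refine ⟨this.isEmbedding, fun t => eq_top_iff.2 fun X _ =>
    ⟨ala _ _ (ContinuousAlternatingMap.ofSubsingleton ℂ _ _ (0 : Fin 1) X),
      ⟨fun _ => trivial, fun v i hi => ?_⟩, rfl⟩,
    fun g t α _ => sub_eq_zero.2 (ContinuousLinearMap.ext fun μ => ?_), fun _ => bot_le,
    Ch.Hom.of_continuous (fun _ _ h => h) continuous_snd fun _ _ _ _ => rfl,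
    fun _ w h => ⟨w, h, rfl⟩, fun _ α _ => ⟨fun e => (congrArg _ e).trans (map_zero _),
      h.iX_eq_zero j α⟩⟩
  · obtain rfl : i = 0 := Subsingleton.elim _ _
    exact (congrArg X hi).trans (map_zero X)
  · rw [h.u, ρX, ← h.coe_χ]
    refine congrArg (fun m : Tens ch.M (ch.b j) => (h.χ j g : ℂ) •
      (τ g : ch.AF ν κ S).2.2.1 (some j) (alv α fun _ => m))
      (ContinuousMultilinearMap.ext fun v => congrArg μ (funext fun s => ?_))
    exact congrArg (· (v s)) ((congrArg (F.ρ · s.1) (inv_inv g)).trans (h.ρ g s.1))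

theorem chX (j : J) {E : VB U.toSp} {ev : F.UT → E.W →ₗ[ℂ] ℂ}
    (hE : F.IsH0 (ch.a (some j)) (h.χ j) E ev) :
    (ch.sdX ν κ W j).ch (actF W) O = pS p.e (F.AT (ch.b j) E 1).chR := by
  have h1 := (h.isH0_Eb (some j)).tw (h.χ j)
  rw [show h.χ j * 1 = h.χ j from ContinuousMonoidHom.ext fun _ => mul_one _] at h1
  obtain ⟨A, hA, -⟩ := hE.exists_iso h1 (h.cuts.ne _)
  rw [(iso_altM (F.Tb (ch.b j)).bot 1 hA).chR]
  refine (IsMod.ch_eq (D := ⟨_, _, _⟩) (h.isMod_X j)).trans ?_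
  rw [← ((VB.chern_mon _).map _).reverse_eq, (VB.chern_mon _).reverse_map]
  exact congrArg _ (pS_id _).symm

end IsCh

end Vale.Agent.P269.Grr
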