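import Vale.Agent.P269.Grr.Alt
import Mathlib.LinearAlgebra.PiTensorProduct.Generators

/-!
# Cramer's rule for alternating forms; bundles of forms and of homomorphisms
-/

namespace Vale.Agent.P269.Grr

open Set Function Topology Filter Module Vale.Agent.P291Z Vale.Agent.P269.Ch

section alg
variable {V N : Type*} [AddCommGroup V] [Module ℂ V] [AddCommGroup N] [Module ℂ N] {j : ℕ}
  {S : Submodule ℂ V} {M : Submodule ℂ N}

theorem cramer [FiniteDimensional ℂ V] {θ : V [⋀^Fin j]→ₗ[ℂ] ℂ} (h : θ ∈ altA S ⊤ j)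
    (hj : finrank ℂ V ≤ finrank ℂ S + j) (y : Fin (j + 1) → V) :
    ∑ i : Fin (j + 1), (-1) ^ (i : ℕ) • θ (i.removeNth y) • y i ∈ S := by
  by_contra hx
  obtain ⟨l, h1, h2⟩ := exists_form hx
  have h3 := DFunLike.congr_fun (eq_zero_of_lt (wdgA_mem h2 h) (by omega)) y
  rw [wdgA_apply, AlternatingMap.zero_apply] at h3
  rw [map_sum] at h1
  refine one_ne_zero (h1.symm.trans ((Finset.sum_congr rfl fun i _ => ?_).trans h3))
  rw [map_zsmul, map_smul, smul_eq_mul, smul_eq_mul, mul_comm]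

theorem eq_zero_of_span {θ : V [⋀^Fin j]→ₗ[ℂ] N} (h : θ ∈ altA S M j) {T : Set V}
    (hT : S ⊔ Submodule.span ℂ T = ⊤) (h0 : ∀ v, (∀ i, v i ∈ T) → θ v = 0) : θ = 0 := by
  refine AlternatingMap.coe_multilinearMap_injective (MultilinearMap.ext_of_span_eq_top
    (γ := fun _ => ((S : Set V) ∪ T : Set V)) (g := fun _ => Subtype.val) (fun _ => ?_) fun v => ?_)
  · rw [Subtype.range_coe, Submodule.span_union, Submodule.span_eq, hT]
  · by_cases h1 : ∀ i, (v i).1 ∈ T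
    · exact h0 _ h1
    · obtain ⟨i, hi⟩ := not_forall.1 h1
      exact h.2 _ i ((v i).2.resolve_right hi)

theorem eq_zero_of_tuple {θ : V [⋀^Fin j]→ₗ[ℂ] N} (h : θ ∈ altA S M j) {x : Fin j → V}
    (hx : S ⊔ Submodule.span ℂ (range x) = ⊤) (h0 : θ x = 0) : θ = 0 := by
  refine eq_zero_of_span h hx fun v hv => ?_
  choose σ hσ using hv
  obtain rfl : x ∘ σ = v := funext hσ
  by_cases h1 : Injective σ
  · exact (θ.map_perm x (Equiv.ofBijective σ h1.bijective_of_finite)).trans (by rw [h0, smul_zero])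
  · exact θ.map_eq_zero_of_not_injective _ fun h2 => h1 h2.of_comp

theorem curry_ne_zero [FiniteDimensional ℂ V] {θ : V [⋀^Fin (j + 1)]→ₗ[ℂ] N}
    (h : θ ∈ altA S M (j + 1)) (hj : finrank ℂ V ≤ finrank ℂ S + (j + 1)) (h0 : θ ≠ 0) {x : V}
    (hx : x ∉ S) : θ.curryLeft x ≠ 0 := fun e =>
  h0 (eq_zero_of_lt (mem_altA_sup.2 ⟨h, e⟩) (by rw [Submodule.finrank_sup_span_singleton hx]; omega))

theorem zero_of_smul (ω : V [⋀^Fin j]→ₗ[ℂ] N) {v : Fin j → V} {i k : Fin j} (hik : i ≠ k)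
    {a b : ℂ} {h : V} (hi : v i = a • h) (hk : v k = b • h) : ω v = 0 := by
  rw [← update_eq_self i v, hi, ω.map_update_smul, ← update_eq_self k (update v i h),
    update_of_ne hik.symm, hk, ω.map_update_smul, ω.map_eq_zero_of_eq _ (i := i) (j := k)
      (by rw [update_self, update_of_ne hik, update_self]) hik, smul_zero, smul_zero]

end alg

variable {Y : Ch.Sp}

theorem r_le (E : VB Y) (t : Y.T) : E.r ≤ finrank ℂ E.W := E.rank t ▸ (E.F t).finrank_le

theorem ker_sup (E : VB Y) (t : Y.T) :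
    LinearMap.ker (E.P t : E.W →ₗ[ℂ] E.W) ⊔ E.F t = ⊤ :=
  eq_top_iff.2 fun w _ => Submodule.mem_sup.2 ⟨w - E.P t w, (map_sub (E.P t) _ _).trans
    (sub_eq_zero.2 (E.P_eq (E.P_mem t w)).symm), _, E.P_mem t w, sub_add_cancel _ _⟩

theorem finrank_ker_P (E : VB Y) (t : Y.T) :
    finrank ℂ (LinearMap.ker (E.P t : E.W →ₗ[ℂ] E.W)) + E.r = finrank ℂ E.W := by
  rw [← LinearMap.finrank_range_add_finrank_ker (E.P t : E.W →ₗ[ℂ] E.W), add_comm,
    show LinearMap.range (E.P t : E.W →ₗ[ℂ] E.W) = E.F t from le_antisymm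
      (by rintro _ ⟨w, rfl⟩; exact E.P_mem t w) fun w hw => ⟨w, E.P_eq hw⟩, E.rank]

/-- the complement given by the projector -/
@[reducible] noncomputable def cpl (E : VB Y) : VB Y :=
  E.sub (fun t => LinearMap.ker (E.P t : E.W →ₗ[ℂ] E.W)) (finrank ℂ E.W - E.r)
    (isClosed_eq (E.continuous_P continuous_fst continuous_snd) continuous_const)
    (fun t => by have := finrank_ker_P E t; omega) fun g t w hw =>
      (E.P_smul g t w).trans ((congrArg (g • ·) hw).trans (smul_zero g))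

/-- forms on a bundle -/
noncomputable def frm (E : VB Y) (j : ℕ) : VB Y := (cpl E).alt (char 1) j

/-- homomorphisms of bundles -/
noncomputable def hm (D D' : VB Y) : VB Y := (cpl D).alt D' 1

theorem frm_r (E : VB Y) (j : ℕ) (t : Y.T) : (frm E j).r = E.r.choose j := by
  show (finrank ℂ E.W - (finrank ℂ E.W - E.r)).choose j * 1 = _
  rw [Nat.sub_sub_self (r_le E t), mul_one]

theorem hm_r (D D' : VB Y) (t : Y.T) : (hm D D').r = D.r * D'.r := by
  show (finrank ℂ D.W - (finrank ℂ D.W - D.r)).choose 1 * D'.r = _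
  rw [Nat.sub_sub_self (r_le D t), Nat.choose_one_right]

variable {E D D' : VB Y} {j : ℕ} {t : Y.T}

/-- the underlying form -/
def fc (θ : (frm E j).W) : E.W [⋀^Fin j]→L[ℂ] ℂ := θ

/-- a form as an element of the fibre -/
def fa (E : VB Y) (θ : E.W [⋀^Fin j]→L[ℂ] ℂ) : (frm E j).W := θ

theorem fc_ext {θ θ' : (frm E j).W} (h : ∀ v, fc θ v = fc θ' v) : θ = θ' :=
  ContinuousAlternatingMap.ext h

theorem mem_frm {θ : (frm E j).W} : θ ∈ (frm E j).F t ↔
    (fc θ).toAlternatingMap ∈ altA (LinearMap.ker (E.P t : E.W →ₗ[ℂ] E.W)) ⊤ j := Iff.rfl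

theorem fc_smul (g : Y.G) (θ : (frm E j).W) (v : Fin j → E.W) :
    fc (g • θ) v = fc θ fun i => g⁻¹ • v i := one_mul (fc θ fun i => g⁻¹ • v i)

@[fun_prop] theorem continuous_fc : Continuous (fc : (frm E j).W → _) := continuous_id

theorem continuous_frm {Z : Type*} [TopologicalSpace Z] {f : Z → (frm E j).W}
    (h : ∀ v, Continuous fun z => fc (f z) v) : Continuous f :=
  (continuous_alt (W := E.W) (W' := ℂ)).2 h

theorem frm_eq_zero {θ : (frm E j).W} (h : θ ∈ (frm E j).F t)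
    (h0 : ∀ v, (∀ i, v i ∈ E.F t) → fc θ v = 0) : θ = 0 :=
  fc_ext fun v => DFunLike.congr_fun (f := (fc θ).toAlternatingMap) (eq_zero_of_span (mem_frm.1 h)
    (T := E.F t) (by rw [Submodule.span_eq, ker_sup]) h0) v

theorem frm_cramer {θ : (frm E j).W} (h : θ ∈ (frm E j).F t) (hr : E.r = j)
    {y : Fin (j + 1) → E.W} (hy : ∀ i, y i ∈ E.F t) :
    ∑ i : Fin (j + 1), (-1) ^ (i : ℕ) • fc θ (i.removeNth y) • y i = 0 :=
  (E.P_eq (sum_mem fun i _ => zsmul_mem ((E.F t).smul_mem _ (hy i)) _)).symm.trans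
    (cramer (mem_frm.1 h) (by rw [← finrank_ker_P E t, hr]) y)

theorem frm_cramer' {θ : (frm E (j + 1)).W} (h : θ ∈ (frm E (j + 1)).F t) (hr : E.r = j + 1)
    {v : E.W} (hv : v ∈ E.F t) {x : Fin (j + 1) → E.W} (hx : ∀ i, x i ∈ E.F t) :
    fc θ x • v =
      ∑ i : Fin (j + 1), (-1) ^ (i : ℕ) • fc θ (Matrix.vecCons v (i.removeNth x)) • x i := by
  have h1 := frm_cramer h hr (y := Matrix.vecCons v x) (Fin.cases hv hx)
  rw [Fin.sum_univ_succ, add_eq_zero_iff_eq_neg, ← Finset.sum_neg_distrib] at h1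
  refine Eq.trans (by simp) (h1.trans (Finset.sum_congr rfl fun i _ => ?_))
  rw [removeNth_succ_vecCons, Fin.val_succ, pow_succ, mul_neg_one, neg_smul, neg_neg]
  rfl

theorem exists_ne_zero (E : VB Y) (hr : E.r = 1) (t : Y.T) : ∃ w ∈ E.F t, w ≠ 0 :=
  Submodule.exists_mem_ne_zero_of_ne_bot fun h => by
    have := E.rank t
    rw [h, finrank_bot, hr] at this
    exact zero_ne_one this

theorem exists_frm (hr : E.r = j) (t : Y.T) :
    ∃ θ ∈ (frm E j).F t, ∃ x, (∀ i, x i ∈ E.F t) ∧ fc θ x ≠ 0 := by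
  obtain ⟨θ, h1, h2⟩ := exists_ne_zero (frm E j) (by rw [frm_r E j t, hr, Nat.choose_self]) t
  exact ⟨θ, h1, by_contra fun h => h2 (frm_eq_zero h1 fun v hv =>
    by_contra fun h3 => h ⟨v, hv, h3⟩)⟩

/-- the underlying linear map -/
noncomputable def hv (l : (hm D D').W) : D.W →L[ℂ] D'.W :=
  (ContinuousAlternatingMap.ofSubsingleton ℂ D.W D'.W (0 : Fin 1)).symm l

theorem hv_ext {l l' : (hm D D').W} (h : ∀ w, hv l w = hv l' w) : l = l' :=
  (ContinuousAlternatingMap.ofSubsingleton ℂ D.W D'.W (0 : Fin 1)).symm.injective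
    (ContinuousLinearMap.ext h)

theorem alv_hm (l : (hm D D').W) (v : Fin 1 → D.W) : alv (S := cpl D) l v = hv l (v 0) :=
  congrArg (alv (S := cpl D) l) (funext fun _ => congrArg v (Subsingleton.elim _ _))

theorem mem_hm {l : (hm D D').W} : l ∈ (hm D D').F t ↔
    (∀ w, hv l w ∈ D'.F t) ∧ ∀ w, D.P t w = 0 → hv l w = 0 :=
  ⟨fun h => ⟨fun _ => h.1 _, fun _ hw => h.2 _ 0 hw⟩, fun h => mem_alt.2
    ⟨fun v => by rw [alv_hm]; exact h.1 _, fun v i hi => by
      rw [alv_hm]; exact h.2 _ (Subsingleton.elim i 0 ▸ hi)⟩⟩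

theorem hv_smul (g : Y.G) (l : (hm D D').W) (w : D.W) : hv (g • l) (g • w) = g • hv l w :=
  show g • hv l (g⁻¹ • g • w) = _ by rw [inv_smul_smul]

theorem continuous_hv : Continuous fun x : (hm D D').W × D.W => hv x.1 x.2 :=
  ((continuous_alv (S := cpl D)).comp continuous_fst).eval (continuous_pi fun _ => continuous_snd)

theorem hm_eq_zero {l : (hm D D').W} (h : l ∈ (hm D D').F t) (h0 : ∀ w ∈ D.F t, hv l w = 0) :
    l = 0 := hv_ext fun w => by
  obtain ⟨a, ha, b, hb, rfl⟩ := Submodule.mem_sup.1 ((ker_sup D t).ge (Submodule.mem_top (x := w)))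
  rw [map_add, (mem_hm.1 h).2 a ha, h0 b hb, add_zero]
  rfl

theorem hv_ne_zero (hr : D.r = 1) {l : (hm D D').W} (h : l ∈ (hm D D').F t) (h0 : l ≠ 0)
    {θ : D.W} (h1 : θ ∈ D.F t) (h2 : θ ≠ 0) : hv l θ ≠ 0 := fun e => h0 (hm_eq_zero h fun w hw => by
  obtain ⟨c, hc⟩ := (finrank_eq_one_iff_of_nonzero' (⟨θ, h1⟩ : D.F t)
    (fun h3 => h2 (congrArg Subtype.val h3))).1 ((D.rank t).trans hr) ⟨w, hw⟩
  rw [← show c • θ = w from congrArg Subtype.val hc, map_smul, e, smul_zero])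

/-- a bilinear map as a map into homomorphisms -/
noncomputable def ha (D D' : VB Y) {V : Type} [AddCommGroup V] [Module ℂ V]
    (B : V →ₗ[ℂ] D.W →ₗ[ℂ] D'.W) : V →ₗ[ℂ] (hm D D').W where
  toFun v := ContinuousAlternatingMap.ofSubsingleton ℂ D.W D'.W (0 : Fin 1)
    (LinearMap.toContinuousLinearMap (B v))
  map_add' v w := hv_ext fun x => B.map_add₂ v w x
  map_smul' c v := hv_ext fun x => B.map_smul₂ c v x

theorem hv_ha {V : Type} [AddCommGroup V] [Module ℂ V] (B : V →ₗ[ℂ] D.W →ₗ[ℂ] D'.W) (v : V)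
    (w : D.W) : hv (ha D D' B v) w = B v w := rfl

theorem hom_hm {B : Y.T → E.W →ₗ[ℂ] D.W →ₗ[ℂ] D'.W}
    (mem : ∀ t v w, v ∈ E.F t → B t v w ∈ D'.F t)
    (ker : ∀ t v w, v ∈ E.F t → D.P t w = 0 → B t v w = 0)
    (cont : ∀ w, Continuous fun x : Y.T × E.W => B x.1 x.2 w)
    (eqv : ∀ (g : Y.G) t v w, B (g • t) (g • v) (g • w) = g • B t v w) :
    Hom (Mor.id Y) E (hm D D') fun t => ha D D' (B t) :=
  hom_alt (S := cpl D) (fun t v h => mem_hm.2 ⟨fun w => mem t v w h, fun w => ker t v w h⟩)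
    (fun w => (cont (w 0)).comp continuous_subtype_val) fun g t v w _ => eqv g t v (w 0)

end Vale.Agent.P269.Grr
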