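import Vale.Agent.P269.Orb.Ext

/-!
# Riemann-Roch: definitions

Chern character and Todd class (as power series in a grading variable), the cohomological Gysin
map, complexes of bundles, local Koszul models, subspaces cut out by a section.
-/

namespace Vale.Agent.P269.Grr

open Set Function Topology Filter Vale.Agent.P291Z Vale.Agent.P269.Ch PowerSeries
open scoped Polynomial

section alg

variable {R S : Type*} [CommRing R] [Algebra ℂ R] [CommRing S] [Algebra ℂ S]

/-- `f (x t)` -/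
noncomputable def ev (x : R) : ℂ⟦X⟧ →+* R⟦X⟧ :=
  (rescale x).comp (PowerSeries.map (algebraMap ℂ R))

/-- `exp (x t)` -/
noncomputable def ex (x : R) : R⟦X⟧ := ev x (exp ℂ)

/-- `t / (1 - exp (-t))` -/
noncomputable def tdS : ℂ⟦X⟧ := bernoulli'PowerSeries ℂ

/-- `∏ (1 - x_i t)` for `P = ∏ (X + x_i)` -/
noncomputable def revS (r : ℕ) (P : R[X]) : R⟦X⟧ :=
  mk fun k => if k ≤ r then (-1) ^ k * P.coeff (r - k) else 0

/-- the generating series of the power sums, `∑ 1 / (1 - x_i t)` -/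
noncomputable def psum (r : ℕ) (P : R[X]) : R⟦X⟧ :=
  (r : R⟦X⟧) - X * d⁄dX R (revS r P) * invOfUnit (revS r P) 1

/-- rescaling of the coefficients -/
noncomputable def hd (f : ℕ → ℂ) (A : R⟦X⟧) : R⟦X⟧ := mk fun k => f k • coeff k A

/-- `∑ exp (x_i t)` for `P = ∏ (X + x_i)` -/
noncomputable def chP (r : ℕ) (P : R[X]) : R⟦X⟧ := hd (fun k => (k.factorial : ℂ)⁻¹) (psum r P)

/-- the coefficients of `sol A` -/
noncomputable def solC (A : R⟦X⟧) : ℕ → R
  | 0 => 1
  | k + 1 => ((k : ℂ) + 1)⁻¹ • ∑ j : Fin (k + 1), coeff (k + 1 - j) A * solC A j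
decreasing_by exact j.2

/-- the solution of `t S' = A S`, `S 0 = 1` (the constant term of `A` is ignored) -/
noncomputable def sol (A : R⟦X⟧) : R⟦X⟧ := mk (solC A)

/-- the logarithmic derivative `t td' / td` -/
noncomputable def tdL : ℂ⟦X⟧ := X * d⁄dX ℂ tdS * tdS⁻¹

/-- the Todd class of a virtual bundle with Chern character `A` -/
noncomputable def tdOf (A : R⟦X⟧) : R⟦X⟧ := sol (hd (fun k => (k.factorial : ℂ) * coeff k tdL) A)

/-- a map applied to all coefficients -/
noncomputable def mapL {R S : Type*} [Semiring R] [Semiring S] (g : R → S) (A : R⟦X⟧) : S⟦X⟧ :=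
  mk fun k => g (coeff k A)

/-- integration along the fibres of a projective bundle with relation `P` of degree `r + 1` -/
noncomputable def lead (r : ℕ) (P Q : R[X]) : R := (Q %ₘ P).coeff r

/-- Mumford's series `∑ B_(k+2) / (k+2)! (a^(k+1) + b^(k+1)) / (a + b) t^k` -/
noncomputable def mumS (a b : R) : R⟦X⟧ :=
  mk fun k => ((bernoulli (k + 2) : ℂ) / (k + 2).factorial) •
    ∑ p ∈ Finset.HasAntidiagonal.antidiagonal k, (-a) ^ p.1 * b ^ p.2

end alg

section top

variable {X Y : Type} [TopologicalSpace X] [TopologicalSpace Y]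

/-- pull-back of series of classes -/
noncomputable abbrev pS (f : C(X, Y)) : (Hev Y)⟦X⟧ →+* (Hev X)⟦X⟧ :=
  PowerSeries.map (Hev.map f : Hev Y →+* Hev X)

/-- The cohomological Gysin map of a closed embedding `i` with the cocycle `t` supported on its
image. -/
noncomputable def hgys (i : Y → X) (t : Coch X) (q : H Y) : H X :=
  hcls (Classical.epsilon (fun a : Coch X => (∀ y, δ a ∈ Van (i y)) ∧ hcls (pull i a) = q) * t)

open Classical in
/-- an even class as an element of `Hev` -/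
noncomputable def toEv (c : H X) : Hev X := if h : c ∈ Hev X then ⟨c, h⟩ else 0

/-- the Gysin map on even classes -/
noncomputable def eg (i : Y → X) (t : Coch X) (q : Hev Y) : Hev X := toEv (hgys i t q.1)

open Classical in
/-- the indicator function of `l < 0` as a cochain -/
noncomputable def neg {Z : Type} (l : Z → ℝ) : Coch Z := fn fun z => if l z < 0 then 1 else 0

end top

variable {Y : Ch.Sp}

/-- the Chern character -/
noncomputable def _root_.Vale.Agent.P269.Ch.VB.chc (E : VB Y) : (Hev Y.X)⟦X⟧ := chP E.r E.chern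

/-- the Todd class -/
noncomputable def _root_.Vale.Agent.P269.Ch.VB.td (E : VB Y) : (Hev Y.X)⟦X⟧ := tdOf E.chc

/-- A bounded complex of bundles `E n → ⋯ → E 1 → E 0`. -/
structure Cx (Y : Ch.Sp) where
  /-- the length -/
  n : ℕ
  /-- the terms -/
  E : ℕ → VB Y
  /-- the differentials -/
  d : ∀ j, Y.T → (E (j + 1)).W →ₗ[ℂ] (E j).W
  hom : ∀ j, Hom (Mor.id Y) (E (j + 1)) (E j) (d j)
  dd : ∀ j t w, w ∈ (E (j + 2)).F t → d j t (d (j + 1) t w) = 0
  top : ∀ j, n < j → (E j).r = 0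

/-- alternating forms on `ℂ^c` -/
abbrev Al (c j : ℕ) : Type := (Fin c → ℂ) [⋀^Fin j]→L[ℂ] ℂ

namespace Cx

variable (K : Cx Y)

/-- the cycles -/
def Zy : ∀ j, Y.T → Submodule ℂ (K.E j).W
  | 0, t => (K.E 0).F t
  | j + 1, t => (K.E (j + 1)).F t ⊓ LinearMap.ker (K.d j t)

/-- the boundaries -/
def Bd (j : ℕ) (t : Y.T) : Submodule ℂ (K.E j).W := ((K.E (j + 1)).F t).map (K.d j t)

/-- exactness at a point -/
def Ex (t : Y.T) : Prop := ∀ j, K.Zy j t ≤ K.Bd j t

/-- the alternating sum of the Chern characters -/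
noncomputable def chi : (Hev Y.X)⟦X⟧ := ∑ j ∈ Finset.range (K.n + 1), (-1) ^ j * (K.E j).chc

/-- Near `y` there is a chain map `φ` from the Koszul complex of `f`, and it is a quasi-isomorphism
at the point `y` (where `f` vanishes). -/
structure Loc (c : ℕ) (f : Y.T → Fin c → ℂ) (φ : ∀ j, Y.T → Al c j →L[ℂ] (K.E j).W) (y : Y.T) :
    Prop where
  cont : ∀ j, ∀ᶠ x in 𝓝 y, ContinuousAt (φ j) x
  mem : ∀ j, ∀ᶠ x in 𝓝 y, ∀ κ, φ j x κ ∈ (K.E j).F x
  comm : ∀ j, ∀ᶠ x in 𝓝 y, ∀ κ, K.d j x (φ (j + 1) x κ) = φ j x (κ.curryLeft (f x))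
  inj : ∀ j κ, φ j y κ ∈ K.Bd j y → κ = 0
  surj : ∀ j, ∀ w ∈ K.Zy j y, ∃ κ, w - φ j y κ ∈ K.Bd j y

end Cx

/-- The closed invariant subset `Z` is cut out, near itself, by the section `σ` of `N`; `t` is the
Euler cocycle of `σ` extended by zero. -/
structure Cut (Y : Ch.Sp) (Z : SubMulAction Y.G Y.T) where
  closed : IsClosed (Z : Set Y.T)
  /-- an open neighbourhood -/
  O : SubMulAction Y.G Y.T
  isOpen : IsOpen (O : Set Y.T)
  le : ∀ t ∈ Z, t ∈ O
  /-- the extension of the normal bundle -/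
  N : VB (Y.sub O isOpen.isLocallyClosed)
  /-- the section -/
  σ : O → N.W
  sec : N.IsSec σ
  zero : ∀ t : O, σ t = 0 ↔ t.1 ∈ Z
  dir : ∀ y : O, y.1 ∈ Z → ∀ n ∈ N.F y, ∃ x : ℝ → O, Tendsto x (𝓝[>] 0) (𝓝 y) ∧
    Tendsto (fun r : ℝ => (r : ℂ)⁻¹ • σ (x r)) (𝓝[>] 0) (𝓝 n)
  /-- the cocycle -/
  t : Coch Y.X
  isCo : IsCo (Y.π '' Z) N.r t
  cohom : Cohom ((Y.subI O isOpen.isLocallyClosed).map ⁻¹' (Y.π '' Z))
    (pull (Y.subI O isOpen.isLocallyClosed).map t) sec.eul

namespace Cut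

variable {Z : SubMulAction Y.G Y.T} (c : Cut Y Z)

/-- the subspace -/
noncomputable def S : Ch.Sp := Y.sub Z c.closed.isLocallyClosed

/-- the inclusion -/
noncomputable def i : Mor c.S Y := Y.subI Z _

/-- the inclusion into the neighbourhood -/
noncomputable def k : Mor c.S (Y.sub c.O c.isOpen.isLocallyClosed) :=
  ⟨MonoidHom.id _, fun z : Z => (⟨z.1, c.le _ z.2⟩ : c.O), continuous_id,
    continuous_subtype_val.subtype_mk _, fun _ _ => rfl⟩

/-- the normal bundle -/
noncomputable def NS : VB c.S := c.N.pb c.k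

/-- the Gysin map -/
noncomputable def g : Hev c.S.X → Hev Y.X := eg c.i.map c.t

/-- near `y` the function `f` is the section `σ` in a continuous frame -/
def Fits {r : ℕ} (f : Y.T → Fin r → ℂ) (y : c.O) : Prop :=
  ∃ B : c.O → c.N.W →L[ℂ] (Fin r → ℂ), (∀ n ∈ c.N.F y, B y n = 0 → n = 0) ∧
    ∀ᶠ x in 𝓝 y, ContinuousAt B x ∧ f x.1 = B x (c.σ x)

end Cut

end Vale.Agent.P269.Grr
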