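import Vale.Agent.P269.Grr.Defs
import Vale.Agent.P269.Loc.TH
import Vale.Agent.P269.Base.Open
import Vale.Agent.P269.Base.Map

/-!
# Families of nodal curves over an orbifold, the universal curve, bundles of sections
-/

namespace Vale.Agent.P269.Grr

open Set Function Topology Filter Module Vale.Agent.P291Z Vale.Agent.P269.Ch Vale.Agent.P269.Holo
  Vale.Agent.P269.Loc Vale.Agent.P269.Base

variable {ι : Type} [Fintype ι]

/-- An equivariant holomorphic family of nodal curves over `U` that smooths every node. -/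
structure CF (U : HO) (M : ι → ℕ) (o : ι) (g : ℤ) (m : ι → ℤ) where
  /-- the representations -/
  ρ : U.G → ∀ i, (Fin (M i) → ℂ) →L[ℂ] (Fin (M i) → ℂ)
  ρ_one : ∀ i v, ρ 1 i v = v
  ρ_mul : ∀ g h i v, ρ (g * h) i v = ρ g i (ρ h i v)
  cont : ∀ i, Continuous fun g => ρ g i
  an : ∀ i, AnalyticAt ℂ (fun x => ρ (U.κ x) i) 0
  /-- the curves -/
  C : U.T → Set (V M)
  crv : ∀ t, IsCurve o g m (C t)
  eqv : ∀ g t, ∀ c ∈ C t, (fun i => ρ g i (c i)) ∈ C (g • t)
  fam : ∀ t, LocFam o C U.ι t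
  vers : ∀ t c, IsNode o (C t) c → ∃ τ, NdAt o C U.ι t c τ ∧
    ∃ v ∈ tan U.ι t, fderiv ℂ τ (U.ι t) v ≠ 0
  three : 3 ≤ M o

namespace CF

variable {U : HO} {M : ι → ℕ} {o : ι} {g : ℤ} {m : ι → ℤ} (F : CF U M o g m)

/-- the representation on the factor `i` as a bundle -/
noncomputable def Vb (i : ι) : VB U.toSp :=
  VB.ofLin (Fin (M i) → ℂ) (fun g => F.ρ g i) (F.ρ_one i) (fun g h => F.ρ_mul g h i)
    (((F.cont i).comp continuous_fst).clm_apply continuous_snd) (fun _ => ⊤) (M i) isClosed_univ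
    (fun _ => by simp) fun _ _ _ _ => trivial

theorem Vb_smul (i : ι) (g : U.G) (v : (F.Vb i).W) : g • v = F.ρ g i v := rfl

theorem ρ_inv (g : U.G) (i : ι) (v : Fin (M i) → ℂ) : F.ρ g⁻¹ i (F.ρ g i v) = v := by
  rw [← F.ρ_mul, inv_mul_cancel, F.ρ_one]

theorem ρ_inv' (g : U.G) (i : ι) (v : Fin (M i) → ℂ) : F.ρ g i (F.ρ g⁻¹ i v) = v := by
  rw [← F.ρ_mul, mul_inv_cancel, F.ρ_one]

theorem ρ_ne (g : U.G) {i : ι} {v : Fin (M i) → ℂ} (h : v ≠ 0) : F.ρ g i v ≠ 0 := fun e =>
  h (by rw [← F.ρ_inv g i v, e, map_zero])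

/-- the representations as linear equivalences -/
noncomputable def ρE (g : U.G) (i : ι) : (Fin (M i) → ℂ) ≃L[ℂ] (Fin (M i) → ℂ) :=
  ContinuousLinearEquiv.equivOfInverse (F.ρ g i) (F.ρ g⁻¹ i) (F.ρ_inv g i) (F.ρ_inv' g i)

theorem image_C (g : U.G) (t : U.T) : gV (F.ρE g) '' F.C t = F.C (g • t) := by
  refine subset_antisymm (by rintro _ ⟨c, hc, rfl⟩; exact F.eqv g t c hc) fun c hc => ?_
  have := F.eqv g⁻¹ _ c hc
  rw [inv_smul_smul] at this
  exact ⟨_, this, funext fun i => F.ρ_inv' g i _⟩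

/-- the action of the group and the torus on the multicone -/
noncomputable def act (s : U.G × Tor ι) : V M →ₗ[ℂ] V M :=
  LinearMap.pi fun i => (s.2 i : ℂ) • ((F.ρ s.1 i : _ →ₗ[ℂ] _) ∘ₗ LinearMap.proj i)

theorem act_apply (s : U.G × Tor ι) (c : V M) (i : ι) :
    F.act s c i = (s.2 i : ℂ) • F.ρ s.1 i (c i) := rfl

theorem act_eq (s : U.G × Tor ι) (c : V M) :
    F.act s c = (fun i => (s.2 i : ℂ)) • gV (F.ρE s.1) c := rfl

theorem act_one (c : V M) : F.act 1 c = c := funext fun i => by simp [act_apply, F.ρ_one]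

theorem act_mul (s s' : U.G × Tor ι) (c : V M) : F.act (s * s') c = F.act s (F.act s' c) :=
  funext fun i => by simp [act_apply, F.ρ_mul, mul_smul]

theorem continuous_act : Continuous fun p : (U.G × Tor ι) × V M => F.act p.1 p.2 :=
  continuous_pi fun i => by
    have h1 : Continuous fun p : (U.G × Tor ι) × V M => (p.1.2 i : ℂ) :=
      Units.continuous_val.comp (by fun_prop)
    have h2 : Continuous fun p : (U.G × Tor ι) × V M => F.ρ p.1.1 i (p.2 i) :=
      ((F.cont i).comp continuous_fst.fst).clm_apply (by fun_prop)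
    exact h1.smul h2

theorem act_mem (s : U.G × Tor ι) {t : U.T} {c : V M} (h : c ∈ F.C t) :
    F.act s c ∈ F.C (s.1 • t) :=
  (F.crv _).cone _ (fun i => (s.2 i).ne_zero) _ (F.eqv s.1 t c h)

theorem isNode_act (s : U.G × Tor ι) {t : U.T} {c : V M} :
    IsNode o (F.C (s.1 • t)) (F.act s c) ↔ IsNode o (F.C t) c := by
  rw [act_eq, isNode_smul_iff (fun i => (s.2 i).ne_zero) (F.crv _).cone, ← image_C,
    isNode_map_iff]

/-- the multicone over the universal curve -/
def UT : Type := {x : U.T × V M // x.2 ∈ F.C x.1}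

instance : TopologicalSpace F.UT := inferInstanceAs (TopologicalSpace {_x : U.T × V M // _})

instance : Nice F.UT := by
  have : Nice (V M) :=
    haveI := FiniteDimensional.proper ℂ (V M)
    ⟨inferInstance, inferInstance, inferInstance⟩
  refine Nice.of_isLocallyClosed (S := {x : U.T × V M | x.2 ∈ F.C x.1}) ?_
  have ho : ∀ x : U.T × V M, (∀ i, x.2 i ≠ 0) → ∀ᶠ y in 𝓝 x, ∀ i, y.2 i ≠ 0 := fun x hx =>
    continuous_snd.continuousAt.eventually (Base.eventually_ne hx)
  refine ⟨{x | ∀ i, x.2 i ≠ 0}, {x | (∀ i, x.2 i ≠ 0) ∧ x.2 ∉ F.C x.1}ᶜ,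
    isOpen_iff_mem_nhds.2 ho, (isOpen_iff_mem_nhds.2 fun y hy => ?_).isClosed_compl,
    Set.ext fun x => ⟨fun h => ⟨(F.crv _).ne_zero _ h, fun h' => h'.2 h⟩,
      fun h => by_contra fun h' => h.2 ⟨h.1, h'⟩⟩⟩
  exact (ho y hy.1).and ((F.fam y.1).usc _ hy.1 hy.2)

variable {F}

/-- the point of the base -/
def UT.t (x : F.UT) : U.T := x.1.1

/-- the point of the multicone -/
def UT.c (x : F.UT) : V M := x.1.2

theorem UT.mem (x : F.UT) : x.c ∈ F.C x.t := x.2

theorem UT.ne (x : F.UT) (i : ι) : x.c i ≠ 0 := (F.crv _).ne_zero _ x.mem i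

/-- the constructor -/
def UT.mk (t : U.T) (c : V M) (h : c ∈ F.C t) : F.UT := ⟨(t, c), h⟩

theorem UT.ext {x y : F.UT} (h : x.t = y.t) (h' : x.c = y.c) : x = y := Subtype.ext (Prod.ext h h')

@[fun_prop] theorem UT.continuous_t : Continuous (UT.t : F.UT → U.T) :=
  continuous_fst.comp continuous_subtype_val

@[fun_prop] theorem UT.continuous_c : Continuous (UT.c : F.UT → V M) :=
  continuous_snd.comp continuous_subtype_val

theorem UT.continuous_mk {Z : Type*} [TopologicalSpace Z] {t : Z → U.T} {c : Z → V M}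
    (ht : Continuous t) (hc : Continuous c) (h : ∀ z, c z ∈ F.C (t z)) :
    Continuous fun z => UT.mk (t z) (c z) (h z) := (ht.prodMk hc).subtype_mk _

theorem UT.isEmbedding : IsEmbedding fun x : F.UT => (x.t, x.c) := IsEmbedding.subtypeVal

noncomputable instance : MulAction (U.G × Tor ι) F.UT where
  smul s x := UT.mk (s.1 • x.t) (F.act s x.c) (F.act_mem s x.mem)
  one_smul x := UT.ext (one_smul U.G x.t) (F.act_one x.c)
  mul_smul s s' x := UT.ext (mul_smul s.1 s'.1 x.t) (F.act_mul s s' x.c)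

@[simp] theorem UT.smul_t (s : U.G × Tor ι) (x : F.UT) : (s • x).t = s.1 • x.t := rfl

@[simp] theorem UT.smul_c (s : U.G × Tor ι) (x : F.UT) : (s • x).c = F.act s x.c := rfl

instance : ContinuousSMul (U.G × Tor ι) F.UT :=
  ⟨UT.continuous_mk (by fun_prop) (F.continuous_act.comp
    (continuous_fst.prodMk (UT.continuous_c.comp continuous_snd))) _⟩

/-- the point of the projective bundle of the factor `i` -/
noncomputable def UT.p (x : F.UT) (i : ι) : (F.Vb i).PT := VB.PT.mk x.t (x.c i) trivial (x.ne i)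

theorem UT.continuous_p (i : ι) : Continuous fun x : F.UT => x.p i :=
  VB.PT.continuous_mk UT.continuous_t ((continuous_apply i).comp UT.continuous_c) _ _

theorem UT.smul_p (s : U.G × Tor ι) (x : F.UT) (i : ι) : (s • x).p i = (s.1, s.2 i) • x.p i := rfl

instance : ProperSMul (U.G × Tor ι) F.UT := by
  refine properSMul_iff_continuousSMul_ultrafilter_tendsto_t2.2 ⟨inferInstance, fun 𝒰 x₁ x₂ h => ?_⟩
  have h1 : Tendsto (fun p : (U.G × Tor ι) × F.UT => p.1 • p.2) 𝒰 (𝓝 x₁) :=
    (continuous_fst.tendsto _).comp h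
  have h2 : Tendsto (fun p : (U.G × Tor ι) × F.UT => p.2) 𝒰 (𝓝 x₂) :=
    (continuous_snd.tendsto _).comp h
  obtain ⟨g, -, hg⟩ := (properSMul_iff_continuousSMul_ultrafilter_tendsto.1 U.prop).2
    (𝒰.map fun p : (U.G × Tor ι) × F.UT => (p.1.1, p.2.t)) x₁.t x₂.t
    (((UT.continuous_t.tendsto _).comp h1).prodMk_nhds ((UT.continuous_t.tendsto _).comp h2))
  have H := fun i => (properSMul_iff_continuousSMul_ultrafilter_tendsto.1 (F.Vb i).PS.prop).2
    (𝒰.map fun p : (U.G × Tor ι) × F.UT => ((p.1.1, p.1.2 i), p.2.p i)) (x₁.p i) (x₂.p i)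
    ((((UT.continuous_p i).tendsto _).comp h1).prodMk_nhds
      (((UT.continuous_p i).tendsto _).comp h2))
  choose s _ hs using H
  exact ⟨(g, fun i => (s i).2), Tendsto.prodMk_nhds hg
    (tendsto_pi_nhds.2 fun i => (continuous_snd.tendsto _).comp (hs i))⟩

theorem UT.locFree (x : F.UT) : LocFree (U.G × Tor ι) x := by
  classical
  obtain ⟨τ, h1, h2⟩ := U.free x.t
  choose l hl using fun i => SeparatingDual.exists_ne_zero (R := ℂ) (F.ρ_ne (τ x.t)⁻¹ (x.ne i))
  let c : ι → F.UT → ℂ := fun i y => l i (F.ρ (τ y.t)⁻¹ i (y.c i))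
  have hc : ∀ i (y : F.UT), ContinuousAt τ y.t → ContinuousAt (c i) y := fun i y hy =>
    (l i).continuous.continuousAt.comp (((F.cont i).continuousAt.comp
      (hy.comp UT.continuous_t.continuousAt).inv).clm_apply
        ((continuous_apply i).comp UT.continuous_c).continuousAt)
  have h3 : ∀ᶠ y in 𝓝 x, ∀ i, c i y ≠ 0 :=
    eventually_all.2 fun i => (hc i x h1.self_of_nhds).eventually_ne (hl i)
  have hu : ∀ i y, c i y ≠ 0 → ((if h : c i y = 0 then 1 else Units.mk0 _ h : ℂˣ) : ℂ) = c i y :=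
    fun i y hy => by rw [dif_neg hy]; rfl
  refine ⟨fun y => (τ y.t, fun i => if h : c i y = 0 then 1 else Units.mk0 _ h), ?_, ?_⟩
  · filter_upwards [UT.continuous_t.continuousAt.eventually h1, h3] with y hy hy'
    refine (hy.comp UT.continuous_t.continuousAt).prodMk (continuousAt_pi.2 fun i =>
      Units.isEmbedding_val₀.continuousAt_iff.2 ((hc i y hy).congr ?_))
    filter_upwards [(hc i y hy).eventually_ne (hy' i)] with z hz
    exact (hu i z hz).symm
  · have h4 : Tendsto (fun p : (U.G × Tor ι) × F.UT => (p.1.1, p.2.t)) (𝓝 (1, x)) (𝓝 (1, x.t)) :=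
      (show Continuous fun p : (U.G × Tor ι) × F.UT => (p.1.1, p.2.t) by fun_prop).tendsto _
    filter_upwards [h4.eventually h2, (continuous_snd.tendsto _).eventually h3] with p hp hp'
    have h5 : ∀ i, c i (p.1 • p.2) = p.1.2 i * c i p.2 := fun i => by
      simp only [c, UT.smul_t, UT.smul_c, act_apply]
      rw [show τ (p.1.1 • p.2.t) = p.1.1 * τ p.2.t from hp, map_smul, map_smul, ← F.ρ_mul,
        mul_inv_rev, inv_mul_cancel_right, smul_eq_mul]
    refine Prod.ext hp (funext fun i => Units.ext ?_)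
    rw [hu _ _ (h5 i ▸ mul_ne_zero (p.1.2 i).ne_zero (hp' i)), h5, Prod.snd_mul, Pi.mul_apply,
      Units.val_mul, hu _ _ (hp' i)]

variable (F)

/-- the universal curve -/
noncomputable def US : Ch.Sp where
  G := U.G × Tor ι
  T := F.UT
  X := Orb.Q (U.G × Tor ι) F.UT
  free := UT.locFree
  π := Orb.Q.mk _
  quo := Q.isOpenQuotientMap
  fib _ _ := Q.mk_eq

/-- the projection of the universal curve -/
noncomputable def pr : Mor F.US U.toSp :=
  ⟨MonoidHom.fst _ _, UT.t, continuous_fst, UT.continuous_t, fun _ _ => rfl⟩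

/-- the character of the line bundle `O(a)` -/
noncomputable def ch (a : ι → ℤ) : F.US.G →ₜ* ℂˣ :=
  ⟨(Loc.chr a).comp (MonoidHom.snd U.G (Tor ι)), by
    show Continuous fun s : U.G × Tor ι => ∏ i, s.2 i ^ a i
    fun_prop⟩

/-- the character of the line bundle `O(a)` twisted by a character of the base -/
noncomputable def lb (χ : U.G →ₜ* ℂˣ) (a : ι → ℕ) : F.US.G →ₜ* ℂˣ :=
  F.pr.chr χ * F.ch fun i => a i

theorem coe_lb (χ : U.G →ₜ* ℂˣ) (a : ι → ℕ) (s : U.G × Tor ι) :
    (F.lb χ a s : ℂ) = χ s.1 * Base.chr a fun i => s.2 i := by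
  show ((χ s.1 * Loc.chr (fun i => (a i : ℤ)) s.2 : ℂˣ) : ℂ) = _
  simp [Loc.chr_apply, Base.chr]

/-- the representation on the multicone -/
noncomputable def VM : VB F.US :=
  VB.ofLin (V M) F.act F.act_one F.act_mul F.continuous_act (fun _ => ⊤) (finrank ℂ (V M))
    isClosed_univ (fun _ => finrank_top ℂ _) fun _ _ _ _ => trivial

/-- the nodes of the universal curve -/
def UN : SubMulAction F.US.G F.US.T where
  carrier := {x : F.UT | IsNode o (F.C x.t) x.c}
  smul_mem' s _ hx := (F.isNode_act s).2 hx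

theorem mem_UN {x : F.UT} : x ∈ F.UN ↔ IsNode o (F.C x.t) x.c := Iff.rfl

theorem isClosed_UN : IsClosed (F.UN : Set F.US.T) := by
  refine isOpen_compl_iff.1 (isOpen_iff_mem_nhds.2 fun x hx => ?_)
  have h := ((F.fam x.t).chart _ x.mem).resolve_right fun ⟨_, h⟩ => hx (h.isNode (F.fam _))
  filter_upwards [UT.isEmbedding.continuous.continuousAt.eventually (h.eventually (F.fam _))]
    with y hy
  exact (hy y.mem).not_isNode (F.fam _)

/-- the projective bundle of the factor `o` -/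
noncomputable abbrev P : Ch.Sp := (F.Vb o).PS

/-- the universal curve in the projective bundle -/
def Z : SubMulAction F.P.G F.P.T where
  carrier := range fun x : F.UT => x.p o
  smul_mem' := by
    rintro s _ ⟨x, rfl⟩
    exact ⟨((s.1, fun _ => s.2) : U.G × Tor ι) • x, rfl⟩

variable {F} in
/-- the vector of a point of the projective bundle -/
noncomputable def pw {i : ι} (y : (F.Vb i).PT) : Fin (M i) → ℂ := y.w

theorem pw_ne {i : ι} (y : (F.Vb i).PT) : pw y ≠ 0 := y.ne

@[fun_prop] theorem continuous_pw {i : ι} : Continuous (pw : (F.Vb i).PT → _) := VB.PT.continuous_w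

theorem mem_Z {y : (F.Vb o).PT} : y ∈ F.Z ↔ ∃ c ∈ F.C y.t, c o = pw y :=
  ⟨by rintro ⟨x, rfl⟩; exact ⟨x.c, x.mem, rfl⟩, fun ⟨c, h, e⟩ => ⟨UT.mk _ c h, VB.PT.ext rfl e⟩⟩

theorem isClosed_Z : IsClosed (F.Z : Set F.P.T) := by
  classical
  refine isOpen_compl_iff.1 (isOpen_iff_mem_nhds.2 fun y hy => ?_)
  have hf : LocFam o (fun x : (F.Vb o).PT => F.C x.t) (fun x => U.ι x.t) y :=
    (F.fam y.t).comp (k := id) VB.PT.continuous_t.continuousAt
      (.of_forall fun _ => (U.cι.comp VB.PT.continuous_t).continuousAt) analyticAt_id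
      (.of_forall fun _ => rfl)
  have := hf.compact (p := fun q => LinearIndependent ℂ ![pw q.1, q.2 o])
    (fun c hc => Eventually.mono ?_ fun _ h _ => h) (.of_forall fun x s hs c _ h => ?_)
  · filter_upwards [this] with x hx hm
    obtain ⟨c, h1, h2⟩ := F.mem_Z.1 hm
    have := (LinearIndependent.pair_iff.1 (hx c h1) 1 (-1) (by simp [h2])).1
    exact one_ne_zero this
  · refine ContinuousAt.eventually_mem (f := fun q : (F.Vb o).PT × V M =>
      ![pw q.1, q.2 o]) ?_ (isOpen_setOfPred_linearIndependent.mem_nhds ?_)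
    · refine Continuous.continuousAt (continuous_pi fun i => ?_)
      fin_cases i
      · exact F.continuous_pw.comp continuous_fst
      · exact (continuous_apply o).comp continuous_snd
    · refine li_pair (F.pw_ne y) fun e s (he : e • c o = s • pw y) => by_contra fun h0 => hy (F.mem_Z.2 ?_)
      have hs : s ≠ 0 := fun h => (F.crv _).ne_zero c hc o
        ((smul_eq_zero.1 (he.trans (by rw [h, zero_smul]))).resolve_left h0)
      refine ⟨(fun _ => e / s) • c, (F.crv _).cone _ (fun _ => div_ne_zero h0 hs) c hc, ?_⟩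
      show (e / s) • c o = _
      rw [div_eq_inv_mul, mul_smul, he, inv_smul_smul₀ hs]
  · refine li_pair (F.pw_ne x) fun e z (he : e • c o = z • pw x) => ?_
    have := of_li_pair h (e := e / s o) (s := z) (by
      show (e / s o) • s o • c o = _
      rw [smul_smul, div_mul_cancel₀ _ (hs o), he])
    exact (div_eq_zero_iff.1 this).resolve_right (hs o)

/-- the universal curve as a subspace of the projective bundle -/
noncomputable abbrev Cv : Ch.Sp := F.P.sub F.Z F.isClosed_Z.isLocallyClosed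

/-- the inclusion in the projective bundle -/
noncomputable abbrev iC : Mor F.Cv F.P := F.P.subI F.Z _

/-- the two models of the universal curve -/
noncomputable def toCv : Mor F.US F.Cv :=
  ⟨(MonoidHom.id U.G).prodMap (Pi.evalMonoidHom (fun _ => ℂˣ) o),
    fun x : F.UT => (⟨x.p o, x, rfl⟩ : F.Z),
    continuous_fst.prodMk ((continuous_apply o).comp continuous_snd),
    (UT.continuous_p o).subtype_mk _, fun _ _ => rfl⟩

/-- the nodes in the second model -/
def Nd : SubMulAction F.Cv.G F.Cv.T where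
  carrier := F.toCv.f '' F.UN
  smul_mem' := by
    rintro s _ ⟨x, hx, rfl⟩
    exact ⟨_, F.UN.smul_mem ((s.1, fun _ => s.2) : U.G × Tor ι) hx, rfl⟩

/-- `E` is the bundle of the sections of `O(a)`, twisted by `χ`, with the evaluations `ev`. -/
structure IsH0 (a : ι → ℕ) (χ : U.G →ₜ* ℂˣ) (E : VB U.toSp) (ev : F.UT → E.W →ₗ[ℂ] ℂ) : Prop where
  hom : Ch.Hom (Mor.id F.US) (E.pb F.pr) (char (F.lb χ a)) ev
  sec : ∀ t, ∀ w ∈ E.F t, (fun c : F.C t => ev (UT.mk t c c.2) w) ∈ Hs (F.C t) a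
  surj : ∀ t, ∀ f ∈ Hs (F.C t) a, ∃ w ∈ E.F t, ∀ c : F.C t, ev (UT.mk t c c.2) w = f c
  inj : ∀ t, ∀ w ∈ E.F t, (∀ c : F.C t, ev (UT.mk t c c.2) w = 0) → w = 0

end CF

end Vale.Agent.P269.Grr
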