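import Vale.Agent.P269.Grr.ChC
import Vale.Agent.P269.Grr.Deg
import Vale.Agent.P269.Grr.Dns
import Vale.Agent.P269.Br.LC
import Vale.Agent.P269.Br.IntA
import Vale.Agent.P269.Pt.LC

/-!
# Integration of classes of degree two over the fibres of the universal curve
-/

set_option linter.unusedSectionVars false

namespace Vale.Agent.P269.Grr

open Set Function Topology Filter Module Vale.Agent.P291Z Vale.Agent.P269.Ch Vale.Agent.P269.Holo
  Vale.Agent.P269.Loc Vale.Agent.P269.Base Vale.Agent.P269.Cv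

theorem fib_val {X Y Z : Type} [TopologicalSpace X] [TopologicalSpace Y] [TopologicalSpace Z]
    [Nice Y] [T2Space Z] [CompactSpace Z] [PreconnectedSpace Z] (R : RS Z) {p : Y → X}
    (hp : IsPr p) {G : Z → Y} (hG : Continuous G) (hi : Injective G) {x : X}
    (hr : ∀ y, p y = x → y ∈ range G) {β : BM X} {γ : BM Y} {n : ℤ} (hβ : Orb.Ori n β)
    {a r : Coch Y} (ha : supp (δ a) = ∅) (hc : supp (δ r) = ∅) (a2 : IsDeg 2 a) (r2 : IsDeg 2 r)
    {D : ℂ} (hD : D ≠ 0) (h1 : P291Z.ev R.fund (pull G r) = D) (h2 : push p (cap (hcls r) γ) = D • β)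
    {u : X → ℂ} (hu : IsLocallyConstant u)
    (h3 : push p (cap (hcls a) γ) = cap (hcls (fn u)) β) : u x = P291Z.ev R.fund (pull G a) := by
  obtain ⟨l, hl⟩ : ∃ l, l * D = P291Z.ev R.fund (pull G a) := ⟨_, div_mul_cancel₀ _ hD⟩
  have hb := cocycle_sub ha (cocycle_smul l hc)
  have b2 := a2.sub (r2.smul l)
  obtain ⟨c, k⟩ := LC.taut hG finite_empty (fun _ _ e => .inl (hi e)) b2
    (fun _ => supp_eq_empty.1 hb _) (R.hcls_eq_zero (cocycle_pull hG hb) (b2.pull G) fun z => by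
      rw [PreconnectedSpace.connectedComponent_eq_univ, ind_eq_fn, indicator_univ,
        show fn (1 : Z → ℂ) = 1 from fn_one, mul_one, map_sub, map_smul, ev_eq,
        cls_sub (Zc_of_compact (cocycle_pull hG ha))
          (Zc_of_compact (cocycle_smul l (cocycle_pull hG hc))),
        cls_smul _ (Zc_of_compact (cocycle_pull hG hc)), map_sub, map_smul, ← ev_eq, ← ev_eq, h1,
        ← hl, smul_eq_mul, sub_self])
  obtain ⟨t, t1, t2⟩ := hβ.gen x
  have hb' : supp (δ (a - l • r - δ c)) = ∅ := by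
    rwa [map_sub, δ_δ, sub_zero]
  have e1 : P291Z.ev (push p (cap (hcls (a - l • r - δ c)) γ)) t = 0 := by
    rw [Orb.ev_push hp _ t1.zc, Orb.ev_cap hb' ⟨isCompact_supp_of_subset (hp.pre _ t1.zc.1)
      (supp_pull hp.cont t), cocycle_pull hp.cont t1.cyc⟩, Orb.ev_congr (b := 0) _ fun y => ?_,
      ev_eq, cls_zero, map_zero]
    rw [sub_zero]
    by_cases m : y ∈ supp (pull p t)
    · obtain ⟨z, rfl⟩ := hr y (t1.pt (supp_pull hp.cont t m))
      exact Van.mul_left (k z) _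
    · exact Van.mul_right m _
  rw [← hcls_eq_of_cohom (a := a - l • r) (c := c) hb' (by
    rw [sub_sub_cancel, sub_self, supp_zero]), hcls_sub ha (cocycle_smul l hc), hcls_smul l hc,
    ← Orb.pd_eq_cap, map_sub, map_smul, Orb.pd_eq_cap, Orb.pd_eq_cap, map_sub, map_smul, h2, h3,
    Orb.sub_ev, Orb.ev_cap_fn hu _ t1.cyc t1.pt, smul_smul, Orb.smul_ev, hl, ← _root_.sub_mul] at e1
  exact sub_eq_zero.1 ((mul_eq_zero.1 e1).resolve_right t2)

variable {S Λ R J ι ν κ : Type} [Fintype S] [Fintype Λ] [Fintype R] [Fintype J] [Fintype ι]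
  [DecidableEq ι] [Fintype ν] [Fintype κ] {ch : Ch ι J} {W : Wt S Λ R J} {B : Set (Λ → ℂ)}
  {O : Set (ch.WF ν κ Λ)} {d : ℕ}

theorem mk_smulC {x : ch.WF ν κ Λ} {c : V ch.M} {s : ι → ℂ} (hs : ∀ i, s i ≠ 0)
    (h : (x, c) ∈ unv O) (h' : (x, s • c) ∈ unv O) :
    Quo.mk (actC W) (⟨_, h'⟩ : unv O) = Quo.mk (actC W) ⟨_, h⟩ :=
  (Quot.sound ⟨(1, s), isUnitU_iff.2 ⟨isUnit_one, hs⟩, Prod.ext (actF_one x).symm rfl⟩).symm

open Classical in
variable (W) in
/-- the points of the curves as points of the universal curve -/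
noncomputable def fT (y₀ : Quo (actC W) (unv O)) (t : O) (c : V ch.M) : Quo (actC W) (unv O) :=
  if h : c ∈ crv t.1.2 then Quo.mk _ ⟨(t.1, c), t.2, h⟩ else y₀

theorem fT_pos (y₀ : Quo (actC W) (unv O)) {t : O} {c : V ch.M} (h : c ∈ crv t.1.2) :
    fT W y₀ t c = Quo.mk _ (⟨(t.1, c), t.2, h⟩ : unv O) := dif_pos h

theorem continuousOn_fT (y₀ : Quo (actC W) (unv O)) :
    ContinuousOn (uncurry (fT W y₀)) {q | q.2 ∈ crv q.1.1.2} :=
  continuousOn_iff_continuous_domRestrict.2 ((continuous_quot_mk.comp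
    (Continuous.subtype_mk (f := fun q : {q : O × V ch.M | q.2 ∈ crv q.1.1.2} => (q.1.1.1, q.1.2))
      (by fun_prop) fun q => ⟨q.1.1.2, q.2⟩)).congr fun q => (fT_pos y₀ q.2).symm)

theorem fT_good (y₀ : Quo (actC W) (unv O)) (t : O) :
    ContinuousOn (fT W y₀ t) (crv t.1.2) ∧ ∀ c ∈ crv t.1.2, ∀ s : ι → ℂ, (∀ i, s i ≠ 0) →
      fT W y₀ t (s • c) = fT W y₀ t c :=
  ⟨ContinuousOn.comp (f := Prod.mk t) (continuousOn_fT y₀) (Continuous.prodMk_right t).continuousOn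
    fun _ k => k, fun _ hc _ hs =>
      (fT_pos y₀ (crv_smul hc hs)).trans ((mk_smulC hs _ _).trans (fT_pos y₀ hc).symm)⟩

section fib

variable {X : Type} [TopologicalSpace X] [T2Space X] [CompactSpace X] {Q : RS X}
  {N : Finset (X × X)} {A : ι → LB Q} {π : X → V ch.M} {x : O}
  (hp : Par ch.o (crv x.1.2) N A π)

variable (W) in
/-- the fibre of the universal curve -/
noncomputable def fibM (z : X) : Quo (actC W) (unv O) := Quo.mk _ ⟨(x.1, π z), x.2, hp.mem z⟩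

theorem fibM_eq (y₀ : Quo (actC W) (unv O)) : (fun z => fT W y₀ x (π z)) = fibM W hp :=
  funext fun z => fT_pos y₀ (hp.mem z)

theorem continuous_fibM : Continuous (fibM W hp) :=
  continuous_iff_continuousAt.2 fun z => (fibM_eq hp (fibM W hp z) ▸
    LC.cont_inv hp (fT_good _ x).1 (fT_good _ x).2).continuousAt

variable [IsAct (actF W) O]

theorem fibM_inj (hf : Fre (actF W) x.1) {z z' : X} (e : fibM W hp z = fibM W hp z') :
    z = z' ∨ (z, z') ∈ N ∨ (z', z) ∈ N := by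
  obtain ⟨g, k⟩ := Holo.Sp.mk_eq_iff.1 e
  replace k : actC W g (x.1, π z) = (x.1, π z') := congrArg Holo.Sp.val k
  have := hf _ (isUnitU_iff.1 g.isUnit).1 (congrArg Prod.fst k)
  refine hp.inj z z' (g : ch.AU ν κ S).2 ((congrArg Prod.snd k).symm.trans ?_)
  rw [actC_snd, this]
  rfl

theorem mem_range_fibM {y : Quo (actC W) (unv O)} (e : prC W O y = Quo.mk _ x) :
    y ∈ range (fibM W hp) := by
  obtain ⟨y, rfl⟩ := Quot.exists_rep y
  obtain ⟨g, k⟩ := Holo.Sp.mk_eq_iff.1 e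
  replace k : actF W g y.1.1 = x.1 := congrArg Holo.Sp.val k
  have u : IsUnit ((g, 1) : ch.AU ν κ S) := isUnitU_iff.2 ⟨g.isUnit, fun _ => one_ne_zero⟩
  have v := actC_mem_crv (F := W) u y.2.2
  rw [actC_fst, k] at v
  obtain ⟨z, s, hs, m⟩ := (hp.img _).1 v
  exact ⟨z, (mk_smulC hs _ ⟨x.2, hp.smul_mem _ hs⟩).symm.trans
    (Quot.sound ⟨_, u, Prod.ext k.symm m.symm⟩).symm⟩

/-- a character of the group of the universal curve -/
noncomputable def chU (a : ι → ℤ) : (ch.AU ν κ S)ˣ →ₜ* ℂˣ :=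
  ⟨(Loc.chr a).comp (MonoidHom.pi fun i =>
    Units.map ((Pi.evalMonoidHom (fun _ => ℂ) i).comp (MonoidHom.snd _ _))),
    (continuous_chr _).comp (continuous_pi fun i => Units.continuous_map
      (show Continuous fun s : ch.AU ν κ S => s.2 i by fun_prop))⟩

theorem coe_chU (a : ι → ℤ) (g : (ch.AU ν κ S)ˣ) : (chU a g : ℂ) = ∏ i, g.val.2 i ^ a i := by
  change ((∏ i, _ ^ a i : ℂˣ) : ℂ) = _
  simp

variable (ho : Orb.Orb (ch.AU ν κ S)ˣ (Holo.Sp (actC W) (unv O)))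
include ho

theorem oC_eq_chU (a : ι → ℤ) : oC W O a = (c1 (Y := spA ho) (chU a)).1 :=
  (hcls_char (presA ho) (chU a) (c := fun s => ∏ i, s.2 i ^ a i)
    fun g => (coe_chU a g).symm).trans (H.map_id (fun _ => rfl) _)

theorem intg_oC {a : ι → ℤ} (ha : Eff (bz A a)) :
    intg Q.fund (H.map ⟨_, continuous_fibM (W := W) hp⟩ (oC W O a)) = deg (bz A a) := by
  have n : ∀ y z i, ((A i).φ y z)⁻¹ ≠ 0 := fun y z i => inv_ne_zero ((A i).ne y z)
  rw [oC_eq_chU ho]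
  refine Q.intg_c1 (Y := spA ho) (v := fun y z => Holo.Sp.of _
    (x.1, (fun i => ((A i).φ y z)⁻¹) • π z) ⟨x.2, hp.smul_mem _ (n y z)⟩) (fun y => ?_)
    (fun z => mk_smulC (n z z) _ _) (fun y z => ⟨(isUnitU_iff.2 ⟨isUnit_one, n y z⟩ :
      IsUnit ((1, fun i => ((A i).φ y z)⁻¹) : ch.AU ν κ S)).unit, Holo.Sp.ext (act := actC W)
        (Prod.ext (actF_one _) ?_), ?_⟩) ha
  · refine (eventually_all.2 fun i => eventually_all.2 fun j =>
      (LB.sec_iff.1 ((hp.sec i j).1 y)).eventually).mono fun z k =>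
        IsInducing.subtypeVal.continuousAt_iff.2 (continuousAt_const.prodMk
          (continuousAt_pi.2 fun i => continuousAt_pi.2 fun j => ?_))
    exact (k i j).continuousAt.congr (.of_forall fun _ => div_eq_inv_mul _ _)
  · exact funext fun i => congrArg (((A i).φ y z)⁻¹ • ·)
      (show ((A i).φ z z)⁻¹ • π z i = π z i by simp [(A i).self])
  · exact (coe_chU _ _).trans (by simp [bz, LB.prod_φ])

end fib

variable [IsAct (actF W) O] (ho : Orb.Orb (ch.AF ν κ S)ˣ (Holo.Sp (actF W) O))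
  (hm : KD.Mf (ch.AF ν κ S) O d) (h : Num₀ ch) (hV : Ver B O)

theorem same_conn {α : Type} [Fintype α] {c c' : AC ν κ} {L : α → LB c.R} {L' : α → LB c'.R}
    (e : AC.Same c L c' L') (a : c.Conn) : c'.Conn :=
  let ⟨σ, _⟩ := e
  LC.conn_iff.2 (LC.isAtom_iff (U := ⊤).1
    (TopHomClass.map_top σ ▸ (σ.isAtom_iff ⊤).2 (LC.isAtom_iff.2 (LC.conn_iff.1 a))))

include ho hm h hV in
/-- **fibre integration** -/
theorem fibInt (hd : Den W O) {a : Coch (Quo (actC W) (unv O))} (ha : supp (δ a) = ∅)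
    (h2 : IsDeg 2 a) : ∃ u : Quo (actF W) O → ℂ, IsLocallyConstant u ∧
      push (prC W O) (cap (hcls a) (fnd (actC W) (unv O) (d + 1))) =
        cap (hcls (fn u)) (fnd (actF W) O d) ∧
      ∀ (x : O) (c : AC ν κ) (A : ι → LB c.R) (π : c.X → V ch.M)
        (hp : Par ch.o (crv x.1.2) c.N A π), (∀ n, Base.Orb (π (c.p n)) (x.1.2.p n)) → c.Conn →
        u (Quo.mk _ x) = P291Z.ev c.R.fund (pull (fun z => (Quo.mk (actC W)
          ⟨(x.1, π z), x.2, hp.mem z⟩ : Quo (actC W) (unv O))) a) := by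
  have hoC := h.cuts.orb_unv hV.base ho
  have := nice_of_orb ho
  have := nice_of_orb hoC
  have o1 : Orb.Ori (2 * d) (fnd (actF W) O d) :=
    (holOrb_of_orb ho fun x => (hm _ x.2).isMfd _).ori Orb.isQuo_sp
  have o2 : Orb.Ori (2 * (d + 1 : ℕ)) (fnd (actC W) (unv O) (d + 1)) :=
    (holOrb_of_orb hoC fun x => (h.mf_unv hV hm _ x.2).isMfd _).ori Orb.isQuo_sp
  obtain ⟨u, u1, u2⟩ := o1.exists_fn (γ := push (prC W O) (cap (hcls a) _)) (by
    simpa [mul_add] using (o2.deg.cap (hcls_isDeg h2)).push (prC W O))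
  refine ⟨u, u1, u2.symm, fun x c A π hp hq hc => ?_⟩
  have y₀ := fibM W hp hc.1.some
  have k := (LC.ev_const (h.cuts.locFamF hV.base x) (fun c hc => continuousOn_fT y₀ _ hc)
    (.of_forall (fT_good y₀)) ha h2 hp).and
    (((continuous_snd.comp continuous_subtype_val).continuousAt.eventually
      (eventually_same h.cuts (hV.base _ x.2) hp hq)).and
      ((u1.comp_continuous continuous_quot_mk).eventually_eq x))
  obtain ⟨_, k1, ⟨U, k2, rfl⟩, k3⟩ := eventually_nhds_iff.1 k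
  obtain ⟨y, y1, y2, y3⟩ := mem_closure_iff.1 (h.dense_sm' hV hm x.2) U k2 k3
  obtain ⟨t, t1, t2, t3, t4⟩ := mem_closure_iff.1 (hd y y2) U k2 y1
  obtain ⟨e1, e2, e3⟩ := k1 ⟨t, t2⟩ t1
  obtain ⟨X, _, _, _, Q, N, A', π', v, p, ξ, cr⟩ := exists_cr (hV.base _ t2)
  have hN : ∀ n, n ∉ N := fun n hn => y3 (π' n.1) (t4 ▸ cr.par.mem _) (t4 ▸
    one_smul (ι → ℂ) (π' n.1) ▸ (cr.par.isNode_iff fun _ => one_ne_zero).2 fun m => (m n hn).1 rfl)
  have cn := same_conn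
    (e2 cr.mem ⟨X, Q, N, p, cr.par.nd, cr.inj, cr.sm⟩ A' π' cr.par cr.mark) hc
  have : PreconnectedSpace X := preconnectedSpace_iff_clopen.2 fun V hV' =>
    cn.2 V hV' fun n hn => (hN n hn).elim
  have h3 := cr.mem.2.2.1.three_le ⟨_, cr.par.mem cn.1.some⟩ h.m_ne
  obtain ⟨pC, q⟩ := (isCh_cfF ho hm h hV h3).exists_pC
  have d1 := degQ' (fun s => congrArg Prod.snd (q.u s)) (fun s => congrArg Prod.fst (q.i s))
    (holP_hoF ho hm).push_fnd (q.holP (holP_hoF ho hm)).push_fnd (Pi.single ch.o 1)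
  obtain ⟨s, s1, s2, -⟩ := exists_gen H0_le (cr.par.bpf ch.o) finite_empty
  have d2 := intg_oC (x := ⟨t, t2⟩) cr.par hoC (a := Pi.single ch.o 1)
    (by rw [bz_single, zpow_one]; exact ⟨s, H0_le s1, s2⟩)
  have d3 := cr.par.ge_one univ isClopen_univ ⟨cn.1.some, trivial⟩
  obtain ⟨r, r1, r2⟩ : H.IsDeg 2 (oC W O (Pi.single ch.o 1)) :=
    oC_eq_chU hoC _ ▸ Hev.mem_deg.1 (c1_deg (Y := spA hoC) _)
  rw [← r2, ← hcls_val] at d1 d2
  rw [H.map_hcls _ r.2, intg_hcls _ (cocycle_pull (ContinuousMap.continuous _) r.2), deg_bz] at d2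
  simp only [(cr.par.numbers cr.mem.2.2.1).2.1] at d2
  rw [degOn_univ, (cr.par.numbers cr.mem.2.2.1).2.1] at d3
  refine e3.symm.trans ((fib_val Q (h.cuts.isPr_prC hV.base ho) (continuous_fibM _)
    (fun z z' e => (fibM_inj (x := ⟨t, t2⟩) cr.par t3 e).resolve_right fun m =>
      m.elim (hN _) (hN _)) (fun _ => mem_range_fibM cr.par) o1 ha r.2 h2 r1 ?_ d2 d1 u1
    u2.symm).trans ?_)
  · simpa [Pi.single_apply] using (zero_lt_one.trans_le d3).ne'
  · rw [← fibM_eq cr.par y₀, e1 X Q N A' π' cr.par, fibM_eq hp]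
    rfl

end Vale.Agent.P269.Grr
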