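import Vale.Agent.P269.Grr.Fam
import Vale.Agent.P269.Grr.Alg

/-!
# Bundles of sections in a family of curves
-/

namespace Vale.Agent.P269.Grr

open Set Function Topology Filter Module Vale.Agent.P291Z Vale.Agent.P269.Ch Vale.Agent.P269.Holo
  Vale.Agent.P269.Loc Vale.Agent.P269.Base

namespace CF

variable {ι : Type} [Fintype ι] {U : HO} {M : ι → ℕ} {o : ι} {g : ℤ} {m : ι → ℤ}
  (F : CF U M o g m)

/-- the forms of degree `b` as a representation, `g • μ = μ ∘ ρ g⁻¹` -/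
noncomputable def Tb (b : ι → ℕ) : VB U.toSp :=
  VB.ofLin (Tens M b) (fun g => (ContinuousMultilinearMap.compContinuousLinearMapL
    (fun s : Σ i, Fin (b i) => F.ρ g⁻¹ s.1) : Tens M b →L[ℂ] Tens M b))
    (fun w => ContinuousMultilinearMap.ext fun v => congrArg w (funext fun s =>
      show F.ρ 1⁻¹ s.1 (v s) = v s by rw [inv_one, F.ρ_one]))
    (fun g h w => ContinuousMultilinearMap.ext fun v => congrArg w (funext fun s =>
      show F.ρ (g * h)⁻¹ s.1 (v s) = F.ρ h⁻¹ s.1 (F.ρ g⁻¹ s.1 (v s)) by rw [mul_inv_rev, F.ρ_mul]))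
    (((ContinuousMultilinearMap.compContinuousLinearMapContinuousMultilinear ℂ
      (fun s : Σ i, Fin (b i) => Fin (M s.1) → ℂ) (fun s : Σ i, Fin (b i) => Fin (M s.1) → ℂ)
      ℂ).cont.comp (continuous_pi fun s => (F.cont s.1).comp continuous_fst.inv)).clm_apply
        continuous_snd)
    (fun _ => ⊤) (finrank ℂ (Tens M b)) isClosed_univ (fun _ => finrank_top ℂ _)
    fun _ _ _ _ => trivial

theorem val_Tb_smul (b : ι → ℕ) (s : U.G) (μ : (F.Tb b).W) (c : V M) :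
    val (show Tens M b from s • μ) c = val (show Tens M b from μ) fun i => F.ρ s⁻¹ i (c i) := rfl

/-- the evaluation of forms -/
noncomputable def evT (b : ι → ℕ) (x : F.UT) : (F.Tb b).W →ₗ[ℂ] ℂ where
  toFun μ := val (show Tens M b from μ) x.c
  map_add' _ _ := rfl
  map_smul' _ _ := rfl

theorem evT_apply (b : ι → ℕ) (x : F.UT) (μ : Tens M b) : F.evT b x μ = val μ x.c := rfl

theorem hom_evT (b : ι → ℕ) :
    Ch.Hom (Mor.id F.US) ((F.Tb b).pb F.pr) (char (F.lb 1 b)) (F.evT b) := by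
  refine Ch.Hom.of_continuous (fun _ _ _ => trivial) (continuous_val₂.comp (continuous_snd.prodMk
    (UT.continuous_c.comp continuous_fst))) fun (s : U.G × Tor ι) (x : F.UT) (μ : Tens M b) _ => ?_
  have h : (fun i => F.ρ s.1⁻¹ i (F.act s x.c i)) = (fun i => (s.2 i : ℂ)) • x.c :=
    funext fun i => by rw [act_apply, map_smul, F.ρ_inv]; rfl
  show val μ (fun i => F.ρ s.1⁻¹ i (F.act s x.c i)) = (F.lb 1 b s : ℂ) * val μ x.c
  rw [h, val_smul, coe_lb]
  exact congrArg (· * _) (one_mul _).symm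

theorem coe_lb_inl (χ : U.G →ₜ* ℂˣ) (a : ι → ℕ) (s : U.G) :
    (F.lb χ a ((s, 1) : U.G × Tor ι) : ℂ) = χ s :=
  (F.coe_lb χ a (s, 1)).trans ((congrArg _ chr_one).trans (mul_one _))

/-- Points of the curve extend to continuous local sections of the universal curve; finitely many
of them detect the sections of `O(a)`. -/
theorem exists_pts {a : ι → ℕ} (ha : a ≠ 0) (t₀ : U.T) : ∃ (n : ℕ) (X : Fin n → U.T → F.UT),
    (∀ᶠ t in 𝓝 t₀, ∀ k, ContinuousAt (X k) t ∧ (X k t).t = t) ∧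
      ∀ μ : Tens M a, (∀ k, val μ (X k t₀).c = 0) → ∀ c ∈ F.C t₀, val μ c = 0 := by
  classical
  obtain ⟨y, h1, h2⟩ := (F.fam t₀).exists_ev (F.crv t₀) ha ((F.crv t₀).finrank_Hs ha)
  have h0 := h2.self_of_nhds
  let X : _ → U.T → F.UT := fun k t =>
    if h : y k (U.ι t) ∈ F.C t then UT.mk t _ h else UT.mk t₀ _ (h0.1 k)
  have hX : ∀ k t, y k (U.ι t) ∈ F.C t → ((X k t).t, (X k t).c) = (t, y k (U.ι t)) :=
    fun k t h => by simp only [X, dif_pos h]; rfl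
  refine ⟨_, X, ?_, fun μ hμ => h0.2.2 _ (Pol.isSec (val_mem μ)) fun k => ?_⟩
  · have h3 : ∀ᶠ t in 𝓝 t₀, ∀ k, AnalyticAt ℂ (y k) (U.ι t) := eventually_all.2 fun k =>
      U.cι.continuousAt.eventually (h1 k).1.eventually_analyticAt
    filter_upwards [h2.eventually_nhds, h3] with t ht ht' k
    refine ⟨UT.isEmbedding.continuousAt_iff.2 ((continuousAt_id.prodMk
      ((ht' k).continuousAt.comp U.cι.continuousAt)).congr ?_),
      congrArg Prod.fst (hX k t (ht.self_of_nhds.1 k))⟩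
    filter_upwards [ht] with s hs
    exact (hX k s (hs.1 k)).symm
  · rw [← show (X k t₀).c = y k (U.ι t₀) from congrArg Prod.snd (hX k t₀ (h0.1 k))]
    exact hμ k

/-- the forms which vanish on the curve -/
noncomputable def Kb {a : ι → ℕ} (ha : a ≠ 0) : VB U.toSp :=
  (F.Tb a).sub (fun t => LinearMap.ker (resL (F.C t) a))
    (finrank ℂ (Tens M a) - (dg m a + 1 - g).toNat)
    (isOpen_compl_iff.1 (isOpen_iff_mem_nhds.2 fun (p : U.T × Tens M a) hp => by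
      obtain ⟨n, X, h1, h2⟩ := F.exists_pts ha p.1
      obtain ⟨k, hk⟩ := not_forall.1 fun h => hp (funext fun c => h2 p.2 h c.1 c.2)
      have h3 : ContinuousAt (fun q : U.T × Tens M a => val q.2 (X k q.1).c) p :=
        continuous_val₂.continuousAt.comp (continuousAt_snd.prodMk
          (UT.continuous_c.continuousAt.comp ((h1.self_of_nhds k).1.comp continuousAt_fst)))
      filter_upwards [h3.eventually_ne hk, continuousAt_fst.eventually h1] with q e1 e2 e3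
      exact e1 (congrFun e3 ⟨_, (congrArg F.C (e2 k).2).subset (X k q.1).mem⟩)))
    (fun t => by
      have h1 := (resL (F.C t) a).finrank_range_add_finrank_ker
      have h2 := (F.crv t).finrank_Hs ha
      change finrank ℂ (Hs (F.C t) a) + _ = _ at h1
      change finrank ℂ (LinearMap.ker (resL (F.C t) a)) = _
      omega)
    fun s t μ h => funext fun c => by
      have h1 := F.eqv s⁻¹ _ c.1 c.2
      rw [inv_smul_smul] at h1
      exact congrFun h ⟨_, h1⟩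

variable {F} {a : ι → ℕ} {χ χ' : U.G →ₜ* ℂˣ} {E E' : VB U.toSp} {ev : F.UT → E.W →ₗ[ℂ] ℂ}
  {ev' : F.UT → E'.W →ₗ[ℂ] ℂ}

/-- the function on the curve given by a vector -/
noncomputable def sL (ev : F.UT → E.W →ₗ[ℂ] ℂ) (t : U.T) : E.W →ₗ[ℂ] (F.C t → ℂ) :=
  LinearMap.pi fun c => ev (UT.mk t c c.2)

theorem sL_apply (t : U.T) (w : E.W) (c : F.C t) : sL ev t w c = ev (UT.mk t c c.2) w := rfl

namespace IsH0

theorem sL_mem (h : F.IsH0 a χ E ev) {t : U.T} {w : E.W} (hw : w ∈ E.F t) :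
    sL ev t w ∈ Hs (F.C t) a := h.sec t w hw

theorem ext (h : F.IsH0 a χ E ev) {t : U.T} {w w' : E.W} (hw : w ∈ E.F t) (hw' : w' ∈ E.F t)
    (e : ∀ x : F.UT, x.t = t → ev x w = ev x w') : w = w' :=
  sub_eq_zero.1 (h.inj t _ (sub_mem hw hw') fun c => by rw [map_sub, e _ rfl, sub_self])

theorem map_eq (h : F.IsH0 a χ E ev) (t : U.T) : (E.F t).map (sL ev t) = Hs (F.C t) a := by
  refine le_antisymm (by rintro _ ⟨w, hw, rfl⟩; exact h.sL_mem hw) fun f hf => ?_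
  obtain ⟨w, hw, e⟩ := h.surj t f hf
  exact ⟨w, hw, funext e⟩

theorem rank (h : F.IsH0 a χ E ev) (ha : a ≠ 0) (t : U.T) : (E.r : ℤ) = dg m a + 1 - g := by
  rw [← (F.crv t).finrank_Hs ha, ← h.map_eq t,
    finrank_map_of_inj fun w hw e => h.inj t w hw (congrFun e), E.rank]

theorem ev_smul (h : F.IsH0 a χ E ev) (s : U.G × Tor ι) (x : F.UT) {w : E.W} (hw : w ∈ E.F x.t) :
    ev (s • x) (s.1 • w) = F.lb χ a s * ev x w := h.hom.eqv s x w hw

theorem exists_lift (h : F.IsH0 a χ E ev) : ∃ q : ∀ t, (F.C t → ℂ) →ₗ[ℂ] E.W,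
    ∀ t, ∀ f ∈ Hs (F.C t) a, q t f ∈ E.F t ∧ sL ev t (q t f) = f := by
  have h1 : ∀ t, ∃ q : (F.C t → ℂ) →ₗ[ℂ] E.F t, q ∘ₗ (sL ev t ∘ₗ (E.F t).subtype) = LinearMap.id :=
    fun t => LinearMap.exists_leftInverse_of_injective _ (LinearMap.ker_eq_bot'.2 fun w e =>
      Subtype.ext (h.inj t w.1 w.2 (congrFun e)))
  choose q hq using h1
  refine ⟨fun t => (E.F t).subtype ∘ₗ q t, fun t f hf => ⟨(q t f).2, ?_⟩⟩
  obtain ⟨w, hw, rfl⟩ := (h.map_eq t).ge hf
  exact congrArg (fun v : E.F t => sL ev t v.1) (LinearMap.congr_fun (hq t) ⟨w, hw⟩)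

theorem tw (h : F.IsH0 a χ E ev) (χ' : U.G →ₜ* ℂˣ) :
    F.IsH0 a (χ' * χ) (E.tw (Mor.id _) χ') ev := by
  refine ⟨⟨fun _ _ _ => trivial, h.hom.cont,
    fun (s : U.G × Tor ι) (x : F.UT) (w : E.W) hw => ?_⟩, h.sec, h.surj, h.inj⟩
  show ev (s • x) ((χ' s.1 : ℂ) • s.1 • w) = (F.lb (χ' * χ) a s : ℂ) * ev x w
  rw [map_smul, h.ev_smul s x hw, coe_lb, coe_lb, smul_eq_mul, ← mul_assoc, ← mul_assoc]
  rfl

variable {Z : Type*} [TopologicalSpace Z] {z₀ : Z}

theorem continuousAt_ev (h : F.IsH0 a χ E ev) {x : Z → F.UT} {w : Z → E.W}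
    (hx : ContinuousAt x z₀) (hw : ContinuousAt w z₀) (hm : ∀ᶠ z in 𝓝 z₀, w z ∈ E.F (x z).t) :
    ContinuousAt (fun z => ev (x z) (w z)) z₀ :=
  ((h.hom.continuous_clm.continuousAt.comp hx).clm_apply hw).congr
    (hm.mono fun _ hz => h.hom.clm_eq hz)

/-- the continuity criterion -/
theorem continuousAt (h : F.IsH0 a χ E ev) (ha : a ≠ 0) {τ : Z → U.T} {w : Z → E.W}
    (hτ : ContinuousAt τ z₀) (hm : ∀ᶠ z in 𝓝 z₀, w z ∈ E.F (τ z))
    (H : ∀ x : Z → F.UT, ContinuousAt x z₀ → (∀ᶠ z in 𝓝 z₀, (x z).t = τ z) →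
      ContinuousAt (fun z => ev (x z) (w z)) z₀) : ContinuousAt w z₀ := by
  obtain ⟨n, X, h1, h2⟩ := F.exists_pts ha (τ z₀)
  let c : F.UT → E.W →L[ℂ] ℂ := h.hom.clm
  have hc : Continuous c := h.hom.continuous_clm
  have hc' : ∀ (x : F.UT) (v : E.W), v ∈ E.F x.t → c x v = ev x v := fun x v hv => h.hom.clm_eq hv
  obtain ⟨R, hR⟩ := exists_leftInv (B := fun t => (ContinuousLinearMap.pi fun k => c (X k t)).prod
    (ContinuousLinearMap.id ℂ E.W - E.P t)) (z := τ z₀) (h1.mono fun t ht =>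
      continuousAt_clm_apply.2 fun v => (continuousAt_pi.2 fun k =>
        (hc.continuousAt.comp (ht k).1).clm_apply continuousAt_const).prodMk
          (continuousAt_const.sub (E.P_cont.continuousAt.clm_apply continuousAt_const)))
    ((injective_iff_map_eq_zero _).2 fun v hv => by
      have e1 : v ∈ E.F (τ z₀) := E.P_eq_iff.1 (sub_eq_zero.1 (congrArg Prod.snd hv)).symm
      obtain ⟨μ, hμ⟩ := h.sL_mem e1
      refine h.inj _ v e1 fun c' => (congrFun hμ c').symm.trans (h2 μ (fun k => ?_) c'.1 c'.2)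
      have e2 := (h1.self_of_nhds k).2
      have e3 : ∀ x : F.UT, x.t = τ z₀ → val μ x.c = ev x v := fun x e =>
        (congrFun hμ ⟨x.c, e ▸ x.mem⟩).trans (congrArg (ev · v) (UT.ext e.symm rfl))
      rw [e3 _ e2, ← hc' _ v (e2.symm ▸ e1)]
      exact congrFun (congrArg Prod.fst hv) k)
  have h3 : ContinuousAt (fun z => R (τ z) (fun k => ev (X k (τ z)) (w z), 0)) z₀ :=
    (hR.self_of_nhds.1.comp hτ).clm_apply ((continuousAt_pi.2 fun k => H (fun z => X k (τ z))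
      ((h1.self_of_nhds k).1.comp hτ) ((hτ.eventually h1).mono fun z hz => (hz k).2)).prodMk
        continuousAt_const)
  refine h3.congr ?_
  filter_upwards [hτ.eventually hR, hτ.eventually h1, hm] with z e1 e2 e3
  refine Eq.trans (congrArg _ (Prod.ext (funext fun k => ?_) ?_)) (e1.2 (w z))
  · exact (hc' _ _ ((e2 k).2.symm ▸ e3)).symm
  · exact (sub_eq_zero.2 (E.P_eq e3).symm).symm

/-- criterion for homomorphisms into a bundle of sections -/
theorem hom_of (h : F.IsH0 a χ E ev) (ha : a ≠ 0) {Y : Ch.Sp} {p : Mor Y U.toSp} {D : VB Y}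
    {A : Y.T → D.W →ₗ[ℂ] E.W} (mem : ∀ y, ∀ w ∈ D.F y, A y w ∈ E.F (p.f y))
    (cont : Continuous fun z : {z : D.V × F.UT // z.2.t = p.f z.1.1.1} =>
      ev z.1.2 (A z.1.1.1.1 z.1.1.1.2))
    (eqv : ∀ (s : Y.G) y (x : F.UT), x.t = p.f y → ∀ w ∈ D.F y,
      ev (((p.ρ s, 1) : U.G × Tor ι) • x) (A (s • y) (s • w)) = χ (p.ρ s) * ev x (A y w)) :
    Ch.Hom p D E A := by
  refine ⟨mem, continuous_iff_continuousAt.2 fun z₀ => h.continuousAt ha
    (τ := fun z : D.V => p.f z.1.1) (p.cf.comp (by fun_prop)).continuousAt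
    (.of_forall fun z => mem _ _ z.2) fun x hx e => ?_, fun s y w hw => ?_⟩
  · have h1 : ContinuousOn (fun q : D.V × F.UT => ev q.2 (A q.1.1.1 q.1.1.2))
        {q | q.2.t = p.f q.1.1.1} := continuousOn_iff_continuous_domRestrict.2 cont
    exact (h1 (z₀, x z₀) e.self_of_nhds).tendsto.comp (tendsto_nhdsWithin_iff.2
      ⟨continuousAt_id.prodMk hx, e⟩)
  · refine h.ext (mem _ _ (D.inv s y w hw)) (p.eqv s y ▸ E.inv _ _ _ (mem y w hw)) fun x e => ?_
    obtain ⟨x, rfl⟩ := MulAction.surjective ((p.ρ s, 1) : U.G × Tor ι) x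
    have e' : x.t = p.f y := MulAction.injective (p.ρ s) (e.trans (p.eqv s y))
    rw [eqv s y x e' w hw, ← F.coe_lb_inl χ a]
    exact (h.ev_smul _ x (e'.symm ▸ mem y w hw)).symm

theorem exists_iso (h : F.IsH0 a χ E ev) (h' : F.IsH0 a χ E' ev') (ha : a ≠ 0) :
    ∃ A : U.T → E.W →ₗ[ℂ] E'.W, Iso (Mor.id _) E E' A ∧
      ∀ x : F.UT, ∀ w ∈ E.F x.t, ev' x (A x.t w) = ev x w := by
  obtain ⟨q, hq⟩ := h'.exists_lift
  have h1 : ∀ t, ∀ w ∈ E.F t, (q t ∘ₗ sL ev t) w ∈ E'.F t := fun t w hw =>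
    (hq t _ (h.sL_mem hw)).1
  have h2 : ∀ (x : F.UT) t, x.t = t → ∀ w ∈ E.F t, ev' x ((q t ∘ₗ sL ev t) w) = ev x w := by
    rintro x _ rfl w hw
    exact congrFun (hq x.t _ (h.sL_mem hw)).2 ⟨x.c, x.mem⟩
  refine ⟨fun t => q t ∘ₗ sL ev t, ⟨h'.hom_of ha h1 ?_ fun s y x e w hw => ?_,
    fun t w hw e => h.inj t w hw fun c => ?_, fun t w hw => ?_⟩, fun x => h2 x _ rfl⟩
  · refine (h.hom.continuous (f := fun z : {z : E.V × F.UT // z.2.t = z.1.1.1} => z.1.2)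
      (g := fun z => z.1.1.1.2) (by fun_prop) (by fun_prop) fun z => ?_).congr fun z =>
        (h2 _ _ z.2 _ z.1.1.2).symm
    exact (z.2.symm ▸ z.1.1.2 : z.1.1.1.2 ∈ E.F z.1.2.t)
  · obtain rfl : x.t = y := e
    rw [h2 _ _ rfl _ hw, ← F.coe_lb_inl χ a]
    exact (h2 (((s, 1) : U.G × Tor ι) • x) _ rfl _ (E.inv s _ w hw)).trans (h.ev_smul _ x hw)
  · rw [← h2 _ t rfl w hw, e, map_zero]
  · obtain ⟨v, hv, e⟩ := h.surj t _ (h'.sL_mem hw)
    refine ⟨v, hv, h'.ext (h1 t v hv) hw fun x e' => ?_⟩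
    subst e'
    exact (h2 x _ rfl v hv).trans (e ⟨x.c, x.mem⟩)

theorem chc_eq (h : F.IsH0 a χ E ev) (h' : F.IsH0 a 1 E' ev') (ha : a ≠ 0) :
    E.chc = ex (c1 χ) * E'.chc := by
  have h1 := h'.tw χ
  rw [show χ * 1 = χ from ContinuousMonoidHom.ext fun _ => mul_one _] at h1
  obtain ⟨A, hA, -⟩ := h.exists_iso h1 ha
  rw [Iso.chc' hA, chc_tw, pS_id]

/-- multiplication by a form -/
theorem exists_mul (h : F.IsH0 a χ E ev) {b d : ι → ℕ} (h' : F.IsH0 d χ E' ev') (hd : a + b = d)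
    (ha : d ≠ 0) : ∃ A : U.T → Tens M b →L[ℂ] E.W →L[ℂ] E'.W, Continuous A ∧
      ∀ t μ, ∀ w ∈ E.F t, A t μ w ∈ E'.F t ∧
        ∀ c : F.C t, sL ev' t (A t μ w) c = val μ c.1 * sL ev t w c := by
  obtain ⟨q, hq⟩ := h'.exists_lift
  let A : U.T → Tens M b →L[ℂ] E.W →L[ℂ] E'.W := fun t => LinearMap.toContinuousLinearMap
    (LinearMap.toContinuousLinearMap.toLinearMap ∘ₗ (((LinearMap.mul ℂ (F.C t → ℂ)).compl₁₂
      (resL (F.C t) b) (sL ev t ∘ₗ (E.P t : E.W →ₗ[ℂ] E.W))).compr₂ (q t)))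
  have h1 : ∀ t μ w, A t μ w ∈ E'.F t ∧
      sL ev' t (A t μ w) = resL (F.C t) b μ * sL ev t (E.P t w) := fun t μ w =>
    hq t _ (mulH (val_mem μ) hd ⟨_, h.sL_mem (E.P_mem t w)⟩).2
  refine ⟨A, continuous_clm_apply.2 fun μ => continuous_clm_apply.2 fun w =>
    continuous_iff_continuousAt.2 fun t₀ => h'.continuousAt ha (τ := id) continuousAt_id
      (.of_forall fun t => (h1 t μ w).1) fun x hx e => ?_,
    fun t μ w hw => ⟨(h1 t μ w).1, fun c => by rw [(h1 t μ w).2, E.P_eq hw]; rfl⟩⟩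
  refine (((Pol.cont (val_mem μ)).continuousAt.comp (UT.continuous_c.continuousAt.comp hx)).mul
    (h.continuousAt_ev (w := fun t => E.P t w) hx
      (E.P_cont.continuousAt.clm_apply continuousAt_const)
      (e.mono fun t ht => (show (x t).t = t from ht).symm ▸ E.P_mem t w))).congr ?_
  filter_upwards [e] with t ht
  have h2 : ∀ y : F.UT, y.t = t → val μ y.c * ev y (E.P t w) = ev' y (A t μ w) := by
    rintro y rfl
    exact (congrFun (h1 y.t μ w).2 ⟨y.c, y.mem⟩).symm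
  exact h2 _ ht

end IsH0

variable (F) in
theorem exists_H0 (ha : a ≠ 0) (χ : U.G →ₜ* ℂˣ) :
    ∃ (E : VB U.toSp) (ev : F.UT → E.W →ₗ[ℂ] ℂ), F.IsH0 a χ E ev := by
  obtain ⟨E, B, -, hB⟩ := Ch.Hom.exists_coker (E' := F.Kb ha) (E := F.Tb a)
    (A := fun _ => LinearMap.id) (Ch.Hom.of_continuous (fun _ _ _ => trivial) continuous_snd
      fun _ _ _ _ => rfl) fun _ _ _ e => e
  obtain ⟨R, S, hR, hS, -, h1, -, h2, -⟩ := hB.exists_split
  have h3 := (F.hom_evT a).comp (hS.pb' F.pr)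
  have h4 : F.IsH0 a 1 E fun x => F.evT a x ∘ₗ S x.t := by
    refine ⟨⟨h3.mem, h3.cont, h3.eqv⟩, fun t w _ => ⟨S t w, rfl⟩, ?_, fun t w hw e => ?_⟩
    · rintro t _ ⟨μ, rfl⟩
      refine ⟨B t μ, hB.hB.mem t μ trivial, fun c => ?_⟩
      have e1 := congrArg (F.evT a (UT.mk t c c.2)) (h2 t μ trivial)
      rw [map_add] at e1
      exact ((zero_add _).symm.trans (congrArg (· + _) (congrFun (hR.mem t μ trivial) c).symm)).trans e1
    · rw [← h1 t w hw]
      exact (hB.ex t _ trivial).2 ⟨S t w, funext e, rfl⟩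
  have h5 := h4.tw χ
  rw [show χ * 1 = χ from ContinuousMonoidHom.ext fun _ => mul_one _] at h5
  exact ⟨_, _, h5⟩

end CF

end Vale.Agent.P269.Grr
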