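import Vale.Agent.P269.Grr.Alg

/-!
# Hirzebruch-Riemann-Roch on projective bundles: the algebra
-/

namespace Vale.Agent.P269.Grr

open Set Function Vale.Agent.P291Z Vale.Agent.P269.Ch PowerSeries
open scoped Polynomial

variable {R S : Type*} [CommRing R] [Algebra ℂ R] [CommRing S] [Algebra ℂ S]

/-! ### Integration along the fibres -/

section lead

omit [Algebra ℂ R] [Algebra ℂ S]

theorem lead_add (r : ℕ) (P Q Q' : R[X]) : lead r P (Q + Q') = lead r P Q + lead r P Q' := by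
  rw [lead, Polynomial.add_modByMonic, Polynomial.coeff_add]
  rfl

theorem lead_C_mul (r : ℕ) (P Q : R[X]) (a : R) :
    lead r P (Polynomial.C a * Q) = a * lead r P Q := by
  rw [lead, ← Polynomial.smul_eq_C_mul, Polynomial.smul_modByMonic, Polynomial.coeff_smul]
  rfl

theorem Hrr.lead_of_dvd {r : ℕ} {P Q : R[X]} (hP : Mon (r + 1) P) (h : P ∣ Q) : lead r P Q = 0 := by
  rw [lead, (Polynomial.modByMonic_eq_zero_iff_dvd hP.monic).2 h, Polynomial.coeff_zero]

open Hrr

theorem lead_mul_self {r : ℕ} {P : R[X]} (hP : Mon (r + 1) P) (Q : R[X]) :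
    lead r P (P * Q) = 0 := lead_of_dvd hP (dvd_mul_right _ _)

theorem Hrr.mon_degree [Nontrivial R] {r : ℕ} {P : R[X]} (hP : Mon r P) : P.degree = r := by
  rw [Polynomial.degree_eq_natDegree hP.monic.ne_zero,
    Polynomial.natDegree_eq_of_le_of_coeff_ne_zero hP.le (hP.coeff ▸ one_ne_zero)]

theorem Hrr.mon_degree_mod {r : ℕ} {P : R[X]} (hP : Mon r P) (Q : R[X]) : (Q %ₘ P).degree < r := by
  rcases subsingleton_or_nontrivial R with _ | _
  · rw [Subsingleton.elim (Q %ₘ P) 0, Polynomial.degree_zero]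
    exact WithBot.bot_lt_coe _
  · exact mon_degree hP ▸ Polynomial.degree_modByMonic_lt Q hP.monic

theorem Hrr.mon_mod_of_lt {r : ℕ} {P Q : R[X]} (hP : Mon r P) (hQ : Q.degree < r) : Q %ₘ P = Q := by
  rcases subsingleton_or_nontrivial R with _ | _
  · exact Subsingleton.elim _ _
  · exact (Polynomial.modByMonic_eq_self_iff hP.monic).2 (mon_degree hP ▸ hQ)

theorem Hrr.mon_eq_zero_of_dvd {r : ℕ} {P Q : R[X]} (hP : Mon r P) (h : P ∣ Q) (hQ : Q.degree < r) :
    Q = 0 := by
  rw [← mon_mod_of_lt hP hQ, (Polynomial.modByMonic_eq_zero_iff_dvd hP.monic).2 h]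

theorem lead_of_lt {r : ℕ} {P Q : R[X]} (hP : Mon (r + 1) P) (hQ : Q.degree < (r + 1 : ℕ)) :
    lead r P Q = Q.coeff r := by
  rw [lead, mon_mod_of_lt hP hQ]

theorem lead_map {r : ℕ} {P : R[X]} (hP : Mon (r + 1) P) (φ : R →+* S) (Q : R[X]) :
    lead r (P.map φ) (Q.map φ) = φ (lead r P Q) := by
  rw [lead, ← Polynomial.map_modByMonic φ hP.monic, Polynomial.coeff_map]
  rfl

/-- integration along the fibres as an additive map -/
noncomputable def Hrr.leadH (r : ℕ) (P : R[X]) : R[X] →+ R :=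
  AddMonoidHom.mk' (lead r P) (lead_add r P)

theorem Hrr.mon_degree_lt {r : ℕ} {P : R[X]} (hP : Mon r P) : P.degree < (r + 1 : ℕ) :=
  Polynomial.degree_le_natDegree.trans_lt (by exact_mod_cast Nat.lt_succ_of_le hP.le)

/-- restriction to a hyperplane -/
theorem Hrr.lead_hyp {r : ℕ} {P : R[X]} (hP : Mon (r + 1) P) (a : R) (Q : R[X]) :
    lead (r + 1) ((Polynomial.X + Polynomial.C a) * P) ((Polynomial.X + Polynomial.C a) * Q) =
      lead r P Q := by
  have hM : Mon (r + 1 + 1) ((Polynomial.X + Polynomial.C a) * P) :=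
    add_comm 1 (r + 1) ▸ (mon_X_add_C a).mul hP
  have hd := mon_degree_mod hP Q
  have h0 : (Q %ₘ P).coeff (r + 1) = 0 := Polynomial.coeff_eq_zero_of_degree_lt hd
  conv_lhs => rw [← Polynomial.modByMonic_add_div Q P, mul_add, ← mul_assoc]
  rw [lead_add, lead_mul_self hM, add_zero, lead_of_lt hM, add_mul, Polynomial.coeff_add,
    Polynomial.coeff_X_mul, Polynomial.coeff_C_mul, h0, mul_zero, add_zero]
  · rfl
  · refine (Polynomial.degree_lt_iff_coeff_zero _ _).2 fun m hm => ?_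
    obtain ⟨m, rfl⟩ : ∃ k, m = k + 1 := ⟨m - 1, by omega⟩
    rw [add_mul, Polynomial.coeff_add, Polynomial.coeff_X_mul, Polynomial.coeff_C_mul,
      Polynomial.coeff_eq_zero_of_degree_lt (hd.trans_le (by exact_mod_cast (by omega))),
      Polynomial.coeff_eq_zero_of_degree_lt (hd.trans_le (by exact_mod_cast (by omega))),
      mul_zero, add_zero]

theorem Hrr.coeff_mL {R S : Type*} [Semiring R] [Semiring S] (g : R → S) (A : R⟦X⟧) (k : ℕ) :
    coeff k (mapL g A) = g (coeff k A) := coeff_mk _ _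

/-- integration along the fibres of series, as an additive map -/
noncomputable def Hrr.leadS (r : ℕ) (P : R[X]) : (R[X])⟦X⟧ →+ R⟦X⟧ :=
  AddMonoidHom.mk' (mapL (lead r P)) fun A B => PowerSeries.ext fun k => by
    rw [map_add, coeff_mL, coeff_mL, coeff_mL, map_add, lead_add]

theorem Hrr.leadS_apply (r : ℕ) (P : R[X]) (A : (R[X])⟦X⟧) : leadS r P A = mapL (lead r P) A := rfl

theorem Hrr.coeff_leadS (r : ℕ) (P : R[X]) (A : (R[X])⟦X⟧) (k : ℕ) :
    coeff k (leadS r P A) = lead r P (coeff k A) := coeff_mL (lead r P) A k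

theorem Hrr.leadS_mul (r : ℕ) (P : R[X]) (a : R⟦X⟧) (A : (R[X])⟦X⟧) :
    leadS r P (PowerSeries.map Polynomial.C a * A) = a * leadS r P A := by
  refine PowerSeries.ext fun k => ?_
  rw [coeff_leadS, coeff_mul, coeff_mul]
  refine (map_sum (leadH r P) _ _).trans (Finset.sum_congr rfl fun p _ => ?_)
  rw [coeff_map, coeff_leadS]
  exact lead_C_mul _ _ _ _

theorem Hrr.leadS_X_pow_mul (r : ℕ) (P : R[X]) (n : ℕ) (A : (R[X])⟦X⟧) :
    leadS r P (X ^ n * A) = X ^ n * leadS r P A := by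
  rw [← leadS_mul, map_pow, map_X]

theorem Hrr.leadS_X_mul (r : ℕ) (P : R[X]) (A : (R[X])⟦X⟧) :
    leadS r P (X * A) = X * leadS r P A := by
  rw [← leadS_mul, map_X]

theorem Hrr.leadS_map {r : ℕ} {P : R[X]} (hP : Mon (r + 1) P) (φ : R →+* S) (A : (R[X])⟦X⟧) :
    leadS r (P.map φ) (PowerSeries.map (Polynomial.mapRingHom φ) A) =
      PowerSeries.map φ (leadS r P A) := by
  refine PowerSeries.ext fun k => ?_
  rw [coeff_leadS, coeff_map, coeff_map, coeff_leadS]
  exact lead_map hP φ _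

theorem Hrr.leadS_of_dvd {r : ℕ} {P : R[X]} (hP : Mon (r + 1) P) {A : (R[X])⟦X⟧}
    (h : ∀ k, P ∣ coeff k A) (B : (R[X])⟦X⟧) : leadS r P (A * B) = 0 := by
  refine PowerSeries.ext fun k => ?_
  rw [coeff_leadS, coeff_mul, map_zero]
  exact lead_of_dvd hP (Finset.dvd_sum fun p _ => (h _).mul_right _)

theorem Hrr.mon_fin {n : ℕ} (v : Fin n → R) : Mon n (∏ i, (Polynomial.X + Polynomial.C (v i))) := by
  simpa using mon_prod_X_add_C v

end lead

open Hrr

/-! ### The split case -/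

namespace Hrr

/-- the Euler characteristic of `O(-w)` -/
noncomputable def chi {r : ℕ} (v : Fin (r + 1) → R) (w : ℕ) : R⟦X⟧ :=
  leadS r (∏ i, (Polynomial.X + Polynomial.C (v i)))
    (ex (-Polynomial.X : R[X]) ^ w * ∏ i, ev (Polynomial.X + Polynomial.C (v i)) tdS)

theorem mapC_ex (x : R) :
    PowerSeries.map Polynomial.C (ex x) = ex (Polynomial.C x : R[X]) :=
  map_ex (Polynomial.CAlgHom : R →ₐ[ℂ] R[X]) x

theorem mapP_ev (φ : R →ₐ[ℂ] S) (x : R[X]) (f : ℂ⟦X⟧) :
    PowerSeries.map (Polynomial.mapRingHom (φ : R →+* S)) (ev x f) =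
      ev (x.map (φ : R →+* S)) f := map_ev (Polynomial.mapAlgHom φ) x f

theorem mapP_tdOf (φ : R →ₐ[ℂ] S) (A : (R[X])⟦X⟧) :
    PowerSeries.map (Polynomial.mapRingHom (φ : R →+* S)) (tdOf A) =
      tdOf (PowerSeries.map (Polynomial.mapRingHom (φ : R →+* S)) A) :=
  (tdOf_map (Polynomial.mapAlgHom φ) A).symm

theorem chi_map (φ : R →ₐ[ℂ] S) {r : ℕ} (v : Fin (r + 1) → R) (w : ℕ) :
    chi (fun i => φ (v i)) w = PowerSeries.map (φ : R →+* S) (chi v w) := by
  rw [chi, chi, ← leadS_map (mon_fin v), map_mul (PowerSeries.map _), map_pow (PowerSeries.map _),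
    map_prod (PowerSeries.map _), ex, ex, mapP_ev, Polynomial.map_prod]
  simp only [mapP_ev, Polynomial.map_add, Polynomial.map_X, Polynomial.map_C, Polynomial.map_neg,
    RingHom.coe_coe]

theorem chi_step {r : ℕ} (v : Fin (r + 2) → R) (j : Fin (r + 2)) (w : ℕ) :
    chi v w = ex (-v j) * chi v (w + 1) + X * chi (fun i => v (j.succAbove i)) w := by
  have h1 := ev_tdS_mul (Polynomial.X + Polynomial.C (v j) : R[X])
  rw [neg_add, ex_add, ← map_neg, ← mapC_ex] at h1
  have h2 : ∀ A : (R[X])⟦X⟧, leadS (r + 1) (∏ i, (Polynomial.X + Polynomial.C (v i)))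
      (C (Polynomial.X + Polynomial.C (v j)) * A) =
      leadS r (∏ i, (Polynomial.X + Polynomial.C (v (j.succAbove i)))) A := fun A => by
    refine PowerSeries.ext fun k => ?_
    rw [coeff_leadS, coeff_leadS, coeff_C_mul, Fin.prod_univ_succAbove _ j]
    exact lead_hyp (mon_fin _) _ _
  rw [chi, chi, chi, ← h2, ← leadS_X_mul, ← leadS_mul, ← map_add,
    Fin.prod_univ_succAbove (fun i => ev (Polynomial.X + Polynomial.C (v i)) tdS) j]
  generalize ∏ i, ev (Polynomial.X + Polynomial.C (v (j.succAbove i))) tdS = T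
  generalize ev (Polynomial.X + Polynomial.C (v j)) tdS = T0 at h1 ⊢
  refine congrArg _ ?_
  linear_combination (ex (-Polynomial.X : R[X]) ^ w * T) * h1

theorem chi_base (v : Fin (0 + 1) → R) : chi v 0 = 1 := by
  have hP := mon_fin v
  refine PowerSeries.ext fun k => ?_
  rw [chi, pow_zero, one_mul, coeff_leadS]
  simp only [Fin.prod_univ_succ, Fin.prod_univ_zero, mul_one] at hP ⊢
  rw [coeff_ev]
  rcases k with _ | k
  · rw [coeff_zero_eq_constantCoeff_apply tdS, constantCoeff_tdS, pow_zero, one_smul,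
      coeff_zero_one, lead_of_lt hP (mon_degree_lt mon_one), Polynomial.coeff_one_zero]
  · rw [coeff_one, if_neg k.succ_ne_zero, pow_succ', ← mul_smul_comm]
    exact lead_mul_self hP _

theorem chi_eq (r : ℕ) : ∀ (R : Type) [CommRing R] [Algebra ℂ R] (v : Fin (r + 1) → R) (w : ℕ),
    w ≤ r → chi v w = if w = 0 then X ^ r else 0 := by
  induction r with
  | zero =>
    intro R _ _ v w hw
    obtain rfl : w = 0 := by omega
    rw [chi_base, if_pos rfl, pow_zero]
  | succ r ih =>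
    have key : ∀ w ≤ r, chi (fun i : Fin (r + 2) =>
        (MvPolynomial.X i : MvPolynomial (Fin (r + 2)) ℂ)) (w + 1) = 0 := fun w hw => by
      have h0 := chi_step (fun i : Fin (r + 2) =>
        (MvPolynomial.X i : MvPolynomial (Fin (r + 2)) ℂ)) 0 w
      have h1 := chi_step (fun i : Fin (r + 2) =>
        (MvPolynomial.X i : MvPolynomial (Fin (r + 2)) ℂ)) 1 w
      rw [ih _ _ w hw] at h0 h1
      refine (mul_eq_mul_right_iff.1 (add_right_cancel (h0.symm.trans h1))).resolve_left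
        fun e => ?_
      have := congrArg (coeff 1) e
      rw [coeff_ex, coeff_ex, pow_one, pow_one, Nat.factorial_one, Nat.cast_one, inv_one, one_smul,
        one_smul, neg_inj] at this
      exact Fin.zero_ne_one (MvPolynomial.X_injective this)
    intro R _ _ v w hw
    have hv : ∀ w ≤ r, chi v (w + 1) = 0 := fun w hw => by
      have := chi_map (MvPolynomial.aeval v : MvPolynomial (Fin (r + 2)) ℂ →ₐ[ℂ] R)
        (fun i => MvPolynomial.X i) (w + 1)
      simpa only [MvPolynomial.aeval_X, key w hw, map_zero] using this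
    rcases w with _ | w
    · rw [chi_step v 0 0, hv 0 (Nat.zero_le r), ih _ _ 0 (Nat.zero_le r), if_pos rfl, if_pos rfl,
        mul_zero, zero_add, pow_succ']
    · rw [hv w (by omega), if_neg w.succ_ne_zero]

end Hrr

/-- Hirzebruch-Riemann-Roch for `O(-w)` on a split projective bundle -/
theorem hrr_split {r : ℕ} (v : Fin (r + 1) → R) {w : ℕ} (hw : w ≤ r) :
    mapL (lead r (∏ i, (Polynomial.X + Polynomial.C (v i))))
      (ex (-Polynomial.X : R[X]) ^ w * ∏ i, ev (Polynomial.X + Polynomial.C (v i)) tdS) =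
      if w = 0 then X ^ r else 0 := by
  have := Hrr.chi_map (MvPolynomial.aeval v : MvPolynomial (Fin (r + 1)) ℂ →ₐ[ℂ] R)
    (fun i => MvPolynomial.X i) w
  rw [Hrr.chi_eq r _ _ w hw] at this
  simp only [MvPolynomial.aeval_X] at this
  refine this.trans ?_
  split_ifs
  · rw [map_pow, map_X]
  · rw [map_zero]

/-- the same for any bundle -/
theorem hrr {Y : Ch.Sp} (E : VB Y) {r : ℕ} (hr : E.r = r + 1) {w : ℕ} (hw : w ≤ r) :
    mapL (lead r E.chern) (ex (-Polynomial.X : (Hev Y.X)[X]) ^ w *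
      tdOf (ex Polynomial.X * PowerSeries.map Polynomial.C E.chc)) =
      if w = 0 then X ^ r else 0 := by
  obtain ⟨Y', m, hm, χ, v, hv⟩ := exists_fr_aux (r + 1) Y E hr
  refine pS_injective hm ?_
  have h1 : PowerSeries.map (Polynomial.mapRingHom (Hev.map m.map : Hev Y.X →+* Hev Y'.X))
      (PowerSeries.map Polynomial.C E.chc) = PowerSeries.map Polynomial.C (E.pb m).chc := by
    refine PowerSeries.ext fun k => ?_
    rw [chc_pb, coeff_map, coeff_map, coeff_map, coeff_map, Polynomial.coe_mapRingHom,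
      Polynomial.map_C]
  rw [← leadS_apply, pS, ← leadS_map (hr ▸ E.chern_mon), ← VB.chern_pb, hv.chern,
    map_mul (PowerSeries.map _), map_pow, Hrr.mapP_tdOf, map_mul (PowerSeries.map _), h1,
    Fr.chc hv, ex, ex, Hrr.mapP_ev, Hrr.mapP_ev, Polynomial.map_neg, Polynomial.map_X, ← ex, ← ex,
    map_sum, Finset.mul_sum, tdOf_sum]
  simp only [Hrr.mapC_ex, ← ex_add, tdOf_ex]
  refine (hrr_split _ hw).trans ?_
  split_ifs
  · rw [map_pow, map_X]
  · rw [map_zero]

/-! ### The kernel of the evaluation at `xi` -/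

theorem dvd_of_evP {Y : Ch.Sp} (E : VB Y) {Q : (Hev Y.X)[X]} (h : evP E.pp.map E.xi Q = 0) :
    E.chern ∣ Q := by
  refine (Polynomial.modByMonic_eq_zero_iff_dvd E.chern_mon.monic).1
    (eq_zero_of_lh E.lh_bijective.1 (mon_degree_mod E.chern_mon Q) ?_)
  rw [Polynomial.modByMonic_eq_sub_mul_div, map_sub, map_mul, h, E.evP_chern, zero_mul, sub_zero]

theorem lead_eq_zero {Y : Ch.Sp} (E : VB Y) {r : ℕ} (hr : E.r = r + 1) {Q : (Hev Y.X)[X]}
    (h : evP E.pp.map E.xi Q = 0) : lead r E.chern Q = 0 :=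
  lead_of_dvd (hr ▸ E.chern_mon) (dvd_of_evP E h)

theorem evP_surjective {Y : Ch.Sp} (E : VB Y) : Surjective (evP E.pp.map E.xi) := fun c => by
  obtain ⟨Q, hQ⟩ := Hev.induction (P := fun c => ∃ Q, (evP E.pp.map E.xi Q).1 = c) c.2
    (fun k c hc => by
      obtain ⟨P, -, -, h⟩ := exists_of_lh E.lh_bijective.2 E.xi_deg (k := k)
        (c := ⟨c, mem_Hev hc⟩) hc
      exact ⟨P, congrArg Subtype.val h⟩)
    fun a b ⟨P, hP⟩ ⟨Q, hQ⟩ => ⟨P + Q, by rw [map_add, ← hP, ← hQ]; rfl⟩
  exact ⟨Q, Subtype.ext hQ⟩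

/-! ### The algebra at the end of Riemann-Roch for embeddings -/

namespace Hrr

theorem coeff_one_mul {R : Type*} [CommRing R] (A B : R⟦X⟧) :
    coeff 1 (A * B) = coeff 0 A * coeff 1 B + coeff 1 A * coeff 0 B := by
  rw [coeff_mul]
  simp [Finset.Nat.antidiagonal_succ]

theorem coeff_two_mul {R : Type*} [CommRing R] (A B : R⟦X⟧) :
    coeff 2 (A * B) = coeff 0 A * coeff 2 B + coeff 1 A * coeff 1 B + coeff 2 A * coeff 0 B := by
  rw [coeff_mul]
  simp [Finset.Nat.antidiagonal_succ, add_assoc]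

theorem coeff_zero_mul {R : Type*} [CommRing R] (A B : R⟦X⟧) :
    coeff 0 (A * B) = coeff 0 A * coeff 0 B := by
  simp

omit [Algebra ℂ R] in
/-- restriction to the zero section -/
theorem leadS_C {r : ℕ} {P : R[X]} (hP : Mon r P) (T : (R[X])⟦X⟧) :
    leadS r (P * Polynomial.X) (C P * T) =
      PowerSeries.map (Polynomial.aeval (0 : R) : R[X] →ₐ[R] R) T := by
  have hM : Mon (r + 1) (P * Polynomial.X) := by simpa using hP.mul (mon_X_add_C 0)
  refine PowerSeries.ext fun k => ?_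
  rw [coeff_leadS, coeff_C_mul, coeff_map]
  conv_lhs => rw [← Polynomial.X_mul_divX_add (coeff k T), mul_add, ← mul_assoc]
  rw [lead_add, lead_mul_self hM, zero_add, mul_comm P (Polynomial.C _), lead_C_mul,
    lead_of_lt hM (mon_degree_lt hP), hP.coeff, mul_one, RingHom.coe_coe,
    Polynomial.coe_aeval_eq_eval, Polynomial.coeff_zero_eq_eval_zero]

theorem second {P : R[X]} (hP : Mon 2 P) (h : ℕ → R⟦X⟧) (γ : R⟦X⟧)
    (e : ∀ k, P * Polynomial.X ∣ coeff k
      (X ^ 2 * C P * PowerSeries.map Polynomial.C γ - ∑ j ∈ Finset.range (2 + 1),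
        (-1) ^ j * ex (-Polynomial.X : R[X]) ^ j * PowerSeries.map Polynomial.C (h j)))
    (hγ : coeff 0 γ = 1) (h1 : coeff 0 (h 1) = 2) (h2 : coeff 0 (h 2) = 1) :
    coeff 1 (h 1) = P.coeff 1 + 2 * coeff 1 (h 2) ∧ coeff 1 (h 0) = P.coeff 1 + coeff 1 (h 2) := by
  have hM : Mon (2 + 1) (P * Polynomial.X) := by simpa using hP.mul (mon_X_add_C 0)
  have y0 : coeff 0 (ex (-Polynomial.X : R[X])) = 1 := by rw [coeff_ex]; simp
  have y1 : coeff 1 (ex (-Polynomial.X : R[X])) = -Polynomial.X := by rw [coeff_ex]; simp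
  obtain ⟨a, y2⟩ : ∃ a : R, coeff 2 (ex (-Polynomial.X : R[X])) =
      Polynomial.C a * Polynomial.X ^ 2 := ⟨algebraMap ℂ R ((2 : ℕ).factorial : ℂ)⁻¹, by
    rw [coeff_ex, neg_sq, Algebra.smul_def, Polynomial.algebraMap_apply]⟩
  have s : ∑ j ∈ Finset.range (2 + 1), (-1) ^ j * ex (-Polynomial.X : R[X]) ^ j *
      PowerSeries.map Polynomial.C (h j) = PowerSeries.map Polynomial.C (h 0) -
      ex (-Polynomial.X : R[X]) * PowerSeries.map Polynomial.C (h 1) + ex (-Polynomial.X : R[X]) *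
        (ex (-Polynomial.X : R[X]) * PowerSeries.map Polynomial.C (h 2)) := by
    simp only [Finset.sum_range_succ, Finset.sum_range_zero]
    ring
  have e1 := e 1
  have e2 := e 2
  rw [s, mul_assoc, map_sub, map_add, map_sub] at e1 e2
  rw [coeff_X_pow_mul', if_neg (by norm_num)] at e1
  rw [coeff_X_pow_mul', if_pos le_rfl, Nat.sub_self, coeff_C_mul] at e2
  simp only [coeff_two_mul, coeff_one_mul, coeff_zero_mul, coeff_map, y0, y1, y2, hγ, h1, h2]
    at e1 e2
  have f1 : (0 : R[X]) - (Polynomial.C (coeff 1 (h 0)) - (1 * Polynomial.C (coeff 1 (h 1)) +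
      -Polynomial.X * Polynomial.C 2) + (1 * (1 * Polynomial.C (coeff 1 (h 2)) +
      -Polynomial.X * Polynomial.C 1) + -Polynomial.X * (1 * Polynomial.C 1))) =
      Polynomial.C (coeff 1 (h 1) - coeff 1 (h 0) - coeff 1 (h 2)) := by
    simp only [map_sub, map_one, map_ofNat]
    ring
  rw [f1] at e1
  have g1 := Polynomial.C_eq_zero.1 (mon_eq_zero_of_dvd hM e1
    (Polynomial.degree_C_le.trans_lt (by norm_num)))
  have e3 : P * Polynomial.X ∣ P - (Polynomial.C (1 + 2 * a - 2 * a) * Polynomial.X ^ 2 +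
      Polynomial.C (coeff 1 (h 1) - 2 * coeff 1 (h 2)) * Polynomial.X +
      Polynomial.C (coeff 2 (h 0) - coeff 2 (h 1) + coeff 2 (h 2))) := by
    refine (congrArg (P * Polynomial.X ∣ ·) ?_).mp e2
    simp only [map_sub, map_add, map_mul, map_one, map_ofNat]
    ring
  have g2 := congrArg (fun Q : R[X] => Q.coeff 1) (mon_eq_zero_of_dvd hM e3
    ((Polynomial.degree_sub_le _ _).trans_lt (max_lt (mon_degree_lt hP)
      (Polynomial.degree_quadratic_le.trans_lt (by norm_num)))))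
  simp only [Polynomial.coeff_sub, Polynomial.coeff_add, Polynomial.coeff_C_mul,
    Polynomial.coeff_X_pow, Polynomial.coeff_X_one, Polynomial.coeff_C_succ,
    Polynomial.coeff_zero] at g2
  rw [if_neg (by norm_num)] at g2
  constructor
  · linear_combination -g2
  · linear_combination -g2 - g1

end Hrr

theorem model_alg {Y : Ch.Sp} (N : VB Y) (h : ℕ → (Hev Y.X)⟦X⟧) (γ : (Hev Y.X)⟦X⟧)
    (e : ∀ k, N.chern * Polynomial.X ∣ coeff k
      (X ^ N.r * C N.chern * PowerSeries.map Polynomial.C γ - ∑ j ∈ Finset.range (N.r + 1),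
        (-1) ^ j * ex (-Polynomial.X : (Hev Y.X)[X]) ^ j * PowerSeries.map Polynomial.C (h j))) :
    γ * N.td = h 0 ∧ (N.r = 2 → coeff 0 (h 0) = 1 → coeff 0 (h 1) = 2 → coeff 0 (h 2) = 1 →
      coeff 1 (h 1) = coeff 1 N.chc + 2 * coeff 1 (h 2) ∧
      coeff 1 (h 0) = coeff 1 N.chc + coeff 1 (h 2)) := by
  have hE : (N.sum (char 1)).chern = N.chern * Polynomial.X := by
    rw [VB.chern_sum, chern_char, c1_one, map_zero, add_zero]
  have hM : Mon (N.r + 1) (N.chern * Polynomial.X) := hE ▸ (N.sum (char 1)).chern_mon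
  have hH := fun w (hw : w ≤ N.r) => hrr (N.sum (char 1)) (r := N.r) rfl hw
  rw [hE, chc_sum, chc_char, c1_one, ex_zero] at hH
  generalize hT : tdOf (ex Polynomial.X * PowerSeries.map Polynomial.C (N.chc + 1)) = T at hH
  have h0 : PowerSeries.map (Polynomial.aeval (0 : Hev Y.X) : (Hev Y.X)[X] →ₐ[Hev Y.X] Hev Y.X) T =
      N.td := by
    let φ : (Hev Y.X)[X] →ₐ[ℂ] Hev Y.X := (Polynomial.aeval (0 : Hev Y.X)).restrictScalars ℂ
    have h1 : PowerSeries.map (φ : (Hev Y.X)[X] →+* Hev Y.X)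
        (PowerSeries.map Polynomial.C (N.chc + 1)) = N.chc + 1 := by
      refine PowerSeries.ext fun k => ?_
      rw [coeff_map, coeff_map]
      exact Polynomial.aeval_C _ _
    have h2 : φ Polynomial.X = 0 := Polynomial.aeval_X _
    have h3 := tdOf_map φ (ex Polynomial.X * PowerSeries.map Polynomial.C (N.chc + 1))
    rw [hT, map_mul, h1, map_ex, h2, ex_zero, one_mul, tdOf_add, ← Nat.cast_one,
      tdOf_natCast, mul_one] at h3
    exact h3.symm
  have h1 := leadS_of_dvd hM e T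
  rw [sub_mul, map_sub, mul_assoc, mul_assoc, leadS_X_pow_mul, mul_left_comm, leadS_mul,
    Hrr.leadS_C N.chern_mon, h0, Finset.sum_mul, map_sum, Finset.sum_eq_single 0] at h1
  · have h2 := hH 0 (Nat.zero_le _)
    rw [pow_zero, one_mul, if_pos rfl, ← leadS_apply] at h2
    rw [pow_zero, pow_zero, one_mul, one_mul, leadS_mul, h2, mul_comm (h 0), sub_eq_zero] at h1
    have h3 := X_pow_mul_cancel h1
    refine ⟨h3, fun hr a0 a1 a2 => ?_⟩
    have hP : Mon 2 N.chern := hr ▸ N.chern_mon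
    have hγ : coeff 0 γ = 1 := by
      rw [← a0, ← h3, Hrr.coeff_zero_mul, VB.td, coeff_zero_eq_constantCoeff_apply (tdOf _),
        constantCoeff_tdOf, mul_one]
    rw [hr] at e
    rw [VB.chc, hr, coeff_one_chP (r := 1) hP]
    exact Hrr.second hP h γ e hγ a1 a2
  · intro j hj hj0
    have h2 := hH j (Nat.lt_succ_iff.1 (Finset.mem_range.1 hj))
    rw [if_neg hj0, ← leadS_apply] at h2
    have h3 : (-1) ^ j * ex (-Polynomial.X : (Hev Y.X)[X]) ^ j *
        PowerSeries.map Polynomial.C (h j) * T = PowerSeries.map Polynomial.C ((-1) ^ j * h j) *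
        (ex (-Polynomial.X : (Hev Y.X)[X]) ^ j * T) := by
      rw [map_mul, map_pow, map_neg, map_one]
      ring
    rw [h3, leadS_mul, h2, mul_zero]
  · intro h2
    exact absurd (Finset.mem_range.2 (Nat.succ_pos _)) h2

end Vale.Agent.P269.Grr
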