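import Vale.Agent.P269.Grr.KZ

/-!
# Koszul complexes of sections: the bound at a point of the curve, equations in one factor
-/

namespace Vale.Agent.P269.Grr

open Set Function Topology Filter Module Vale.Agent.P269.Base

set_option linter.unusedSectionVars false

variable {ι : Type} [Fintype ι] [DecidableEq ι] {M : ι → ℕ} {o : ι} {g : ℤ} {m : ι → ℤ}
  {C : Set (V M)} {a : ι → ℕ} {y : V M} {γ : Bool → ℂ → V M}

namespace KZ

theorem an_dslope {u : ℂ → ℂ} (h : AnalyticAt ℂ u 0) : AnalyticAt ℂ (dslope u 0) 0 :=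
  h.elim fun _ hp => ⟨_, hp.has_fpower_series_dslope_fslope⟩

theorem eq_dslope {u : ℂ → ℂ} (h : u 0 = 0) (t : ℂ) : u t = t * dslope u 0 t := by
  simpa [h] using (sub_smul_dslope u 0 t).symm

theorem dv_two {u : ℂ → ℂ} (h : AnalyticAt ℂ u 0) (h0 : u 0 = 0) (h1 : deriv u 0 = 0) : Dv 2 u :=
  (dv_iff_jet h).2 (funext fun i => by fin_cases i <;> simp [jet, h0, h1])

theorem an_lin (ℓ : (Fin (M o) → ℂ) →L[ℂ] ℂ) {δ : ℂ → V M} (h : AnalyticAt ℂ δ 0) :
    AnalyticAt ℂ (fun t => ℓ (δ t o)) 0 := (Pol.an (Pol.lin o ℓ) _).comp h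

theorem ld_at (hγ : Loc o C y γ) {b d : ι → ℕ} {l B : V M → ℂ} (hl : l ∈ Pol M b)
    (hB : B ∈ Pol M d) (l0 : l y = 0) (B0 : B y = 0) (hd : ∀ j, deriv (fun t => l (γ j t)) 0 ≠ 0)
    (he : deriv (fun t => B (γ true t)) 0 * deriv (fun t => l (γ false t)) 0 =
      deriv (fun t => B (γ false t)) 0 * deriv (fun t => l (γ true t)) 0) : LD C l B y := by
  have h1 : ∀ j, AnalyticAt ℂ (dslope (fun t => l (γ j t)) 0) 0 := fun j =>
    an_dslope ((Pol.an hl _).comp (hγ.an j))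
  have h2 : ∀ j, dslope (fun t => l (γ j t)) 0 0 ≠ 0 := fun j => by
    rw [dslope_same]; exact hd j
  refine hγ.ld (Pol.bh hl) (Pol.bh hB)
    (r := fun j => dslope (fun t => B (γ j t)) 0 / dslope (fun t => l (γ j t)) 0)
    (fun j => (an_dslope ((Pol.an hB _).comp (hγ.an j))).div (h1 j) (h2 j)) ?_
    (fun e => by rw [e]) fun j => ?_
  · simp only [Pi.div_apply, dslope_same]
    exact (div_eq_div_iff (hd true) (hd false)).2 he
  · filter_upwards [(h1 j).continuousAt.eventually_ne (h2 j)] with t ht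
    rw [eq_dslope (u := fun t => B (γ j t)) (by simp [hγ.zero, B0]) t,
      eq_dslope (u := fun t => l (γ j t)) (by simp [hγ.zero, l0]) t, Pi.div_apply]
    field_simp

theorem tan_notMem (hγ : Loc o C y γ) (j : Bool) : deriv (γ j) 0 o ∉ ℂ ∙ y o := fun h => by
  obtain ⟨r, hr⟩ := Submodule.mem_span_singleton.1 h
  exact one_ne_zero ((li_pair_iff.1 (hγ.br j).imm).2 1 r (by rw [hγ.zero, hr, one_smul]))

theorem notMem_of (h : IsCurve o g m C) (hy : y ∈ C) {z : V M} (hz : z ∈ C) (hn : ¬Orb y z) :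
    z o ∉ ℂ ∙ y o := fun e =>
  (Submodule.mem_span_singleton.1 e).elim fun _ hr => hn (orb_of_eq h hy hz hr.symm)

theorem line {A : Type*} [AddCommGroup A] [Module ℂ A] (φ : A →ₗ[ℂ] ℂ) {p : A → Prop} (h : p 0) :
    ∃ r₀, p r₀ ∧ ∀ r, p r → ∃ s : ℂ, φ (r - s • r₀) = 0 := by
  by_cases h1 : ∃ r₀, p r₀ ∧ φ r₀ ≠ 0
  · obtain ⟨r₀, h2, h3⟩ := h1
    exact ⟨r₀, h2, fun r _ => ⟨φ r / φ r₀, by simp [h3]⟩⟩
  · push Not at h1
    exact ⟨0, h, fun r hr => ⟨0, by simpa using h1 r hr⟩⟩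

end KZ

open KZ

/-- the bound at a point of the curve -/
theorem koszul_le (h : IsCurve o g m C) (ha : a ≠ 0) (hM : 3 ≤ M o) {y : V M} (hy : y ∈ C)
    (j k : ℕ) (hk : 1 ≤ k) : ∃ T : Submodule ℂ ((Fin (M o) → ℂ) [⋀^Fin j]→ₗ[ℂ] (C → ℂ)),
      FiniteDimensional ℂ T ∧ finrank ℂ T ≤ (M o - 2).choose j ∧
      ZK (fun c : C => c.1 o) (ℂ ∙ y o) (Hs C (a + (k + 1) • Pi.single o 1)) j ≤
        BK (fun c : C => c.1 o) (ℂ ∙ y o) (Hs C (a + k • Pi.single o 1)) j ⊔ T := by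
  obtain ⟨γ, hγ⟩ := h.nod.exists_loc hy
  have hr : finrank ℂ (ℂ ∙ y o) = 1 := finrank_span_singleton (hγ.ne o)
  obtain ⟨l₁, h1, hn, h2⟩ := exists_nzd h.nod _ (freq_line h.nod (y o)) (tan_notMem hγ)
  obtain ⟨x, h3, hx, hx'⟩ : ∃ x, l₁ x = 0 ∧ x ∉ ℂ ∙ y o ∧ (γ true ≠ γ false → x =
      l₁ (deriv (γ false) 0 o) • deriv (γ true) 0 o -
        l₁ (deriv (γ true) 0 o) • deriv (γ false) 0 o) := by
    by_cases e : γ true = γ false
    · obtain ⟨x, h3, hx⟩ := exists_ker (W := ℂ ∙ y o) (by omega) l₁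
      exact ⟨x, h3, hx, fun e' => absurd e e'⟩
    · refine ⟨_, by simp [mul_comm], fun hm => ?_, fun _ => rfl⟩
      obtain ⟨r, hr⟩ := Submodule.mem_span_singleton.1 hm
      exact h2 false ((li_triple_iff.1 (hγ.alt.resolve_left e)).2 _ (-l₁ (deriv (γ true) 0 o)) r
        (by rw [hr, neg_smul, sub_eq_add_neg])).1
  obtain ⟨l₂, h4, h5, h6⟩ := second h.nod hn hx
  have d1 : ∀ j, deriv (fun t => l₁ (γ j t o)) 0 = l₁ (deriv (γ j) 0 o) := fun j =>
    (deriv_lin l₁ (hγ.an j)).deriv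
  have key : ∀ d : ι → ℕ, ∃ φ : Tens M d →ₗ[ℂ] ℂ, ∀ μ ν : Tens M d,
      (∀ c ∈ C, l₁ (c o) * val μ c + l₂ (c o) * val ν c = 0) → φ ν = 0 →
        LD C (fun c => l₁ (c o)) (val ν) y := fun d => by
    by_cases e : γ true = γ false
    · exact ⟨(evL d y).toLinearMap, fun μ ν _ h0 => ld_at hγ (Pol.lin o l₁) (val_mem ν)
        (ann_self h1) h0 (fun j => d1 j ▸ h2 j) (by rw [e])⟩
    refine ⟨l₁ (deriv (γ false) 0 o) • (dvL d y (deriv (γ true) 0)).toLinearMap -
      l₁ (deriv (γ true) 0 o) • (dvL d y (deriv (γ false) 0)).toLinearMap, fun μ ν h7 h0 =>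
        ld_at hγ (Pol.lin o l₁) (val_mem ν) (ann_self h1) ?_ (fun j => d1 j ▸ h2 j) ?_⟩
    · have h8 : ∀ j, l₁ (deriv (γ j) 0 o) * val μ y + l₂ (deriv (γ j) 0 o) * val ν y = 0 := by
        intro j
        have a1 := fun μ : Tens M d =>
          ((analyticAt_val μ _).comp (hγ.an j)).differentiableAt.hasDerivAt
        have := (((deriv_lin l₁ (hγ.an j)).mul (a1 μ)).add
          ((deriv_lin l₂ (hγ.an j)).mul (a1 ν))).unique ((hasDerivAt_const _ _).congr_of_eventuallyEq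
            ((hγ.br j).mem.mono fun t ht => h7 _ ht))
        simpa [hγ.zero, ann_self h1, ann_self h4] using this
      refine (mul_eq_zero.1 ?_).resolve_left h5
      rw [hx' e, map_sub, map_smul, map_smul, smul_eq_mul, smul_eq_mul]
      linear_combination l₁ (deriv (γ false) 0 o) * h8 true - l₁ (deriv (γ true) 0 o) * h8 false
    · rw [d1, d1, deriv_comp_an (analyticAt_val _ _) (hγ.an true),
        deriv_comp_an (analyticAt_val _ _) (hγ.an false), hγ.zero, hγ.zero, ← dvL_apply,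
        ← dvL_apply, mul_comm, mul_comm (dvL _ _ _ _)]
      exact sub_eq_zero.1 h0
  have := KZ.gen h ha h3 h5 (h2 true) hn h1 h4 (e := 1) (fun k => by
    obtain ⟨φ, hφ⟩ := key (a + (k + 1) • Pi.single o 1)
    obtain ⟨r₀, e0, e1⟩ := line (φ ∘ₗ LinearMap.snd ℂ (Tens M (a + (k + 1) • Pi.single o 1)) _)
      (p := fun r => ∀ c ∈ C, l₁ (c o) * val r.1 c + l₂ (c o) * val r.2 c = 0) (by simp)
    refine ⟨ℂ ∙ (resL C _ r₀.1, resL C _ r₀.2), inferInstance,
      (finrank_span_le_card _).trans (by simp), ?_⟩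
    rintro _ ⟨μ, rfl⟩ _ ⟨ν, rfl⟩ e2
    obtain ⟨s, hs⟩ := e1 (μ, ν) fun c hc => e2 ⟨c, hc⟩
    have e3 : ∀ c ∈ C, l₁ (c o) * val (μ - s • r₀.1) c + l₂ (c o) * val (ν - s • r₀.2) c = 0 :=
      fun c hc => by
        have := e2 ⟨c, hc⟩
        simp only [resL_apply] at this
        simp only [val_sub, val_smul']
        linear_combination this - s * e0 c hc
    obtain ⟨F, f1, f2⟩ := rel h (add_ne ha (k • Pi.single o 1)) hn (Pol.lin o l₁) (Pol.lin o l₂)
      (val_mem _) (B := val (ν - s • r₀.2)) (by rw [deg_succ]; exact val_mem _) e3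
      fun c hc e4 e5 => (hφ _ _ e3 hs).orb h.nod (Pol.hm (Pol.lin o l₁)) (Pol.hm (val_mem _))
        (not_not.1 fun hn => h6 c hc e4 (notMem_of h hy hc hn) e5)
    refine ⟨fun c => F c, mem_Hs.2 ⟨F, f1, fun _ => rfl⟩, Submodule.mem_span_singleton.2
      ⟨s, Prod.ext ?_ ?_⟩⟩ <;> funext c
    · have := (f2 c c.2).1
      simp only [val_sub, val_smul'] at this
      change s * val r₀.1 c = val μ c - _
      linear_combination -this
    · have := (f2 c c.2).2
      simp only [val_sub, val_smul'] at this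
      change s * val r₀.2 c = val ν c + _
      linear_combination -this) j k fun _ => hk
  rwa [hr, one_mul] at this

namespace KZ

/-- A form vanishing to some order along the curve agrees on the curve with a form vanishing to the
same order in the ambient space; only the degree in the factor `o` has to be large. -/
theorem ord (h : IsCurve o g m C) (hγ : Loc o C y γ) : ∀ (r : ℕ) {d : ι → ℕ} {s : V M → ℂ},
    r + 2 ≤ d o → s ∈ Pol M d → (∀ j, Dv (r + 1) fun t => s (γ j t)) →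
      ∃ s' ∈ Pol M d, (∀ z ∈ C, s' z = s z) ∧
        ∀ δ : ℂ → V M, AnalyticAt ℂ δ 0 → δ 0 = y → Dv (r + 1) fun t => s' (δ t)
  | 0, d, s, _, hs, h1 => ⟨s, hs, fun _ _ => rfl, fun δ h2 h3 => .one ((Pol.an hs _).comp h2)
      (by simpa [h3, hγ.zero] using (h1 true).eq_zero)⟩
  | r + 1, d, s, hd, hs, h1 => by
    classical
    obtain ⟨l₁, a1, hn, a2⟩ := exists_nzd h.nod _ (freq_line h.nod (y o)) (tan_notMem hγ)
    obtain ⟨l₂, a3, -, a4⟩ := second h.nod hn (tan_notMem hγ true)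
    have hl := Pol.lin o l₁
    have hc := ann_self a1
    have h2 : ∀ j, AnalyticAt ℂ (dslope (fun t => l₁ (γ j t o)) 0) 0 := fun j =>
      an_dslope (an_lin l₁ (hγ.an j))
    have h3 : ∀ j, dslope (fun t => l₁ (γ j t o)) 0 0 ≠ 0 := fun j => by
      rw [dslope_same, (deriv_lin l₁ (hγ.an j)).deriv]; exact a2 j
    have h4 : ∀ j t, l₁ (γ j t o) = t * dslope (fun t => l₁ (γ j t o)) 0 t := fun j =>
      eq_dslope (u := fun t => l₁ (γ j t o)) (by simp [hγ.zero, hc])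
    obtain ⟨n, z, hz⟩ := hn.exists_reps h.nod (Pol.isSec (o := o) hl)
    have h7 : ∀ k : {k // ¬Orb y (z k)}, l₂ (z k o) ≠ 0 := fun k =>
      a4 _ (hz.mem k) (hz.prop k) (notMem_of h hγ.mem (hz.mem k) k.2)
    have hE := Pol.pow (Pol.lin o l₂) (r + 1)
    set E : V M → ℂ := (fun c : V M => l₂ (c o)) ^ (r + 1) with hE'
    choose δ hδ using fun k => h.nod.exists_loc (hz.mem k)
    have e1 : d - (r + 2) • Pi.single o 1 + Pi.single o 1 + (r + 1) • Pi.single o 1 = d :=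
      funext fun i => by
        by_cases e : i = o
        · subst e; simp; omega
        · simp [e]
    have e2 : d - Pi.single o 1 + Pi.single o 1 = d := funext fun i => by
      by_cases e : i = o
      · subst e; simp; omega
      · simp [e]
    obtain ⟨S, h8, h9, h10⟩ := h.ml (a := d - (r + 2) • Pi.single o 1) (fun e => by
        have := congrFun e o; simp at this; omega) hn hl
      (fun k : {k // ¬Orb y (z k)} => hδ k) (fun k k' e => Subtype.ext (hz.inj _ _ e))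
      (F := fun _ x => s x / E x)
      (fun k => (Pol.an hs _).div (Pol.an hE _) (pow_ne_zero _ (h7 k)))
      fun k => BH.div (Pol.bh (e1.symm ▸ hs)) (Pol.bh hE)
    have h11 := sub_mem hs (Pol.mul' h8 hE e1)
    have h12 : ∀ δ : ℂ → V M, AnalyticAt ℂ δ 0 → δ 0 = y →
        Dv (r + 1 + 1) fun t => S (δ t) * E (δ t) := fun δ a1 a2 => by
      have := (Dv.one ((Pol.an h8 _).comp a1) (by
        rw [comp_apply, a2]
        exact (h10 y hγ.mem fun k e => k.2 e.symm).eq_zero hγ.mem hc)).mul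
        ((Dv.one (an_lin l₂ a1) (by rw [a2, ann_self a3])).pow (r + 1))
      rwa [mul_one, add_comm] at this
    have h13 := fun j => (h1 j).sub (h12 _ (hγ.an j) (hγ.zero j))
    obtain ⟨q, h14, h15⟩ := h.div (a := d - Pi.single o 1) (fun e => by
        have := congrFun e o; simp at this; omega) hn (Pol.isSec hl)
      (Pol.isSec (e2.symm ▸ h11)) fun x hx h0 => by
        obtain ⟨k, hk⟩ := hz.ex x hx h0
        by_cases h14 : Orb y (z k)
        · refine (hγ.ld' (Pol.bh hl) (Pol.bh h11) fun j => ?_).orb h.nod (Pol.hm hl) (Pol.hm h11)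
            (h14.trans hk)
          obtain ⟨v, h15, h16⟩ := (h13 j).mono (r' := 2) (by omega)
          refine ⟨fun t => t * v t / dslope (fun t => l₁ (γ j t o)) 0 t,
            (analyticAt_id.mul h15).div (h2 j) (h3 j), by simp, ?_⟩
          filter_upwards [h16, (h2 j).continuousAt.eventually_ne (h3 j)] with t k2 k3
          rw [h4 j t, Pi.sub_apply, k2]
          field_simp
        · refine (((h9 ⟨k, h14⟩).mul (Pol.an hE _).neg).congr ?_).orb h.nod (Pol.hm hl)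
            (Pol.hm h11) hk
          filter_upwards [mem_nhdsWithin_of_mem_nhds ((Pol.cont hE).continuousAt.eventually_ne
            (pow_ne_zero _ (h7 ⟨k, h14⟩)))] with w hw
          rw [Pi.sub_apply, Pi.neg_apply]
          field_simp
          ring
    obtain ⟨q', h16, h17, h18⟩ := ord h hγ r (d := d - Pi.single o 1) (by simp; omega) h14
      fun j => Dv.cancel (k := 1) (by
        rw [add_comm]
        refine (h13 j).congr ?_
        filter_upwards [(hγ.br j).mem] with t k2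
        rw [pow_one, ← h4 j t, ← h15 _ k2, Pi.sub_apply]) (h2 j) (h3 j)
        ((Pol.an h14 _).comp (hγ.an j))
    refine ⟨_, add_mem (Pol.mul' h8 hE e1) (Pol.mul' h16 hl e2), fun x hx => ?_, fun δ a1 a2 =>
      (h12 δ a1 a2).add ((h18 δ a1 a2).mul (.one (an_lin l₁ a1) (by simp [a2, hc])))⟩
    have := h15 x hx
    rw [Pi.sub_apply] at this
    rw [Pi.add_apply, h17 x hx]
    linear_combination -this

theorem an_line (y v : V M) : AnalyticAt ℂ (fun t : ℂ => y + t • v) 0 := by fun_prop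

theorem der_line (y v : V M) (t : ℂ) : HasDerivAt (fun t : ℂ => y + t • v) v t := by
  simpa using ((hasDerivAt_id t).smul_const v).const_add y

theorem jet_line {F : V M → ℂ} (hF : ∀ x, AnalyticAt ℂ F x) {v : V M} {r₁ r₂ : ℂ} {n : ℕ}
    (h : Dv (n + 2) fun t => F (y + t • v) - (r₁ * t + r₂ * t ^ 2)) :
    fderiv ℂ F y v = r₁ ∧ (1 ≤ n → fderiv ℂ (fderiv ℂ F) y v v = 2 * r₂) := by
  have h1 : deriv (fun t : ℂ => F (y + t • v) - (r₁ * t + r₂ * t ^ 2)) =
      fun t => fderiv ℂ F (y + t • v) v - (r₁ + r₂ * (2 * t)) := funext fun t => by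
    refine (((hF _).differentiableAt.hasFDerivAt.comp_hasDerivAt t (der_line y v t)).sub
      (((hasDerivAt_id t).const_mul r₁).add (((hasDerivAt_id t).pow 2).const_mul r₂))).deriv.trans ?_
    simp
  refine ⟨?_, fun hn => ?_⟩
  · simpa [h1, sub_eq_zero] using (h.mono (r' := 2) (by omega)).deriv_eq_zero
  · have h2 := congrFun ((dv_iff_jet h.an).1 (h.mono (r' := 3) (by omega))) 2
    have h3 : HasDerivAt (fun t : ℂ => fderiv ℂ F (y + t • v) v - (r₁ + r₂ * (2 * t)))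
        (fderiv ℂ (fderiv ℂ F) y v v - r₂ * 2) 0 := by
      refine ((((ContinuousLinearMap.apply ℂ ℂ v).hasFDerivAt.comp_hasDerivAt 0
        ((hF _).fderiv.differentiableAt.hasFDerivAt.comp_hasDerivAt 0 (der_line y v 0))).sub
          ((((hasDerivAt_id (0 : ℂ)).const_mul 2).const_mul r₂).const_add r₁))).congr_deriv ?_
      simp
    rw [jet, show ((2 : Fin 3) : ℕ) = 1 + 1 from rfl, iteratedDeriv_succ, iteratedDeriv_one, h1,
      h3.deriv, Pi.zero_apply] at h2
    linear_combination h2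

theorem exists_one (hγ : Loc o C y γ) : ∃ ζ : (Fin (M o) → ℂ) →L[ℂ] ℂ, ζ (y o) = 1 :=
  (exists_ann (W := ⊥) (hγ.ne o)).imp fun _ h => h.2

theorem dv_pow {ζ : (Fin (M o) → ℂ) →L[ℂ] ℂ} (h : ζ (y o) = 1) (v : V M) (n : ℕ) :
    Dv 1 fun t : ℂ => ζ ((y + t • v) o) ^ n - 1 :=
  .one (((an_lin ζ (an_line y v)).pow n).sub analyticAt_const) (by simp [h])

theorem cut_fderiv (h : IsCurve o g m C) (hγ : Loc o C y γ) {ℓ : (Fin (M o) → ℂ) →L[ℂ] ℂ}
    (h1 : ℓ (y o) = 0) (h2 : ∀ j, ℓ (deriv (γ j) 0 o) = 0) : ∃ μ : Tens M (4 • Pi.single o 1),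
      (∀ z ∈ C, val μ z = 0) ∧ ∀ v, fderiv ℂ (val μ) y v = ℓ (v o) := by
  obtain ⟨ζ, hζ⟩ := exists_one hγ
  have h5 := Pol.mul' (Pol.pow (Pol.lin o ζ) 3) (Pol.lin o ℓ) (succ_nsmul _ 3).symm
  obtain ⟨s, h6, h7, h8⟩ := ord h hγ 1 (by simp) h5 fun j => (dv_two (an_lin ℓ (hγ.an j))
    (by rw [hγ.zero, h1]) ((deriv_lin ℓ (hγ.an j)).deriv.trans (h2 j))).an_mul
      ((an_lin ζ (hγ.an j)).pow 3)
  obtain ⟨ν, hν⟩ := mem_Pol.1 (sub_mem h5 h6)
  refine ⟨ν, fun z hz => by simp [hν, h7 z hz], fun v => (jet_line (analyticAt_val ν) (n := 0)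
    (r₂ := 0) ((((dv_pow hζ v 3).mul (Dv.one (u := fun t => ℓ (v o) * t)
      (analyticAt_const.mul analyticAt_id) (by simp))).sub
        (h8 _ (an_line y v) (by simp))).congr (.of_forall fun t => ?_))).1⟩
  simp [hν, h1]
  ring

theorem cut_hess (h : IsCurve o g m C) (hγ : Loc o C y γ) (hn : γ true ≠ γ false) :
    ∃ μ : Tens M (4 • Pi.single o 1), (∀ z ∈ C, val μ z = 0) ∧ (∀ v, fderiv ℂ (val μ) y v = 0) ∧
      fderiv ℂ (fderiv ℂ (val μ)) y (deriv (γ true) 0) (deriv (γ false) 0) = 1 := by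
  obtain ⟨ζ, hζ⟩ := exists_one hγ
  obtain ⟨x₁, h1⟩ := exists_dual_of_li (hγ.alt.resolve_left hn) ![0, 1, 0]
  obtain ⟨x₂, h2⟩ := exists_dual_of_li (hγ.alt.resolve_left hn) ![0, 0, 1]
  have a0 : x₁.toContinuousLinearMap (y o) = 0 := h1 0
  have a1 : x₁.toContinuousLinearMap (deriv (γ true) 0 o) = 1 := h1 1
  have a2 : x₁.toContinuousLinearMap (deriv (γ false) 0 o) = 0 := h1 2
  have b0 : x₂.toContinuousLinearMap (y o) = 0 := h2 0
  have b1 : x₂.toContinuousLinearMap (deriv (γ true) 0 o) = 0 := h2 1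
  have b2 : x₂.toContinuousLinearMap (deriv (γ false) 0 o) = 1 := h2 2
  generalize x₁.toContinuousLinearMap = X₁ at a0 a1 a2
  generalize x₂.toContinuousLinearMap = X₂ at b0 b1 b2
  have h5 := Pol.mul' (Pol.pow (Pol.lin o ζ) 2) (Pol.mul' (Pol.lin o X₁) (Pol.lin o X₂)
    (two_nsmul _).symm) (add_nsmul _ 2 2).symm
  obtain ⟨s, h6, h7, h8⟩ := ord h hγ 2 (by simp) h5 fun j => Dv.an_mul (by
    cases j
    · exact (dv_two (an_lin X₁ (hγ.an _)) (by rw [hγ.zero, a0])
        ((deriv_lin X₁ (hγ.an _)).deriv.trans a2)).mul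
        (.one (an_lin X₂ (hγ.an _)) (by rw [hγ.zero, b0]))
    · exact (Dv.one (an_lin X₁ (hγ.an _)) (by rw [hγ.zero, a0])).mul
        (dv_two (an_lin X₂ (hγ.an _)) (by rw [hγ.zero, b0])
          ((deriv_lin X₂ (hγ.an _)).deriv.trans b1))) ((an_lin ζ (hγ.an j)).pow 2)
  obtain ⟨ν, hν⟩ := mem_Pol.1 (sub_mem h5 h6)
  have h9 := fun v : V M => jet_line (y := y) (v := v) (analyticAt_val ν) (n := 1) (r₁ := 0)
    (r₂ := X₁ (v o) * X₂ (v o)) ((((dv_pow hζ v 2).mul (r' := 2)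
      (v := fun t => X₁ (v o) * X₂ (v o) * t ^ 2) ⟨_, analyticAt_const (v := X₁ (v o) * X₂ (v o)),
        .of_forall fun t => mul_comm _ _⟩).sub (h8 _ (an_line y v) (by simp))).congr
          (.of_forall fun t => by simp [hν, a0, b0]; ring))
  refine ⟨ν, fun z hz => by simp [hν, h7 z hz], fun v => (h9 v).1, ?_⟩
  have e1 := (h9 (deriv (γ true) 0)).2 le_rfl
  have e2 := (h9 (deriv (γ false) 0)).2 le_rfl
  have e3 := (h9 (deriv (γ true) 0 + deriv (γ false) 0)).2 le_rfl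
  have e4 := (analyticAt_val ν y).contDiffAt.isSymmSndFDerivAt_of_omega (deriv (γ false) 0)
    (deriv (γ true) 0)
  simp only [map_add, add_apply, Pi.add_apply, e1, e2, e4, a1, a2, b1, b2] at e3
  linear_combination e3 / 2

theorem fderiv₂_vals {β : Type*} [Fintype β] (f : β → Tens M a) (y u v : V M) (l : β) :
    fderiv ℂ (fderiv ℂ (vals f)) y u v l = fderiv ℂ (fderiv ℂ (val (f l))) y u v := by
  have h1 := ((ContinuousLinearMap.proj l : (β → ℂ) →L[ℂ] ℂ).comp
    (ContinuousLinearMap.apply ℂ _ v)).hasFDerivAt.comp y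
    (analyticAt_vals f y).fderiv.differentiableAt.hasFDerivAt
  have h2 := (ContinuousLinearMap.apply ℂ _ v).hasFDerivAt.comp y
    (analyticAt_val (f l) y).fderiv.differentiableAt.hasFDerivAt
  exact DFunLike.congr_fun (h1.unique (h2.congr_of_eventuallyEq
    (.of_forall fun x => fderiv_vals f x v l))) u

end KZ

/-- local equations in the factor `o` -/
theorem exists_eqs_o (h : IsCurve o g m C) (hM : 3 ≤ M o) {y : V M} {γ : Bool → ℂ → V M}
    (hγ : Loc o C y γ) : ∃ f : Fin (M o - 2) → Tens M (4 • Pi.single o 1),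
      (∀ i, ∀ z ∈ C, val (f i) z = 0) ∧
      ((γ true = γ false ∧ ∀ w, ∃ v, fderiv ℂ (vals f) y (Pi.single o v) = w) ∨
        (γ true ≠ γ false ∧ ∀ w, ∃ v, ∃ z : ℂ, w = fderiv ℂ (vals f) y (Pi.single o v) +
          z • fderiv ℂ (fderiv ℂ (vals f)) y (deriv (γ true) 0) (deriv (γ false) 0))) := by
  by_cases e : γ true = γ false
  · obtain ⟨r, η, h1, h2, h3⟩ := exists_quot (Submodule.span ℂ (range ![y o, deriv (γ true) 0 o]))
    rw [finrank_span_eq_card (hγ.zero true ▸ (hγ.br true).imm :)] at h3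
    simp only [Fintype.card_fin, finrank_fintype_fun_eq_card] at h3
    rw [show M o - 2 = r by omega]
    choose f h4 h5 using fun l => KZ.cut_fderiv h hγ (ℓ := (ContinuousLinearMap.proj l).comp η)
      (congrFun ((h2 _).2 (Submodule.subset_span ⟨0, rfl⟩)) l) fun j => congrFun ((h2 _).2
        (Submodule.subset_span ⟨1, by cases j <;> simp [e]⟩)) l
    refine ⟨f, h4, .inl ⟨e, fun w => (h1 w).imp fun v hv => funext fun l => ?_⟩⟩
    rw [fderiv_vals, h5, Pi.single_eq_same, ← hv]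
    rfl
  · obtain ⟨r, η, h1, h2, h3⟩ := exists_quot
      (Submodule.span ℂ (range ![y o, deriv (γ true) 0 o, deriv (γ false) 0 o]))
    rw [finrank_span_eq_card (hγ.alt.resolve_left e)] at h3
    simp only [Fintype.card_fin, finrank_fintype_fun_eq_card] at h3
    rw [show M o - 2 = r + 1 by omega]
    choose f h4 h5 using fun l => KZ.cut_fderiv h hγ (ℓ := (ContinuousLinearMap.proj l).comp η)
      (congrFun ((h2 _).2 (Submodule.subset_span ⟨0, rfl⟩)) l) fun j => congrFun ((h2 _).2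
        (Submodule.subset_span (by cases j; exacts [⟨2, rfl⟩, ⟨1, rfl⟩]))) l
    obtain ⟨μ, h6, h7, h8⟩ := KZ.cut_hess h hγ e
    refine ⟨Fin.cons μ f, fun i => by cases i using Fin.cases; exacts [h6, h4 _],
      .inr ⟨e, fun w => ?_⟩⟩
    obtain ⟨v, hv⟩ := h1 fun l => w l.succ -
      w 0 * fderiv ℂ (fderiv ℂ (val (f l))) y (deriv (γ true) 0) (deriv (γ false) 0)
    refine ⟨v, w 0, funext fun l => ?_⟩
    rw [Pi.add_apply, Pi.smul_apply, fderiv_vals, fderiv₂_vals, smul_eq_mul]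
    cases l using Fin.cases with
    | zero => rw [Fin.cons_zero, h7, h8, zero_add, mul_one]
    | succ l =>
      rw [Fin.cons_succ, h5, Pi.single_eq_same]
      exact (sub_add_cancel _ _).symm.trans (congrArg (· + _) (congrFun hv l).symm)

end Vale.Agent.P269.Grr
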