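import Vale.Agent.P269.Grr.HG
import Vale.Agent.P269.Grr.Alt

/-!
# Riemann-Roch for embeddings: definitions used in the proof
-/

namespace Vale.Agent.P269.Grr

open Set Function Topology Filter Vale.Agent.P291Z Vale.Agent.P269.Ch PowerSeries

variable {Y Y' : Ch.Sp}

namespace Cx

variable (K : Cx Y)

/-- the pull-back of a complex -/
@[reducible] noncomputable def pb (m : Mor Y' Y) : Cx Y' where
  n := K.n
  E j := (K.E j).pb m
  d j t := K.d j (m.f t)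
  hom j := (K.hom j).pb' m
  dd j t := K.dd j (m.f t)
  top := K.top

theorem Zy_pb (m : Mor Y' Y) (j : ℕ) (t : Y'.T) : (K.pb m).Zy j t = K.Zy j (m.f t) := by
  cases j <;> rfl

theorem Bd_pb (m : Mor Y' Y) (j : ℕ) (t : Y'.T) : (K.pb m).Bd j t = K.Bd j (m.f t) := rfl

theorem ex_pb (m : Mor Y' Y) {t : Y'.T} : (K.pb m).Ex t ↔ K.Ex (m.f t) :=
  forall_congr' fun j => by rw [Zy_pb, Bd_pb]; rfl

/-- the function `s` does not vanish where the complex is not exact -/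
structure Adm (s : Y.T → ℝ) : Prop where
  cont : Continuous s
  inv : ∀ (g : Y.G) t, s (g • t) = s t
  ex : ∀ t, s t = 0 → K.Ex t
  bal : ∀ _ : Y.T, ∑ j ∈ Finset.range (K.n + 1), (-1 : ℤ) ^ j * (K.E j).r = 0

/-- a short exact sequence of complexes -/
structure SES (G K L : Cx Y) (A : ∀ j, Y.T → (G.E j).W →ₗ[ℂ] (K.E j).W)
    (B : ∀ j, Y.T → (K.E j).W →ₗ[ℂ] (L.E j).W) : Prop where
  n₁ : G.n = K.n
  n₂ : L.n = K.n
  exact : ∀ j, Exact (G.E j) (K.E j) (L.E j) (A j) (B j)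
  dA : ∀ j t, ∀ w ∈ (G.E (j + 1)).F t, K.d j t (A (j + 1) t w) = A j t (G.d j t w)
  dB : ∀ j t, ∀ w ∈ (K.E (j + 1)).F t, L.d j t (B (j + 1) t w) = B j t (K.d j t w)

end Cx

section om

variable (Y) (A : SubMulAction Y.G Y.T)

/-- the complement of `0 × A` in `ℝ × Y` -/
def omS : SubMulAction (Y.ext ℝ).G (Y.ext ℝ).T where
  carrier := {p : ℝ × Y.T | p.2 ∉ A ∨ p.1 ≠ 0}
  smul_mem' g p hp := hp.imp_left fun h h' => h (by
    have := A.smul_mem (show Y.G from g)⁻¹ (show (show Y.G from g) • (p.2 : Y.T) ∈ A from h')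
    rwa [inv_smul_smul] at this)

variable {Y A} (hA : IsClosed (A : Set Y.T))

include hA in
theorem isOpen_omS : IsOpen (omS Y A : Set (Y.ext ℝ).T) :=
  (hA.isOpen_compl.preimage (continuous_snd : Continuous (Prod.snd : ℝ × Y.T → Y.T))).union
    (isOpen_ne.preimage (continuous_fst : Continuous (Prod.fst : ℝ × Y.T → ℝ)))

/-- the complement of `0 × A` as a space -/
noncomputable def Om : Ch.Sp := (Y.ext ℝ).sub (omS Y A) (isOpen_omS hA).isLocallyClosed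

/-- the projection -/
noncomputable def omP : Mor (Om hA) Y := (Y.extP ℝ).comp ((Y.ext ℝ).subI _ _)

/-- the real coordinate -/
def omL (z : (Om hA).T) : ℝ := (show omS Y A from z).1.1

theorem continuous_omL : Continuous (omL hA) :=
  (continuous_fst : Continuous (Prod.fst : ℝ × Y.T → ℝ)).comp continuous_subtype_val

theorem omL_smul (g : Y.G) (z : (Om hA).T) : omL hA ((show (Om hA).G from g) • z) = omL hA z := rfl

theorem om_ne (z : (Om hA).T) : (omP hA).f z ∉ A ∨ omL hA z ≠ 0 := (show omS Y A from z).2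

/-- the real coordinate on the orbit space -/
noncomputable def oml (z : (Om hA).X) : ℝ := omL hA ((Om hA).out z)

theorem oml_π (z : (Om hA).T) : oml hA ((Om hA).π z) = omL hA z := by
  obtain ⟨g, hg⟩ := (Om hA).exists_out z
  rw [oml, ← hg]
  rfl

theorem continuous_oml : Continuous (oml hA) :=
  (Om hA).continuous_iff.2 ((continuous_omL hA).congr fun z => (oml_π hA z).symm)

/-- maps to `Om` -/
noncomputable def toOm (m : Mor Y' Y) (l : Y'.T → ℝ) (hl : Continuous l)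
    (hi : ∀ (g : Y'.G) t, l (g • t) = l t) (h : ∀ t, m.f t ∉ A ∨ l t ≠ 0) : Mor Y' (Om hA) :=
  ⟨m.ρ, fun t => (⟨(l t, m.f t), h t⟩ : omS Y A), m.cρ, (hl.prodMk m.cf).subtype_mk _,
    fun g t => Subtype.ext (Prod.ext (hi g t) (m.eqv g t))⟩

/-- the slices -/
noncomputable def omI (c : ℝ) (hc : c ≠ 0) : Mor Y (Om hA) :=
  toOm hA (Mor.id Y) (fun _ => c) continuous_const (fun _ _ => rfl) fun _ => .inr hc

/-- the class given by a cocycle supported on `A` and the half line `l < 0` -/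
noncomputable def omw (a : Coch Y.X) : Hev (Om hA).X :=
  toEv (hcls (pull (omP hA).map a * neg (oml hA)))

end om

section md

variable (N : VB Y)

/-- the zero section -/
def _root_.Vale.Agent.P269.Ch.VB.zs : SubMulAction N.tot.G N.tot.T where
  carrier := {x : N.V | x.1.2 = 0}
  smul_mem' g x hx := by
    show (show Y.G from g) • x.1.2 = 0
    rw [show x.1.2 = 0 from hx, smul_zero]

theorem isClosed_zs : IsClosed (N.zs : Set N.tot.T) :=
  isClosed_eq (show Continuous fun x : N.V => x.1.2 by fun_prop) continuous_const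

/-- `ℝ × N` without the zero section -/
noncomputable abbrev OmN : Ch.Sp := Om (isClosed_zs N)

/-- the projection to the base -/
noncomputable def omQ : Mor (OmN N) Y := N.proj.comp (omP _)

/-- the Thom class of the south section -/
noncomputable def omT : Hev (OmN N).X := omw (isClosed_zs N) N.th

variable {N}

/-- the map to the total space given by a section of the pull-back -/
noncomputable def secM {m : Mor Y' Y} {n : Y'.T → N.W} (hn : (N.pb m).IsSec n) : Mor Y' N.tot :=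
  (iso_pb N m).mor.comp hn.mor

/-- the map to `OmN` given by a section of the pull-back and a function -/
noncomputable def toOmN {m : Mor Y' Y} {n : Y'.T → N.W} (hn : (N.pb m).IsSec n) (l : Y'.T → ℝ)
    (hl : Continuous l) (hi : ∀ (g : Y'.G) t, l (g • t) = l t) (h : ∀ t, n t ≠ 0 ∨ l t ≠ 0) :
    Mor Y' (OmN N) := toOm _ (secM hn) l hl hi h

/-- graded bundles with an action of `N` of square zero -/
structure IsMd0 (N : VB Y) (n : ℕ) (H : ℕ → VB Y)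
    (ι : ∀ j, Y.T → N.W →ₗ[ℂ] (H (j + 1)).W →ₗ[ℂ] (H j).W) : Prop where
  hom : ∀ j, Hom (Mor.id N.tot) ((H (j + 1)).pb N.proj) ((H j).pb N.proj)
    fun x : N.V => ι j x.1.1 x.1.2
  dd : ∀ j t, ∀ v ∈ N.F t, ∀ w ∈ (H (j + 2)).F t, ι j t v (ι (j + 1) t v w) = 0
  top : ∀ j, n < j → (H j).r = 0

variable {n : ℕ} {H : ℕ → VB Y} {ι : ∀ j, Y.T → N.W →ₗ[ℂ] (H (j + 1)).W →ₗ[ℂ] (H j).W}

/-- the complex on the total space -/
@[reducible] noncomputable def IsMd0.cx (h : IsMd0 N n H ι) : Cx N.tot where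
  n := n
  E j := (H j).pb N.proj
  d j := fun x : N.V => ι j x.1.1 x.1.2
  hom := h.hom
  dd j := fun x : N.V => h.dd j x.1.1 x.1.2 x.2
  top := h.top

/-- a Koszul model -/
structure IsMd (N : VB Y) (n : ℕ) (H : ℕ → VB Y)
    (ι : ∀ j, Y.T → N.W →ₗ[ℂ] (H (j + 1)).W →ₗ[ℂ] (H j).W) : Prop extends IsMd0 N n H ι where
  pos : 0 < N.r
  rank : ∀ j, (H j).r = N.r.choose j
  ex : ∀ x : N.V, x.1.2 ≠ 0 → toIsMd0.cx.Ex x

/-- near `y` the complex is the Koszul complex of the section `σ` -/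
structure LocM (K : Cx Y) (N : VB Y) (σ : Y.T → N.W) (B : Y.T → N.W →L[ℂ] (Fin N.r → ℂ))
    (φ : ∀ j, Y.T → Al N.r j →L[ℂ] (K.E j).W) (y : Y.T) : Prop where
  inj : ∀ v ∈ N.F y, B y v = 0 → v = 0
  cont : ∀ᶠ x in 𝓝 y, ContinuousAt B x
  iso : ∀ j, ∀ᶠ x in 𝓝 y, ContinuousAt (φ j) x ∧ Injective (φ j x) ∧
    (∀ w, w ∈ (K.E j).F x ↔ ∃ κ, φ j x κ = w) ∧
    ∀ κ, K.d j x (φ (j + 1) x κ) = φ j x (κ.curryLeft (B x (σ x)))

/-- the complex is exact where `σ` does not vanish and a Koszul complex near the zeros -/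
structure Red (K : Cx Y) (N : VB Y) (σ : Y.T → N.W) (Z : SubMulAction Y.G Y.T) : Prop where
  sec : N.IsSec σ
  zero : ∀ t, σ t = 0 ↔ t ∈ Z
  closed : IsClosed (Z : Set Y.T)
  pos : 0 < N.r
  rank : ∀ j, (K.E j).r = N.r.choose j
  ex : ∀ t, t ∉ Z → K.Ex t
  dir : ∀ y ∈ Z, ∀ v ∈ N.F y, ∃ x : ℝ → Y.T, Tendsto x (𝓝[>] 0) (𝓝 y) ∧
    Tendsto (fun r : ℝ => (r : ℂ)⁻¹ • σ (x r)) (𝓝[>] 0) (𝓝 v)
  loc : ∀ y ∈ Z, ∃ B φ, LocM K N σ B φ y

/-- the real oriented blow-up of `ℝ × Y` along `0 × Z` -/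
structure Bl (N : VB Y) (σ : Y.T → N.W) {Z : SubMulAction Y.G Y.T} (hZ : IsClosed (Z : Set Y.T)) where
  /-- the space -/
  O : Ch.Sp
  /-- the projection -/
  p : Mor O Y
  /-- the direction of `σ` -/
  n : O.T → N.W
  /-- the direction of the real coordinate -/
  l : O.T → ℝ
  /-- the radius -/
  r : O.T → ℝ
  /-- the inverse of the blow-down -/
  β : Mor (Om hZ) O
  sec : (N.pb p).IsSec n
  cl : Continuous l
  il : ∀ (g : O.G) t, l (g • t) = l t
  cr : Continuous r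
  ir : ∀ (g : O.G) t, r (g • t) = r t
  nonneg : ∀ t, 0 ≤ r t
  σ_eq : ∀ t, σ (p.f t) = (r t : ℂ) • n t
  ne : ∀ t, n t ≠ 0 ∨ l t ≠ 0
  ρ_β : ∀ g, p.ρ (β.ρ g) = g
  p_β : ∀ z, p.f (β.f z) = (omP hZ).f z
  r_β : ∀ z, 0 < r (β.f z)
  l_β : ∀ z, omL hZ z = r (β.f z) * l (β.f z)
  prop : ∀ V : Set O.T, IsOpen V → (∀ t, r t = 0 → t ∈ V) → ∀ y ∈ Z,
    ∀ᶠ q : ℝ × Y.T in 𝓝 (0, y), ∀ h : q ∈ omS Y Z, β.f (⟨q, h⟩ : omS Y Z) ∈ V

end md

/-- The conclusion of Riemann-Roch for the embedding of `Z`. -/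
structure RR {X : Ch.Sp} {Z : SubMulAction X.G X.T} (c : Cut X Z) (K : Cx X) (r : ℕ)
    (H : ℕ → VB c.S) (γ : (Hev c.S.X)⟦X⟧) : Prop where
  rank : ∀ j, (H j).r = r.choose j
  chi : K.chi = PowerSeries.X ^ r * mapL c.g γ
  td : γ * c.NS.td = (H 0).chc
  sub : ∀ j (Y' : Ch.Sp) (m : Mor Y' c.S) (H' : VB Y') (A : Y'.T → H'.W →ₗ[ℂ] (K.E j).W),
    Hom (c.i.comp m) H' (K.E j) A → (∀ t, ∀ w ∈ H'.F t, A t w ∈ K.Zy j (c.i.f (m.f t))) →
    (∀ t, ∀ w ∈ H'.F t, A t w ∈ K.Bd j (c.i.f (m.f t)) → w = 0) → H'.r = r.choose j →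
    H'.chc = pS m.map (H j).chc
  quo : ∀ (Y' : Ch.Sp) (m : Mor Y' c.S) (L : VB Y') (B : Y'.T → (K.E 0).W →ₗ[ℂ] L.W),
    Hom (Mor.id Y') ((K.E 0).pb (c.i.comp m)) L B →
    (∀ t, ∀ w ∈ L.F t, ∃ w' ∈ (K.E 0).F (c.i.f (m.f t)), B t w' = w) →
    (∀ t, ∀ w ∈ K.Bd 0 (c.i.f (m.f t)), B t w = 0) → L.r = 1 → L.chc = pS m.map (H 0).chc
  two : r = 2 → coeff 1 (H 1).chc = coeff 1 c.NS.chc + 2 * coeff 1 (H 2).chc ∧
    coeff 1 (H 0).chc = coeff 1 c.NS.chc + coeff 1 (H 2).chc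

end Vale.Agent.P269.Grr
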