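import Vale.Agent.P269.Grr.H0
import Vale.Agent.P269.Grr.KZ2
import Vale.Agent.P269.Grr.RD

/-!
# Koszul complexes of bundles of sections: definitions
-/

namespace Vale.Agent.P269.Grr

open Set Function Topology Filter Module Vale.Agent.P291Z Vale.Agent.P269.Ch Vale.Agent.P269.Holo
  Vale.Agent.P269.Loc Vale.Agent.P269.Base PowerSeries

namespace CF

variable {ι : Type} [Fintype ι] [DecidableEq ι] {U : HO} {M : ι → ℕ} {o : ι} {g : ℤ} {m : ι → ℤ}
  (F : CF U M o g m)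

/-- a subbundle of the pull-back of the factor `o` -/
structure SB {Y : Ch.Sp} (p : Mor Y U.toSp) where
  /-- the fibres -/
  W : Y.T → Submodule ℂ (Fin (M o) → ℂ)
  /-- the rank -/
  s : ℕ
  closed : IsClosed {x : Y.T × (Fin (M o) → ℂ) | x.2 ∈ W x.1}
  rank : ∀ t, finrank ℂ (W t) = s
  inv : ∀ (g : Y.G) t w, w ∈ W t → F.ρ (p.ρ g) o w ∈ W (g • t)

/-- the zero subbundle -/
noncomputable def sbBot {Y : Ch.Sp} (p : Mor Y U.toSp) : F.SB p :=
  ⟨fun _ => ⊥, 0, isClosed_eq continuous_snd continuous_const, fun _ => finrank_bot ℂ _,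
    fun _ _ _ h => by rw [(Submodule.mem_bot ℂ).1 h, map_zero]; exact zero_mem _⟩

/-- the tautological line -/
noncomputable def sbT : F.SB (F.Vb o).pp where
  W := fun x : (F.Vb o).PT => ℂ ∙ pw x
  s := 1
  closed := by
    have h := (F.Vb o).hom_taut.isClosed_map fun t z _ e => (F.Vb o).taut_inj t z e
    refine isOpen_compl_iff.1 (isOpen_iff_mem_nhds.2 fun x hx => ?_)
    refine mem_of_superset (h.isOpen_compl.mem_nhds fun ⟨a, _, ha⟩ => hx ?_) fun y hy hy' => hy ?_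
    · exact Submodule.mem_span_singleton.2 ⟨a, ha⟩
    · obtain ⟨a, ha⟩ := Submodule.mem_span_singleton.1 hy'
      exact ⟨a, trivial, ha⟩
  rank x := finrank_span_singleton (F.pw_ne x)
  inv s x w h := by
    obtain ⟨a, rfl⟩ := Submodule.mem_span_singleton.1 h
    refine Submodule.mem_span_singleton.2 ⟨a * (((show U.G × ℂˣ from s).2⁻¹ : ℂˣ) : ℂ), ?_⟩
    show _ • ((show U.G × ℂˣ from s).2 : ℂ) • F.ρ (show U.G × ℂˣ from s).1 o (pw x) = F.ρ _ o _
    rw [smul_smul, mul_assoc, Units.inv_mul, mul_one, map_smul]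
    rfl

/-- the bundles of sections of `O(a + k e_o)` -/
structure HF (a : ι → ℕ) (E : ℕ → VB U.toSp) (ev : ∀ k, F.UT → (E k).W →ₗ[ℂ] ℂ) : Prop where
  ne : a ≠ 0
  h : ∀ k, F.IsH0 (a + k • Pi.single o 1) 1 (E k) (ev k)

/-- the Chern characters of the exterior powers of the dual of the factor `o` -/
noncomputable def lam (j : ℕ) : (Hev U.X)⟦X⟧ := ((F.Vb o).bot.alt (char 1) j).chc

/-- `Λ` is the relative tangent bundle `ω⁻¹` at the smooth points -/
structure IsOm (Λ : VB F.US) (j : F.UT → Λ.W →ₗ[ℂ] (Fin (M o) → ℂ)) : Prop where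
  rank : Λ.r = 1
  hom : Ch.Hom (Mor.id F.US) Λ ((F.Vb o).tw F.pr (F.ch (Pi.single o 1))) j
  sm : ∀ (x : F.UT) γ, x ∉ F.UN → IsBranch o (F.C x.t) γ → γ 0 = x.c → ∀ l ∈ Λ.F x, l ≠ 0 →
    ∃ α β : ℂ, β ≠ 0 ∧ j x l = α • x.c o + β • deriv γ 0 o

variable {F} {Y : Ch.Sp} {p : Mor Y U.toSp}

/-- the subbundle as a bundle -/
noncomputable def SB.vb (S : F.SB p) : VB Y :=
  ((F.Vb o).pb p).sub S.W S.s S.closed S.rank S.inv

/-- forms with values in sections as forms with values in functions on the curve -/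
noncomputable def kΨ (S : F.SB p) {E : VB U.toSp} (ev : F.UT → E.W →ₗ[ℂ] ℂ) (j : ℕ) (y : Y.T) :
    (S.vb.alt (E.pb p) j).W →ₗ[ℂ] ((Fin (M o) → ℂ) [⋀^Fin j]→ₗ[ℂ] (F.C (p.f y) → ℂ)) where
  toFun α := (sL ev (p.f y)).compAlternatingMap (alv α).toAlternatingMap
  map_add' _ _ := AlternatingMap.ext fun _ => map_add (sL ev (p.f y)) _ _
  map_smul' _ _ := AlternatingMap.ext fun _ => map_smul (sL ev (p.f y)) _ _

omit [DecidableEq ι] in
theorem kΨ_apply (S : F.SB p) {E : VB U.toSp} (ev : F.UT → E.W →ₗ[ℂ] ℂ) (j : ℕ) (y : Y.T)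
    (α : (S.vb.alt (E.pb p) j).W) (v : Fin j → Fin (M o) → ℂ) (c : F.C (p.f y)) :
    kΨ S ev j y α v c = ev (UT.mk _ c c.2) (alv α v) := rfl

end CF

end Vale.Agent.P269.Grr
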