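import Vale.Agent.P269.Grr.KZ

/-!
# The Koszul complex of the exterior product on a nodal curve
-/

namespace Vale.Agent.P269.Grr

open Set Function Topology Filter Module Vale.Agent.P269.Base

namespace KW

variable {T N S : Type*} [AddCommGroup T] [Module ℂ T] [AddCommGroup N] [Module ℂ N] {j : ℕ}

/-- the exterior product as a bilinear map -/
noncomputable def wB (j : ℕ) :
    (T →ₗ[ℂ] ℂ) →ₗ[ℂ] (T [⋀^Fin j]→ₗ[ℂ] N) →ₗ[ℂ] (T [⋀^Fin (j + 1)]→ₗ[ℂ] N) :=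
  LinearMap.smulRightₗ.compr₂ AlternatingMap.alternatizeUncurryFinLM

theorem wB_eq (l : T →ₗ[ℂ] ℂ) (α : T [⋀^Fin j]→ₗ[ℂ] N) : wdgA l α = wB j l α := rfl

theorem wB_self (l : T →ₗ[ℂ] ℂ) (α : T [⋀^Fin j]→ₗ[ℂ] N) : wB (j + 1) l (wB j l α) = 0 := by
  rw [← AlternatingMap.alternatizeUncurryFin_alternatizeUncurryFinLM_comp_of_symmetric
    (f := l.smulRight (l.smulRight α)) fun x y => smul_comm (l x) (l y) α]
  exact congrArg AlternatingMap.alternatizeUncurryFin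
    (LinearMap.ext fun x => (map_smul AlternatingMap.alternatizeUncurryFinLM (l x) _).symm)

theorem wB_anti (l l' : T →ₗ[ℂ] ℂ) (α : T [⋀^Fin j]→ₗ[ℂ] N) :
    wB (j + 1) l (wB j l' α) = -wB (j + 1) l' (wB j l α) := by
  have h := wB_self (l + l') α
  simp only [map_add, LinearMap.add_apply, wB_self, zero_add, add_zero] at h
  exact eq_neg_of_add_eq_zero_right h

/-- the value at a point -/
noncomputable def atP (s : S) (j : ℕ) : (T [⋀^Fin j]→ₗ[ℂ] (S → ℂ)) →ₗ[ℂ] (T [⋀^Fin j]→ₗ[ℂ] ℂ) where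
  toFun α := (LinearMap.proj s : (S → ℂ) →ₗ[ℂ] ℂ).compAlternatingMap α
  map_add' _ _ := rfl
  map_smul' _ _ := rfl

theorem ext_ev {α β : T [⋀^Fin j]→ₗ[ℂ] (S → ℂ)} (h : ∀ s, atP s j α = atP s j β) : α = β :=
  AlternatingMap.ext fun v => funext fun s => DFunLike.congr_fun (h s) v

theorem ev_wdgA (s : S) (l : T →ₗ[ℂ] ℂ) (α : T [⋀^Fin j]→ₗ[ℂ] (S → ℂ)) :
    atP s (j + 1) (wdgA l α) = wB j l (atP s j α) := AlternatingMap.ext fun v => by
  change wdgA l α v s = wdgA l _ v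
  rw [wdgA_apply, wdgA_apply, Finset.sum_apply]
  rfl

theorem ev_curry (s : S) (x : T) (α : T [⋀^Fin (j + 1)]→ₗ[ℂ] (S → ℂ)) :
    atP s j (α.curryLeft x) = (atP s (j + 1) α).curryLeft x := rfl

theorem ev_mul (s : S) (f : S → ℂ) (α : T [⋀^Fin j]→ₗ[ℂ] (S → ℂ)) :
    atP s j ((LinearMap.mulLeft ℂ f).compAlternatingMap α) = f s • atP s j α := rfl

theorem curry_closed {ε : T →ₗ[ℂ] ℂ} {α : T [⋀^Fin (j + 1)]→ₗ[ℂ] N} (h : wB (j + 1) ε α = 0)
    (x : T) : wB j ε (α.curryLeft x) = ε x • α := by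
  have h1 := curry_wdgA ε α x
  rw [wB_eq, h, wB_eq] at h1
  exact (sub_eq_zero.1 h1.symm).symm

end KW

open KW KZ

section abs

variable {T S : Type*} [AddCommGroup T] [Module ℂ T] (e : S → T →ₗ[ℂ] ℂ)

/-- the exterior product with the linear forms `e s` -/
noncomputable def wK (j : ℕ) :
    (T [⋀^Fin j]→ₗ[ℂ] (S → ℂ)) →ₗ[ℂ] (T [⋀^Fin (j + 1)]→ₗ[ℂ] (S → ℂ)) where
  toFun α := AlternatingMap.pi fun s =>
    wdgA (e s) ((LinearMap.proj s : (S → ℂ) →ₗ[ℂ] ℂ).compAlternatingMap α)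
  map_add' α β := ext_ev fun s => map_add (wB j (e s) ∘ₗ atP s j) α β
  map_smul' c α := ext_ev fun s => map_smul (wB j (e s) ∘ₗ atP s j) c α

theorem KW.ev_wK (s : S) (j : ℕ) (α : T [⋀^Fin j]→ₗ[ℂ] (S → ℂ)) :
    atP s (j + 1) (wK e j α) = wB j (e s) (atP s j α) := rfl

theorem wK_apply (j : ℕ) (α : T [⋀^Fin j]→ₗ[ℂ] (S → ℂ)) (v : Fin (j + 1) → T) (s : S) :
    wK e j α v s = ∑ i : Fin (j + 1), (-1) ^ (i : ℕ) * (e s (v i) * α (i.removeNth v) s) :=
  (wdgA_apply (e s) (atP s j α) v).trans (Finset.sum_congr rfl fun i _ => by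
    rw [zsmul_eq_mul, Int.cast_pow, Int.cast_neg, Int.cast_one]
    rfl)

theorem wK_wK (j : ℕ) (α : T [⋀^Fin j]→ₗ[ℂ] (S → ℂ)) : wK e (j + 1) (wK e j α) = 0 :=
  ext_ev fun s => wB_self (e s) (atP s j α)

theorem KW.wK_mem' {N N' : Submodule ℂ (S → ℂ)}
    (hmul : ∀ t, ∀ f ∈ N, (fun s => e s t * f s) ∈ N') {W : Submodule ℂ T}
    (hW : ∀ s, ∀ v ∈ W, e s v = 0) {j : ℕ} {α : T [⋀^Fin j]→ₗ[ℂ] (S → ℂ)} (h : α ∈ altA W N j) :
    wK e j α ∈ altA W N' (j + 1) := by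
  refine ⟨fun v => ?_, fun v i hi => funext fun s => (wdgA_mem (M := ⊤) (hW s) (α := atP s j α)
    ⟨fun _ => trivial, fun v i hi => congrFun (h.2 v i hi) s⟩).2 v i hi⟩
  rw [show wK e j α v = ∑ i : Fin (j + 1), ((-1 : ℂ) ^ (i : ℕ)) •
      fun s => e s (v i) * α (i.removeNth v) s from
    funext fun s => by rw [wK_apply, Finset.sum_apply]; rfl]
  exact sum_mem fun i _ => N'.smul_mem _ (hmul _ _ (h.1 _))

theorem wK_mem {N N' : Submodule ℂ (S → ℂ)} (hmul : ∀ t, ∀ f ∈ N, (fun s => e s t * f s) ∈ N')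
    {j : ℕ} {α : T [⋀^Fin j]→ₗ[ℂ] (S → ℂ)} (h : α ∈ altA ⊥ N j) : wK e j α ∈ altA ⊥ N' (j + 1) :=
  wK_mem' e hmul (fun s _ hv => by rw [(Submodule.mem_bot ℂ).1 hv, map_zero]) h

theorem KW.wK_zero (α : T [⋀^Fin 0]→ₗ[ℂ] (S → ℂ)) (u : T) (s : S) :
    wK e 0 α ![u] s = e s u * α 0 s := by
  rw [wK_apply, Fin.sum_univ_succ, Fin.sum_univ_zero, Subsingleton.elim (Fin.removeNth _ _) 0]
  simp

theorem KW.wK_one (α : T [⋀^Fin 1]→ₗ[ℂ] (S → ℂ)) (u v : T) (s : S) :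
    wK e 1 α ![u, v] s = e s u * α ![v] s - e s v * α ![u] s := by
  rw [wK_apply, Fin.sum_univ_two, show (0 : Fin 2).removeNth ![u, v] = ![v] from
    funext fun i => by fin_cases i; rfl, show (1 : Fin 2).removeNth ![u, v] = ![u] from
    funext fun i => by fin_cases i; rfl]
  simp [sub_eq_add_neg]

-- the pointwise description of the closed two-forms
theorem wK_two (he : ∀ s, e s ≠ 0) {α : T [⋀^Fin 2]→ₗ[ℂ] (S → ℂ)} : wK e 2 α = 0 ↔
    ∀ s, ∃ y : T →ₗ[ℂ] ℂ, ∀ u v, α ![u, v] s = e s v * y u - e s u * y v := by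
  refine ⟨fun h s => ?_, fun h => ext_ev fun s => ?_⟩
  · obtain ⟨x, hx⟩ := LinearMap.surjective (he s) 1
    have h1 := curry_closed (show wB 2 (e s) (atP s 2 α) = 0 from congrArg (atP s 3) h) x
    rw [hx, one_smul] at h1
    refine ⟨{ toFun := fun u => -(α.curryLeft x).curryLeft u ![] s
              map_add' := fun _ _ => by rw [map_add, ← neg_add]; rfl
              map_smul' := fun _ _ => by rw [map_smul, smul_neg]; rfl }, fun u v => ?_⟩
    refine (DFunLike.congr_fun h1 ![u, v]).symm.trans ((wK_one e (α.curryLeft x) u v s).trans ?_)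
    change _ = e s v * -α.curryLeft x ![u] s - e s u * -α.curryLeft x ![v] s
    ring
  · obtain ⟨y, hy⟩ := h s
    rw [ev_wK, show atP s 2 α = wB 1 (e s) (wdgA (-y) (cst T 1)) from
      AlternatingMap.ext fun v => by
        rw [show v = ![v 0, v 1] from funext fun i => by fin_cases i <;> rfl, ← wB_eq, wdg_wdg]
        refine (hy _ _).trans ?_
        simp only [LinearMap.neg_apply, smul_eq_mul]
        ring, wB_self]
    rfl

end abs

namespace KW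

variable {T S : Type*} [AddCommGroup T] [Module ℂ T] [FiniteDimensional ℂ T]
  {N N' : Submodule ℂ (S → ℂ)} {l₁ l₂ : T →ₗ[ℂ] ℂ} {t₁ t₂ : T} {f₁ f₂ : S → ℂ}

/-- exactness follows from the properties of a pencil -/
theorem exact_of (h11 : l₁ t₁ = 1) (h12 : l₁ t₂ = 0) (h21 : l₂ t₁ = 0) (h22 : l₂ t₂ = 1)
    (P0 : ∀ f ∈ N', (∀ s, f₁ s * f s = 0) → f = 0)
    (P1 : ∀ A ∈ N', ∀ B ∈ N', (∀ s, f₁ s * B s = f₂ s * A s) →
      ∃ F ∈ N, ∀ s, f₁ s * F s = A s ∧ f₂ s * F s = B s)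
    {W : Submodule ℂ T} (hle : W ≤ LinearMap.ker l₁ ⊓ LinearMap.ker l₂) {e : S → T →ₗ[ℂ] ℂ}
    (hmul : ∀ t, ∀ f ∈ N, (fun s => e s t * f s) ∈ N') (h₁ : ∀ s, e s t₁ = f₁ s)
    (h₂ : ∀ s, e s t₂ = f₂ s) (hW : ∀ s, ∀ v ∈ W, e s v = 0) {j : ℕ}
    (P2 : j ≠ 0 → ∀ f ∈ N', ∃ a ∈ N, ∃ b ∈ N, ∀ s, f s = f₁ s * a s + f₂ s * b s)
    {α : T [⋀^Fin (j + 1)]→ₗ[ℂ] (S → ℂ)} (hα : α ∈ altA W N' (j + 1))
    (h0 : wK e (j + 1) α = 0) : ∃ β ∈ altA W N j, wK e j β = α := by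
  generalize hn : finrank ℂ T - finrank ℂ W = n
  induction n using Nat.strong_induction_on generalizing W e j with
  | _ n ih =>
  rcases hle.eq_or_lt with rfl | hlt
  · have one : ∀ γ ∈ altA (LinearMap.ker l₁ ⊓ LinearMap.ker l₂) N' 1,
        γ ![t₁] = 0 → γ ![t₂] = 0 → γ = 0 := fun γ hγ a b => AlternatingMap.ext fun v => by
      rw [show v = ![v 0] from funext fun i => by rw [Subsingleton.elim i 0]; rfl,
        curry_eq h11 h12 h21 h22 hγ, a, b]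
      simp
    have two : ∀ γ ∈ altA (LinearMap.ker l₁ ⊓ LinearMap.ker l₂) N' 2,
        γ ![t₁, t₂] = 0 → γ = 0 := fun γ hγ a => AlternatingMap.ext fun v => by
      have m := fun x => altA_mono le_sup_left le_rfl (curry_mem hγ x)
      have z1 := one _ (m t₁) (γ.map_eq_zero_of_eq _ (i := 0) (j := 1) rfl Fin.zero_ne_one) a
      have z2 := one _ (m t₂) ((DFunLike.congr_fun (curry_curryA γ t₂ t₁) ![]).trans
        (neg_eq_zero.2 a)) (γ.map_eq_zero_of_eq _ (i := 0) (j := 1) rfl Fin.zero_ne_one)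
      rw [show v = ![v 0, v 1] from funext fun i => by fin_cases i <;> rfl,
        curry_eq h11 h12 h21 h22 hγ, ← γ.curryLeft_apply_apply, ← γ.curryLeft_apply_apply, z1, z2]
      simp
    rcases j with _ | _ | j
    · obtain ⟨F, hF, h3⟩ := P1 _ (hα.1 ![t₁]) _ (hα.1 ![t₂]) fun s => by
        rw [← h₁, ← h₂, ← sub_eq_zero, ← wK_one, h0]
        rfl
      refine ⟨_, cst_mem hF, sub_eq_zero.1 (one _ (sub_mem (wK_mem' e hmul hW (cst_mem hF)) hα)
        (funext fun s => sub_eq_zero.2 ?_) (funext fun s => sub_eq_zero.2 ?_))⟩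
      · exact (wK_zero e _ _ s).trans (h₁ s ▸ (h3 s).1)
      · exact (wK_zero e _ _ s).trans (h₂ s ▸ (h3 s).2)
    · obtain ⟨a, ha, b, hb, h3⟩ := P2 one_ne_zero _ (hα.1 ![t₁, t₂])
      have hβ := sub_mem (wdgA_mem (S := LinearMap.ker l₁ ⊓ LinearMap.ker l₂) (l := l₂)
        (fun _ h => h.2) (cst_mem ha)) (wdgA_mem (S := LinearMap.ker l₁ ⊓ LinearMap.ker l₂)
          (l := l₁) (fun _ h => h.1) (cst_mem hb))
      refine ⟨_, hβ, sub_eq_zero.1 (two _ (sub_mem (wK_mem' e hmul hW hβ) hα)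
        (funext fun s => sub_eq_zero.2 ?_))⟩
      refine (wK_one e _ _ _ s).trans (Eq.trans ?_ (h3 s).symm)
      rw [h₁, h₂, AlternatingMap.sub_apply, AlternatingMap.sub_apply, wdg_cst, wdg_cst,
        wdg_cst, wdg_cst]
      simp [h11, h12, h21, h22]
    · refine ⟨0, zero_mem _, (map_zero _).trans (eq_zero_of_lt hα ?_).symm⟩
      have h3 := LinearMap.finrank_range_add_finrank_ker (l₁.prod l₂)
      have h4 := (LinearMap.range (l₁.prod l₂)).finrank_le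
      rw [LinearMap.ker_prod] at h3
      simp only [finrank_prod, finrank_self] at h4
      omega
  obtain ⟨x, hx, hx'⟩ := SetLike.exists_of_lt hlt
  obtain ⟨l₀, a1, a2⟩ := exists_form hx'
  obtain ⟨l, lx, lW, l1, l2⟩ : ∃ l : T →ₗ[ℂ] ℂ, l x = 1 ∧ (∀ v ∈ W, l v = 0) ∧ l t₁ = 0 ∧
      l t₂ = 0 := ⟨l₀ - l₀ t₁ • l₁ - l₀ t₂ • l₂,
    by simp [a1, show l₁ x = 0 from hx.1, show l₂ x = 0 from hx.2], fun v hv => by
      simp [a2 v hv, show l₁ v = 0 from (hle hv).1, show l₂ v = 0 from (hle hv).2],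
    by simp [h11, h21], by simp [h12, h22]⟩
  have hr := Submodule.finrank_sup_span_singleton hx'
  have hr' := (W ⊔ ℂ ∙ x).finrank_le
  have e1 : ∀ s, (e s - e s x • l) t₁ = f₁ s := fun s => by simp [l1, h₁]
  have IH := fun (j : ℕ) => @ih (n - 1) (by omega) (W ⊔ ℂ ∙ x)
    (sup_le hle ((Submodule.span_singleton_le_iff_mem _ _).2 hx)) (fun s => e s - e s x • l)
    (fun t f hf => (congrArg (· ∈ N') (funext fun s => by simp [mul_comm])).mp
      (hmul (t - l t • x) f hf)) e1 (fun s => by simp [l2, h₂])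
    (fun s => sup_le (c := LinearMap.ker (e s - e s x • l)) (fun v hv => by simp [hW s v hv, lW v hv])
      ((Submodule.span_singleton_le_iff_mem _ _).2 (by simp [lx]))) j
  have hη := curry_mem hα x
  have c0 : ∀ s, wB (j + 1) (e s) (atP s _ α) = 0 := fun s => congrArg (atP s _) h0
  obtain ⟨β, hβ, b1⟩ := IH j P2 (α := α - wdgA l (α.curryLeft x))
    (mem_altA_sup.2 ⟨sub_mem hα (wdgA_mem lW (altA_mono le_sup_left le_rfl hη)), by
      refine (map_sub (AlternatingMap.curryLeftLinearMap.flip x) _ _).trans (sub_eq_zero.2 ?_)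
      exact (curry_wdgA_of_mem lx hη).symm⟩)
    (ext_ev fun s => by
      simp only [ev_wK, map_sub, map_smul, ev_wdgA, ev_curry, LinearMap.sub_apply,
        LinearMap.smul_apply, c0, wB_self, wB_anti (e s) l, curry_closed (c0 s), map_zero]
      simp) (by omega)
  have b2 := fun s => congrArg (atP s _) b1
  simp only [ev_wK, map_sub, map_smul, ev_wdgA, LinearMap.sub_apply, LinearMap.smul_apply] at b2
  have hη' : α.curryLeft x - (LinearMap.mulLeft ℂ fun s => e s x).compAlternatingMap β ∈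
      altA (W ⊔ ℂ ∙ x) N' j := sub_mem hη ⟨fun v => hmul x _ (hβ.1 v), fun v i hi =>
    (congrArg (LinearMap.mulLeft ℂ fun s => e s x) (hβ.2 v i hi)).trans (map_zero _)⟩
  have b3 : wK (fun s => e s - e s x • l) j
      (α.curryLeft x - (LinearMap.mulLeft ℂ fun s => e s x).compAlternatingMap β) = 0 :=
    ext_ev fun s => by
      rw [ev_wK, map_sub (atP s j), ev_mul, map_sub (wB j _), map_smul]
      simp only [map_sub, map_smul, LinearMap.sub_apply, LinearMap.smul_apply, b2]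
      rw [ev_curry, curry_closed (c0 s), smul_sub, sub_self, map_zero]
  cases j with
  | zero =>
    have b4 := P0 _ (hη'.1 0) fun s => by
      rw [← e1, ← wK_zero (fun s => e s - e s x • l), b3]
      rfl
    have b5 : α.curryLeft x = (LinearMap.mulLeft ℂ fun s => e s x).compAlternatingMap β :=
      sub_eq_zero.1 (AlternatingMap.ext fun v => by rw [Subsingleton.elim v 0]; exact b4)
    refine ⟨β, altA_mono le_sup_left le_rfl hβ, ext_ev fun s => ?_⟩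
    have b6 := b2 s
    rwa [b5, ev_mul, map_smul, sub_left_inj] at b6
  | succ j =>
    obtain ⟨ζ, hζ, b4⟩ := IH j (fun _ => P2 j.succ_ne_zero) hη' b3 (by omega)
    refine ⟨_, sub_mem (altA_mono le_sup_left le_rfl hβ)
      (wdgA_mem lW (altA_mono le_sup_left le_rfl hζ)), ext_ev fun s => ?_⟩
    have b5 := congrArg (wB _ l) (congrArg (atP s _) b4)
    simp only [ev_wK, map_sub, map_smul, LinearMap.sub_apply, LinearMap.smul_apply, ev_mul,
      wB_self, smul_zero, sub_zero] at b5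
    rw [ev_wK, map_sub, map_sub, ev_wdgA, wB_anti (e s) l, b5, sub_neg_eq_add, add_sub_left_comm,
      b2, add_sub_cancel]

end KW

variable {ι : Type} [Fintype ι] {M : ι → ℕ} {o : ι} {g : ℤ} {m : ι → ℤ} {C : Set (V M)}
  {a b : ι → ℕ}

variable (C b) in
/-- evaluation of forms at the points of the curve -/
noncomputable def evW (c : C) : Tens M b →ₗ[ℂ] ℂ := LinearMap.proj c ∘ₗ resL C b

theorem evW_apply (c : C) (μ : Tens M b) : evW C b c μ = val μ c.1 := rfl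

theorem evW_ne (h : IsCurve o g m C) (c : C) : evW C b c ≠ 0 := fun e => by
  classical
  obtain ⟨μ, hμ⟩ := exists_pol_one (h.ne_zero c.1 c.2) b
  exact one_ne_zero (hμ.symm.trans (LinearMap.congr_fun e μ))

omit [Fintype ι] in
theorem KW.deg_succ (k : ℕ) : a + k • b + b = a + (k + 1) • b := by rw [succ_nsmul, add_assoc]

theorem Hs_mulW (k : ℕ) (μ : Tens M b) : ∀ f ∈ Hs C (a + k • b),
    (fun c : C => evW C b c μ * f c) ∈ Hs C (a + (k + 1) • b) := fun f hf => by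
  obtain ⟨F, h1, h2⟩ := mem_Hs.1 hf
  exact mem_Hs.2 ⟨_, Pol.mul' h1 (val_mem μ) (KW.deg_succ k),
    fun c => by rw [evW_apply, h2, mul_comm]⟩

/-- a base point free pencil -/
theorem KW.exists_pencil (h : IsCurve o g m C) (hb : b o ≠ 0) (c₀ : V M) :
    ∃ μ₁ μ₂ : Tens M b, val μ₁ c₀ = 0 ∧ Nzd C (val μ₁) ∧ ∀ c ∈ C, val μ₁ c = 0 → val μ₂ c ≠ 0 := by
  classical
  obtain ⟨μ₁, -, h1⟩ := exists_of_residual (h.nod.residual_nzd
    (E := LinearMap.ker (evL b c₀).toLinearMap) (Submodule.subtypeL _) fun c hc =>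
      ((freq_line h.nod (c₀ o) c hc).and_eventually self_mem_nhdsWithin).mono fun y hy => by
        obtain ⟨ℓ, h1, h2⟩ := exists_ann' hy.1
        obtain ⟨ζ, hζ⟩ := exists_lin_one (h.ne_zero y hy.2)
        obtain ⟨μ, hμ⟩ := mem_Pol.1 (Pol.mono (update ζ o ℓ) b)
        refine ⟨⟨μ, (congrFun hμ c₀).trans (Finset.prod_eq_zero (Finset.mem_univ o) (by
          rw [update_self, ann_self h1, zero_pow hb]))⟩, (congrFun hμ y).trans_ne
            (Finset.prod_ne_zero_iff.2 fun i _ => pow_ne_zero _ ?_)⟩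
        obtain rfl | hi := eq_or_ne i o
        · rwa [update_self]
        · rw [update_of_ne hi, hζ]
          exact one_ne_zero) (e₀ := 0) univ_mem
  obtain ⟨n, z, hz⟩ := h1.exists_reps h.nod (Pol.isSec (o := o) (val_mem _))
  obtain ⟨_, ⟨μ₂, rfl⟩, h2⟩ := exists_pol_ne (fun k => h.ne_zero _ (hz.mem k)) b
  refine ⟨μ₁, μ₂, μ₁.2, h1, fun y hy h0 e => ?_⟩
  obtain ⟨k, hk⟩ := hz.ex y hy h0
  exact h2 k (((Pol.hm (val_mem _)).orb (hz.mem k) hk).1 e)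

-- exactness of the Koszul complex of the forms of degree `b`
set_option linter.unusedVariables false in
theorem wedge_exact (h : IsCurve o g m C) (ha : a ≠ 0) (hb : b o ≠ 0) (hM : 3 ≤ M o) {j k : ℕ}
    (hk : j ≠ 0 → 1 ≤ k) {α : Tens M b [⋀^Fin (j + 1)]→ₗ[ℂ] (C → ℂ)}
    (hα : α ∈ altA ⊥ (Hs C (a + (k + 1) • b)) (j + 1)) (h0 : wK (evW C b) (j + 1) α = 0) :
    ∃ β ∈ altA ⊥ (Hs C (a + k • b)) j, wK (evW C b) j β = α := by
  classical
  obtain he | ⟨c₀, hc⟩ := C.eq_empty_or_nonempty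
  · exact ⟨0, zero_mem _, ext_ev fun s => absurd s.2 (he.le.trans' le_rfl ·)⟩
  obtain ⟨μ₁, μ₂, h1, hn, h2⟩ := exists_pencil h hb c₀
  obtain ⟨y, hy⟩ := (hn c₀ hc).exists
  have h3 := h2 c₀ hc h1
  refine exact_of (t₁ := μ₁) (t₂ := μ₂) (f₁ := fun c : C => val μ₁ c) (f₂ := fun c => val μ₂ c)
    (l₁ := (val μ₁ y)⁻¹ • ((evL b y).toLinearMap -
      (val μ₂ y * (val μ₂ c₀)⁻¹) • (evL b c₀).toLinearMap))
    (l₂ := (val μ₂ c₀)⁻¹ • (evL b c₀).toLinearMap) (by simp [h1, hy]) (by simp [h3])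
    (by simp [h1]) (by simp [h3]) (fun f hf h0 => ?_) (fun A hA B hB h0 => ?_) bot_le
    (Hs_mulW k) (fun _ => rfl) (fun _ => rfl)
    (fun s _ hv => by rw [(Submodule.mem_bot ℂ).1 hv, map_zero]) (fun hj f hf => ?_) hα h0
  · obtain ⟨F, a1, a2⟩ := mem_Hs.1 hf
    exact funext fun c => (a2 c).trans (hn.eq_zero (Pol.cont a1).continuousOn
      (fun y hy => a2 ⟨y, hy⟩ ▸ h0 ⟨y, hy⟩) c c.2)
  · obtain ⟨A', a1, a2⟩ := mem_Hs.1 hA
    obtain ⟨B', b1, b2⟩ := mem_Hs.1 hB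
    obtain ⟨F, f1, f2⟩ := rel h (add_ne ha (k • b)) hn (val_mem μ₁) (val_mem μ₂) b1 (B := -A')
      (neg_mem (by rwa [KW.deg_succ])) (fun c hc => by
        rw [Pi.neg_apply, ← a2 ⟨c, hc⟩, ← b2 ⟨c, hc⟩, h0 ⟨c, hc⟩, mul_neg, add_neg_cancel])
      fun c hc e1 e2 => absurd e2 (h2 c hc e1)
    exact ⟨fun c => F c, mem_Hs.2 ⟨F, f1, fun _ => rfl⟩, fun c =>
      ⟨(neg_add_eq_zero.1 (f2 c c.2).2).symm.trans (a2 c).symm,
        (sub_eq_zero.1 (f2 c c.2).1).symm.trans (b2 c).symm⟩⟩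
  · obtain ⟨k, rfl⟩ := Nat.exists_eq_add_of_le' (hk hj)
    obtain ⟨F, a1, a2⟩ := mem_Hs.1 hf
    obtain ⟨s₁, b1, s₂, b2, b3⟩ := h.pencil (add_ne ha (k • b)) hn (val_mem μ₁) (val_mem μ₂) h2
      (s := F) (by rwa [KW.deg_succ, KW.deg_succ])
    rw [KW.deg_succ] at b1 b2
    exact ⟨fun c => s₂ c, mem_Hs.2 ⟨_, b2, fun _ => rfl⟩, fun c => s₁ c,
      mem_Hs.2 ⟨_, b1, fun _ => rfl⟩, fun c => by rw [a2, b3 c c.2, add_comm]⟩

end Vale.Agent.P269.Grr
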