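import Vale.Agent.P269.Grr.KZA
import Vale.Agent.P269.Base.LF

/-!
# Koszul complexes of sections on a nodal curve: exactness, independence of local classes
-/

namespace Vale.Agent.P269.Grr

open Set Function Topology Filter Module Vale.Agent.P269.Base

set_option linter.unusedSectionVars false

variable {ι : Type} [Fintype ι] [DecidableEq ι] {M : ι → ℕ} {o : ι} {g : ℤ} {m : ι → ℤ}
  {C : Set (V M)} {a : ι → ℕ}

namespace KZ

/-- the forms that vanish on `W` -/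
def ann {n : ℕ} (W : Submodule ℂ (Fin n → ℂ)) : Submodule ℂ ((Fin n → ℂ) →L[ℂ] ℂ) where
  carrier := {ℓ | ∀ v ∈ W, ℓ v = 0}
  add_mem' ha hb v hv := by rw [add_apply, ha v hv, hb v hv, add_zero]
  zero_mem' _ _ := rfl
  smul_mem' c _ ha v hv := by rw [smul_apply, ha v hv, smul_zero]

theorem exists_ann {n : ℕ} {W : Submodule ℂ (Fin n → ℂ)} {v : Fin n → ℂ} (h : v ∉ W) :
    ∃ ℓ ∈ ann W, ℓ v = 1 :=
  (exists_form h).elim fun l hl => ⟨l.toContinuousLinearMap, hl.2, hl.1⟩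

theorem exists_ann' {n : ℕ} {W : Submodule ℂ (Fin n → ℂ)} {v : Fin n → ℂ} (h : v ∉ W) :
    ∃ ℓ ∈ ann W, ℓ v ≠ 0 := (exists_ann h).elim fun ℓ h => ⟨ℓ, h.1, h.2 ▸ one_ne_zero⟩

theorem ann_self {n : ℕ} {v : Fin n → ℂ} {ℓ : (Fin n → ℂ) →L[ℂ] ℂ} (h : ℓ ∈ ann (ℂ ∙ v)) :
    ℓ v = 0 := h v (Submodule.mem_span_singleton_self v)

theorem exists_ker {n : ℕ} {W : Submodule ℂ (Fin n → ℂ)} (hW : finrank ℂ W + 2 ≤ n)
    (ℓ : (Fin n → ℂ) →L[ℂ] ℂ) : ∃ x, ℓ x = 0 ∧ x ∉ W := by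
  by_contra hn
  push Not at hn
  have h1 := Submodule.finrank_mono (show LinearMap.ker ℓ.toLinearMap ≤ W from hn)
  have h2 := LinearMap.finrank_range_add_finrank_ker ℓ.toLinearMap
  have h3 := (LinearMap.range ℓ.toLinearMap).finrank_le
  simp only [finrank_self, finrank_fintype_fun_eq_card, Fintype.card_fin] at h2 h3
  omega

theorem val_congr (μ : Tens M a) {c c' : V M} (h : ∀ i, a i ≠ 0 → c i = c' i) :
    val μ c = val μ c' :=
  congrArg μ (funext fun s => h s.1 (Nat.pos_iff_ne_zero.1 s.2.pos))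

theorem single_ne (o : ι) : (Pi.single o 1 : ι → ℕ) ≠ 0 := fun e => by simpa using congrFun e o

theorem exists_lift (o : ι) : ∃ Λ : ((Fin (M o) → ℂ) →L[ℂ] ℂ) →L[ℂ] Tens M (Pi.single o 1),
    ∀ ℓ c, val (Λ ℓ) c = ℓ (c o) := by
  choose μ hμ using fun k : Fin (M o) => mem_Pol.1 (Pol.lin o (ContinuousLinearMap.proj k))
  refine ⟨∑ k, (ContinuousLinearMap.apply ℂ ℂ (Pi.single k 1)).smulRight (μ k), fun ℓ c => ?_⟩
  conv_rhs => rw [pi_eq_sum_univ' (c o), map_sum]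
  simp [val_sum, hμ, mul_comm]

theorem exists_nzd (hC : Nod o C) (W : Submodule ℂ (Fin (M o) → ℂ))
    (h : ∀ c ∈ C, ∃ᶠ y in 𝓝[C] c, y o ∉ W) {β : Type*} [Finite β] {v : β → Fin (M o) → ℂ}
    (hv : ∀ k, v k ∉ W) : ∃ ℓ ∈ ann W, (Nzd C fun c => ℓ (c o)) ∧ ∀ k, ℓ (v k) ≠ 0 := by
  obtain ⟨Λ, hΛ⟩ := exists_lift (M := M) o
  obtain ⟨ℓ, -, h1, h2⟩ := exists_of_residual ((hC.residual_nzd (E := ann W)
    (Λ.comp (ann W).subtypeL) fun c hc => (h c hc).mono fun y hy => (exists_ann' hy).elim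
      fun ℓ hℓ => ⟨⟨ℓ, hℓ.1⟩, (hΛ ℓ y).symm ▸ hℓ.2⟩).and (eventually_all.2 fun k => residual_ne
      (l := (ContinuousLinearMap.apply ℂ ℂ (v k)).toLinearMap ∘ₗ (ann W).subtype) (fun e =>
        (exists_ann' (hv k)).elim fun ℓ hℓ => hℓ.2 (LinearMap.congr_fun e ⟨ℓ, hℓ.1⟩)) 0))
    (e₀ := 0) univ_mem
  exact ⟨ℓ, ℓ.2, (funext (hΛ ℓ) : val (Λ ℓ) = _) ▸ h1, h2⟩

theorem deriv_lin (ℓ : (Fin (M o) → ℂ) →L[ℂ] ℂ) {γ : ℂ → V M} (h : AnalyticAt ℂ γ 0) :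
    HasDerivAt (fun t => ℓ (γ t o)) (ℓ (deriv γ 0 o)) 0 :=
  (ℓ.comp (ContinuousLinearMap.proj o : V M →L[ℂ] _)).hasFDerivAt.comp_hasDerivAt 0
    h.differentiableAt.hasDerivAt

theorem freq_line (hC : Nod o C) (x : Fin (M o) → ℂ) :
    ∀ c ∈ C, ∃ᶠ y in 𝓝[C] c, y o ∉ ℂ ∙ x := fun c hc hn => by
  obtain ⟨γ, hγ⟩ := hC.exists_loc hc
  have h1 := ((hγ.tendsto true).eventually hn).mono fun _ h => not_not.1 h
  have h2 : deriv (γ true) 0 o ∈ ℂ ∙ x := by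
    by_contra h2
    obtain ⟨ℓ, h3, h4⟩ := exists_ann' h2
    exact h4 ((deriv_lin ℓ (hγ.an true)).unique ((hasDerivAt_const _ _).congr_of_eventuallyEq
      (h1.mono fun t ht => h3 _ ht)))
  obtain ⟨r, hr⟩ := Submodule.mem_span_singleton.1 h1.self_of_nhds
  obtain ⟨r', hr'⟩ := Submodule.mem_span_singleton.1 h2
  obtain ⟨h3, h4⟩ := li_pair_iff.1 (hγ.br true).imm
  exact h3 (by rw [← hr, h4 r r' (by rw [← hr, ← hr', smul_comm]), zero_smul])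

theorem second (hC : Nod o C) {ℓ₁ : (Fin (M o) → ℂ) →L[ℂ] ℂ} (hn : Nzd C fun c => ℓ₁ (c o))
    {W : Submodule ℂ (Fin (M o) → ℂ)} {x : Fin (M o) → ℂ} (hx : x ∉ W) :
    ∃ ℓ₂ ∈ ann W, ℓ₂ x ≠ 0 ∧ ∀ c ∈ C, ℓ₁ (c o) = 0 → c o ∉ W → ℓ₂ (c o) ≠ 0 := by
  obtain ⟨n, z, hz⟩ := hn.exists_reps hC (Pol.isSec (o := o) (Pol.lin o ℓ₁))
  obtain ⟨ℓ, h1, h2⟩ := exists_lin_ne_zero
    (fun k : Option {k // z k o ∉ W} => k.elim x fun k => z k o) (ann W) fun k => by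
      cases k with
      | none => exact exists_ann' hx
      | some k => exact exists_ann' k.2
  refine ⟨ℓ, h1, h2 none, fun c hc h0 hW => ?_⟩
  obtain ⟨k, t, ht, rfl⟩ := hz.ex c hc h0
  rw [Pi.smul_apply', map_smul]
  exact smul_ne_zero (ht o) (h2 (some ⟨k, fun h => hW (W.smul_mem _ h)⟩))

theorem coker {S : Type*} {N'' N N' : Submodule ℂ (S → ℂ)} [FiniteDimensional ℂ N'']
    [FiniteDimensional ℂ N] [FiniteDimensional ℂ N'] {f₁ f₂ : S → ℂ}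
    (m₁ : ∀ a ∈ N, (fun s => f₁ s * a s) ∈ N') (m₂ : ∀ a ∈ N, (fun s => f₂ s * a s) ∈ N')
    (hr : finrank ℂ N' + finrank ℂ N'' = finrank ℂ N + finrank ℂ N) {e : ℕ}
    (P : ∃ T : Submodule ℂ ((S → ℂ) × (S → ℂ)), FiniteDimensional ℂ T ∧ finrank ℂ T ≤ e ∧
      ∀ a ∈ N, ∀ b ∈ N, (∀ s, f₁ s * a s + f₂ s * b s = 0) → ∃ f ∈ N'',
        (fun s => a s - f₂ s * f s, fun s => b s + f₁ s * f s) ∈ T) :
    ∃ T : Submodule ℂ (S → ℂ), FiniteDimensional ℂ T ∧ finrank ℂ T ≤ e ∧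
      ∀ f ∈ N', ∃ a ∈ N, ∃ b ∈ N, (fun s => f s - f₁ s * a s - f₂ s * b s) ∈ T := by
  obtain ⟨T, f0, r0, P⟩ := P
  let Φ : N × N →ₗ[ℂ] (S → ℂ) :=
    (LinearMap.mulLeft ℂ f₁ ∘ₗ N.subtype).coprod (LinearMap.mulLeft ℂ f₂ ∘ₗ N.subtype)
  let Ψ : (S → ℂ) →ₗ[ℂ] (S → ℂ) × (S → ℂ) := (LinearMap.mulLeft ℂ f₂).prod (-LinearMap.mulLeft ℂ f₁)
  have h1 := LinearMap.finrank_range_add_finrank_ker Φ
  have h2 := (comap_le (N.subtype.prodMap N.subtype) (U := LinearMap.ker Φ) (N''.map Ψ ⊔ T)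
    fun u _ h => Prod.ext (Subtype.ext (congrArg Prod.fst h)) (Subtype.ext (congrArg Prod.snd h))).2
  rw [inf_of_le_left (show LinearMap.ker Φ ≤ _ from fun u hu => by
    obtain ⟨f, hf, hT⟩ := P _ u.1.2 _ u.2.2 (congrFun hu)
    refine Submodule.mem_sup.2 ⟨_, ⟨f, hf, rfl⟩, _, hT, Prod.ext ?_ ?_⟩ <;> funext s <;>
      simp [Ψ])] at h2
  have h3 := Submodule.finrank_add_le_finrank_add_finrank (N''.map Ψ) T
  have h4 := Submodule.finrank_map_le Ψ N''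
  obtain ⟨Q, hQ⟩ := Submodule.exists_isCompl (LinearMap.range Φ)
  have h5 : LinearMap.range Φ ≤ N' := by
    rintro _ ⟨u, rfl⟩
    exact add_mem (m₁ _ u.1.2) (m₂ _ u.2.2)
  have h6 : LinearMap.range Φ ⊔ Q ⊓ N' = N' := by
    rw [← sup_inf_assoc_of_le _ h5, hQ.sup_eq_top, top_inf_eq]
  have h7 := Submodule.finrank_sup_add_finrank_inf_eq (LinearMap.range Φ) (Q ⊓ N')
  rw [h6, ← inf_assoc, hQ.inf_eq_bot, bot_inf_eq, finrank_bot] at h7
  rw [finrank_prod] at h1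
  refine ⟨Q ⊓ N', inferInstance, by omega, fun f hf => ?_⟩
  obtain ⟨_, ⟨u, rfl⟩, t, ht, rfl⟩ := Submodule.mem_sup.1 (h6.ge hf)
  refine ⟨_, u.1.2, _, u.2.2, (congrArg (· ∈ Q ⊓ N') (funext fun s => ?_)).mpr ht⟩
  simp [Φ]
  ring

theorem rel (h : IsCurve o g m C) (ha : a ≠ 0) {b d : ι → ℕ} {l₁ l₂ A B : V M → ℂ}
    (hn : Nzd C l₁) (h₁ : l₁ ∈ Pol M b) (h₂ : l₂ ∈ Pol M b) (hA : A ∈ Pol M d)
    (hB : B ∈ Pol M (a + b)) (h0 : ∀ c ∈ C, l₁ c * A c + l₂ c * B c = 0)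
    (hld : ∀ c ∈ C, l₁ c = 0 → l₂ c = 0 → LD C l₁ B c) :
    ∃ F ∈ Pol M a, ∀ c ∈ C, A c - l₂ c * F c = 0 ∧ B c + l₁ c * F c = 0 := by
  obtain ⟨q, h1, h2⟩ := h.div ha hn (Pol.isSec h₁) (Pol.isSec hB) fun c hc e => by
    by_cases e' : l₂ c = 0
    · exact hld c hc e e'
    refine ⟨_, (Pol.an hA c).neg.div (Pol.an h₂ c) e', ?_⟩
    filter_upwards [self_mem_nhdsWithin, mem_nhdsWithin_of_mem_nhds
      ((Pol.cont h₂).continuousAt.eventually_ne e')] with y hy e2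
    rw [Pi.div_apply, Pi.neg_apply]
    field_simp
    linear_combination h0 y hy
  refine ⟨-q, neg_mem h1, fun c hc => ⟨hn.eq_zero (f := fun c => A c - l₂ c * (-q) c)
    ((Pol.cont hA).sub ((Pol.cont h₂).mul (Pol.cont h1).neg)).continuousOn (fun c hc => ?_) c hc,
    by simp [h2 c hc]⟩⟩
  have := h0 c hc
  rw [h2 c hc] at this
  rw [Pi.neg_apply]
  linear_combination this

theorem deg_succ (k : ℕ) :
    a + k • Pi.single o 1 + Pi.single o 1 = a + (k + 1) • Pi.single o 1 := by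
  rw [succ_nsmul, add_assoc]

end KZ

open KZ

/-- the factor `o` separates the points -/
theorem orb_of_eq (h : IsCurve o g m C) {c c' : V M} (hc : c ∈ C) (hc' : c' ∈ C) {s : ℂ}
    (e : c' o = s • c o) : Orb c c' := by
  by_contra hn
  obtain ⟨ℓ, h1, h2, -⟩ := exists_nzd h.nod _ (freq_line h.nod (c o)) (v := Empty.elim) nofun
  obtain ⟨_, ⟨μ, rfl⟩, h3, -⟩ := h.exists_val (single_ne o) h2 (Pol.lin o ℓ)
    (z := fun b : Bool => bif b then c else c') (fun b => by cases b <;> assumption)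
    (fun b b' hb => by
      cases b <;> cases b'
      exacts [rfl, absurd hb.symm hn, absurd hb hn, rfl])
    (fun b => by cases b <;> simp [e, ann_self h1]) fun b => bif b then 1 else 0
  have h4 : val μ c' = val μ ((fun _ => s : ι → ℂ) • c) := val_congr μ fun i hi => by
    obtain rfl : i = o := by
      by_contra hi'
      simp [hi'] at hi
    exact e
  have hs : s ≠ 0 := fun hs => h.ne_zero _ hc' o (by rw [e, hs, zero_smul])
  rw [val_smul, show val μ c = 1 from h3 true, show val μ c' = 0 from h3 false, mul_one] at h4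
  exact chr_ne_zero (fun _ => hs) h4.symm

theorem Hs_mul (k : ℕ) (l : (Fin (M o) → ℂ) →ₗ[ℂ] ℂ) : ∀ f ∈ Hs C (a + k • Pi.single o 1),
    (fun c : C => l (c.1 o) * f c) ∈ Hs C (a + (k + 1) • Pi.single o 1) := fun f hf => by
  obtain ⟨F, h1, h2⟩ := mem_Hs.1 hf
  exact mem_Hs.2 ⟨_, Pol.mul' h1 (Pol.lin o l.toContinuousLinearMap) (deg_succ k),
    fun c => by simp [h2, mul_comm]⟩

/-- the homology is bounded by the relations of a pencil -/
theorem KZ.gen (h : IsCurve o g m C) (ha : a ≠ 0) {l₁ l₂ : (Fin (M o) → ℂ) →L[ℂ] ℂ}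
    {x x' : Fin (M o) → ℂ} (h1x : l₁ x = 0) (h2x : l₂ x ≠ 0) (h1x' : l₁ x' ≠ 0)
    (hn : Nzd C fun c => l₁ (c o)) {W₀ : Submodule ℂ (Fin (M o) → ℂ)} (h₁ : l₁ ∈ ann W₀)
    (h₂ : l₂ ∈ ann W₀) {e : ℕ}
    (P : ∀ k : ℕ, ∃ T : Submodule ℂ ((C → ℂ) × (C → ℂ)), FiniteDimensional ℂ T ∧ finrank ℂ T ≤ e ∧
      ∀ A ∈ Hs C (a + (k + 1) • Pi.single o 1), ∀ B ∈ Hs C (a + (k + 1) • Pi.single o 1),
        (∀ s, l₁ (s.1 o) * A s + l₂ (s.1 o) * B s = 0) → ∃ f ∈ Hs C (a + k • Pi.single o 1),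
        (fun s => A s - l₂ (s.1 o) * f s, fun s => B s + l₁ (s.1 o) * f s) ∈ T)
    (j k : ℕ) (hk : finrank ℂ W₀ + j + 2 ≤ M o → 1 ≤ k) :
    ∃ T : Submodule ℂ ((Fin (M o) → ℂ) [⋀^Fin j]→ₗ[ℂ] (C → ℂ)),
      FiniteDimensional ℂ T ∧ finrank ℂ T ≤ e * (M o - finrank ℂ W₀ - 1).choose j ∧
      ZK (fun c : C => c.1 o) W₀ (Hs C (a + (k + 1) • Pi.single o 1)) j ≤
        BK (fun c : C => c.1 o) W₀ (Hs C (a + k • Pi.single o 1)) j ⊔ T := by
  have := homology_le (fun c : C => c.1 o) (Hs_mul (a := a) k) (l₁ := l₁.toLinearMap)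
    (l₂ := l₂.toLinearMap) (LinearIndependent.pair_iff.2 fun s t e => by
      have e1 := LinearMap.congr_fun e x
      have e2 := LinearMap.congr_fun e x'
      simp [h1x, h2x] at e1
      simp [e1, h1x'] at e2
      exact ⟨e2, e1⟩) h₁ h₂ (e := e) j (fun hj => by
      obtain ⟨k, rfl⟩ := Nat.exists_eq_add_of_le' (hk (by simpa using hj))
      refine coker (Hs_mul _ _) (Hs_mul _ _) ?_ (P k)
      have e1 := h.finrank_Hs (add_ne ha (k • Pi.single o 1))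
      have e2 := h.finrank_Hs (add_ne ha ((k + 1) • Pi.single o 1))
      have e3 := h.finrank_Hs (add_ne ha ((k + 1 + 1) • Pi.single o 1))
      rw [dg_add, dg_smul] at e1 e2 e3
      zify
      rw [e1, e2, e3]
      push_cast
      ring) (P k) fun f hf h0 => by
      obtain ⟨F, h1, h2⟩ := mem_Hs.1 hf
      exact funext fun c => (h2 c).trans (hn.eq_zero (Pol.cont h1).continuousOn
        (fun y hy => h2 ⟨y, hy⟩ ▸ h0 ⟨y, hy⟩) c c.2)
  simpa using this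

/-- exactness when the forms vanishing on `W₀` have no common zero on the curve -/
theorem koszul_exact (h : IsCurve o g m C) (ha : a ≠ 0) {W₀ : Submodule ℂ (Fin (M o) → ℂ)}
    (hW : finrank ℂ W₀ + 2 ≤ M o) (h0 : ∀ c ∈ C, c o ∉ W₀) (j k : ℕ)
    (hk : finrank ℂ W₀ + j + 2 ≤ M o → 1 ≤ k) :
    ZK (fun c : C => c.1 o) W₀ (Hs C (a + (k + 1) • Pi.single o 1)) j ≤
      BK (fun c : C => c.1 o) W₀ (Hs C (a + k • Pi.single o 1)) j := by
  obtain ⟨x', -, hx'⟩ := exists_ker hW 0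
  obtain ⟨l₁, h1, hn, h2⟩ := exists_nzd h.nod W₀
    (fun c hc hn => hn.self_of_nhdsWithin hc (h0 c hc)) (v := fun _ : Unit => x') fun _ => hx'
  obtain ⟨x, h3, hx⟩ := exists_ker hW l₁
  obtain ⟨l₂, h4, h5, h6⟩ := second h.nod hn hx
  obtain ⟨T, f0, r0, h7⟩ := KZ.gen h ha h3 h5 (h2 ()) hn h1 h4 (e := 0) (fun k =>
    ⟨⊥, inferInstance, by simp, fun A hA B hB e => by
      obtain ⟨A', a1, a2⟩ := mem_Hs.1 hA
      obtain ⟨B', b1, b2⟩ := mem_Hs.1 hB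
      obtain ⟨F, f1, f2⟩ := rel h (add_ne ha (k • Pi.single o 1)) hn (Pol.lin o l₁) (Pol.lin o l₂)
        a1 (B := B') (by rwa [deg_succ])
        (fun c hc => by rw [← a2 ⟨c, hc⟩, ← b2 ⟨c, hc⟩]; exact e ⟨c, hc⟩)
        fun c hc e1 e2 => absurd e2 (h6 c hc e1 (h0 c hc))
      refine ⟨fun c => F c, mem_Hs.2 ⟨F, f1, fun _ => rfl⟩, Prod.ext ?_ ?_⟩ <;> funext c
      · exact (congrArg (· - _) (a2 c)).trans (f2 c c.2).1
      · exact (congrArg (· + _) (b2 c)).trans (f2 c c.2).2⟩) j k hk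
  rwa [Submodule.finrank_eq_zero.1 (by simpa using r0 : finrank ℂ T = 0), sup_bot_eq] at h7

namespace KZ

theorem congr_mod {V N : Type*} [AddCommGroup V] [Module ℂ V] [AddCommGroup N] [Module ℂ N] {j : ℕ}
    {S : Submodule ℂ V} {K : Submodule ℂ N} {α : V [⋀^Fin j]→ₗ[ℂ] N} (h : α ∈ altA S K j)
    {d : Fin j → V} (hd : ∀ i, d i ∈ S) (v : Fin j → V) : α (d + v) = α v := by
  refine (α.toMultilinearMap.map_add_univ d v).trans ((Finset.sum_eq_single ∅ (fun s _ hs => ?_)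
    (by simp)).trans (by simp))
  obtain ⟨i, hi⟩ := Finset.nonempty_iff_ne_empty.2 hs
  exact h.2 _ i (by rw [Finset.piecewise_eq_of_mem _ _ _ hi]; exact hd i)

theorem tendsto_slope {F : Type*} [NormedAddCommGroup F] [NormedSpace ℂ F] {f : ℂ → F} {f' : F}
    (h : HasDerivAt f f' 0) : Tendsto (fun t => t⁻¹ • (f t - f 0)) (𝓝[≠] 0) (𝓝 f') := by
  simpa using hasDerivAt_iff_tendsto_slope_zero.1 h

theorem jet_eq {y : V M} {δ : ℂ → V M} (hδ : IsBranch o C δ) (h0 : δ 0 = y) (hy : y ∈ C) {c : ℕ}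
    {A : V M → (Fin (M o) → ℂ) →L[ℂ] (Fin c → ℂ)} (hA : AnalyticAt ℂ A y) {u : V M → ℂ}
    (hu : ContinuousAt u y) {j : ℕ} {κ : Al c (j + 1)}
    {η : (Fin (M o) → ℂ) [⋀^Fin (j + 2)]→ₗ[ℂ] (C → ℂ)} (hη : η ∈ altA (ℂ ∙ y o) (Hs C a) (j + 2))
    (e : ∀ v (z : C), dK (fun c : C => c.1 o) (j + 1) η v z = κ (fun i => A z (v i)) * u z)
    {t : Fin (M o) → ℂ} (ht : A y t = 0) (v : Fin j → Fin (M o) → ℂ) :
    η (Matrix.vecCons (deriv δ 0 o) (Matrix.vecCons t v)) ⟨y, hy⟩ =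
      κ (Matrix.vecCons (fderiv ℂ A y (deriv δ 0) t) fun i => A y (v i)) * u y := by
  choose F h1 h2 using fun k : Fin (M o) =>
    mem_Hs.1 (hη.1 (Matrix.vecCons (Pi.single k 1) (Matrix.vecCons t v)))
  have h3 : ∀ (w : Fin (M o) → ℂ) (z : C),
      η (Matrix.vecCons w (Matrix.vecCons t v)) z = ∑ k, w k * F k z := fun w z => by
    let φ : (Fin (M o) → ℂ) →ₗ[ℂ] ℂ :=
      { toFun := fun u => η.curryLeft u (Matrix.vecCons t v) z
        map_add' := fun _ _ => by rw [map_add]; rfl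
        map_smul' := fun _ _ => by rw [map_smul]; rfl }
    change φ w = _
    conv_lhs => rw [pi_eq_sum_univ' w, map_sum]
    exact Finset.sum_congr rfl fun k _ => (map_smul φ _ _).trans (congrArg _ (h2 k z))
  have t0 : Tendsto δ (𝓝[≠] 0) (𝓝 y) :=
    (h0 ▸ hδ.holo.continuousAt.tendsto :).mono_left nhdsWithin_le_nhds
  have t1 := tendsto_slope hδ.holo.differentiableAt.hasDerivAt
  have t2 := tendsto_slope ((ContinuousLinearMap.apply ℂ _ t).hasFDerivAt.comp_hasDerivAt 0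
    ((h0 ▸ hA.differentiableAt.hasFDerivAt :).comp_hasDerivAt 0
      hδ.holo.differentiableAt.hasDerivAt))
  have t3 : Tendsto (fun s => ∑ k, (s⁻¹ • (δ s - δ 0)) o k * F k (δ s)) (𝓝[≠] 0)
      (𝓝 (∑ k, deriv δ 0 o k * F k y)) := tendsto_finsetSum _ fun k _ =>
    (tendsto_pi_nhds.1 (tendsto_pi_nhds.1 t1 o) k).mul ((Pol.cont (h1 k)).continuousAt.tendsto.comp t0)
  have t4 := ((κ.cont.tendsto _).comp (t2.matrixVecCons (tendsto_pi_nhds.2 fun i =>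
    ((ContinuousLinearMap.apply ℂ _ (v i)).continuous.tendsto _).comp
      (hA.continuousAt.tendsto.comp t0)))).mul (hu.tendsto.comp t0)
  rw [h3]
  refine (tendsto_nhds_unique_of_eventuallyEq t3 t4 ?_).trans (by rw [h0]; rfl)
  filter_upwards [nhdsWithin_le_nhds hδ.mem] with s hs
  have e1 := e (Matrix.vecCons t v) ⟨_, hs⟩
  have e2 := congrFun (hη.2 (Matrix.vecCons (y o) (Matrix.vecCons t v)) 0
    (Submodule.mem_span_singleton_self _)) ⟨_, hs⟩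
  rw [dK_apply, h3] at e1
  rw [h3] at e2
  have e3 : (fun i => A (δ s) (Matrix.vecCons t v i)) =
      Matrix.vecCons (A (δ s) t) fun i => A (δ s) (v i) := funext fun i => by
    cases i using Fin.cases <;> rfl
  simp only [e3] at e1
  have e4 := κ.vecCons_smul (fun i => A (δ s) (v i)) s⁻¹ (A (δ s) t)
  simp only [comp_apply, ContinuousLinearMap.apply_apply, h0, ht, sub_zero, Pi.smul_apply,
    Pi.sub_apply, smul_eq_mul, mul_assoc, sub_mul, ← Finset.mul_sum, Finset.sum_sub_distrib, e1]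
  rw [e2]
  exact (congrArg _ (sub_zero _)).trans ((mul_assoc _ _ _).symm.trans (congrArg (· * _) e4.symm))

end KZ

set_option linter.unusedVariables false in
/-- the classes pulled back along `A` are independent in homology -/
theorem koszul_indep (h : IsCurve o g m C) {y : V M} {γ : Bool → ℂ → V M} (hγ : Loc o C y γ)
    {c : ℕ} {A : V M → (Fin (M o) → ℂ) →L[ℂ] (Fin c → ℂ)} (hA : AnalyticAt ℂ A y) {u : V M → ℂ}
    (hu : ContinuousAt u y) (hu0 : u y ≠ 0)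
    (hs : Surjective (A y) ∨ (γ true ≠ γ false ∧ (∀ b, A y (deriv (γ b) 0 o) = 0) ∧ ∀ w, ∃ v,
      ∃ z : ℂ, w = A y v + z • (fderiv ℂ A y (deriv (γ true) 0) (deriv (γ false) 0 o) +
        fderiv ℂ A y (deriv (γ false) 0) (deriv (γ true) 0 o))))
    {j : ℕ} {κ : Al c j} {η : (Fin (M o) → ℂ) [⋀^Fin (j + 1)]→ₗ[ℂ] (C → ℂ)}
    (hη : η ∈ altA (ℂ ∙ y o) (Hs C a) (j + 1))
    (e : ∀ v (z : C), dK (fun c : C => c.1 o) j η v z = κ (fun i => A z (v i)) * u z) :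
    κ = 0 := by
  have h1 : ∀ v : Fin j → Fin (M o) → ℂ, κ (fun i => A y (v i)) = 0 := fun v =>
    (mul_eq_zero.1 ((e v ⟨y, hγ.mem⟩).symm.trans (congrFun
      (hη.2 _ 0 (Submodule.mem_span_singleton_self _)) _))).resolve_right hu0
  refine ContinuousAlternatingMap.ext fun w => ?_
  rcases hs with hs | ⟨-, h2, h3⟩
  · choose v hv using fun i => hs (w i)
    exact (congrArg κ (funext hv)).symm.trans (h1 v)
  set w₀ := fderiv ℂ A y (deriv (γ true) 0) (deriv (γ false) 0 o) +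
    fderiv ℂ A y (deriv (γ false) 0) (deriv (γ true) 0 o) with hw₀
  have key : ∀ {n : ℕ} (α : (Fin c → ℂ) [⋀^Fin n]→ₗ[ℂ] ℂ), α ∈ altA (⊥ ⊔ ℂ ∙ w₀) ⊤ n →
      (∀ v : Fin n → Fin (M o) → ℂ, α (fun i => A y (v i)) = 0) → ∀ w, α w = 0 := by
    intro n α a1 a2 w
    choose v z hv using fun i => h3 (w i)
    rw [show w = (fun i => z i • w₀) + fun i => A y (v i) from funext fun i =>
      (hv i).trans (add_comm _ _), congr_mod a1 fun i => Submodule.mem_sup_right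
        (Submodule.smul_mem _ _ (Submodule.mem_span_singleton_self _)), a2]
  cases j with
  | zero => exact key κ.toAlternatingMap ⟨fun _ => trivial, fun _ i => i.elim0⟩ h1 w
  | succ j =>
    have h4 : κ.toAlternatingMap ∈ altA ⊥ ⊤ (j + 1) :=
      ⟨fun _ => trivial, fun v i hi => κ.toAlternatingMap.map_coord_zero i hi⟩
    refine key κ.toAlternatingMap (mem_altA_sup.2 ⟨h4, AlternatingMap.ext
      (key _ (curry_mem h4 w₀) fun v => ?_)⟩) h1 w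
    have e1 := jet_eq (hγ.br true) (hγ.zero true) hγ.mem hA hu hη e (h2 false) v
    have e2 := jet_eq (hγ.br false) (hγ.zero false) hγ.mem hA hu hη e (h2 true) v
    have e3 := congrFun (DFunLike.congr_fun
      (curry_curryA η (deriv (γ true) 0 o) (deriv (γ false) 0 o)) v) ⟨y, hγ.mem⟩
    refine (κ.vecCons_add _ _ _).trans (mul_right_cancel₀ hu0 ?_)
    rw [add_mul, ← e1, ← e2, zero_mul]
    exact add_eq_zero_iff_eq_neg.2 e3

end Vale.Agent.P269.Grr
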