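import Vale.Agent.P269.Grr.AltA

/-!
# Koszul complexes with values in spaces of functions: the abstract part
-/

namespace Vale.Agent.P269.Grr

open Set Function Module

section abs
variable {V S : Type*} [AddCommGroup V] [Module ℂ V] (p : S → V)

/-- the Koszul differential on forms with values in functions on `S` -/
noncomputable def dK (p : S → V) (j : ℕ) :
    (V [⋀^Fin (j + 1)]→ₗ[ℂ] (S → ℂ)) →ₗ[ℂ] (V [⋀^Fin j]→ₗ[ℂ] (S → ℂ)) where
  toFun α := AlternatingMap.pi fun s =>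
    (LinearMap.proj s : (S → ℂ) →ₗ[ℂ] ℂ).compAlternatingMap (α.curryLeft (p s))
  map_add' _ _ := rfl
  map_smul' _ _ := rfl

theorem dK_apply (j : ℕ) (α : V [⋀^Fin (j + 1)]→ₗ[ℂ] (S → ℂ)) (v : Fin j → V) (s : S) :
    dK p j α v s = α (Matrix.vecCons (p s) v) s := rfl

theorem dK_dK (j : ℕ) (α : V [⋀^Fin (j + 2)]→ₗ[ℂ] (S → ℂ)) : dK p j (dK p (j + 1) α) = 0 :=
  AlternatingMap.ext fun v => funext fun s => congrFun
    (α.map_eq_zero_of_eq (Matrix.vecCons (p s) (Matrix.vecCons (p s) v)) (i := 0) (j := 1) rfl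
      Fin.zero_ne_one) s

theorem dK_curry (j : ℕ) (α : V [⋀^Fin (j + 2)]→ₗ[ℂ] (S → ℂ)) (x : V) :
    (dK p (j + 1) α).curryLeft x = -dK p j (α.curryLeft x) :=
  AlternatingMap.ext fun v => funext fun s =>
    congrFun (DFunLike.congr_fun (curry_curryA α (p s) x) v) s

/-- cycles -/
noncomputable def ZK (W₀ : Submodule ℂ V) (N : Submodule ℂ (S → ℂ)) :
    ∀ j, Submodule ℂ (V [⋀^Fin j]→ₗ[ℂ] (S → ℂ))
  | 0 => altA W₀ N 0
  | j + 1 => altA W₀ N (j + 1) ⊓ LinearMap.ker (dK p j)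

/-- boundaries -/
noncomputable def BK (W₀ : Submodule ℂ V) (N : Submodule ℂ (S → ℂ)) (j : ℕ) :
    Submodule ℂ (V [⋀^Fin j]→ₗ[ℂ] (S → ℂ)) := (altA W₀ N (j + 1)).map (dK p j)

theorem ZK_le (W₀ : Submodule ℂ V) (N : Submodule ℂ (S → ℂ)) : ∀ j, ZK p W₀ N j ≤ altA W₀ N j
  | 0 => le_rfl
  | _ + 1 => inf_le_left

theorem BK_mono {W₀ W₁ : Submodule ℂ V} (h : W₀ ≤ W₁) (N : Submodule ℂ (S → ℂ)) (j : ℕ) :
    BK p W₁ N j ≤ BK p W₀ N j := Submodule.map_mono (altA_mono h le_rfl)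

theorem curry_mem_ZK {W₀ : Submodule ℂ V} {N : Submodule ℂ (S → ℂ)} (x : V) :
    ∀ {j} {α : V [⋀^Fin (j + 1)]→ₗ[ℂ] (S → ℂ)}, α ∈ ZK p W₀ N (j + 1) →
      α.curryLeft x ∈ ZK p (W₀ ⊔ ℂ ∙ x) N j
  | 0, _, h => curry_mem h.1 x
  | j + 1, α, h => ⟨curry_mem h.1 x, neg_eq_zero.1 (by
      rw [← dK_curry, show dK p (j + 1) α = 0 from h.2]
      rfl)⟩

namespace KZ

theorem ext_le {A A' : Type*} [AddCommGroup A] [Module ℂ A] [AddCommGroup A'] [Module ℂ A']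
    (φ : A →ₗ[ℂ] A') {Z B T' : Submodule ℂ A} {T'' : Submodule ℂ A'} [FiniteDimensional ℂ T']
    [FiniteDimensional ℂ T''] (hB : B ≤ Z) (h1 : Z ⊓ LinearMap.ker φ ≤ B ⊔ T')
    (h2 : Z.map φ ≤ B.map φ ⊔ T'') : ∃ T : Submodule ℂ A, FiniteDimensional ℂ T ∧
      finrank ℂ T ≤ finrank ℂ T' + finrank ℂ T'' ∧ Z ≤ B ⊔ T := by
  have := Submodule.finiteDimensional_of_le (inf_le_left : T'' ⊓ Z.map φ ≤ T'')
  obtain ⟨σ, hσ⟩ := Module.projective_lifting_property (φ.submoduleMap Z)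
    (Submodule.inclusion (inf_le_right : T'' ⊓ Z.map φ ≤ Z.map φ)) (φ.submoduleMap_surjective Z)
  refine ⟨T' ⊔ LinearMap.range (Z.subtype ∘ₗ σ), inferInstance,
    (Submodule.finrank_add_le_finrank_add_finrank _ _).trans (Nat.add_le_add_left
      ((LinearMap.finrank_range_le _).trans (Submodule.finrank_mono inf_le_left)) _),
    fun z hz => ?_⟩
  obtain ⟨_, ⟨b, hb, rfl⟩, t, ht, e⟩ := Submodule.mem_sup.1 (h2 (Submodule.mem_map_of_mem hz))
  have ht' : t ∈ T'' ⊓ Z.map φ := ⟨ht, z - b, sub_mem hz (hB hb), by rw [map_sub, ← e]; abel⟩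
  have e2 : φ (σ ⟨t, ht'⟩) = t := congrArg Subtype.val (LinearMap.congr_fun hσ ⟨t, ht'⟩)
  have h3 := h1 (x := z - b - σ ⟨t, ht'⟩) ⟨sub_mem (sub_mem hz (hB hb)) (σ _).2, by
    rw [SetLike.mem_coe, LinearMap.mem_ker, map_sub, map_sub, e2, ← e]; abel⟩
  rw [show z = z - b - σ ⟨t, ht'⟩ + b + σ ⟨t, ht'⟩ by abel, ← sup_assoc]
  exact add_mem (Submodule.mem_sup_left (add_mem h3 (Submodule.mem_sup_left hb)))
    (Submodule.mem_sup_right ⟨_, rfl⟩)

theorem comap_le {A A' : Type*} [AddCommGroup A] [Module ℂ A] [AddCommGroup A'] [Module ℂ A']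
    (φ : A →ₗ[ℂ] A') {U : Submodule ℂ A} (T : Submodule ℂ A') [FiniteDimensional ℂ T]
    (h : ∀ u ∈ U, φ u = 0 → u = 0) : FiniteDimensional ℂ (U ⊓ T.comap φ : Submodule ℂ A) ∧
      finrank ℂ (U ⊓ T.comap φ : Submodule ℂ A) ≤ finrank ℂ T := by
  have inj : Injective (φ.restrict (p := U ⊓ T.comap φ) (q := T) fun _ hx => hx.2) :=
    (injective_iff_map_eq_zero _).2 fun x hx =>
      Subtype.ext (h _ x.2.1 (congrArg Subtype.val hx))
  exact ⟨FiniteDimensional.of_injective _ inj, LinearMap.finrank_le_finrank_of_injective inj⟩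

variable {N : Type*} [AddCommGroup N] [Module ℂ N]

/-- a constant as a form of degree zero -/
noncomputable def cst (V : Type*) [AddCommGroup V] [Module ℂ V] (f : N) : V [⋀^Fin 0]→ₗ[ℂ] N :=
  AlternatingMap.constOfIsEmpty ℂ V (Fin 0) f

theorem cst_mem {W : Submodule ℂ V} {M : Submodule ℂ N} {f : N} (h : f ∈ M) :
    cst V f ∈ altA W M 0 := ⟨fun _ => h, fun _ i => i.elim0⟩

theorem wdg_cst (l : V →ₗ[ℂ] ℂ) (f : N) (v : Fin 1 → V) : wdgA l (cst V f) v = l (v 0) • f := by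
  simp [wdgA_apply, cst]

theorem wdg_wdg (l l' : V →ₗ[ℂ] ℂ) (f : N) (u v : V) :
    wdgA l (wdgA l' (cst V f)) ![u, v] = (l u * l' v - l v * l' u) • f := by
  rw [wdgA_apply, Fin.sum_univ_two, wdg_cst, wdg_cst, sub_smul, mul_smul, mul_smul]
  simp [sub_eq_add_neg, Fin.removeNth]

theorem curry_eq {l₁ l₂ : V →ₗ[ℂ] ℂ} {v₁ v₂ : V} (h11 : l₁ v₁ = 1) (h12 : l₁ v₂ = 0)
    (h21 : l₂ v₁ = 0) (h22 : l₂ v₂ = 1) {M : Submodule ℂ N} {j : ℕ}
    {α : V [⋀^Fin (j + 1)]→ₗ[ℂ] N} (h : α ∈ altA (LinearMap.ker l₁ ⊓ LinearMap.ker l₂) M (j + 1))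
    (u : V) (w : Fin j → V) : α (Matrix.vecCons u w) =
      l₁ u • α (Matrix.vecCons v₁ w) + l₂ u • α (Matrix.vecCons v₂ w) := by
  have h0 := h.2 (Matrix.vecCons (u - l₁ u • v₁ - l₂ u • v₂) w) 0
    ⟨by simp [h11, h12], by simp [h21, h22]⟩
  simp only [← AlternatingMap.curryLeft_apply_apply, map_sub, map_smul, AlternatingMap.sub_apply,
    AlternatingMap.smul_apply] at h0 ⊢
  rw [← sub_eq_zero, ← h0]
  abel

end KZ

open KZ

variable [FiniteDimensional ℂ V] {N N' : Submodule ℂ (S → ℂ)}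

theorem dK_mem (hmul : ∀ (l : V →ₗ[ℂ] ℂ), ∀ f ∈ N, (fun s => l (p s) * f s) ∈ N')
    {W₀ : Submodule ℂ V} {j : ℕ} {α : V [⋀^Fin (j + 1)]→ₗ[ℂ] (S → ℂ)}
    (h : α ∈ altA W₀ N (j + 1)) : dK p j α ∈ altA W₀ N' j := by
  refine ⟨fun v => ?_, fun v i hi => funext fun s => congrFun (h.2 _ i.succ hi) s⟩
  let b := finBasis ℂ V
  have e : dK p j α v = ∑ k, fun s => b.coord k (p s) * α (Matrix.vecCons (b k) v) s := by
    funext s
    let φ : V →ₗ[ℂ] ℂ :=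
      { toFun := fun u => α.curryLeft u v s
        map_add' := fun _ _ => by rw [map_add]; rfl
        map_smul' := fun _ _ => by rw [map_smul]; rfl }
    change φ (p s) = _
    conv_lhs => rw [← b.sum_repr (p s), map_sum]
    rw [Finset.sum_apply]
    exact Finset.sum_congr rfl fun k _ => map_smul φ _ _
  rw [e]
  exact sum_mem fun k _ => hmul _ _ (h.1 _)

theorem BK_le (hmul : ∀ (l : V →ₗ[ℂ] ℂ), ∀ f ∈ N, (fun s => l (p s) * f s) ∈ N')
    (W₀ : Submodule ℂ V) : ∀ j, BK p W₀ N j ≤ ZK p W₀ N' j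
  | 0 => by rintro _ ⟨α, h, rfl⟩; exact dK_mem p hmul h
  | j + 1 => by rintro _ ⟨α, h, rfl⟩; exact ⟨dK_mem p hmul h, dK_dK p j α⟩

theorem dK_inj {W₀ : Submodule ℂ V} (hp : ∀ s, p s ∉ W₀) {j : ℕ}
    (hj : finrank ℂ W₀ + j + 1 = finrank ℂ V) {α : V [⋀^Fin (j + 1)]→ₗ[ℂ] (S → ℂ)}
    (hα : α ∈ altA W₀ N (j + 1)) (h0 : dK p j α = 0) : α = 0 := by
  refine AlternatingMap.ext fun v => funext fun s => ?_
  have h1 : (LinearMap.proj s : (S → ℂ) →ₗ[ℂ] ℂ).compAlternatingMap α ∈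
      altA (W₀ ⊔ ℂ ∙ p s) ⊤ (j + 1) := mem_altA_sup.2 ⟨⟨fun _ => trivial, fun v i hi =>
    congrFun (hα.2 v i hi) s⟩, AlternatingMap.ext fun w => congrFun (DFunLike.congr_fun h0 w) s⟩
  exact DFunLike.congr_fun (eq_zero_of_lt h1 (by
    rw [Submodule.finrank_sup_span_singleton (hp s)]; omega)) v

theorem homology_le [FiniteDimensional ℂ N']
    (hmul : ∀ (l : V →ₗ[ℂ] ℂ), ∀ f ∈ N, (fun s => l (p s) * f s) ∈ N')
    {l₁ l₂ : V →ₗ[ℂ] ℂ} (hl : LinearIndependent ℂ ![l₁, l₂]) {W₀ : Submodule ℂ V}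
    (h₁ : ∀ v ∈ W₀, l₁ v = 0) (h₂ : ∀ v ∈ W₀, l₂ v = 0) {e : ℕ} (j : ℕ)
    (P0 : finrank ℂ W₀ + j + 2 ≤ finrank ℂ V → ∃ T : Submodule ℂ (S → ℂ), FiniteDimensional ℂ T ∧
      finrank ℂ T ≤ e ∧ ∀ f ∈ N', ∃ a ∈ N, ∃ b ∈ N,
        (fun s => f s - l₁ (p s) * a s - l₂ (p s) * b s) ∈ T)
    (P1 : ∃ T : Submodule ℂ ((S → ℂ) × (S → ℂ)), FiniteDimensional ℂ T ∧ finrank ℂ T ≤ e ∧
      ∀ a ∈ N', ∀ b ∈ N', (∀ s, l₁ (p s) * a s + l₂ (p s) * b s = 0) → ∃ f ∈ N,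
        (fun s => a s - l₂ (p s) * f s, fun s => b s + l₁ (p s) * f s) ∈ T)
    (P2 : ∀ f ∈ N', (∀ s, l₁ (p s) * f s = 0) → f = 0) :
    ∃ T : Submodule ℂ (V [⋀^Fin j]→ₗ[ℂ] (S → ℂ)), FiniteDimensional ℂ T ∧
      finrank ℂ T ≤ e * (finrank ℂ V - finrank ℂ W₀ - 1).choose j ∧
      ZK p W₀ N' j ≤ BK p W₀ N j ⊔ T := by
  have hs : Surjective (l₁.prod l₂) := by
    rw [← LinearMap.range_eq_top, ← Submodule.dualAnnihilator_eq_bot_iff, eq_bot_iff]
    intro φ hφ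
    have h0 := LinearIndependent.pair_iff.1 hl (φ (1, 0)) (φ (0, 1)) (LinearMap.ext fun v => by
      have := (Submodule.mem_dualAnnihilator φ).1 hφ _ ⟨v, rfl⟩
      rw [show l₁.prod l₂ v = l₁ v • (1, 0) + l₂ v • (0, 1) by simp, map_add, map_smul,
        map_smul] at this
      simpa [mul_comm] using this)
    exact LinearMap.ext fun w => by
      rw [show w = w.1 • (1, 0) + w.2 • (0, 1) by simp, map_add, map_smul, map_smul, h0.1, h0.2]
      simp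
  obtain ⟨v₁, e₁⟩ := hs (1, 0)
  obtain ⟨v₂, e₂⟩ := hs (0, 1)
  obtain ⟨h11, h21⟩ : l₁ v₁ = 1 ∧ l₂ v₁ = 0 := Prod.ext_iff.1 e₁
  obtain ⟨h12, h22⟩ : l₁ v₂ = 0 ∧ l₂ v₂ = 1 := Prod.ext_iff.1 e₂
  have hK : finrank ℂ (LinearMap.ker l₁ ⊓ LinearMap.ker l₂ : Submodule ℂ V) + 2 = finrank ℂ V := by
    have := LinearMap.finrank_range_add_finrank_ker (l₁.prod l₂)
    rw [LinearMap.range_eq_top.2 hs, LinearMap.ker_prod, finrank_top] at this
    simp only [finrank_prod, finrank_self] at this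
    omega
  obtain ⟨T₁, f₁, r₁, P1⟩ := P1
  generalize hn : finrank ℂ V - finrank ℂ W₀ = n
  induction n using Nat.strong_induction_on generalizing W₀ j with
  | _ n ih =>
  have hle : W₀ ≤ LinearMap.ker l₁ ⊓ LinearMap.ker l₂ := fun v hv => ⟨h₁ v hv, h₂ v hv⟩
  have hr := Submodule.finrank_mono hle
  rcases j with _ | j
  · obtain ⟨T, f0, r0, P0⟩ := P0 (by omega)
    let ev : (V [⋀^Fin 0]→ₗ[ℂ] (S → ℂ)) →ₗ[ℂ] (S → ℂ) :=
      { toFun := fun α => α 0, map_add' := fun _ _ => rfl, map_smul' := fun _ _ => rfl }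
    obtain ⟨a1, a2⟩ := comap_le ev (U := ⊤) T fun u _ h =>
      AlternatingMap.ext fun v => by rw [Subsingleton.elim v 0]; exact h
    refine ⟨_, a1, by simpa using a2.trans r0, fun α hα => ?_⟩
    obtain ⟨a, ha, b, hb, hT⟩ := P0 _ (hα.1 0)
    have hβ := add_mem (wdgA_mem h₁ (cst_mem ha)) (wdgA_mem h₂ (cst_mem hb))
    refine Submodule.mem_sup.2 ⟨_, ⟨_, hβ, rfl⟩, _, ⟨trivial, ?_⟩, add_sub_cancel _ α⟩
    refine (congrArg (· ∈ T) (funext fun s => ?_)).mpr hT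
    change α 0 s - dK p 0 _ 0 s = _
    rw [dK_apply, AlternatingMap.add_apply, wdg_cst, wdg_cst]
    simp [sub_sub]
  rcases hle.eq_or_lt with rfl | hlt
  · rcases j with _ | _ | j
    · let ev : (V [⋀^Fin 1]→ₗ[ℂ] (S → ℂ)) →ₗ[ℂ] (S → ℂ) × (S → ℂ) :=
        { toFun := fun α => (α ![v₁], α ![v₂]), map_add' := fun _ _ => rfl,
          map_smul' := fun _ _ => rfl }
      obtain ⟨a1, a2⟩ := comap_le ev (U := altA (LinearMap.ker l₁ ⊓ LinearMap.ker l₂) ⊤ 1) T₁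
        fun u hu h => AlternatingMap.ext fun v => by
          rw [show v = ![v 0] from funext fun i => by rw [Subsingleton.elim i 0]; rfl,
            curry_eq h11 h12 h21 h22 hu, show u ![v₁] = 0 from congrArg Prod.fst h,
            show u ![v₂] = 0 from congrArg Prod.snd h]
          simp
      have hn1 : n - 1 = 1 := by clear P0; omega
      refine ⟨_, a1, (a2.trans r₁).trans (by simp [hn1]), fun α hα => ?_⟩
      obtain ⟨f, hf, hT⟩ := P1 _ (hα.1.1 ![v₁]) _ (hα.1.1 ![v₂]) fun s => by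
        have := congrFun (DFunLike.congr_fun (show dK p 0 α = 0 from hα.2) ![]) s
        rwa [dK_apply, curry_eq h11 h12 h21 h22 hα.1] at this
      have hβ := wdgA_mem h₂ (wdgA_mem h₁ (cst_mem hf))
      refine Submodule.mem_sup.2 ⟨_, ⟨_, hβ, rfl⟩, _, ⟨altA_mono le_rfl le_top
        (sub_mem hα.1 (dK_mem p hmul hβ)), ?_⟩, add_sub_cancel _ α⟩
      refine (congrArg (· ∈ T₁) (Prod.ext ?_ ?_)).mpr hT <;> funext s
      · change α _ s - dK p 1 _ ![v₁] s = _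
        rw [dK_apply, wdg_wdg]
        simp [h11, h21]
      · change α _ s - dK p 1 _ ![v₂] s = _
        rw [dK_apply, wdg_wdg]
        simp [h12, h22]
    · refine ⟨⊥, inferInstance, by simp, fun α hα => ?_⟩
      have z1 : α ![v₁, v₁] = 0 := α.map_eq_zero_of_eq _ (i := 0) (j := 1) rfl Fin.zero_ne_one
      have z2 : α ![v₂, v₂] = 0 := α.map_eq_zero_of_eq _ (i := 0) (j := 1) rfl Fin.zero_ne_one
      have z3 : α ![v₁, v₂] = 0 := P2 _ (hα.1.1 _) fun s => by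
        have := congrFun (DFunLike.congr_fun (show dK p 1 α = 0 from hα.2) ![v₂]) s
        rw [dK_apply, curry_eq h11 h12 h21 h22 hα.1, z2] at this
        simpa using this
      have z4 : α ![v₂, v₁] = 0 := by
        have := DFunLike.congr_fun (curry_curryA α v₂ v₁) ![]
        exact this.trans (neg_eq_zero.2 z3)
      have z5 : ∀ x, α ![x, v₁] = 0 → α ![x, v₂] = 0 → ∀ w, α ![x, w] = 0 := fun x a b w => by
        have := curry_eq h11 h12 h21 h22 (altA_mono le_sup_left le_rfl (curry_mem hα.1 x)) w ![]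
        simp only [AlternatingMap.curryLeft_apply_apply] at this
        rw [this, a, b, smul_zero, smul_zero, add_zero]
      rw [show α = 0 from AlternatingMap.ext fun v => by
        rw [show v = ![v 0, v 1] from funext fun i => by fin_cases i <;> rfl,
          curry_eq h11 h12 h21 h22 hα.1, z5 _ z1 z3, z5 _ z4 z2]
        simp]
      exact zero_mem _
    · refine ⟨⊥, inferInstance, by simp, fun α hα => ?_⟩
      rw [eq_zero_of_lt hα.1 (by omega)]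
      exact zero_mem _
  · obtain ⟨x, hx, hx'⟩ := SetLike.exists_of_lt hlt
    have hr' := Submodule.finrank_lt_finrank_of_lt hlt
    have hr1 := Submodule.finrank_sup_span_singleton hx'
    have k : ∀ l : V →ₗ[ℂ] ℂ, (∀ v ∈ W₀, l v = 0) → l x = 0 → ∀ v ∈ W₀ ⊔ ℂ ∙ x, l v = 0 :=
      fun l a b => sup_le (c := LinearMap.ker l) a ((Submodule.span_singleton_le_iff_mem _ _).2 b)
    have n1 : n - 1 = n - 1 - 1 + 1 := by clear P0; omega
    have n2 : finrank ℂ V - finrank ℂ (W₀ ⊔ ℂ ∙ x : Submodule ℂ V) = n - 1 := by clear P0; omega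
    have n3 : n - 1 < n := by clear P0; omega
    obtain ⟨T', a1, a2, a3⟩ := ih (n - 1) n3 (k _ h₁ hx.1) (k _ h₂ hx.2) (j + 1)
      (fun h => P0 (by clear P0; omega)) n2
    obtain ⟨T'', b1, b2, b3⟩ := ih (n - 1) n3 (k _ h₁ hx.1) (k _ h₂ hx.2) j
      (fun h => P0 (by clear P0; omega)) n2
    obtain ⟨T, c1, c2, c3⟩ := ext_le (AlternatingMap.curryLeftLinearMap.flip x)
      (BK_le p hmul W₀ (j + 1)) (T' := T') (T'' := T'')
      (fun α hα => sup_le_sup_right (BK_mono p le_sup_left N _) _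
        (a3 ⟨mem_altA_sup.2 ⟨hα.1.1, hα.2⟩, hα.1.2⟩))
      (by
        rintro _ ⟨α, hα, rfl⟩
        refine SetLike.le_def.1 (sup_le_sup_right ?_ _) (b3 (curry_mem_ZK p x hα))
        rintro _ ⟨β, hβ, rfl⟩
        obtain ⟨α, hα, rfl⟩ := exists_curry_eq hx' hβ
        exact ⟨-dK p (j + 1) α, neg_mem ⟨α, hα, rfl⟩,
          (map_neg _ _).trans (neg_eq_iff_eq_neg.2 (dK_curry p j α x))⟩)
    refine ⟨T, c1, c2.trans ((add_le_add a2 b2).trans (le_of_eq ?_)), c3⟩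
    conv_rhs => rw [n1, Nat.choose_succ_succ, mul_add, add_comm]

end abs

end Vale.Agent.P269.Grr
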