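import Vale.Agent.P269.Grr.KD

/-!
# Koszul complexes of bundles of sections
-/

namespace Vale.Agent.P269.Grr

open Set Function Topology Filter Module Vale.Agent.P291Z Vale.Agent.P269.Ch Vale.Agent.P269.Holo
  Vale.Agent.P269.Loc Vale.Agent.P269.Base PowerSeries

namespace CF

variable {ι : Type} [Fintype ι] [DecidableEq ι] {U : HO} {M : ι → ℕ} {o : ι} {g : ℤ} {m : ι → ℤ}
  {F : CF U M o g m} {a : ι → ℕ} {E : ℕ → VB U.toSp} {ev : ∀ k, F.UT → (E k).W →ₗ[ℂ] ℂ}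
  {Y : Ch.Sp} {p : Mor Y U.toSp}

set_option linter.unusedSectionVars false

section psi
variable {D : VB U.toSp} {e : F.UT → D.W →ₗ[ℂ] ℂ} {χ : U.G →ₜ* ℂˣ} (h : F.IsH0 a χ D e)
  (S : F.SB p) {j : ℕ} {y : Y.T}

theorem kΨ_ev (α : (S.vb.alt (D.pb p) j).W) (v : Fin j → Fin (M o) → ℂ) (x : F.UT)
    (hx : x.t = p.f y) : kΨ S e j y α v ⟨x.c, hx ▸ x.mem⟩ = e x (alv α v) :=
  congrArg (fun z => e z (alv α v)) (UT.ext hx.symm rfl)

include h

theorem kΨ_mem {α : (S.vb.alt (D.pb p) j).W} (hα : α ∈ (S.vb.alt (D.pb p) j).F y) :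
    kΨ S e j y α ∈ altA (S.W y) (Hs (F.C (p.f y)) a) j :=
  ⟨fun v => h.sL_mem (hα.1 v), fun v i hi =>
    (congrArg (sL e (p.f y)) (hα.2 v i hi)).trans (map_zero _)⟩

theorem kΨ_inj {α : (S.vb.alt (D.pb p) j).W} (hα : α ∈ (S.vb.alt (D.pb p) j).F y)
    (h0 : kΨ S e j y α = 0) : α = 0 :=
  alv_ext fun v => h.inj _ _ (hα.1 v) fun c => congrFun (DFunLike.congr_fun h0 v) c

theorem kΨ_surj {β : (Fin (M o) → ℂ) [⋀^Fin j]→ₗ[ℂ] (F.C (p.f y) → ℂ)}
    (hβ : β ∈ altA (S.W y) (Hs (F.C (p.f y)) a) j) :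
    ∃ α ∈ (S.vb.alt (D.pb p) j).F y, kΨ S e j y α = β := by
  obtain ⟨q, hq⟩ := h.exists_lift
  exact ⟨ala _ _ (toC (Fin (M o) → ℂ) D.W j ((q _).compAlternatingMap β)),
    ⟨fun v => (hq _ _ (hβ.1 v)).1, fun v i hi =>
      (congrArg (q _) (hβ.2 v i hi)).trans (map_zero _)⟩,
    AlternatingMap.ext fun v => (hq _ _ (hβ.1 v)).2⟩

end psi

/-- the differential as a homomorphism of bundles -/
theorem exists_d {D D' : VB U.toSp} {e : F.UT → D.W →ₗ[ℂ] ℂ} {e' : F.UT → D'.W →ₗ[ℂ] ℂ}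
    {b b' : ι → ℕ} (h : F.IsH0 b 1 D e) (h' : F.IsH0 b' 1 D' e') (hb : b' ≠ 0) (S : F.SB p) (j : ℕ)
    (hm : ∀ y, ∀ β ∈ altA (S.W y) (Hs (F.C (p.f y)) b) (j + 1),
      dK (fun c : F.C (p.f y) => c.1 o) j β ∈ altA (S.W y) (Hs (F.C (p.f y)) b') j) :
    ∃ d : Y.T → (S.vb.alt (D.pb p) (j + 1)).W →ₗ[ℂ] (S.vb.alt (D'.pb p) j).W,
      Ch.Hom (Mor.id Y) (S.vb.alt (D.pb p) (j + 1)) (S.vb.alt (D'.pb p) j) d ∧
      ∀ y, ∀ α ∈ (S.vb.alt (D.pb p) (j + 1)).F y, kΨ S e' j y (d y α) =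
        dK (fun c : F.C (p.f y) => c.1 o) j (kΨ S e (j + 1) y α) := by
  obtain ⟨q, hq⟩ := h'.exists_lift
  let d : Y.T → (S.vb.alt (D.pb p) (j + 1)).W →ₗ[ℂ] (S.vb.alt (D'.pb p) j).W := fun y =>
    { toFun := fun α => ala _ _ (toC (Fin (M o) → ℂ) D'.W j ((q _).compAlternatingMap
        (dK (fun c : F.C (p.f y) => c.1 o) j (kΨ S e (j + 1) y α))))
      map_add' := fun α β => alv_ext fun v => by
        rw [map_add, map_add]
        exact map_add (q _) _ _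
      map_smul' := fun c α => alv_ext fun v => by
        rw [map_smul, map_smul]
        exact map_smul (q _) _ _ }
  have h1 : ∀ y, ∀ α ∈ (S.vb.alt (D.pb p) (j + 1)).F y, d y α ∈ (S.vb.alt (D'.pb p) j).F y :=
    fun y α hα => ⟨fun v => (hq _ _ ((hm y _ (kΨ_mem h S hα)).1 v)).1, fun v i hi =>
      (congrArg (q _) ((hm y _ (kΨ_mem h S hα)).2 v i hi)).trans (map_zero _)⟩
  have h2 : ∀ y, ∀ α ∈ (S.vb.alt (D.pb p) (j + 1)).F y, kΨ S e' j y (d y α) =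
      dK (fun c : F.C (p.f y) => c.1 o) j (kΨ S e (j + 1) y α) := fun y α hα =>
    AlternatingMap.ext fun v => (hq _ _ ((hm y _ (kΨ_mem h S hα)).1 v)).2
  have h3 : ∀ y, ∀ α ∈ (S.vb.alt (D.pb p) (j + 1)).F y, ∀ (v : Fin j → Fin (M o) → ℂ) (x : F.UT),
      x.t = p.f y → e' x (alv (d y α) v) = e x (alv α (Matrix.vecCons (x.c o) v)) :=
    fun y α hα v x hx => by
      rw [← kΨ_ev S _ v x hx, h2 y α hα, dK_apply]
      exact kΨ_ev S α _ x hx
  refine ⟨d, hom_alt h1 (fun v => continuous_iff_continuousAt.2 fun z₀ => h'.continuousAt hb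
    (τ := fun z : (S.vb.alt (D.pb p) (j + 1)).V => p.f z.1.1) (p.cf.comp (by fun_prop)).continuousAt
    (.of_forall fun z => (h1 _ _ z.2).1 v) fun x hx hτ => ?_) fun s y α v hα => ?_, h2⟩
  · refine (h.continuousAt_ev (w := fun z : (S.vb.alt (D.pb p) (j + 1)).V =>
      alv z.1.2 (Matrix.vecCons ((x z).c o) v)) hx ?_ (hτ.mono fun z hz => ?_)).congr
        (hτ.mono fun z hz => (h3 _ _ z.2 v _ hz).symm)
    · have h4 : ContinuousAt (fun z : (S.vb.alt (D.pb p) (j + 1)).V => alv z.1.2) z₀ :=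
        (continuous_alv.comp (continuous_snd.comp continuous_subtype_val)).continuousAt
      have h5 : ContinuousAt (fun z => Matrix.vecCons ((x z).c o) v) z₀ :=
        (((continuous_apply o).comp UT.continuous_c).continuousAt.comp hx).matrixVecCons
          continuousAt_const
      exact h4.eval h5
    · rw [hz]
      exact z.2.1 _
  · have h4 := (h1 _ _ ((S.vb.alt (D.pb p) (j + 1)).inv s y α hα)).1 fun i => s • v i
    have h5 := (D'.pb p).inv s y _ ((h1 _ _ hα).1 v)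
    refine h'.ext h4 h5 fun x hx => ?_
    obtain ⟨x, rfl⟩ := MulAction.surjective ((p.ρ s, 1) : U.G × Tor ι) x
    have hx' : x.t = p.f y := MulAction.injective (p.ρ s) (hx.trans (p.eqv s y))
    have h6 : (fun i => s⁻¹ • (Matrix.vecCons ((((p.ρ s, 1) : U.G × Tor ι) • x).c o)
        fun i => s • v i : Fin (j + 1) → S.vb.W) i) = Matrix.vecCons (x.c o) v := by
      funext i
      refine inv_smul_eq_iff.2 (Fin.cases ?_ (fun _ => rfl) i)
      exact one_smul ℂ (F.ρ (p.ρ s) o (x.c o))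
    refine (h3 _ _ ((S.vb.alt (D.pb p) (j + 1)).inv s y α hα) _ _ hx).trans ?_
    refine ((congrArg (fun u => e _ (p.ρ s • (show D.W from alv α u))) h6).trans
      (h.ev_smul (p.ρ s, 1) x (hx'.symm ▸ hα.1 _))).trans ?_
    refine Eq.trans ?_ (h'.ev_smul (p.ρ s, 1) x (hx'.symm ▸ (h1 _ _ hα).1 v)).symm
    rw [F.coe_lb_inl, F.coe_lb_inl]
    exact congrArg _ (h3 y α hα v x hx').symm

theorem dK_mem_of (S : F.SB p) {n : ℕ} (hn : M o - S.s ≤ n) (a : ι → ℕ) (j : ℕ) (y : Y.T) :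
    ∀ β ∈ altA (S.W y) (Hs (F.C (p.f y)) (a + (n - (j + 1)) • Pi.single o 1)) (j + 1),
      dK (fun c : F.C (p.f y) => c.1 o) j β ∈
        altA (S.W y) (Hs (F.C (p.f y)) (a + (n - j) • Pi.single o 1)) j := fun β hβ => by
  by_cases hj : j + 1 ≤ n
  · rw [show n - j = n - (j + 1) + 1 by omega]
    exact dK_mem _ (Hs_mul _) hβ
  · rw [eq_zero_of_lt hβ (by rw [S.rank, Module.finrank_fin_fun]; omega), map_zero]
    exact zero_mem _

theorem HF.exists_d (h : F.HF a E ev) (S : F.SB p) {n : ℕ} (hn : M o - S.s ≤ n) (j : ℕ) :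
    ∃ d : Y.T → (S.vb.alt ((E (n - (j + 1))).pb p) (j + 1)).W →ₗ[ℂ]
        (S.vb.alt ((E (n - j)).pb p) j).W,
      Ch.Hom (Mor.id Y) (S.vb.alt ((E (n - (j + 1))).pb p) (j + 1))
        (S.vb.alt ((E (n - j)).pb p) j) d ∧
      ∀ y, ∀ α ∈ (S.vb.alt ((E (n - (j + 1))).pb p) (j + 1)).F y, kΨ S (ev (n - j)) j y (d y α) =
        dK (fun c : F.C (p.f y) => c.1 o) j (kΨ S (ev (n - (j + 1))) (j + 1) y α) :=
  CF.exists_d (h.h _) (h.h _) (add_ne h.ne _) S j (dK_mem_of S hn a j)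

/-- the Koszul complex of the forms on `V / S` with values in sections -/
noncomputable def kos (h : F.HF a E ev) (S : F.SB p) (n : ℕ) (hn : M o - S.s ≤ n) : Cx Y where
  n := M o - S.s
  E j := S.vb.alt ((E (n - j)).pb p) j
  d j := (h.exists_d S hn j).choose
  hom j := (h.exists_d S hn j).choose_spec.1
  dd j y α hα := by
    have h1 := (h.exists_d S hn (j + 1)).choose_spec.1.mem y α hα
    refine kΨ_inj (y := y) (h.h _) S ((h.exists_d S hn j).choose_spec.1.mem y _ h1) ?_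
    rw [(h.exists_d S hn j).choose_spec.2 y _ h1, (h.exists_d S hn (j + 1)).choose_spec.2 y α hα,
      dK_dK]
  top j hj := by
    have h1 : finrank ℂ S.vb.W = M o := Module.finrank_fin_fun ℂ
    rw [alt_r, h1, show S.vb.r = S.s from rfl, Nat.choose_eq_zero_of_lt hj, zero_mul]

variable (h : F.HF a E ev) (S : F.SB p) {n : ℕ} (hn : M o - S.s ≤ n) {j : ℕ} {y : Y.T}

theorem kos_d {α : ((kos h S n hn).E (j + 1)).W} (hα : α ∈ ((kos h S n hn).E (j + 1)).F y) :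
    kΨ S (ev (n - j)) j y ((kos h S n hn).d j y α) =
      dK (fun c : F.C (p.f y) => c.1 o) j (kΨ S (ev (n - (j + 1))) (j + 1) y α) :=
  (h.exists_d S hn j).choose_spec.2 y α hα

theorem mem_Zy {α : ((kos h S n hn).E j).W} (hα : α ∈ ((kos h S n hn).E j).F y) :
    α ∈ (kos h S n hn).Zy j y ↔ kΨ S (ev (n - j)) j y α ∈ ZK (fun c : F.C (p.f y) => c.1 o) (S.W y)
      (Hs (F.C (p.f y)) (a + (n - j) • Pi.single o 1)) j := by
  cases j with
  | zero => exact iff_of_true hα (kΨ_mem (h.h _) S hα)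
  | succ j =>
    refine ⟨fun h1 => ⟨kΨ_mem (h.h _) S hα, (kos_d h S hn hα).symm.trans ?_⟩, fun h1 => ⟨hα,
      kΨ_inj (h.h _) S (((kos h S n hn).hom j).mem y α hα) ((kos_d h S hn hα).trans h1.2)⟩⟩
    exact (congrArg (kΨ S (ev (n - j)) j y) h1.2).trans (map_zero _)

theorem mem_Bd {α : ((kos h S n hn).E j).W} (hα : α ∈ ((kos h S n hn).E j).F y) :
    α ∈ (kos h S n hn).Bd j y ↔ kΨ S (ev (n - j)) j y α ∈ BK (fun c : F.C (p.f y) => c.1 o) (S.W y)
      (Hs (F.C (p.f y)) (a + (n - (j + 1)) • Pi.single o 1)) j := by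
  constructor
  · rintro ⟨β, hβ, rfl⟩
    exact ⟨_, kΨ_mem (h.h _) S hβ, (kos_d h S hn hβ).symm⟩
  · rintro ⟨γ, hγ, e⟩
    obtain ⟨β, hβ, rfl⟩ := kΨ_surj (h.h _) S hγ
    refine ⟨β, hβ, sub_eq_zero.1 (kΨ_inj (h.h (n - j)) S
      (sub_mem (((kos h S n hn).hom j).mem y β hβ) hα) ?_)⟩
    exact (map_sub (kΨ S (ev (n - j)) j y) _ _).trans
      (sub_eq_zero.2 ((kos_d h S hn hβ).trans e))

theorem kos_ex (hs : S.s + 2 ≤ M o) (h0 : ∀ c ∈ F.C (p.f y), c o ∉ S.W y) :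
    (kos h S n hn).Ex y := fun j α hα => by
  have h1 : α ∈ ((kos h S n hn).E j).F y := by
    cases j with
    | zero => exact hα
    | succ j => exact hα.1
  have h2 := (mem_Zy h S hn h1).1 hα
  refine (mem_Bd h S hn h1).2 ?_
  have hr := S.rank y
  by_cases hj : j + 1 ≤ n
  · rw [show a + (n - j) • Pi.single o 1 = a + (n - (j + 1) + 1) • Pi.single o 1 by
      rw [show n - j = n - (j + 1) + 1 by omega]] at h2
    exact koszul_exact (F.crv _) h.ne (by omega) h0 j _ (by omega) h2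
  · obtain ⟨j, rfl⟩ : ∃ k, j = k + 1 := ⟨j - 1, by omega⟩
    have h3 : kΨ S (ev (n - (j + 1))) (j + 1) y α = 0 := by
      by_cases hj' : S.s + j + 1 = M o
      · exact dK_inj (fun c : F.C (p.f y) => c.1 o) (fun c => h0 c.1 c.2)
          (by rw [hr, Module.finrank_fin_fun]; exact hj') h2.1 h2.2
      · exact eq_zero_of_lt h2.1 (by rw [hr, Module.finrank_fin_fun]; omega)
    rw [h3]
    exact zero_mem _

theorem bei_ex {n : ℕ} (hn : M o - F.sbT.s ≤ n) {y : F.P.T} (hy : y ∉ F.Z) :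
    (kos h F.sbT n hn).Ex y := by
  refine kos_ex h F.sbT hn F.three fun c hc h1 => hy (F.mem_Z.2 ?_)
  obtain ⟨s, hs⟩ := Submodule.mem_span_singleton.1 h1
  have h2 : s ≠ 0 := fun e => (F.crv _).ne_zero c hc o (by rw [← hs, e, zero_smul])
  refine ⟨(fun _ => s⁻¹ : ι → ℂ) • c, (F.crv _).cone _ (fun _ => inv_ne_zero h2) c hc, ?_⟩
  show s⁻¹ • c o = _
  rw [← hs, inv_smul_smul₀ h2]

/-- evaluation identifies the zeroth homology along the curve -/
theorem bei_quo {n : ℕ} (hn : M o - F.sbT.s ≤ n) :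
    ∃ B : F.UT → ((kos h F.sbT n hn).E 0).W →ₗ[ℂ] ℂ,
      Ch.Hom (Mor.id F.US) (((kos h F.sbT n hn).E 0).pb (F.iC.comp F.toCv))
        (char (F.lb 1 (a + n • Pi.single o 1))) B ∧
      (∀ (x : F.UT) (z : ℂ), ∃ w ∈ ((kos h F.sbT n hn).E 0).F (x.p o), B x w = z) ∧
      ∀ x : F.UT, ∀ w ∈ (kos h F.sbT n hn).Bd 0 (x.p o), B x w = 0 := by
  let A : (F.sbT.vb.alt ((E n).pb (F.Vb o).pp) 0).W →ₗ[ℂ] (E n).W :=
    { toFun := fun α => alv α ![]
      map_add' := fun _ _ => rfl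
      map_smul' := fun _ _ => rfl }
  refine ⟨fun x => ev n x ∘ₗ A, ⟨fun _ _ _ => trivial, ?_,
    fun (s : U.G × Tor ι) (x : F.UT) w hw => ?_⟩, fun x z => ?_, ?_⟩
  · exact (h.h n).hom.continuous (continuous_fst.comp continuous_subtype_val)
      (A.continuous_of_finiteDimensional.comp (continuous_snd.comp continuous_subtype_val))
      fun z => z.2.1 _
  · refine Eq.trans (congrArg (fun u => ev n (s • x) (s.1 • (show (E n).W from
      alv (S := F.sbT.vb) (E := (E n).pb (F.Vb o).pp) w u))) (Subsingleton.elim _ ![])) ?_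
    exact (h.h n).ev_smul s x (hw.1 _)
  · obtain ⟨μ, hμ⟩ := exists_val_one (a := a + n • Pi.single o 1) x.ne
    obtain ⟨α, h1, h2⟩ := kΨ_surj (h.h n) F.sbT (y := x.p o)
      (KZ.cst_mem (f := resL _ _ (z • μ)) ⟨_, rfl⟩)
    refine ⟨α, h1, (kΨ_ev F.sbT (y := x.p o) α ![] x rfl).symm.trans ?_⟩
    rw [h2]
    show z * val μ x.c = z
    rw [hμ, mul_one]
  · rintro x _ ⟨β, hβ, rfl⟩
    refine (kΨ_ev F.sbT (y := x.p o) _ ![] x rfl).symm.trans ?_
    refine (congrFun (DFunLike.congr_fun (kos_d h F.sbT hn hβ) ![]) _).trans ?_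
    exact congrFun ((kΨ_mem (h.h _) F.sbT hβ).2 _ 0 (Submodule.mem_span_singleton_self _)) _

end CF

end Vale.Agent.P269.Grr
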