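import Vale.Agent.P269.Grr.Bl

/-!
# Linearisation of a complex along the zero set of a section
-/

namespace Vale.Agent.P269.Grr

open Set Function Topology Filter Module Vale.Agent.P291Z Vale.Agent.P269.Ch PowerSeries

variable {Y Y' : Ch.Sp} {K : Cx Y} {N : VB Y} {σ : Y.T → N.W} {Z : SubMulAction Y.G Y.T}

namespace LinP

theorem al_eq_zero {c j : ℕ} (h : c < j) (κ : Al c j) : κ = 0 :=
  (finrank_zero_iff_forall_zero.1 ((finrank_Al c j).trans (Nat.choose_eq_zero_of_lt h))) κ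

theorem tendsto_curry {α : Type*} {l : Filter α} {c j : ℕ} {k : α → Al c (j + 1)}
    {n : α → Fin c → ℂ} {κ : Al c (j + 1)} {v : Fin c → ℂ} (hk : Tendsto k l (𝓝 κ))
    (hn : Tendsto n l (𝓝 v)) : Tendsto (fun a => (k a).curryLeft (n a)) l (𝓝 (κ.curryLeft v)) :=
  tendsto_alt.2 fun _ => hk.eval (hn.matrixVecCons tendsto_const_nhds)

theorem tendsto_clm {α : Type*} {l : Filter α} {V W : Type*} [NormedAddCommGroup V]
    [NormedSpace ℂ V] [NormedAddCommGroup W] [NormedSpace ℂ W] {f : α → V →L[ℂ] W} {v : α → V}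
    {f₀ : V →L[ℂ] W} {v₀ : V} (hf : Tendsto f l (𝓝 f₀)) (hv : Tendsto v l (𝓝 v₀)) :
    Tendsto (fun a => f a (v a)) l (𝓝 (f₀ v₀)) :=
  ((continuous_fst.clm_apply continuous_snd).tendsto (f₀, v₀)).comp (hf.prodMk_nhds hv)

theorem curry_self {c j : ℕ} (κ : Al c (j + 2)) (n : Fin c → ℂ) :
    (κ.curryLeft n).curryLeft n = 0 := by
  have := Al.curry_curry κ n n
  rwa [eq_neg_iff_add_eq_zero, ← two_smul ℂ, smul_eq_zero, or_iff_right two_ne_zero] at this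

/-- a complex that is isomorphic to the Koszul complex of a nonzero vector is exact -/
theorem ex_of_model {L : Cx Y'} {t : Y'.T} {c : ℕ} {φ : ∀ j, Al c j →L[ℂ] (L.E j).W}
    (inj : ∀ j, Injective (φ j)) (mem : ∀ j w, w ∈ (L.E j).F t ↔ ∃ κ, φ j κ = w) {n : Fin c → ℂ}
    (hn : n ≠ 0) (hd : ∀ j κ, L.d j t (φ (j + 1) κ) = φ j (κ.curryLeft n)) : L.Ex t := by
  have key : ∀ j (κ : Al c (j + 1)), φ j (κ.curryLeft n) ∈ L.Bd j t := fun j κ =>
    ⟨_, (mem _ _).2 ⟨κ, rfl⟩, hd j κ⟩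
  rintro (_ | j) w hw
  · obtain ⟨κ, rfl⟩ := (mem 0 w).1 hw
    obtain ⟨κ', rfl⟩ := (Al.exact hn).1 κ
    exact key 0 κ'
  · obtain ⟨κ, rfl⟩ := (mem _ w).1 hw.1
    obtain ⟨κ', rfl⟩ := (Al.exact hn).2 j κ
      (inj j ((hd j κ).symm.trans (hw.2.trans (map_zero _).symm)))
    exact key _ κ'

variable {B B' : Y.T → N.W →L[ℂ] (Fin N.r → ℂ)} {φ φ' : ∀ j, Y.T → Al N.r j →L[ℂ] (K.E j).W}
  {y : Y.T}

theorem inj (h : LocM K N σ B φ y) (j : ℕ) : Injective (φ j y) := (h.iso j).self_of_nhds.2.1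

theorem mem (h : LocM K N σ B φ y) (j : ℕ) (w : (K.E j).W) :
    w ∈ (K.E j).F y ↔ ∃ κ, φ j y κ = w := (h.iso j).self_of_nhds.2.2.1 w

theorem comm (h : LocM K N σ B φ y) (j : ℕ) (κ : Al N.r (j + 1)) :
    K.d j y (φ (j + 1) y κ) = φ j y (κ.curryLeft (B y (σ y))) := (h.iso j).self_of_nhds.2.2.2 κ

theorem cont (h : LocM K N σ B φ y) (j : ℕ) : ContinuousAt (φ j) y := (h.iso j).self_of_nhds.1

theorem exists_inv (h : LocM K N σ B φ y) (j : ℕ) : ∃ R : Y.T → (K.E j).W →L[ℂ] Al N.r j,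
    ContinuousAt R y ∧ ∀ᶠ x in 𝓝 y, (∀ κ, R x (φ j x κ) = κ) ∧
      ∀ w ∈ (K.E j).F x, φ j x (R x w) = w := by
  obtain ⟨R, hR⟩ := exists_leftInv ((h.iso j).mono fun _ h => h.1) (inj h j)
  refine ⟨R, hR.self_of_nhds.1, ?_⟩
  filter_upwards [hR, h.iso j] with x h1 h2
  refine ⟨h1.2, fun w hw => ?_⟩
  obtain ⟨κ, rfl⟩ := (h2.2.2.1 w).1 hw
  rw [h1.2]

/-- the linearisation does not depend on the local model -/
theorem indep (hr : Red K N σ Z) (hy : y ∈ Z) (h : LocM K N σ B φ y) (h' : LocM K N σ B' φ' y)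
    {j : ℕ} {v : N.W} (hv : v ∈ N.F y) {κ κ' : Al N.r (j + 1)}
    (e : φ (j + 1) y κ = φ' (j + 1) y κ') :
    φ j y (κ.curryLeft (B y v)) = φ' j y (κ'.curryLeft (B' y v)) := by
  obtain ⟨x, h1, h2⟩ := hr.dir y hy v hv
  obtain ⟨R, h3, h4⟩ := exists_inv h (j + 1)
  have h5 : Tendsto (fun r => R (x r) (φ' (j + 1) (x r) κ')) (𝓝[>] 0) (𝓝 κ) := by
    have := tendsto_clm (h3.tendsto.comp h1)
      (tendsto_clm ((cont h' (j + 1)).tendsto.comp h1) (tendsto_const_nhds (x := κ')))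
    rwa [← e, h4.self_of_nhds.1] at this
  refine tendsto_nhds_unique_of_eventuallyEq
    (tendsto_clm ((cont h j).tendsto.comp h1)
      (tendsto_curry h5 (tendsto_clm (h.cont.self_of_nhds.tendsto.comp h1) h2)))
    (tendsto_clm ((cont h' j).tendsto.comp h1)
      (tendsto_curry tendsto_const_nhds (tendsto_clm (h'.cont.self_of_nhds.tendsto.comp h1) h2))) ?_
  filter_upwards [h1.eventually h4, h1.eventually (h.iso j), h1.eventually (h'.iso j),
    h1.eventually (h'.iso (j + 1))] with r h6 h7 h8 h9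
  simp only [comp_apply, map_smul]
  rw [← h7.2.2.2, ← h8.2.2.2, h6.2 _ ((h9.2.2.1 _).2 ⟨_, rfl⟩)]

/-- transport of a local model by the group -/
theorem smul (hσ : N.IsSec σ) (h : LocM K N σ B φ y) (g : Y.G) :
    LocM K N σ (fun x => B (g⁻¹ • x) ∘L lin N.W g⁻¹) (fun j x => lin _ g ∘L φ j (g⁻¹ • x))
      (g • y) := by
  have hc : Continuous fun x : Y.T => g⁻¹ • x := by fun_prop
  have ht : Tendsto (fun x : Y.T => g⁻¹ • x) (𝓝 (g • y)) (𝓝 y) := by
    simpa using hc.tendsto (g • y)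
  refine ⟨fun v hv e => ?_, (ht.eventually h.cont).mono fun x hx =>
    (hx.comp hc.continuousAt).clm_comp continuousAt_const, fun j =>
      (ht.eventually ((h.iso j).and (h.iso (j + 1)))).mono fun x ⟨hx, hx'⟩ =>
        ⟨continuousAt_const.clm_comp (hx.1.comp hc.continuousAt),
          (MulAction.injective g).comp hx.2.1, fun w => ?_, fun κ => ?_⟩⟩
  · rw [inv_smul_smul] at e
    exact (smul_eq_zero_iff_eq g⁻¹).1 (h.inj _ (N.smul_mem_iff.1 (by rwa [smul_inv_smul])) e)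
  · rw [← (K.E j).smul_mem_iff (g := g⁻¹), hx.2.2.1]
    exact exists_congr fun κ => eq_inv_smul_iff
  · have h1 := (K.hom j).eqv g (g⁻¹ • x) _ ((hx'.2.2.1 _).2 ⟨κ, rfl⟩)
    rw [smul_inv_smul, hx.2.2.2, hσ.eqv] at h1
    exact h1

end LinP

open LinP

theorem LocM.eventually {B : Y.T → N.W →L[ℂ] (Fin N.r → ℂ)}
    {φ : ∀ j, Y.T → Al N.r j →L[ℂ] (K.E j).W} {y : Y.T} (h : LocM K N σ B φ y) :
    ∀ᶠ x in 𝓝 y, LocM K N σ B φ x := by
  obtain ⟨U, ψ, q, h1, h2, h3, h4⟩ := N.exists_frame y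
  have hψ : ∀ᶠ x in 𝓝 y, ContinuousAt ψ x := mem_of_superset (h1.mem_nhds h2) fun x hx =>
    h3.continuousAt (h1.mem_nhds hx)
  obtain ⟨R, hR⟩ := exists_leftInv (B := fun x => B x ∘L ψ x) (z := y)
    ((h.cont.and hψ).mono fun x hx => hx.1.clm_comp hx.2)
    ((injective_iff_map_eq_zero _).2 fun a ha => by
      rw [← (h4 y h2).1 a, h.inj _ (((h4 y h2).2 _).2 ⟨a, rfl⟩) ha, map_zero])
  have h5 := (eventually_all_finite (finite_Iic N.r)).2 fun j _ => (h.iso j).eventually_nhds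
  filter_upwards [h1.mem_nhds h2, hR, h.cont.eventually_nhds, h5] with x hx h6 h7 h8
  refine ⟨fun v hv e => ?_, h7, fun j => ?_⟩
  · obtain ⟨a, rfl⟩ := ((h4 x hx).2 v).1 hv
    rw [← h6.2 a, show (B x ∘L ψ x) a = 0 from e, map_zero, map_zero]
  · rcases le_or_gt j N.r with hj | hj
    · exact h8 j hj
    · have h9 : φ j = fun _ => 0 := funext fun _ => ContinuousLinearMap.ext fun κ => by
        rw [al_eq_zero hj κ, map_zero, map_zero]
      have h10 : (K.E j).r = 0 := by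
        rw [← (K.E j).rank y, Submodule.finrank_eq_zero, eq_bot_iff]
        intro w hw
        obtain ⟨κ, rfl⟩ := (mem h j w).1 hw
        rw [al_eq_zero hj κ, map_zero]
        exact zero_mem _
      refine Eventually.of_forall fun z => ⟨h9 ▸ continuousAt_const,
        fun a b _ => (al_eq_zero hj a).trans (al_eq_zero hj b).symm, fun w => ?_, fun κ => ?_⟩
      · rw [Submodule.finrank_eq_zero.1 (((K.E j).rank z).trans h10), h9]
        exact ⟨fun hw => ⟨0, hw.symm⟩, fun ⟨_, hw⟩ => hw.symm⟩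
      · rw [al_eq_zero (hj.trans j.lt_succ_self) κ, map_zero, map_zero, h9]
        rfl

/-- the linearisation of the differentials along the zero set -/
theorem Red.exists_lin (h : Red K N σ Z) :
    ∃ ι : ∀ j, Y.T → N.W →ₗ[ℂ] (K.E (j + 1)).W →ₗ[ℂ] (K.E j).W,
      ∀ y ∈ Z, ∀ B φ, LocM K N σ B φ y → ∀ j, ∀ v ∈ N.F y, ∀ κ,
        ι j y v (φ (j + 1) y κ) = φ j y (κ.curryLeft (B y v)) := by
  have key : ∀ j y, ∃ ι : N.W →ₗ[ℂ] (K.E (j + 1)).W →ₗ[ℂ] (K.E j).W, y ∈ Z →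
      ∀ B φ, LocM K N σ B φ y → ∀ v ∈ N.F y, ∀ κ,
        ι v (φ (j + 1) y κ) = φ j y (κ.curryLeft (B y v)) := fun j y => by
    by_cases hy : y ∈ Z
    · obtain ⟨B, φ, h1⟩ := h.loc y hy
      obtain ⟨R, -, h2⟩ := exists_inv h1 (j + 1)
      refine ⟨LinearMap.mk₂ ℂ (fun v w => φ j y ((R y w).curryLeft (B y v))) (by simp) (by simp)
        (by simp) (by simp), fun _ B' φ' h3 v hv κ => indep h hy h1 h3 hv ?_⟩
      exact h2.self_of_nhds.2 _ ((mem h3 _ _).2 ⟨κ, rfl⟩)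
    · exact ⟨0, fun h' => absurd h' hy⟩
  choose ι hι using key
  exact ⟨ι, fun y hy B φ h1 j => hι j y hy B φ h1⟩

namespace LinP

/-- continuity of maps that are given by the Koszul formula in a local model -/
theorem continuousAt_of_model {B : Y.T → N.W →L[ℂ] (Fin N.r → ℂ)}
    {φ : ∀ j, Y.T → Al N.r j →L[ℂ] (K.E j).W} {T : Type*} [TopologicalSpace T] {f : T → Y.T}
    {v : T → N.W} {j : ℕ} {w : T → (K.E (j + 1)).W} {D : T → (K.E (j + 1)).W → (K.E j).W} {t : T}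
    (h : LocM K N σ B φ (f t)) (hf : ContinuousAt f t) (hv : ContinuousAt v t)
    (hw : ContinuousAt w t) (hm : ∀ s, w s ∈ (K.E (j + 1)).F (f s))
    (hD : ∀ s, LocM K N σ B φ (f s) → ∀ κ,
      D s (φ (j + 1) (f s) κ) = φ j (f s) (κ.curryLeft (B (f s) (v s)))) :
    ContinuousAt (fun s => D s (w s)) t := by
  obtain ⟨R, h1, h2⟩ := exists_inv h (j + 1)
  have h3 : ContinuousAt (fun s => φ j (f s) ((R (f s) (w s)).curryLeft (B (f s) (v s)))) t :=
    tendsto_clm ((cont h j).tendsto.comp hf) (tendsto_curry (tendsto_clm (h1.tendsto.comp hf) hw)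
      (tendsto_clm (h.cont.self_of_nhds.tendsto.comp hf) hv))
  refine h3.congr ?_
  filter_upwards [hf.eventually h2, hf.eventually h.eventually] with s h4 h5
  rw [← hD s h5, h4.2 _ (hm s)]

variable (h : Red K N σ Z) {ι : ∀ j, Y.T → N.W →ₗ[ℂ] (K.E (j + 1)).W →ₗ[ℂ] (K.E j).W}
  (hι : ∀ y ∈ Z, ∀ B φ, LocM K N σ B φ y → ∀ j, ∀ v ∈ N.F y, ∀ κ,
    ι j y v (φ (j + 1) y κ) = φ j y (κ.curryLeft (B y v)))
include h hι

theorem ι_mem {y : Y.T} (hy : y ∈ Z) {v : N.W} (hv : v ∈ N.F y) {j : ℕ} {w : (K.E (j + 1)).W}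
    (hw : w ∈ (K.E (j + 1)).F y) : ι j y v w ∈ (K.E j).F y := by
  obtain ⟨B, φ, h1⟩ := h.loc y hy
  obtain ⟨κ, rfl⟩ := (mem h1 _ w).1 hw
  exact (mem h1 _ _).2 ⟨_, (hι y hy B φ h1 j v hv κ).symm⟩

theorem ι_smul {y : Y.T} (hy : y ∈ Z) {v : N.W} (hv : v ∈ N.F y) {j : ℕ} {w : (K.E (j + 1)).W}
    (hw : w ∈ (K.E (j + 1)).F y) (g : Y.G) : ι j (g • y) (g • v) (g • w) = g • ι j y v w := by
  obtain ⟨B, φ, h1⟩ := h.loc y hy
  obtain ⟨κ, rfl⟩ := (mem h1 _ w).1 hw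
  have := hι _ (Z.smul_mem g hy) _ _ (smul h.sec h1 g) j _ (N.inv g _ _ hv) κ
  simp only [inv_smul_smul, ContinuousLinearMap.comp_apply, lin_apply] at this
  rw [this, hι y hy B φ h1 j v hv]

theorem ι_ι {y : Y.T} (hy : y ∈ Z) {v : N.W} (hv : v ∈ N.F y) {j : ℕ} {w : (K.E (j + 2)).W}
    (hw : w ∈ (K.E (j + 2)).F y) : ι j y v (ι (j + 1) y v w) = 0 := by
  obtain ⟨B, φ, h1⟩ := h.loc y hy
  obtain ⟨κ, rfl⟩ := (mem h1 _ w).1 hw
  rw [hι y hy B φ h1 _ v hv, hι y hy B φ h1 _ v hv, curry_self, map_zero]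

omit hι in
theorem bal : ∑ j ∈ Finset.range (K.n + 1), (-1 : ℤ) ^ j * (K.E j).r = 0 := by
  have h1 : N.r ≤ K.n := not_lt.1 fun h1 => by
    have := K.top _ h1
    rw [h.rank, Nat.choose_self] at this
    exact one_ne_zero this
  rw [← Int.alternating_sum_range_choose_of_ne h.pos.ne']
  simp only [h.rank]
  refine (Finset.sum_subset (Finset.range_mono (Nat.succ_le_succ h1)) fun j _ hj => ?_).symm
  rw [Nat.choose_eq_zero_of_lt (by simpa using hj), Nat.cast_zero, mul_zero]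

end LinP

section
variable (h : Red K N σ Z) {ι : ∀ j, Y.T → N.W →ₗ[ℂ] (K.E (j + 1)).W →ₗ[ℂ] (K.E j).W}
  (hι : ∀ y ∈ Z, ∀ B φ, LocM K N σ B φ y → ∀ j, ∀ v ∈ N.F y, ∀ κ,
    ι j y v (φ (j + 1) y κ) = φ j y (κ.curryLeft (B y v)))
include h hι

theorem Red.isMd (m : Mor Y' Y) (hm : ∀ t, m.f t ∈ Z) :
    IsMd (N.pb m) K.n (fun j => (K.E j).pb m) fun j t => ι j (m.f t) := by
  refine ⟨⟨fun j => ⟨fun (x : (N.pb m).V) w hw => ι_mem h hι (hm _) x.2 hw,
    continuous_iff_continuousAt.2 fun z => ?_,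
    fun (g : Y'.G) (x : (N.pb m).V) w hw => ?_⟩,
    fun j t v hv w hw => ι_ι h hι (hm t) hv hw, K.top⟩, h.pos, h.rank, fun x hx => ?_⟩
  · obtain ⟨B, φ, h1⟩ := h.loc _ (hm ((N.pb m).proj.f z.1.1))
    have h2 : Continuous fun s : (((K.E (j + 1)).pb m).pb (N.pb m).proj).V =>
      (s.1.1 : (N.pb m).V) := continuous_fst.comp continuous_subtype_val
    have h3 : Continuous fun s : (((K.E (j + 1)).pb m).pb (N.pb m).proj).V => s.1.2 := by fun_prop
    have h4 : Continuous fun s : (N.pb m).V => s.1.2 := by fun_prop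
    exact continuousAt_of_model (f := fun s : (((K.E (j + 1)).pb m).pb (N.pb m).proj).V =>
        m.f ((N.pb m).proj.f s.1.1)) (v := fun s => (show (N.pb m).V from s.1.1).1.2)
      (w := fun s => s.1.2) (D := fun s w => ι j (m.f ((N.pb m).proj.f s.1.1))
        (show (N.pb m).V from s.1.1).1.2 w) h1
      (m.cf.comp ((N.pb m).proj.cf.comp h2)).continuousAt
      (h4.comp h2).continuousAt h3.continuousAt (fun s => s.2)
      fun s h3 => hι _ (hm _) B φ h3 j _ (show (N.pb m).V from s.1.1).2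
  · exact (congrArg (fun y => ι j y _ _) (m.eqv g x.1.1)).trans
      (ι_smul h hι (hm _) x.2 hw (m.ρ g))
  · obtain ⟨B, φ, h1⟩ := h.loc _ (hm x.1.1)
    exact ex_of_model (φ := fun j => φ j (m.f x.1.1)) (inj h1) (mem h1)
      (fun e => hx (h1.inj _ x.2 e)) fun j => hι _ (hm _) B φ h1 j _ x.2

/-- the rescaled complex on the blow-up -/
theorem Red.exists_hat (b : Bl N σ h.closed) :
    ∃ (d : ∀ j, b.O.T → (K.E (j + 1)).W →ₗ[ℂ] (K.E j).W)
      (hom : ∀ j, Hom (Mor.id b.O) ((K.E (j + 1)).pb b.p) ((K.E j).pb b.p) (d j))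
      (dd : ∀ j t w, w ∈ (K.E (j + 2)).F (b.p.f t) → d j t (d (j + 1) t w) = 0),
      (⟨K.n, fun j => (K.E j).pb b.p, d, hom, dd, K.top⟩ : Cx b.O).Adm b.l ∧
      (∀ j t w, b.r t ≠ 0 → K.d j (b.p.f t) w = (b.r t : ℂ) • d j t w) ∧
      ∀ j t w, b.r t = 0 → d j t w = ι j (b.p.f t) (b.n t) w := by
  classical
  let d : ∀ j, b.O.T → (K.E (j + 1)).W →ₗ[ℂ] (K.E j).W := fun j t =>
    if b.r t = 0 then ι j (b.p.f t) (b.n t) else (b.r t : ℂ)⁻¹ • K.d j (b.p.f t)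
  have d0 : ∀ j t w, b.r t = 0 → d j t w = ι j (b.p.f t) (b.n t) w := fun j t w ht => by
    simp only [d, if_pos ht]
  have d1 : ∀ j t w, b.r t ≠ 0 → d j t w = (b.r t : ℂ)⁻¹ • K.d j (b.p.f t) w := fun j t w ht => by
    simp only [d, if_neg ht, LinearMap.smul_apply]
  have hZ : ∀ t, b.r t = 0 → b.p.f t ∈ Z := fun t ht => (h.zero _).1 (by
    rw [b.σ_eq, ht, Complex.ofReal_zero, zero_smul])
  have hn : ∀ t, b.n t ∈ N.F (b.p.f t) := b.sec.mem
  have hloc : ∀ B φ j t, LocM K N σ B φ (b.p.f t) → ∀ κ, d j t (φ (j + 1) (b.p.f t) κ) =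
      φ j (b.p.f t) (κ.curryLeft (B (b.p.f t) (b.n t))) := fun B φ j t h1 κ => by
    by_cases ht : b.r t = 0
    · rw [d0 j t _ ht, hι _ (hZ t ht) B φ h1 j _ (hn t)]
    · rw [d1 j t _ ht, comm h1, b.σ_eq, map_smul, map_smul, map_smul,
        inv_smul_smul₀ (Complex.ofReal_ne_zero.2 ht)]
  have heqv : ∀ j (g : b.O.G) t, ∀ w ∈ (K.E (j + 1)).F (b.p.f t),
      d j (g • t) (b.p.ρ g • w) = b.p.ρ g • d j t w := fun j g t w hw => by
    by_cases ht : b.r t = 0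
    · rw [d0 j t _ ht, d0 j _ _ ((b.ir g t).trans ht), b.p.eqv, ← ι_smul h hι (hZ t ht) (hn t) hw]
      exact congrArg (fun v => ι j _ v _) (b.sec.eqv g t)
    · rw [d1 j t _ ht, d1 j _ _ (by rwa [b.ir]), b.ir, b.p.eqv, (K.hom j).eqv _ _ _ hw,
        smul_comm (b.p.ρ g)]
      rfl
  refine ⟨d, fun j => ⟨fun t w hw => ?_, continuous_iff_continuousAt.2 fun z => ?_,
    heqv j⟩, fun j t w hw => ?_, ⟨b.cl, b.il, fun t ht => ?_, fun _ => (bal h :)⟩,
    fun j t w ht => by rw [d1 j t w ht, smul_inv_smul₀ (Complex.ofReal_ne_zero.2 ht)], d0⟩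
  · by_cases ht : b.r t = 0
    · exact d0 j t w ht ▸ ι_mem h hι (hZ t ht) (hn t) hw
    · exact d1 j t w ht ▸ Submodule.smul_mem _ _ ((K.hom j).mem _ w hw)
  · have h1 : Continuous fun s : ((K.E (j + 1)).pb b.p).V => s.1.1 := by fun_prop
    have h2 : Continuous fun s : ((K.E (j + 1)).pb b.p).V => s.1.2 := by fun_prop
    by_cases ht : b.r z.1.1 = 0
    · obtain ⟨B, φ, h3⟩ := h.loc _ (hZ _ ht)
      exact continuousAt_of_model (f := fun s : ((K.E (j + 1)).pb b.p).V => b.p.f s.1.1)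
        (v := fun s => b.n s.1.1) (w := fun s => s.1.2) (D := fun s w => d j s.1.1 w) h3
        (b.p.cf.comp h1).continuousAt (b.sec.cont.comp h1).continuousAt h2.continuousAt
        (fun s => s.2) fun s => hloc B φ j _
    · have h3 := (b.cr.comp h1).continuousAt (x := z)
      refine (((Complex.continuous_ofReal.continuousAt.comp h3).inv₀
        (Complex.ofReal_ne_zero.2 ht)).smul ((K.hom j).continuous (b.p.cf.comp h1) h2
          fun s => s.2).continuousAt).congr ?_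
      filter_upwards [h3.eventually_ne ht] with s hs
      exact (d1 j _ _ hs).symm
  · by_cases ht : b.r t = 0
    · rw [d0 _ t _ ht, d0 _ t _ ht, ι_ι h hι (hZ t ht) (hn t) hw]
    · rw [d1 _ t _ ht, d1 _ t _ ht, map_smul, K.dd j _ w hw, smul_zero, smul_zero]
  · have h1 : b.n t ≠ 0 := (b.ne t).resolve_right (not_not.2 ht)
    by_cases hr : b.r t = 0
    · obtain ⟨B, φ, h2⟩ := h.loc _ (hZ t hr)
      exact ex_of_model (φ := fun j => φ j (b.p.f t)) (inj h2) (mem h2)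
        (fun e => h1 (h2.inj _ (hn t) e)) fun j => hloc B φ j t h2
    · have h2 := Complex.ofReal_ne_zero.2 hr
      have h3 := h.ex (b.p.f t) fun hz => smul_ne_zero h2 h1 ((b.σ_eq t).symm.trans
        ((h.zero _).2 hz))
      have h4 : ∀ j, ∀ w ∈ K.Bd j (b.p.f t), ∃ w' ∈ (K.E (j + 1)).F (b.p.f t), d j t w' = w := by
        rintro j _ ⟨w, hw, rfl⟩
        exact ⟨(b.r t : ℂ) • w, Submodule.smul_mem _ _ hw, by
          rw [d1 j t _ hr, map_smul, inv_smul_smul₀ h2]⟩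
      rintro (_ | j) w hw
      · exact h4 0 w (h3 0 hw)
      · refine h4 _ w (h3 (j + 1) ⟨hw.1, ?_⟩)
        exact (smul_eq_zero.1 ((d1 j t w hr).symm.trans hw.2)).resolve_left (inv_ne_zero h2)

end

end Vale.Agent.P269.Grr
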