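import Vale.Agent.P269.Grr.RD

/-!
# Riemann-Roch: the space `ℝ × Y` without `0 × A`, the Thom class of the south section
-/

set_option linter.unusedVariables false

namespace Vale.Agent.P269.Grr

open Set Function Topology Filter Module Vale.Agent.P291Z Vale.Agent.P269.Ch PowerSeries

variable {Y Y' : Ch.Sp}

/-- homotopic morphisms induce the same map -/
theorem map_eq_of_cyl (F : Mor (Y'.ext unitInterval) Y) {m₀ m₁ : Mor Y' Y}
    (h₀ : ∀ t, F.f (0, t) = m₀.f t) (h₁ : ∀ t, F.f (1, t) = m₁.f t) :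
    H.map m₀.map = H.map m₁.map := by
  refine H.map_eq_of_homotopic ⟨⟨F.map, fun x => ?_, fun x => ?_⟩⟩
  · obtain ⟨t, rfl⟩ := Y'.surj x
    exact (F.map_π (0, t)).trans ((congrArg Y.π (h₀ t)).trans (m₀.map_π t).symm)
  · obtain ⟨t, rfl⟩ := Y'.surj x
    exact (F.map_π (1, t)).trans ((congrArg Y.π (h₁ t)).trans (m₁.map_π t).symm)

theorem hcls_eq_of_Cohom {X : Type} [TopologicalSpace X] {A : Set X} {a b : Coch X}
    (h : Cohom A a b) (hb : supp (δ b) = ∅) : hcls a = hcls b :=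
  let ⟨_, _, h⟩ := h
  hcls_eq_of_cohom hb h

section om
variable {A : SubMulAction Y.G Y.T} (hA : IsClosed (A : Set Y.T)) {d : ℕ} {a : Coch Y.X}

theorem mem_image_sub {t : Y.T} : Y.π t ∈ Y.π '' A ↔ t ∈ A :=
  Y.isQuo.mem_image fun g _ ht => A.smul_mem g ht

theorem oml_ne (z : (Om hA).X) (hz : (omP hA).map z ∈ Y.π '' A) : oml hA z ≠ 0 := by
  obtain ⟨t, rfl⟩ := (Om hA).surj z
  rw [Mor.map_π, mem_image_sub] at hz
  rw [oml_π]
  exact (om_ne hA t).resolve_left (not_not.2 hz)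

theorem cocycle_omw' (ha : supp (δ a) = ∅) (ha' : supp a ⊆ Y.π '' A) :
    supp (δ (pull (omP hA).map a * neg (oml hA))) = ∅ ∧
      supp (pull (omP hA).map a * neg (oml hA)) ⊆
        (omP hA).map ⁻¹' (Y.π '' A) ∩ {z | oml hA z < 0} :=
  have h := (supp_pull (omP hA).map.continuous a).trans (preimage_mono ha')
  (cocycle_mul_neg (continuous_oml hA) (cocycle_pull (omP hA).map.continuous ha)
    fun z hz => oml_ne hA z (h hz)).imp_right fun h' => h'.trans (inter_subset_inter_left _ h)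

theorem cocycle_omw (ha : IsCo (Y.π '' A) d a) :
    supp (δ (pull (omP hA).map a * neg (oml hA))) = ∅ := (cocycle_omw' hA ha.cocycle ha.supp).1

theorem isDeg_omw (ha : IsCo (Y.π '' A) d a) :
    H.IsDeg (2 * d) (hcls (pull (omP hA).map a * neg (oml hA))) :=
  hcls_isDeg (((ha.deg.pull _).mul (isDeg_fn _)).cast (add_zero _))

theorem coe_omw (ha : IsCo (Y.π '' A) d a) :
    (omw hA a : H (Om hA).X) = hcls (pull (omP hA).map a * neg (oml hA)) := by
  unfold omw toEv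
  rw [dif_pos (mem_Hev (isDeg_omw hA ha))]

theorem omw_deg (ha : IsCo (Y.π '' A) d a) : omw hA a ∈ Hev.deg (Om hA).X d := by
  rw [Hev.mem_deg, coe_omw hA ha]
  exact isDeg_omw hA ha

theorem omw_congr {a' : Coch Y.X} (ha : IsCo (Y.π '' A) d a) (ha' : IsCo (Y.π '' A) d a')
    (h : Cohom (Y.π '' A) a a') : omw hA a = omw hA a' := by
  refine Subtype.ext ?_
  rw [coe_omw hA ha, coe_omw hA ha']
  exact hcls_eq_of_Cohom (cohom_mul_neg (continuous_oml hA) (oml_ne hA)
    (h.pull (omP hA).map.continuous) (cocycle_pull (omP hA).map.continuous ha'.cocycle)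
    ((supp_pull (omP hA).map.continuous _).trans (preimage_mono ha'.supp))) (cocycle_omw hA ha')

section toOm

variable {m : Mor Y' Y} {l : Y'.T → ℝ} (hl : Continuous l) (hi : ∀ (g : Y'.G) t, l (g • t) = l t)
  (h : ∀ t, m.f t ∉ A ∨ l t ≠ 0)

theorem omP_toOm : (omP hA).map ∘ (toOm hA m l hl hi h).map = m.map := funext fun x => by
  obtain ⟨t, rfl⟩ := Y'.surj x
  rw [comp_apply, Mor.map_π, Mor.map_π, Mor.map_π]
  rfl

theorem oml_toOm {l' : Y'.X → ℝ} (hl' : ∀ t, l' (Y'.π t) = l t) :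
    oml hA ∘ (toOm hA m l hl hi h).map = l' := funext fun x => by
  obtain ⟨t, rfl⟩ := Y'.surj x
  rw [comp_apply, Mor.map_π, oml_π, hl']
  rfl

theorem pull_toOm {l' : Y'.X → ℝ} (hl' : ∀ t, l' (Y'.π t) = l t) (a : Coch Y.X) :
    pull (toOm hA m l hl hi h).map (pull (omP hA).map a * neg (oml hA)) =
      pull m.map a * neg l' := by
  rw [map_mul, pull_pull, pull_neg, omP_toOm, oml_toOm hA hl hi h hl']

theorem map_toOm {l' : Y'.X → ℝ} (hl' : ∀ t, l' (Y'.π t) = l t) (ha : IsCo (Y.π '' A) d a) :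
    H.map (toOm hA m l hl hi h).map (omw hA a).1 = hcls (pull m.map a * neg l') := by
  rw [coe_omw hA ha, H.map_hcls _ (cocycle_omw hA ha), pull_toOm hA hl hi h hl']

end toOm

/-- the embedding into the product -/
noncomputable def omJ : C((Om hA).X, Y.X × ℝ) :=
  (ContinuousMap.prodSwap : C(ℝ × Y.X, Y.X × ℝ)).comp
    ((Y.ext ℝ).subI _ (isOpen_omS hA).isLocallyClosed).map

theorem omJ_π (z : (Om hA).T) : omJ hA ((Om hA).π z) = (Y.π ((omP hA).f z), omL hA z) :=
  congrArg Prod.swap (((Y.ext ℝ).subI _ (isOpen_omS hA).isLocallyClosed).map_π z)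

theorem isOpenEmbedding_omJ : IsOpenEmbedding (omJ hA) :=
  (Homeomorph.prodComm ℝ Y.X).isOpenEmbedding.comp (Sp.isOpenEmbedding_subI (isOpen_omS hA))

theorem omJ_eq (z : (Om hA).X) : omJ hA z = ((omP hA).map z, oml hA z) := by
  obtain ⟨t, rfl⟩ := (Om hA).surj z
  rw [omJ_π, Mor.map_π, oml_π]

-- O3: gluing
theorem om_glue (ha : supp (δ a) = ∅) (ha' : supp a ⊆ Y.π '' A) (u : H (Om hA).X)
    (V : SubMulAction (Om hA).G (Om hA).T) (hV : IsOpen (V : Set (Om hA).T))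
    (hAV : ∀ y ∈ A, ∀ᶠ q : ℝ × Y.T in 𝓝 (0, y), ∀ h : q ∈ omS Y A, (⟨q, h⟩ : omS Y A) ∈ V)
    (h0 : H.map ((Om hA).subI V hV.isLocallyClosed).map
      (u - hcls (pull (omP hA).map a * neg (oml hA))) = 0) :
    H.map (omI hA (-1) (by norm_num)).map u - H.map (omI hA 1 one_ne_zero).map u = hcls a := by
  have hr : ∀ p, p ∈ range (omJ hA) ↔ p.1 ∉ Y.π '' A ∨ p.2 ≠ 0 := by
    rintro ⟨x, r⟩
    refine ⟨?_, fun hp => ?_⟩
    · rintro ⟨z, hz⟩
      rw [← hz, omJ_eq]
      exact or_iff_not_imp_left.2 fun h => oml_ne hA z (not_not.1 h)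
    · obtain ⟨t, rfl⟩ := Y.surj x
      exact ⟨_, omJ_π hA (⟨(r, t), hp.imp_left (mt mem_image_sub.2)⟩ : omS Y A)⟩
  have hs : ∀ (c : ℝ) (hc : c ≠ 0) x, omJ hA ((omI hA c hc).map x) = (x, c) := fun c hc x => by
    obtain ⟨t, rfl⟩ := Y.surj x
    rw [Mor.map_π, omJ_π]
    rfl
  refine top_glue (isOpenEmbedding_omJ hA) hr ha ha' u
    (O := interior {p | ∀ z, omJ hA z = p → z ∈ (Om hA).π '' V}) isOpen_interior ?_ ?_ _ _
    (hs _ _) (hs _ _)
  · rintro _ ⟨y, hy, rfl⟩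
    have h1 := (Y.quo.prodMap (IsOpenQuotientMap.id (X := ℝ))).map_nhds_eq (y, 0)
    rw [mem_interior_iff_mem_nhds, ← show _ = 𝓝 (Y.π y, (0 : ℝ)) from h1, mem_map]
    filter_upwards [(continuous_swap.tendsto (y, (0 : ℝ))).eventually (hAV y hy)] with q hq z hz
    have h2 : q.swap ∈ omS Y A := ((hr _).1 ⟨z, hz⟩).imp_left (mt mem_image_sub.2)
    exact ⟨(⟨_, h2⟩ : omS Y A), hq h2,
      (isOpenEmbedding_omJ hA).injective ((omJ_π hA _).trans hz.symm)⟩
  · have he := Sp.isEmbedding_subI (Y := Om hA) hV.isLocallyClosed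
    choose k hk using fun z : omJ hA ⁻¹' interior {p | ∀ z, omJ hA z = p → z ∈ (Om hA).π '' V} =>
      (Sp.range_subI (Y := Om hA) hV.isLocallyClosed).ge (interior_subset z.2 z.1 rfl)
    have hc : Continuous k :=
      he.continuous_iff.2 (continuous_subtype_val.congr fun z => (hk z).symm)
    have := congrArg (H.map ⟨k, hc⟩) h0
    rw [H.map_map, map_zero] at this
    rw [show (fun z => (omJ hA z).1) = (omP hA).map from funext fun z => by rw [omJ_eq],
      show (fun z => (omJ hA z).2) = oml hA from funext fun z => by rw [omJ_eq], ← this]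
    exact congrArg (fun f => H.map f _) (ContinuousMap.ext fun z => (hk z).symm)

end om

variable {N : VB Y}

theorem image_zs (N : VB Y) : N.tot.π '' N.zs = N.Z :=
  Set.ext fun _ => ⟨fun ⟨y, h1, h2⟩ => ⟨y, h1, h2.symm⟩, fun ⟨y, h1, h2⟩ => ⟨y, h1, h2.symm⟩⟩

theorem isCo_thom {t : Coch N.tot.X} (ht : IsThom N.Z N.ch t) : IsCo (N.tot.π '' N.zs) N.r t :=
  image_zs N ▸ N.isOVB.thom_isCo ht

theorem omT_deg (N : VB Y) : omT N ∈ Hev.deg (OmN N).X N.r := omw_deg _ (isCo_thom N.isThom)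

section sec
variable {m : Mor Y' Y} {n : Y'.T → N.W} (hn : (N.pb m).IsSec n) {l : Y'.T → ℝ}
  (hl : Continuous l) (hi : ∀ (g : Y'.G) t, l (g • t) = l t) (h : ∀ t, n t ≠ 0 ∨ l t ≠ 0)

theorem omQ_toOmN : (omQ N).map.comp (toOmN hn l hl hi h).map = m.map :=
  (Mor.map_comp _ _).symm.trans (Mor.map_ext fun _ => rfl)

-- the pull-back of the class `omT`
theorem map_toOmN {l' : Y'.X → ℝ} (hl' : ∀ t, l' (Y'.π t) = l t) {a : Coch Y'.X}
    (ha : supp (δ a) = ∅) (ha' : supp a ⊆ Y'.π '' {t | n t = 0})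
    (e : Cohom (Y'.π '' {t | n t = 0}) a hn.eul) :
    H.map (toOmN hn l hl hi h).map (omT N).1 = hcls (a * neg l') := by
  have h1 : Continuous l' := Y'.continuous_iff.2 (hl.congr fun t => (hl' t).symm)
  have h2 : ∀ x ∈ Y'.π '' {t | n t = 0}, l' x ≠ 0 := by
    rintro _ ⟨t, ht, rfl⟩
    rw [hl']
    exact (h t).resolve_left (not_not.2 ht)
  refine (map_toOm _ hl hi h hl' (isCo_thom N.isThom)).trans (hcls_eq_of_Cohom
    (cohom_mul_neg h1 h2 ?_ ha ha') (cocycle_mul_neg h1 ha fun x hx => h2 x (ha' hx)).1)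
  rw [secM, Mor.pull_comp]
  exact (hn.cohom_pull ((iso_pb N m).isThom N.isThom)).trans e.symm

theorem map_toOmN_neg (h' : ∀ t, n t = 0 → l t < 0) :
    Hev.map (toOmN hn l hl hi h).map (omT N) = Hev.map m.map N.eu := by
  have h1 : ∀ t, l (Y'.out (Y'.π t)) = l t := fun t => by
    obtain ⟨g, hg⟩ := Y'.exists_out t
    rw [← hg, hi]
  refine Subtype.ext ((map_toOmN hn hl hi h (l' := fun x => l (Y'.out x)) h1 hn.isCo.cocycle
    hn.isCo.supp (Cohom.refl _ _)).trans ?_)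
  have h2 := mul_neg_congr (l := fun x => l (Y'.out x)) (l' := fun _ => -1)
    (Y'.continuous_iff.2 (hl.congr fun t => (h1 t).symm)) continuous_const (a := hn.eul)
    fun x hx => by
      obtain ⟨t, ht, rfl⟩ := hn.isCo.supp hx
      exact .inl ⟨h1 t ▸ h' t ht, by norm_num⟩
  rw [mul_neg_of_neg (l := fun _ => -1) fun _ => by norm_num] at h2
  rw [hcls_eq_of_null hn.isCo.cocycle (supp_eq_empty.1 h2), hn.hcls_eul, N.eu_pb]

-- rescaling does not change the induced map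
theorem map_toOmN_smul {ρ : Y'.T → ℝ} (hρ : Continuous ρ) (hρ' : ∀ t, 0 < ρ t)
    (hρi : ∀ (g : Y'.G) t, ρ (g • t) = ρ t) {n' : Y'.T → N.W} (hn' : (N.pb m).IsSec n')
    {l' : Y'.T → ℝ} (hl' : Continuous l') (hi' : ∀ (g : Y'.G) t, l' (g • t) = l' t)
    (h' : ∀ t, n' t ≠ 0 ∨ l' t ≠ 0) (e₁ : ∀ t, n' t = (ρ t : ℂ) • n t) (e₂ : ∀ t, l' t = ρ t * l t)
    (c : H (OmN N).X) :
    H.map (toOmN hn' l' hl' hi' h').map c = H.map (toOmN hn l hl hi h).map c := by
  let r : unitInterval × Y'.T → ℝ := fun p => (1 - p.1) * ρ p.2 + p.1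
  have h1 : Continuous r := by fun_prop
  have h2 : ∀ p, r p ≠ 0 := fun p => by
    rcases p.1.2.1.eq_or_lt with e | e
    · simp only [r, ← e, sub_zero, one_mul, add_zero]
      exact (hρ' _).ne'
    · exact (add_pos_of_nonneg_of_pos (mul_nonneg (sub_nonneg.2 p.1.2.2) (hρ' _).le) e).ne'
  have h3 : ∀ (g : Y'.G) (p : unitInterval × Y'.T), r (p.1, g • p.2) = r p := fun g p => by
    simp only [r, hρi]
  have h4 : (N.pb (m.comp (Y'.extP unitInterval))).IsSec fun p => (r p : ℂ) • n p.2 :=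
    VB.IsSec.smul (E := N.pb (m.comp (Y'.extP unitInterval)))
      ⟨fun p => hn.mem p.2, hn.cont.comp continuous_snd, fun g p => hn.eqv g p.2⟩
      (Complex.continuous_ofReal.comp h1) fun g p => congrArg _ (h3 g p)
  refine DFunLike.congr_fun (map_eq_of_cyl (toOmN h4 (fun p => r p * l p.2)
    (h1.mul (hl.comp continuous_snd)) (fun g p => congrArg₂ _ (h3 g p) (hi g p.2)) fun p =>
      (h p.2).imp (smul_ne_zero (Complex.ofReal_ne_zero.2 (h2 p))) (mul_ne_zero (h2 p)))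
    (fun t => ?_) fun t => ?_) c
  · refine Subtype.ext (Prod.ext ?_ (Subtype.ext (Prod.ext rfl ?_)))
    · show r (0, t) * l t = l' t
      simp [r, e₂]
    · show (r (0, t) : ℂ) • n t = n' t
      simp [r, e₁]
  · refine Subtype.ext (Prod.ext ?_ (Subtype.ext (Prod.ext rfl ?_)))
    · show r (1, t) * l t = l t
      simp [r]
    · show (r (1, t) : ℂ) • n t = n t
      simp [r]

end sec

/-- the map induced by an isomorphism of bundles -/
noncomputable def omM {m : Mor Y' Y} {N' : VB Y'} {A : Y'.T → N'.W →ₗ[ℂ] N.W} (h : Iso m N' N A) :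
    Mor (OmN N') (OmN N) :=
  toOm _ (h.toHom.mor.comp (omP _)) (omL _) (continuous_omL _) (fun _ _ => rfl) fun z =>
    (om_ne _ z).imp_left fun h1 h2 => h1 (h.inj _ _ (show N'.V from (omP _).f z).2 h2)

theorem map_omM {m : Mor Y' Y} {N' : VB Y'} {A : Y'.T → N'.W →ₗ[ℂ] N.W} (h : Iso m N' N A) :
    Hev.map (omM h).map (omT N) = omT N' := by
  have h1 := h.isThom N.isThom
  refine Eq.trans (Subtype.ext ?_) (omw_congr _ (isCo_thom h1) (isCo_thom N'.isThom)
    (image_zs N' ▸ N'.isOVB.thom_unique h1 N'.isThom))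
  rw [coe_omw _ (isCo_thom h1), ← Mor.pull_comp]
  exact map_toOm _ _ _ _ (oml_π _) (isCo_thom N.isThom)

theorem omQ_omM {m : Mor Y' Y} {N' : VB Y'} {A : Y'.T → N'.W →ₗ[ℂ] N.W} (h : Iso m N' N A) :
    (omQ N).map.comp (omM h).map = m.map.comp (omQ N').map :=
  (Mor.map_comp _ _).symm.trans
    ((Mor.map_ext (m' := m.comp (omQ N')) fun _ => rfl).trans (Mor.map_comp _ _))

section T1

variable (N)

/-- the fibre coordinate -/
noncomputable def omN (z : (OmN N).T) : N.W := (show N.V from (omP _).f z).1.2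

theorem isSec_omN : (N.pb (omQ N)).IsSec (omN N) :=
  ⟨fun z => (show N.V from (omP _).f z).2,
    (show Continuous fun x : N.V => x.1.2 by fun_prop).comp (omP _).cf, fun _ _ => rfl⟩

/-- the complement of the south section -/
def omU : SubMulAction (OmN N).G (OmN N).T where
  carrier := {z | omN N z ≠ 0 ∨ 0 < omL _ z}
  smul_mem' g z hz := hz.imp_left fun h h' => h ((smul_eq_zero_iff_eq (show Y.G from g)).1 h')

theorem isOpen_omU : IsOpen (omU N : Set (OmN N).T) :=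
  (isOpen_ne_fun (isSec_omN N).cont continuous_const).union
    (isOpen_lt continuous_const (continuous_omL _))

theorem map_omU : H.map ((OmN N).subI _ (isOpen_omU N).isLocallyClosed).map =
    H.map (((omI (isClosed_zs N) 1 one_ne_zero).comp N.zero).comp
      ((omQ N).comp ((OmN N).subI _ (isOpen_omU N).isLocallyClosed))).map := by
  let i := ((OmN N).subI _ (isOpen_omU N).isLocallyClosed).comp (Ch.Sp.extP _ unitInterval)
  have h1 : Continuous fun p : unitInterval × omU N => (p.1 : ℝ) := by fun_prop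
  have h4 : (N.pb ((omQ N).comp i)).IsSec
      fun p : unitInterval × omU N => ((1 - p.1 : ℝ) : ℂ) • omN N p.2 :=
    VB.IsSec.smul (E := N.pb ((omQ N).comp i))
      ⟨fun p => (isSec_omN N).mem _, (isSec_omN N).cont.comp i.cf, fun _ _ => rfl⟩
      (Complex.continuous_ofReal.comp (continuous_const.sub h1)) fun _ _ => rfl
  refine map_eq_of_cyl (toOmN h4 (fun p : unitInterval × omU N => (1 - p.1) * omL _ p.2.1 + p.1)
    (((continuous_const.sub h1).mul ((continuous_omL _).comp i.cf)).add h1) (fun _ _ => rfl)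
    fun p : unitInterval × omU N => ?_) (fun t => ?_) fun t => ?_
  · rcases p.1.2.2.eq_or_lt with e | e
    · exact .inr (by rw [e]; norm_num)
    · exact p.2.2.imp (smul_ne_zero (Complex.ofReal_ne_zero.2 (sub_pos.2 e).ne')) fun h =>
        (add_pos_of_pos_of_nonneg (mul_pos (sub_pos.2 e) h) p.1.2.1).ne'
  · refine Subtype.ext (Prod.ext ?_ (Subtype.ext (Prod.ext rfl ?_)))
    · show (1 - (0 : ℝ)) * omL _ t.1 + 0 = omL _ t.1
      simp
    · show ((1 - (0 : ℝ) : ℝ) : ℂ) • omN N t.1 = omN N t.1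
      simp
  · refine Subtype.ext (Prod.ext ?_ (Subtype.ext (Prod.ext rfl ?_)))
    · show (1 - (1 : ℝ)) * omL _ t.1 + 1 = 1
      simp
    · show ((1 - (1 : ℝ) : ℝ) : ℂ) • omN N t.1 = 0
      simp

theorem continuous_par : Continuous fun x : (N.pb (Y.extP ℝ)).tot.T =>
    ((N.pb (Y.extP ℝ)).proj.f x).1 :=
  (continuous_fst : Continuous (Prod.fst : ℝ × Y.T → ℝ)).comp (N.pb (Y.extP ℝ)).proj.cf

/-- the southern half -/
noncomputable def omD : Mor (N.pb (Y.extP ℝ)).tot (OmN N) :=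
  toOm _ (iso_pb N (Y.extP ℝ)).mor (fun x => -Real.exp ((N.pb (Y.extP ℝ)).proj.f x).1)
    (Real.continuous_exp.comp (continuous_par N)).neg
    (fun _ _ => rfl) fun _ => .inr (neg_ne_zero.2 (Real.exp_pos _).ne')

theorem isOpenEmbedding_omD : IsOpenEmbedding (omD N).map := by
  let e : (N.pb (Y.extP ℝ)).V ≃ₜ ℝ × N.V :=
    { toFun := fun x => (x.1.1.1, (iso_pb N (Y.extP ℝ)).mor.f x)
      invFun := fun p => ⟨((p.1, p.2.1.1), p.2.1.2), p.2.2⟩
      left_inv := fun _ => rfl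
      right_inv := fun _ => rfl
      continuous_toFun := (continuous_par N).prodMk (iso_pb N (Y.extP ℝ)).mor.cf
      continuous_invFun := (show Continuous fun p : ℝ × N.V => ((p.1, p.2.1.1), p.2.1.2) by
        fun_prop).subtype_mk _ }
  refine (N.pb (Y.extP ℝ)).tot.isQuo.isOpenEmbedding_map (OmN N).isQuo (omD N).map_π
    (fun g _ => ⟨g, rfl⟩) (IsOpenEmbedding.of_comp _
      (isOpen_omS (isClosed_zs N)).isOpenEmbedding_subtypeVal ?_)
  exact (((Homeomorph.neg ℝ).isOpenEmbedding.comp Real.isOpenEmbedding_exp).prodMap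
    IsOpenEmbedding.id).comp e.isOpenEmbedding

theorem pull_omD (a : Coch N.tot.X) : pull (omD N).map (pull (omP (isClosed_zs N)).map a *
    neg (oml (isClosed_zs N))) = pull (iso_pb N (Y.extP ℝ)).mor.map a :=
  (pull_toOm _ _ _ _ (l' := fun x => -Real.exp ((N.pb (Y.extP ℝ)).proj.map x).1)
    (fun t => by rw [Mor.map_π]; rfl) a).trans
    (mul_neg_of_neg (fun _ => neg_lt_zero.2 (Real.exp_pos _)) _)

theorem map_extP_extI (c : H (Y.ext ℝ).X) :
    H.map (Y.extP ℝ).map (H.map (Y.extI (0 : ℝ)).map c) = c := by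
  let f : unitInterval × ℝ × Y.T → ℝ × Y.T := fun p => (p.1 * p.2.1, p.2.2)
  have hf : Continuous f := by fun_prop
  rw [H.map_map, ← Mor.map_comp, map_eq_of_cyl (Y := Y.ext ℝ) (Y' := Y.ext ℝ) (m₁ := Mor.id _)
    ⟨MonoidHom.id _, f, continuous_id, hf, fun _ _ => rfl⟩ (fun t => Prod.ext (zero_mul _) rfl)
    fun t => Prod.ext (one_mul _) rfl]
  exact H.map_id (Mor.map_id _) c

end T1

-- T1: a class that vanishes on the north section is a multiple of `omT`
theorem exists_omT (N : VB Y) {k : ℤ} {c : Hev (OmN N).X} (hc : c ∈ Hev.deg (OmN N).X k)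
    (h0 : Hev.map ((omI (isClosed_zs N) 1 one_ne_zero).comp N.zero).map c = 0) :
    ∃ q ∈ Hev.deg Y.X (k - N.r), c = Hev.map (omQ N).map q * omT N := by
  obtain ⟨a, h1, h2, h3, h4⟩ := exists_rel (Sp.isOpenEmbedding_subI (isOpen_omU N)) (c := c.1) hc (by
    rw [map_omU, Mor.map_comp, ← H.map_map, show H.map _ c.1 = 0 from congrArg Subtype.val h0,
      map_zero])
  have hA := (Sp.isOpenEmbedding_subI (isOpen_omU N)).isOpen_range.isClosed_compl
  rw [Sp.range_subI] at h3 hA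
  have h5 : ∀ z, (OmN N).π z ∈ ((OmN N).π '' omU N)ᶜ ↔ omN N z = 0 ∧ omL _ z < 0 := fun z =>
    mem_image_sub.not.trans (not_or.trans (not_not.and Iff.rfl |>.trans (and_congr_right fun h =>
      not_lt.trans ((om_ne _ z).resolve_left (not_not.2 h)).le_iff_lt)))
  have h6 : (omD N).map ⁻¹' ((OmN N).π '' omU N)ᶜ = (N.pb (Y.extP ℝ)).Z := Set.ext fun x => by
    obtain ⟨y, rfl⟩ := (N.pb (Y.extP ℝ)).tot.surj x
    rw [mem_preimage, Mor.map_π, h5]
    exact (and_iff_left (neg_lt_zero.2 (Real.exp_pos _))).trans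
      (VB.mk_mem_Z (E := N.pb (Y.extP ℝ))).symm
  have h7 := (iso_pb N (Y.extP ℝ)).isThom N.isThom
  have hj := isOpenEmbedding_omD N
  obtain ⟨b, h8, h9, h10⟩ := (N.pb (Y.extP ℝ)).isOVB.thom_surj h7 (cocycle_pull hj.continuous h1)
    ((supp_pull hj.continuous a).trans ((preimage_mono h3).trans h6.le)) (h2.pull _)
  have h11 := cocycle_pull (Y.extI (0 : ℝ)).map.continuous h8
  have h12 := cocycle_pull (Y.extP ℝ).map.continuous h11
  obtain ⟨b', h13⟩ := (hcls_eq_iff h8 h12).1 (by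
    rw [← H.map_hcls _ h11, ← H.map_hcls _ h8, map_extP_extI])
  have h14 := cocycle_omw' (isClosed_zs N) N.th_cocycle (isCo_thom N.isThom).supp
  have h15 := cocycle_pull (omQ N).map.continuous h11
  have h16 : H.IsDeg (2 * (k - N.r)) (hcls (pull (Y.extI (0 : ℝ)).map b)) :=
    hcls_isDeg ((h9.pull _).cast (mul_sub _ _ _).symm)
  refine ⟨⟨_, mem_Hev h16⟩, h16, Subtype.ext ?_⟩
  change c.1 = H.map _ (hcls _) * (omT N).1
  rw [← h4, omT, coe_omw _ (isCo_thom N.isThom), H.map_hcls _ h11, ← hcls_mul h15 h14.1]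
  refine hcls_eq_of_Cohom (cohom_of_pull hj hA (fun x hx => ?_) h3 (fun x hx => ?_)
    (P291Z.cocycle_mul h15 h14.1) ?_) (P291Z.cocycle_mul h15 h14.1)
  · obtain ⟨z, rfl⟩ := (OmN N).surj x
    refine ⟨(N.pb (Y.extP ℝ)).tot.π (⟨((Real.log (-omL _ z), (omQ N).f z), omN N z),
      (isSec_omN N).mem z⟩ : (N.pb (Y.extP ℝ)).V), (Mor.map_π _ _).trans
      (congrArg _ (Subtype.ext (Prod.ext ?_ rfl)))⟩
    exact neg_eq_iff_eq_neg.2 (Real.exp_log (neg_pos.2 ((h5 z).1 hx).2))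
  · obtain ⟨z, rfl⟩ := (OmN N).surj x
    obtain ⟨e1, e2⟩ := h14.2 (supp_mul _ _ hx).2
    rw [mem_preimage, Mor.map_π, mem_image_sub] at e1
    exact (h5 z).2 ⟨e1, oml_π _ z ▸ e2⟩
  · rw [h6, map_mul, pull_omD, ← Mor.pull_comp, show ((omQ N).comp (omD N)).map =
      ((Y.extP ℝ).comp (N.pb _).proj).map from Mor.map_ext fun _ => rfl, Mor.pull_comp]
    exact h10.trans (((Cohom.pull (A := univ) ⟨b', subset_univ _, h13⟩
      (N.pb _).proj.map.continuous).mul_right h7.1).mono (inter_subset_right.trans h7.2.1))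

theorem map_south (N : VB Y) :
    Hev.map ((omI (isClosed_zs N) (-1) (by norm_num)).comp N.zero).map (omT N) = N.eu :=
  (map_toOmN_neg (N.pb (Mor.id Y)).isSec_zero (l := fun _ => -1) continuous_const (fun _ _ => rfl)
    (fun _ => .inr (by norm_num)) fun _ _ => by norm_num).trans (Hev.map_mor_id _)

end Vale.Agent.P269.Grr
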