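import Vale.Agent.P269.Grr.Th
import Vale.Agent.P269.Grr.Om
import Vale.Agent.P269.Grr.HRR

/-!
# Riemann-Roch for the zero section of a bundle
-/

namespace Vale.Agent.P269.Grr

open Set Function Topology Filter Module Vale.Agent.P291Z Vale.Agent.P269.Ch PowerSeries
open scoped Polynomial

variable {Y : Ch.Sp} {N : VB Y} {n : ℕ} {H : ℕ → VB Y}
  {ι : ∀ j, Y.T → N.W →ₗ[ℂ] (H (j + 1)).W →ₗ[ℂ] (H j).W}

theorem IsMd.le (h : IsMd N n H ι) : N.r ≤ n := by
  by_contra hn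
  have := h.top N.r (not_le.1 hn)
  rw [h.rank, Nat.choose_self] at this
  exact one_ne_zero this

theorem IsMd.sum_eq (h : IsMd N n H ι) {M : Type*} [AddCommMonoid M] {f : ℕ → M}
    (hf : ∀ j, (H j).r = 0 → f j = 0) :
    ∑ j ∈ Finset.range (n + 1), f j = ∑ j ∈ Finset.range (N.r + 1), f j :=
  (Finset.sum_subset (Finset.range_subset_range.2 (Nat.succ_le_succ h.le)) fun j _ hj =>
    hf j (by
      rw [h.rank]
      exact Nat.choose_eq_zero_of_lt (by simpa using hj))).symm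

theorem IsMd.adm (h : IsMd N n H ι) :
    (h.toIsMd0.cx.pb (omP (isClosed_zs N))).Adm (omL (isClosed_zs N)) := by
  refine ⟨continuous_omL _, fun _ _ => rfl, fun z hz =>
    (Cx.ex_pb _ _).2 (h.ex _ ((om_ne _ z).resolve_right (not_not.2 hz))), fun _ => ?_⟩
  show ∑ j ∈ Finset.range (n + 1), (-1 : ℤ) ^ j * ((H j).r : ℤ) = 0
  rw [h.sum_eq fun j hj => by rw [hj, Nat.cast_zero, mul_zero]]
  simp only [h.rank]
  exact Int.alternating_sum_range_choose_of_ne h.pos.ne'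

theorem IsMd0.cont (h : IsMd0 N n H ι) (j : ℕ) {Z : Type*} [TopologicalSpace Z] {t : Z → Y.T}
    {v : Z → N.W} {w : Z → (H (j + 1)).W} (ht : Continuous t) (hv : Continuous v)
    (hw : Continuous w) (mv : ∀ z, v z ∈ N.F (t z)) (mw : ∀ z, w z ∈ (H (j + 1)).F (t z)) :
    Continuous fun z => ι j (t z) (v z) (w z) :=
  (h.hom j).continuous (f := fun z => (⟨(t z, v z), mv z⟩ : N.V)) ((ht.prodMk hv).subtype_mk _) hw mw

theorem IsMd.tw (h : IsMd N n H ι) {Y' : Ch.Sp} (m : Mor Y' Y) (χ : Y'.G →ₜ* ℂˣ) :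
    IsMd (N.tw m χ) n (fun j => (H j).tw m (χ⁻¹ ^ j)) fun j t => ι j (m.f t) := by
  refine ⟨⟨fun j => ⟨fun x w hw => (h.hom j).mem (⟨(m.f x.1.1, x.1.2), x.2⟩ : N.V) w hw, ?_,
    fun g x w hw => ?_⟩, fun j t => h.dd j (m.f t), h.top⟩, h.pos, h.rank, fun x hx j => ?_⟩
  · have h1 : Continuous (Subtype.val : (N.tw m χ).V → _) := continuous_subtype_val
    exact h.toIsMd0.cont j (m.cf.comp (h1.fst.comp (continuous_fst.comp continuous_subtype_val)))
      (h1.snd.comp (continuous_fst.comp continuous_subtype_val))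
      (continuous_snd.comp continuous_subtype_val) (fun z => z.1.1.2) fun z => z.2
  · obtain ⟨⟨t, v⟩, hv⟩ := x
    change N.W at v
    change (H (j + 1)).W at w
    change Y'.G at g
    have h1 : ι j (m.ρ g • m.f t) (m.ρ g • v) (m.ρ g • w) = m.ρ g • ι j (m.f t) v w :=
      (h.hom j).eqv (m.ρ g) (⟨(m.f t, v), hv⟩ : N.V) w hw
    show ι j (m.f (g • t)) ((χ g : ℂ) • m.ρ g • v) (((χ⁻¹ ^ (j + 1)) g : ℂ) • m.ρ g • w) =
      ((χ⁻¹ ^ j) g : ℂ) • m.ρ g • ι j (m.f t) v w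
    rw [m.eqv, LinearMap.map_smul, LinearMap.map_smul, LinearMap.smul_apply, h1, smul_smul]
    congr 1
    rw [pow_succ]
    show (((χ⁻¹ ^ j) g * (χ g)⁻¹ : ℂˣ) : ℂ) * χ g = _
    rw [← Units.val_mul, inv_mul_cancel_right]
  · have := h.ex (⟨(m.f x.1.1, x.1.2), x.2⟩ : N.V) hx j
    cases j <;> exact this

theorem IsMd.north (h : IsMd N n H ι) : pS ((omI (isClosed_zs N) 1 one_ne_zero).comp N.zero).map
    ((h.toIsMd0.cx.pb (omP (isClosed_zs N))).u (omL (isClosed_zs N))) = 0 :=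
  (Cx.u_pb h.adm _).symm.trans (Cx.u_pos (h.adm.pb _) fun _ => one_pos)

theorem IsMd.south (h : IsMd N n H ι) :
    pS ((omI (isClosed_zs N) (-1) (by norm_num)).comp N.zero).map
      ((h.toIsMd0.cx.pb (omP (isClosed_zs N))).u (omL (isClosed_zs N))) =
      ∑ j ∈ Finset.range (N.r + 1), (-1) ^ j * (H j).chc := by
  refine (Cx.u_pb h.adm _).symm.trans ((Cx.u_neg (h.adm.pb _) fun _ => neg_one_lt_zero).trans ?_)
  rw [← h.sum_eq fun j hj => by rw [chc_zero _ hj, mul_zero]]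
  refine Finset.sum_congr rfl fun j _ => congrArg _ ?_
  exact Iso.chc' (A := fun _ => LinearMap.id) ⟨Hom.of_continuous (fun _ _ h => h) continuous_snd
    fun _ _ _ _ => rfl, fun _ _ _ h => h, fun _ w h => ⟨w, h, rfl⟩⟩

theorem map_omQ_omI (c : ℝ) (hc : c ≠ 0) (q : Hev Y.X) :
    Hev.map ((omI (isClosed_zs N) c hc).comp N.zero).map (Hev.map (omQ N).map q) = q := by
  rw [Hev.map_map, ← Mor.map_comp]
  exact Hev.map_id (fun x => Y.π_out x) q

theorem IsMd.exists_q (h : IsMd N n H ι) : ∃ q : ℕ → Hev Y.X,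
    (∀ k : ℕ, q k ∈ Hev.deg Y.X (k - N.r)) ∧
    (∀ k, coeff k ((h.toIsMd0.cx.pb (omP (isClosed_zs N))).u (omL (isClosed_zs N))) =
      Hev.map (omQ N).map (q k) * omT N) ∧
    ∀ k, coeff k (∑ j ∈ Finset.range (N.r + 1), (-1) ^ j * (H j).chc) = q k * N.eu := by
  choose q hq hq' using fun k => exists_omT N (Cx.u_deg k)
    ((coeff_map _ _ _).symm.trans (congrArg (coeff k) h.north))
  refine ⟨q, hq, hq', fun k => ?_⟩
  rw [← h.south, coeff_map, hq', RingHom.coe_coe, map_mul, map_south, map_omQ_omI]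

variable (N) in
/-- the section at infinity of the projective completion -/
noncomputable def infS : Mor Y (N.sum (char 1)).PS :=
  ⟨MonoidHom.inl _ _, fun t => VB.PT.mk t (0, (1 : ℂ)) ⟨zero_mem _, trivial⟩
      fun e => (one_ne_zero : (1 : ℂ) ≠ 0) (congrArg Prod.snd e), continuous_id.prodMk continuous_const,
    VB.PT.continuous_mk continuous_id continuous_const _ _, fun g _ => VB.PT.ext rfl
      ((Prod.ext (smul_zero g).symm (one_mul (1 : ℂ)).symm).trans (one_smul ℂ _).symm)⟩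

theorem map_infS (Q : (Hev Y.X)[X]) :
    Hev.map (infS N).map (evP (N.sum (char 1)).pp.map (N.sum (char 1)).xi Q) = Q.coeff 0 := by
  have h1 : Hev.map (infS N).map (N.sum (char 1)).xi = 0 := (map_c1 _ _).trans c1_one
  rw [map_evP, h1, evP_eq, ← Polynomial.coeff_zero_eq_eval_zero, Polynomial.coeff_map,
    ← Mor.map_comp]
  exact Hev.map_mor_id _

theorem iso_infS (E : VB Y) (χ : (N.sum (char 1)).PS.G →ₜ* ℂˣ) (hχ : ∀ g, χ ((infS N).ρ g) = 1) :
    Iso (infS N) E (E.tw (N.sum (char 1)).pp χ) fun _ => LinearMap.id :=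
  ⟨Hom.of_continuous (fun _ _ h => h) continuous_snd fun g _ w _ =>
    show g • w = (χ ((infS N).ρ g) : ℂ) • g • w by rw [hχ, Units.val_one, one_smul],
    fun _ _ _ h => h, fun _ w h => ⟨w, h, rfl⟩⟩

theorem map_evP_ex {X Z : Type} [TopologicalSpace X] [TopologicalSpace Z] (p : C(X, Z))
    (ξ : Hev X) : PowerSeries.map (evP p ξ) (ex (-Polynomial.X)) = ex (-ξ) := by
  refine (map_ex { evP p ξ with
    commutes' := fun z => (evP_C (algebraMap ℂ _ z)).trans ((Hev.map p).commutes z) } _).trans ?_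
  exact congrArg ex ((map_neg (evP p ξ) _).trans (congrArg _ evP_X))

theorem map_evP_C {X Z : Type} [TopologicalSpace X] [TopologicalSpace Z] (p : C(X, Z))
    (ξ : Hev X) (B : (Hev Z)⟦X⟧) :
    PowerSeries.map (evP p ξ) (PowerSeries.map Polynomial.C B) = pS p B :=
  PowerSeries.ext fun k => by
    rw [coeff_map, coeff_map, coeff_map]
    exact evP_C _

theorem IsMd.u_iso (h : IsMd N n H ι) {Y' : Ch.Sp} {N' : VB Y'} {H' : ℕ → VB Y'}
    {ι' : ∀ j, Y'.T → N'.W →ₗ[ℂ] (H' (j + 1)).W →ₗ[ℂ] (H' j).W} (h' : IsMd N' n H' ι')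
    {m : Mor Y' Y} {A : Y'.T → N'.W →ₗ[ℂ] N.W} (hA : Iso m N' N A)
    {B : ∀ j, Y'.T → (H' j).W →ₗ[ℂ] (H j).W} (hB : ∀ j, Iso m (H' j) (H j) (B j))
    (e : ∀ j t, ∀ v ∈ N'.F t, ∀ w ∈ (H' (j + 1)).F t,
      ι j (m.f t) (A t v) (B (j + 1) t w) = B j t (ι' j t v w)) :
    (h'.toIsMd0.cx.pb (omP (isClosed_zs N'))).u (omL (isClosed_zs N')) =
      pS (omM hA).map ((h.toIsMd0.cx.pb (omP (isClosed_zs N))).u (omL (isClosed_zs N))) :=
  Cx.u_iso (K := h.toIsMd0.cx.pb (omP (isClosed_zs N)))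
    (K' := h'.toIsMd0.cx.pb (omP (isClosed_zs N'))) (m := omM hA)
    (A := fun j t => B j ((omQ N').f t)) (ρ := fun _ => 1)
    (fun j => ⟨⟨fun _ => (hB j).mem _, (hB j).continuous
      ((omQ N').cf.comp (continuous_fst.comp continuous_subtype_val))
      (continuous_snd.comp continuous_subtype_val) fun z => z.2, fun g _ => (hB j).eqv g _⟩,
      fun _ => (hB j).inj _, fun _ => (hB j).surj _⟩) (fun _ => one_pos)
    (fun j t w hw => (e j _ _ ((omP (isClosed_zs N')).f t).2 w hw).trans (one_smul ℂ _).symm) rfl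
    h.adm h'.adm fun _ => (one_mul _).symm

theorem map_omM_mul {Y' : Ch.Sp} {N' : VB Y'} {m : Mor Y' Y} {A : Y'.T → N'.W →ₗ[ℂ] N.W}
    (hA : Iso m N' N A) (q : Hev Y.X) : Hev.map (omM hA).map (Hev.map (omQ N).map q * omT N) =
      Hev.map (omQ N').map (Hev.map m.map q) * omT N' := by
  rw [map_mul, map_omM, Hev.map_map, omQ_omM, ← Hev.map_map]

theorem IsMd.model (h : IsMd N n H ι) : ∃ γ : (Hev Y.X)⟦X⟧, (∀ k : ℕ, coeff k γ ∈ Hev.deg Y.X k) ∧
    (h.toIsMd0.cx.pb (omP (isClosed_zs N))).u (omL (isClosed_zs N)) =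
      X ^ N.r * (pS (omQ N).map γ * C (omT N)) ∧
    γ * N.td = (H 0).chc ∧ (N.r = 2 →
      coeff 1 (H 1).chc = coeff 1 N.chc + 2 * coeff 1 (H 2).chc ∧
      coeff 1 (H 0).chc = coeff 1 N.chc + coeff 1 (H 2).chc) := by
  have hI := (h.tw (N.sum (char 1)).pp (N.sum (char 1)).o1).u_iso h (iso_infS N _ fun _ => rfl)
    (fun j => iso_infS (H j) _ fun _ => (ContinuousMonoidHom.pow_apply _ _ _).trans
      (show (1 : ℂˣ)⁻¹ ^ j = 1 by rw [inv_one, one_pow]))
    fun _ _ _ _ _ _ => rfl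
  set E := N.sum (char 1) with hE
  obtain ⟨q, hq, hu, hs⟩ := (h.tw E.pp E.o1).exists_q
  choose Q hQ using fun k => evP_surjective E (q (k + N.r))
  replace hq : ∀ k : ℕ, q k ∈ Hev.deg E.PS.X (k - N.r) := hq
  have hq0 : ∀ k, ¬N.r ≤ k → q k = 0 := fun k hk => Hev.eq_zero_of_neg (hq k) (by omega)
  have hγ : ∀ k, (Q k).coeff 0 = Hev.map (infS N).map (q (k + N.r)) := fun k => by
    rw [← hQ, map_infS]
  have h1 : PowerSeries.map (evP E.pp.map E.xi) (X ^ N.r * C N.chern * PowerSeries.mk Q -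
      ∑ j ∈ Finset.range (N.r + 1), (-1) ^ j * Grr.ex (-Polynomial.X : (Hev Y.X)[X]) ^ j *
        PowerSeries.map Polynomial.C (H j).chc) = 0 := by
    rw [map_sub, sub_eq_zero, map_sum]
    refine Eq.trans (PowerSeries.ext fun k => Eq.trans ?_ (hs k).symm)
      (Finset.sum_congr rfl fun j _ => ?_)
    · rw [VB.eu_tw, mul_assoc, coeff_map, coeff_X_pow_mul']
      split_ifs with hk
      · rw [coeff_C_mul, coeff_mk, map_mul, hQ, Nat.sub_add_cancel hk, mul_comm]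
        rfl
      · rw [hq0 k hk, map_zero, zero_mul]
    · rw [map_mul, map_mul, map_pow, map_pow, map_neg, map_one, map_evP_ex, map_evP_C, chc_tw,
        c1_pow, c1_inv, ex_nsmul, mul_assoc]
      rfl
  have key := model_alg N (fun j => (H j).chc) (PowerSeries.mk fun k => (Q k).coeff 0) fun k => by
    have h2 := dvd_of_evP E ((coeff_map _ _ _).symm.trans (congrArg (coeff k) h1))
    rw [hE, VB.chern_sum, chern_char, c1_one, map_zero, add_zero] at h2
    refine (dvd_iff_dvd_of_dvd_sub ?_).1 h2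
    rw [← map_sub, sub_sub_sub_cancel_right, ← mul_sub, mul_assoc, coeff_X_pow_mul']
    split_ifs
    · rw [coeff_C_mul, map_sub, coeff_map, coeff_mk, coeff_mk]
      exact mul_dvd_mul_left _ (Polynomial.X_dvd_iff.2 (by simp))
    · exact dvd_zero _
  refine ⟨PowerSeries.mk fun k => (Q k).coeff 0, fun k => ?_, ?_, key.1,
    fun hr => key.2 hr ?_ ?_ ?_⟩
  · rw [coeff_mk, hγ]
    exact Hev.map_deg _ (by simpa using hq (k + N.r))
  · refine hI.trans (PowerSeries.ext fun k => ?_)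
    rw [coeff_map, hu, coeff_X_pow_mul']
    refine (map_omM_mul _ _).trans ?_
    split_ifs with hk
    · rw [coeff_mul_C, coeff_map, coeff_mk, hγ, Nat.sub_add_cancel hk]
      rfl
    · rw [hq0 k hk, map_zero, map_zero, zero_mul]
  all_goals
    rw [VB.chc, coeff_zero_chP, h.rank, hr]
    simp

end Vale.Agent.P269.Grr
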