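import Vale.Agent.P269.Grr.HG
import Vale.Agent.P269.Loc.Lam

/-!
# General facts about cuts
-/

namespace Vale.Agent.P269.Grr

open Set Function Topology Filter Module Vale.Agent.P291Z Vale.Agent.P269.Ch Vale.Agent.P269.Holo
  Vale.Agent.P269.Loc

variable {Y : Ch.Sp} {Z : SubMulAction Y.G Y.T} (c : Cut Y Z)

theorem Cut.isClosedEmbedding : IsClosedEmbedding c.i.map :=
  (Sat.of_surj (m := c.i) surjective_id).isClosedEmbedding c.closed.isClosedEmbedding_subtypeVal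

theorem Cut.range_i : range c.i.map = Y.π '' Z :=
  (range_map c.i).trans (congrArg (Y.π '' ·) Subtype.range_val)

theorem Cut.isCo' : IsCo (range c.i.map) c.N.r c.t := c.range_i ▸ c.isCo

theorem Cut.hcls_pull : hcls (pull c.i.map c.t) = c.NS.eu.1 := by
  have e : ⇑c.i.map = (Y.subI c.O c.isOpen.isLocallyClosed).map ∘ c.k.map :=
    congrArg DFunLike.coe (Mor.map_comp (Y.subI c.O c.isOpen.isLocallyClosed) c.k)
  rw [Cut.NS, VB.eu_pb, Hev.coe_map, ← c.sec.hcls_eul, ← c.cohom.hcls_eq c.sec.isCo.cocycle,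
    H.map_hcls _ (cocycle_pull (Y.subI c.O c.isOpen.isLocallyClosed).map.continuous
      c.isCo.cocycle), pull_pull, e]

theorem Cut.exists_g : ∃ g : Hev c.S.X →ₗ[ℂ] Hev Y.X, (∀ q, g q = c.g q) ∧
    (∀ a q, g (Hev.map c.i.map a * q) = a * g q) ∧
    ∀ q, Hev.map c.i.map (g q) = c.NS.eu * q := by
  obtain ⟨g, h1, h2, h3⟩ := exists_egL c.isClosedEmbedding c.isCo'
  exact ⟨g, h1, h2, h3 _ c.hcls_pull.symm⟩

theorem Cut.cap_g (q : Hev c.S.X) (β : BM Y.X) :
    cap (c.g q).1 β = push c.i.map (cap q.1 (gys c.i.map c.t β)) := by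
  rw [← cap_hgys c.isClosedEmbedding c.isCo', ← coe_eg c.isClosedEmbedding c.isCo']
  rfl

end Vale.Agent.P269.Grr
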