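import Vale.Agent.P269.Grr.RRE
import Vale.Agent.P269.Grr.Cof

/-!
# The Todd class of a two term complex with nodal degeneracy
-/

namespace Vale.Agent.P269.Grr

open Set Function Topology Filter Module Vale.Agent.P291Z Vale.Agent.P269.Ch PowerSeries

namespace NdA

section alg

theorem two_cancel {R : Type*} [CommRing R] [Algebra ℂ R] {x y : R} (h : 2 * x = 2 * y) :
    x = y := by
  have := (IsUnit.mk0 (2 : ℂ) two_ne_zero).map (algebraMap ℂ R)
  rw [map_ofNat] at this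
  exact this.mul_left_cancel h

variable {R : Type*} [CommRing R] [Algebra ℂ R]

theorem coeff_one_ex (a : R) : coeff 1 (ex a) = a := by simp [coeff_ex]

theorem two_mul_eq (a b : R) :
    2 * (a * b) = coeff 1 (ex a + ex b) ^ 2 - 2 * coeff 2 (ex a + ex b) := by
  have h : ∀ x : R, 2 * coeff 2 (ex x) = x ^ 2 := fun x => by
    rw [coeff_ex, two_mul, ← add_smul]
    norm_num [Nat.factorial]
  rw [map_add, map_add, coeff_one_ex, coeff_one_ex, mul_add, h, h]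
  ring

end alg

section al

/-- the standard basis -/
noncomputable def eb (k : Fin 2) : Fin 2 → ℂ := Pi.single k 1

/-- the coordinate of a form of degree zero -/
noncomputable def a0 : Al 2 0 →L[ℂ] ℂ := ContinuousAlternatingMap.apply ℂ _ _ ![]

/-- the coordinates of a form of degree one -/
noncomputable def a1 (k : Fin 2) : Al 2 1 →L[ℂ] ℂ := ContinuousAlternatingMap.apply ℂ _ _ ![eb k]

/-- the coordinate of a form of degree two -/
noncomputable def a2 : Al 2 2 →L[ℂ] ℂ := ContinuousAlternatingMap.apply ℂ _ _ ![eb 0, eb 1]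

theorem curry_eq {j : ℕ} (κ : Al 2 (j + 1)) (f : Fin 2 → ℂ) :
    κ.curryLeft f = f 0 • κ.curryLeft (eb 0) + f 1 • κ.curryLeft (eb 1) := by
  rw [← map_smul, ← map_smul, ← map_add]
  refine congrArg _ (funext fun k => ?_)
  fin_cases k <;> simp [eb]

theorem a0_curry (κ : Al 2 1) (f : Fin 2 → ℂ) :
    a0 (κ.curryLeft f) = f 0 * a1 0 κ + f 1 * a1 1 κ := by
  rw [curry_eq, map_add, map_smul, map_smul]
  rfl

theorem a1_self (κ : Al 2 2) (k : Fin 2) : a1 k (κ.curryLeft (eb k)) = 0 :=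
  congrArg a0 (LinP.curry_self κ (eb k))

theorem a1_curry_zero (κ : Al 2 2) (f : Fin 2 → ℂ) : a1 0 (κ.curryLeft f) = -(f 1 * a2 κ) := by
  have : a1 0 (κ.curryLeft (eb 1)) = -a2 κ := congrArg a0 (Al.curry_curry κ (eb 1) (eb 0))
  rw [curry_eq, map_add, map_smul, map_smul, a1_self, this, smul_zero, zero_add, smul_neg]
  rfl

theorem a1_curry_one (κ : Al 2 2) (f : Fin 2 → ℂ) : a1 1 (κ.curryLeft f) = f 0 * a2 κ := by
  rw [curry_eq, map_add, map_smul, map_smul, a1_self, smul_zero, add_zero]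
  rfl

theorem eq_zero_of_curry {j : ℕ} {κ : Al 2 (j + 1)} (h : ∀ f, κ.curryLeft f = 0) : κ = 0 :=
  ContinuousAlternatingMap.ext fun v =>
    (congrArg κ (Fin.cons_self_tail v).symm).trans (DFunLike.congr_fun (h (v 0)) (Fin.tail v))

theorem inj0 {κ : Al 2 0} (h : a0 κ = 0) : κ = 0 :=
  ContinuousAlternatingMap.ext fun _ => (congrArg κ (funext fun i => i.elim0)).trans h

theorem inj1 {κ : Al 2 1} (h : a1 0 κ = 0) (h' : a1 1 κ = 0) : κ = 0 :=
  eq_zero_of_curry fun f => inj0 (by rw [a0_curry, h, h', mul_zero, mul_zero, add_zero])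

theorem inj2 {κ : Al 2 2} (h : a2 κ = 0) : κ = 0 :=
  eq_zero_of_curry fun f => inj1 (by rw [a1_curry_zero, h, mul_zero, neg_zero])
    (by rw [a1_curry_one, h, mul_zero])

theorem surj0 (c : ℂ) : ∃ κ, a0 κ = c := ⟨ContinuousAlternatingMap.constOfIsEmpty ℂ _ _ c, rfl⟩

theorem surj1 (c : Fin 2 → ℂ) : ∃ κ, ∀ k, a1 k κ = c k :=
  ⟨ContinuousAlternatingMap.ofSubsingleton ℂ _ _ 0
    (c 0 • ContinuousLinearMap.proj 0 + c 1 • ContinuousLinearMap.proj 1), fun k => by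
      show c 0 • eb k 0 + c 1 • eb k 1 = c k
      fin_cases k <;> simp [eb]⟩

theorem surj2 (c : ℂ) : ∃ κ, a2 κ = c := by
  obtain ⟨κ, h⟩ := surj1 ![0, c]
  obtain ⟨κ', e⟩ := (Al.exact (n := eb 0) fun e => by simpa [eb] using congrFun e 0).2 0 κ
    (inj0 (h 0))
  exact ⟨κ', (congrArg (a1 1) e).trans (h 1)⟩

end al

variable {Y : Ch.Sp} {Q N Λ : VB Y} {A : Y.T → Q.W →ₗ[ℂ] N.W} {j : Y.T → Λ.W →ₗ[ℂ] Q.W}

/-- the terms of the complex -/
noncomputable def tE (Q N Λ : VB Y) : ℕ → VB Y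
  | 0 => N
  | 1 => Q
  | 2 => Λ
  | _ + 3 => trivB Y (Fin 0 → ℂ)

/-- the differentials of the complex -/
noncomputable def tD (A : Y.T → Q.W →ₗ[ℂ] N.W) (j : Y.T → Λ.W →ₗ[ℂ] Q.W) :
    ∀ k, Y.T → (tE Q N Λ (k + 1)).W →ₗ[ℂ] (tE Q N Λ k).W
  | 0 => A
  | 1 => j
  | _ + 2 => fun _ => 0

theorem mem_top (w : (trivB Y (Fin 0 → ℂ)).W) (S : Submodule ℂ (trivB Y (Fin 0 → ℂ)).W) :
    w ∈ S := (show w = 0 from funext fun i : Fin 0 => i.elim0) ▸ zero_mem _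

/-- the complex `Λ → Q → N` -/
noncomputable def cx (h : IsCof Q N Λ A j) (hA : Hom (Mor.id Y) Q N A) : Cx Y where
  n := 2
  E := tE Q N Λ
  d := tD A j
  hom
    | 0 => hA
    | 1 => h.hom
    | _ + 2 => ⟨fun _ _ _ => zero_mem _, continuous_const, fun _ _ _ _ => (smul_zero _).symm⟩
  dd
    | 0 => h.comp
    | 1 => fun t _ _ => map_zero (j t)
    | _ + 2 => fun _ _ _ => rfl
  top
    | _ + 3, _ => Module.finrank_fin_fun ℂ

variable (h : IsCof Q N Λ A j) (hA : Hom (Mor.id Y) Q N A)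

theorem chi_cx : (cx h hA).chi = N.chc - Q.chc + Λ.chc := by
  show ∑ k ∈ Finset.range 3, (-1) ^ k * (tE Q N Λ k).chc = _
  simp only [Finset.sum_range_succ, Finset.sum_range_zero, tE]
  ring

theorem bd_two {t : Y.T} {w : Λ.W} (hw : w ∈ (cx h hA).Bd 2 t) : w = 0 := by
  obtain ⟨u, -, rfl⟩ := hw
  rfl

theorem ex_cx {t : Y.T} (ht : (Q.F t).map (A t) = N.F t) : (cx h hA).Ex t
  | 0 => ht.ge
  | 1 => fun v hv => (h.sm t ht).2 v hv.1 hv.2
  | 2 => fun w hw => (h.sm t ht).1 w hw.1 hw.2 ▸ zero_mem _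
  | _ + 3 => fun w _ => mem_top w _

/-- the chain map from the Koszul complex -/
noncomputable def tφ (n : Y.T → N.W) (v : Y.T → Fin 2 → Q.W) (l : Y.T → Λ.W) :
    ∀ k, Y.T → Al 2 k →L[ℂ] (tE Q N Λ k).W
  | 0 => fun x => a0.smulRight (n x)
  | 1 => fun x => (a1 0).smulRight (v x 0) + (a1 1).smulRight (v x 1)
  | 2 => fun x => a2.smulRight (l x)
  | _ + 3 => fun _ => 0

theorem cont_smulRight {T V W : Type} [TopologicalSpace T] [NormedAddCommGroup V]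
    [NormedSpace ℂ V] [NormedAddCommGroup W] [NormedSpace ℂ W] (a : V →L[ℂ] ℂ) {n : T → W} {x : T}
    (hn : ContinuousAt n x) : ContinuousAt (fun x => a.smulRight (n x)) x :=
  (ContinuousLinearMap.smulRightL ℂ V W a).continuous.continuousAt.comp hn

theorem mem_line {E : VB Y} (hr : E.r = 1) {t : Y.T} {l w : E.W} (hl : l ∈ E.F t) (h0 : l ≠ 0)
    (hw : w ∈ E.F t) : ∃ c : ℂ, c • l = w := by
  obtain ⟨c, hc⟩ := (finrank_eq_one_iff_of_nonzero' (⟨l, hl⟩ : E.F t)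
    (fun h3 => h0 (congrArg Subtype.val h3))).1 ((E.rank t).trans hr) ⟨w, hw⟩
  exact ⟨c, congrArg Subtype.val hc⟩

theorem loc_cx (hQ : Q.r = N.r + 1) {y : Y.T} {f : Y.T → Fin 2 → ℂ} {v : Y.T → Fin 2 → Q.W}
    {n : Y.T → N.W} (hf : f y = 0)
    (hx : ∀ᶠ x in 𝓝 y, ContinuousAt f x ∧ ContinuousAt v x ∧ ContinuousAt n x ∧
      n x ∈ N.F x ∧ ∀ k, v x k ∈ Q.F x ∧ A x (v x k) = f x k • n x)
    (li : LinearIndependent ℂ (v y)) (sp : (Q.F y).map (A y) ⊔ ℂ ∙ n y = N.F y) :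
    (∀ w ∈ Λ.F y, j y w = 0) ∧ ∃ φ, (cx h hA).Loc 2 f φ y := by
  have li' : LinearIndependent ℂ ![v y 0, v y 1] := by
    rwa [show ![v y 0, v y 1] = v y from funext fun k => by fin_cases k <;> rfl]
  obtain ⟨l, l0, hl⟩ := h.nd Y.T y id (fun x => v x 1) (fun x => v x 0) n (fun x => f x 0)
    (fun x => f x 1) (hx.mono fun x ⟨h1, h2, h3, h4, h5⟩ => ⟨continuousAt_id,
      continuousAt_pi.1 h2 1, continuousAt_pi.1 h2 0, h3, continuousAt_pi.1 h1 0,
      continuousAt_pi.1 h1 1, (h5 1).1, (h5 0).1, h4, (h5 1).2, (h5 0).2⟩)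
    (congrFun hf 0) (congrFun hf 1) (LinearIndependent.pair_symm_iff.1 li') sp
  obtain ⟨-, lm, le⟩ := hl.self_of_nhds
  obtain ⟨-, -, -, nm, vm⟩ := hx.self_of_nhds
  have j0 : ∀ w ∈ Λ.F y, j y w = 0 := fun w hw => by
    obtain ⟨c, rfl⟩ := mem_line h.rank lm l0 hw
    rw [map_smul, show j y (l y) = 0 from le.trans (by simp [hf]), smul_zero]
  have k1 : Submodule.span ℂ (range (v y)) ≤ Q.F y ⊓ LinearMap.ker (A y) :=
    Submodule.span_le.2 (by
      rintro _ ⟨k, rfl⟩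
      exact ⟨(vm k).1, (vm k).2.trans (by simp [hf])⟩)
  have k2 := Submodule.finrank_mono k1
  have k3 := finrank_inf_ker (Q.F y) (A y)
  have k4 := finrank_span_eq_card li
  rw [Fintype.card_fin] at k4
  rw [Q.rank] at k3
  have n0 : n y ∉ (Q.F y).map (A y) := fun hn => by
    rw [sup_eq_left.2 ((Submodule.span_singleton_le_iff_mem _ _).2 hn)] at sp
    rw [sp, N.rank] at k3
    omega
  have k5 := Submodule.finrank_sup_span_singleton n0
  rw [sp, N.rank] at k5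
  have k6 := Submodule.eq_of_le_of_finrank_eq k1 (by omega)
  refine ⟨j0, tφ n v l, fun k => ?_, fun k => ?_, fun k => ?_, fun k κ hκ => ?_, fun k w hw => ?_⟩
  · match k with
    | 0 => exact hx.mono fun x hx => cont_smulRight _ hx.2.2.1
    | 1 =>
      exact hx.mono fun x hx => (cont_smulRight _ (continuousAt_pi.1 hx.2.1 0)).add
        (cont_smulRight _ (continuousAt_pi.1 hx.2.1 1))
    | 2 => exact hl.mono fun x hx => cont_smulRight _ hx.1
    | _ + 3 => exact .of_forall fun _ => continuousAt_const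
  · match k with
    | 0 => exact hx.mono fun x hx κ => (N.F x).smul_mem _ hx.2.2.2.1
    | 1 =>
      exact hx.mono fun x hx κ => add_mem ((Q.F x).smul_mem _ (hx.2.2.2.2 0).1)
        ((Q.F x).smul_mem _ (hx.2.2.2.2 1).1)
    | 2 => exact hl.mono fun x hx κ => (Λ.F x).smul_mem _ hx.2.1
    | _ + 3 => exact .of_forall fun _ _ => zero_mem _
  · match k with
    | 0 =>
      refine hx.mono fun x hx κ => ?_
      show A x (a1 0 κ • v x 0 + a1 1 κ • v x 1) = a0 (κ.curryLeft (f x)) • n x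
      rw [map_add, map_smul, map_smul, (hx.2.2.2.2 0).2, (hx.2.2.2.2 1).2, a0_curry]
      module
    | 1 =>
      refine hl.mono fun x hx κ => ?_
      show j x (a2 κ • l x) =
        a1 0 (κ.curryLeft (f x)) • v x 0 + a1 1 (κ.curryLeft (f x)) • v x 1
      rw [map_smul, show j x (l x) = _ from hx.2.2, a1_curry_zero, a1_curry_one]
      module
    | 2 =>
      refine .of_forall fun x κ => ?_
      show 0 = a2 (κ.curryLeft (f x)) • l x
      rw [LinP.al_eq_zero (by norm_num) κ, ContinuousAlternatingMap.curryLeft_zero,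
        zero_apply, map_zero, zero_smul]
    | _ + 3 => exact .of_forall fun _ _ => rfl
  · match k with
    | 0 =>
      exact inj0 (by_contra fun e => n0 ((Submodule.smul_mem_iff _ e).1 hκ))
    | 1 =>
      obtain ⟨w, hw, e⟩ := hκ
      obtain ⟨e1, e2⟩ := LinearIndependent.pair_iff.1 li' _ _ (e.symm.trans (j0 w hw))
      exact inj1 e1 e2
    | 2 => exact inj2 ((smul_eq_zero.1 (bd_two h hA hκ)).resolve_right l0)
    | k + 3 => exact LinP.al_eq_zero (by omega) κ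
  · match k with
    | 0 =>
      obtain ⟨a, ha, _, hb, rfl⟩ := Submodule.mem_sup.1 (sp.ge hw)
      obtain ⟨c, rfl⟩ := Submodule.mem_span_singleton.1 hb
      obtain ⟨κ, rfl⟩ := surj0 c
      exact ⟨κ, (add_sub_cancel_right a (a0 κ • n y)).symm ▸ ha⟩
    | 1 =>
      obtain ⟨c, rfl⟩ := (Submodule.mem_span_range_iff_exists_fun ℂ).1 (k6.ge hw)
      obtain ⟨κ, e⟩ := surj1 c
      rw [Fin.sum_univ_two, ← e, ← e]
      exact ⟨κ, (sub_self (a1 0 κ • v y 0 + a1 1 κ • v y 1)).symm ▸ zero_mem _⟩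
    | 2 =>
      obtain ⟨c, rfl⟩ := mem_line h.rank lm l0 hw.1
      obtain ⟨κ, rfl⟩ := surj2 c
      exact ⟨κ, (sub_self (a2 κ • l y)).symm ▸ zero_mem _⟩
    | _ + 3 => exact ⟨0, mem_top _ _⟩

end NdA

open NdA

variable {Y : Ch.Sp} {Z : SubMulAction Y.G Y.T}

/-- the Euler class of a bundle of rank two -/
theorem eu_two (E : VB Y) (h : E.r = 2) {S : Type} [TopologicalSpace S] (κ : C(S, Y.X))
    {a b : Hev S} (hc : pS κ E.chc = ex a + ex b) : Hev.map κ E.eu = a * b := by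
  have e : ∀ {X X' : Type} [TopologicalSpace X] [TopologicalSpace X'] (f : C(X, X'))
      (B : (Hev X')⟦X⟧), Hev.map f (coeff 1 B ^ 2 - 2 * coeff 2 B) =
        coeff 1 (pS f B) ^ 2 - 2 * coeff 2 (pS f B) := fun f B => by
    rw [map_sub, map_pow, map_mul, map_ofNat, coeff_map, coeff_map]
    rfl
  have e1 : 2 * E.eu = coeff 1 E.chc ^ 2 - 2 * coeff 2 E.chc := by
    obtain ⟨Y', m, hm, χ, v, hv⟩ := exists_fr_aux 2 Y E h
    refine Hev.map_injective hm ?_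
    rw [e, ← chc_pb, Fr.chc hv, map_mul, map_ofNat, ← VB.eu_pb, hv.eu, Fin.sum_univ_two,
      Fin.prod_univ_two, two_mul_eq]
  refine two_cancel ?_
  rw [two_mul_eq, ← hc, ← e, ← e1, map_mul, map_ofNat]

/-- the Todd class of a two term complex with nodal degeneracy -/
theorem IsCof.td (c : Cut Y Z) (hr : c.N.r = 2) {Q N Λ : VB Y} {A : Y.T → Q.W →ₗ[ℂ] N.W}
    {j : Y.T → Λ.W →ₗ[ℂ] Q.W} (h : IsCof Q N Λ A j) (hA : Hom (Mor.id Y) Q N A)
    (hQ : Q.r = N.r + 1) (sm : ∀ t, t ∉ Z → (Q.F t).map (A t) = N.F t)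
    (nd : ∀ y : c.O, y.1 ∈ Z → ∃ (f : Y.T → Fin 2 → ℂ) (v : Y.T → Fin 2 → Q.W) (n : Y.T → N.W),
      c.Fits f y ∧ (∀ᶠ x in 𝓝 y.1, ContinuousAt f x ∧ ContinuousAt v x ∧ ContinuousAt n x ∧
        n x ∈ N.F x ∧ ∀ k, v x k ∈ Q.F x ∧ A x (v x k) = f x k • n x) ∧
      LinearIndependent ℂ (v y.1) ∧ (Q.F y.1).map (A y.1) ⊔ ℂ ∙ n y.1 = N.F y.1)
    {K : VB c.S} {i : c.S.T → K.W →ₗ[ℂ] Q.W} (hi : Hom c.i K Q i)
    (inj : ∀ t, ∀ w ∈ K.F t, i t w = 0 → w = 0) (ker : ∀ t, ∀ w ∈ K.F t, A (c.i.f t) (i t w) = 0)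
    (hK : K.r = 2) (hc : K.chc = c.NS.chc) :
    Hev.map c.i.map Λ.eu = 0 ∧ ∃ Φ : (Hev c.S.X)⟦X⟧,
      tdOf (Q.chc - N.chc) = ev Λ.eu tdS + X ^ 2 * mapL c.g Φ ∧
      ∀ (S : Type) [TopologicalSpace S] (κ : C(S, c.S.X)) (a b : Hev S),
        pS κ c.NS.chc = ex a + ex b → pS κ Φ = mumS a b := by
  have key : ∀ y : c.O, y.1 ∈ Z → (∀ w ∈ Λ.F y.1, j y.1 w = 0) ∧
      ∃ f φ, (cx h hA).Loc 2 f φ y.1 ∧ c.Fits f y := fun y hy => by
    obtain ⟨f, v, n, h1, h2, h3, h4⟩ := nd y hy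
    obtain ⟨B, -, h5⟩ := id h1
    obtain ⟨h6, φ, h7⟩ := loc_cx h hA hQ
      (h5.self_of_nhds.2.trans (by rw [(c.zero y).2 hy, map_zero])) h2 h3 h4
    exact ⟨h6, f, φ, h7, h1⟩
  have j0 : ∀ t : c.S.T, ∀ w ∈ Λ.F (c.i.f t), j (c.i.f t) w = 0 := fun t : Z =>
    (key ⟨t.1, c.le _ t.2⟩ t.2).1
  obtain ⟨H, γ, rr⟩ := rre c (cx h hA) hr two_pos (fun t ht => ex_cx h hA (sm t ht))
    fun y hy => (key y hy).2
  have e1 := rr.sub 1 c.S (Mor.id _) K i ⟨hi.mem, hi.cont, hi.eqv⟩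
    (fun t w hw => ⟨hi.mem t w hw, ker t w hw⟩)
    (fun t w hw ⟨u, hu, e⟩ => inj t w hw (e.symm.trans (j0 t u hu))) hK
  have hp := (iso_pb Λ c.i).toHom
  have e2 := rr.sub 2 c.S (Mor.id _) (Λ.pb c.i) (fun _ => LinearMap.id) ⟨hp.mem, hp.cont, hp.eqv⟩
    (fun t w hw => ⟨hw, j0 t w hw⟩) (fun t w _ e => bd_two h hA e) h.rank
  rw [pS_id] at e1 e2
  obtain ⟨e3, e4⟩ := rr.two rfl
  rw [← e2, chc_line (Λ.pb c.i) h.rank, coeff_one_ex, VB.eu_pb] at e3 e4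
  rw [← e1, hc, left_eq_add] at e3
  have e5 : Hev.map c.i.map Λ.eu = 0 := two_cancel (e3.trans (mul_zero _).symm)
  have e6 := chc_line (H 0) (rr.rank 0)
  rw [e5, add_zero, e6, coeff_one_ex] at e4
  obtain ⟨Φ, p1, p2⟩ := exists_mum γ c.NS.eu
  obtain ⟨g, g1, g2, g3⟩ := c.exists_g
  have g4 : ⇑g = c.g := funext g1
  refine ⟨e5, Φ, ?_, fun S _ κ a b hab => p2 _ (Hev.map κ) a b (eu_two c.NS hr κ hab) ?_⟩
  · have := p1 _ (Hev.map c.i.map) g (-Λ.eu) g2 g3 (by rw [map_neg, e5, neg_zero])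
    rw [neg_neg, g4, ← rr.chi, chi_cx, ← chc_line Λ h.rank] at this
    rw [← this]
    exact congrArg tdOf (by ring)
  · have e7 := congrArg (pS κ) rr.td
    have e8 := congrArg (coeff 1) hab
    rw [map_add, coeff_one_ex, coeff_one_ex, coeff_map, ← e4] at e8
    rw [map_mul, VB.td, ← tdOf_map, e6, pS_ex] at e7
    rw [← tdOf_ex, ← tdOf_ex, ← tdOf_add, ← hab, ← e8]
    exact e7

end Vale.Agent.P269.Grr
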