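import Vale.Agent.P269.Grr.Th
import Vale.Agent.P269.Grr.Om
import Vale.Agent.P269.Grr.Lin

/-!
# Riemann-Roch: the clutching class near the zero set
-/

namespace Vale.Agent.P269.Grr

open Set Function Topology Filter Module Vale.Agent.P291Z Vale.Agent.P269.Ch PowerSeries

namespace RRA

/-- a product formula on a closed subspace holds in a neighbourhood -/
theorem near_mul {X E : Type} [TopologicalSpace X] [TopologicalSpace E] [Nice X] [Nice E]
    {i : C(E, X)} (hi : IsClosedEmbedding i) {u T : H X} {a : Coch X}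
    (ha : ∀ y, δ a ∈ Van (i y)) (h : H.map i u = hcls (pull i a) * H.map i T) :
    ∃ W : Set X, IsOpen W ∧ (∀ y, i y ∈ W) ∧ ∀ (U : Type) [TopologicalSpace U] (j : C(U, X)),
      (∀ z, j z ∈ W) → supp (δ (pull j a)) = ∅ ∧ H.map j u = hcls (pull j a) * H.map j T := by
  obtain ⟨w, hw, rfl⟩ := hcls_surj u
  obtain ⟨τ, hτ, rfl⟩ := hcls_surj T
  have h1 := HG.cocycle_pull_near i.continuous ha
  have h2 := cocycle_pull i.continuous hτ
  obtain ⟨c, hc⟩ := HG.exists_prim hi (a := w - a * τ) (fun y => by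
    rw [map_sub, δ_mul]
    exact (Van _).sub_mem (supp_eq_empty.1 hw _) ((Van _).add_mem (Van.mul_right (ha y) _)
      (Van.mul_left (supp_eq_empty.1 hτ _) _))) (by
    rw [map_sub, map_mul, hcls_sub (cocycle_pull i.continuous hw) (P291Z.cocycle_mul h1 h2),
      hcls_mul h1 h2, ← H.map_hcls i hw, ← H.map_hcls i hτ, h, sub_self])
  refine ⟨(supp (w - a * τ - δ c))ᶜ ∩ (supp (δ a))ᶜ, (isClosed_supp _).isOpen_compl.inter
    (isClosed_supp _).isOpen_compl, fun y => ⟨hc y, ha y⟩, fun U _ j hj => ?_⟩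
  have h3 : supp (δ (pull j a)) = ∅ := supp_eq_empty.2 fun z => by
    rw [δ_pull]
    exact Van.pull j.continuous.continuousAt (hj z).2
  have h4 := cocycle_pull j.continuous hτ
  refine ⟨h3, ?_⟩
  rw [H.map_hcls j hw, H.map_hcls j hτ, ← hcls_mul h3 h4]
  refine hcls_eq_of_cohom (c := pull j c) (P291Z.cocycle_mul h3 h4) (supp_eq_empty.2 fun z => ?_)
  rw [δ_pull, ← map_mul, ← map_sub, ← map_sub]
  exact Van.pull j.continuous.continuousAt (hj z).1

variable {Y Y' Y'' : Ch.Sp}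

theorem iso_of_eq {m : Mor Y'' Y'} {p : Mor Y' Y} {q : Mor Y'' Y}
    (hρ : ∀ g, p.ρ (m.ρ g) = q.ρ g) (hf : ∀ t, p.f (m.f t) = q.f t) (E : VB Y) :
    Iso m (E.pb q) (E.pb p) fun _ => LinearMap.id :=
  ⟨Hom.of_continuous (fun t w (h : w ∈ E.F (q.f t)) => show w ∈ E.F (p.f (m.f t)) from
      hf t ▸ h) continuous_snd fun g _ w _ => congrArg (· • (show E.W from w)) (hρ g).symm,
    fun _ _ _ h => h,
    fun t w (h : w ∈ E.F (p.f (m.f t))) => ⟨w, show w ∈ E.F (q.f t) from hf t ▸ h, rfl⟩⟩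

theorem isSec_of_eq {m : Mor Y'' Y'} {p : Mor Y' Y} {q : Mor Y'' Y}
    (hρ : ∀ g, p.ρ (m.ρ g) = q.ρ g) (hf : ∀ t, p.f (m.f t) = q.f t) {E : VB Y} {n : Y'.T → E.W}
    (hn : (E.pb p).IsSec n) : (E.pb q).IsSec fun t => n (m.f t) :=
  ⟨fun t => show n (m.f t) ∈ E.F (q.f t) from hf t ▸ hn.mem (m.f t), hn.cont.comp m.cf,
    fun g t => ((hn.pb m).eqv g t).trans (congrArg (· • n (m.f t)) (hρ g))⟩

end RRA

open RRA

variable {Y Y' : Ch.Sp} {K : Cx Y} {N : VB Y} {σ : Y.T → N.W} {Z : SubMulAction Y.G Y.T}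

theorem Red.adm (h : Red K N σ Z) :
    (K.pb (omP h.closed)).Adm (omL h.closed) :=
  ⟨continuous_omL _, fun _ _ => rfl, fun z e => (K.ex_pb _).2
    (h.ex _ ((om_ne _ z).resolve_right (not_not.2 e))), fun _ => (LinP.bal h :)⟩

namespace RRA

variable {hZ : IsClosed (Z : Set Y.T)} (b : Bl N σ hZ)

/-- the exceptional set -/
def exc : SubMulAction b.O.G b.O.T where
  carrier := {t | b.r t = 0}
  smul_mem' g t ht := (b.ir g t).trans ht

theorem isClosed_exc : IsClosed (exc b : Set b.O.T) := isClosed_eq b.cr continuous_const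

/-- the inclusion of the exceptional set -/
noncomputable def excI : Mor (b.O.sub (exc b) (isClosed_exc b).isLocallyClosed) b.O :=
  b.O.subI _ _

/-- the Thom class on the blow-up -/
noncomputable def hat : Hev b.O.X := Hev.map (toOmN b.sec b.l b.cl b.il b.ne).map (omT N)

theorem map_hat (hσ : N.IsSec σ) (h0 : ∀ t, σ t = 0 ↔ t ∈ Z) {U : Ch.Sp} (i : Mor U (Om hZ)) :
    H.map (b.β.comp i).map (hat b).1 =
      hcls (pull ((omP hZ).comp i).map hσ.eul * neg (oml hZ ∘ i.map)) := by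
  have h1 : (N.pb ((omP hZ).comp i)).IsSec fun t => b.n ((b.β.comp i).f t) :=
    isSec_of_eq (m := b.β.comp i) (q := (omP hZ).comp i) (fun g => b.ρ_β _) (fun t => b.p_β _) b.sec
  have h2 := hσ.pb ((omP hZ).comp i)
  have h3 : ∀ t, σ (((omP hZ).comp i).f t) ≠ 0 ∨ omL hZ (i.f t) ≠ 0 := fun t =>
    (om_ne hZ (i.f t)).imp_left (mt (h0 _).1)
  have h2' : ∀ (g : U.G) t, omL hZ (i.f (g • t)) = omL hZ (i.f t) := fun g t => by
    rw [Mor.eqv]; rfl
  have h4 := map_toOmN_smul h1 (l := fun t => b.l ((b.β.comp i).f t))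
    (b.cl.comp (b.β.comp i).cf) (fun g t => by rw [Mor.eqv, b.il]) (fun t => b.ne _)
    (ρ := fun t => b.r ((b.β.comp i).f t)) (b.cr.comp (b.β.comp i).cf) (fun t => b.r_β _)
    (fun g t => by rw [Mor.eqv, b.ir]) h2 (l' := fun t => omL hZ (i.f t))
    ((continuous_omL hZ).comp i.cf) h2' h3
    (fun t => (congrArg σ (b.p_β _).symm).trans (b.σ_eq _)) (fun t => b.l_β _) (omT N).1
  have h5 := (iso_pb N ((omP hZ).comp i)).cohom_eul h2 hσ fun _ => rfl
  rw [← map_toOmN h2 (l := fun t => omL hZ (i.f t)) ((continuous_omL hZ).comp i.cf) h2' h3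
    (l' := oml hZ ∘ i.map) (fun t => by
    rw [comp_apply, Mor.map_π, oml_π]) (cocycle_pull (ContinuousMap.continuous _)
      hσ.isCo.cocycle) (fun x hx => ?_) h5.symm, h4, hat, Hev.coe_map, H.map_map, ← Mor.map_comp]
  · exact congrArg (fun f => H.map f _) (Mor.map_ext fun t => congrArg _
      (Subtype.ext (Prod.ext rfl (Subtype.ext (Prod.ext (b.p_β _) rfl)))))
  · obtain ⟨t, rfl⟩ := U.surj x
    have h6 := hσ.isCo.supp (supp_pull (ContinuousMap.continuous _) _ hx)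
    rw [Mor.map_π] at h6
    exact ⟨t, hσ.mem_zeros.1 h6, rfl⟩

end RRA

-- near `0 × Z` the clutching class is the class of the model
theorem Red.near (h : Red K N σ Z)
    {ι : ∀ j, Y.T → N.W →ₗ[ℂ] (K.E (j + 1)).W →ₗ[ℂ] (K.E j).W}
    (hι : ∀ y ∈ Z, ∀ B φ, LocM K N σ B φ y → ∀ j, ∀ v ∈ N.F y, ∀ κ,
      ι j y v (φ (j + 1) y κ) = φ j y (κ.curryLeft (B y v)))
    (m : Mor Y' Y) (hm : ∀ t, m.f t ∈ Z)
    (hl : ∀ (W : Ch.Sp) (q : Mor W Y), (∀ t, q.f t ∈ Z) →
      ∃ q' : Mor W Y', (∀ g, m.ρ (q'.ρ g) = q.ρ g) ∧ ∀ t, m.f (q'.f t) = q.f t)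
    {γ : (Hev Y'.X)⟦X⟧}
    (hγ : ((h.isMd hι m hm).toIsMd0.cx.pb (omP (isClosed_zs (N.pb m)))).u (omL _) =
      X ^ N.r * (pS (omQ (N.pb m)).map γ * C (omT (N.pb m))))
    (k : ℕ) {a : Coch Y.X} (ha : ∀ y, δ a ∈ Van (m.map y))
    (ha' : hcls (pull m.map a) = (coeff k (X ^ N.r * γ)).1) :
    ∃ (V : SubMulAction (Om h.closed).G (Om h.closed).T) (hV : IsOpen (V : Set (Om h.closed).T)),
      (∀ y ∈ Z, ∀ᶠ q : ℝ × Y.T in 𝓝 (0, y), ∀ h : q ∈ omS Y Z, (⟨q, h⟩ : omS Y Z) ∈ V) ∧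
      H.map ((Om h.closed).subI V hV.isLocallyClosed).map
        ((coeff k ((K.pb (omP h.closed)).u (omL h.closed))).1 -
          hcls (pull (omP h.closed).map (a * h.sec.eul) * neg (oml h.closed))) = 0 := by
  obtain ⟨b⟩ := exists_bl h.sec h.closed h.zero
  obtain ⟨d, hom, dd, hA, hd1, hd0⟩ := h.exists_hat hι b
  set Kh : Cx b.O := ⟨K.n, fun j => (K.E j).pb b.p, d, hom, dd, K.top⟩ with hKh
  have h1 : (K.pb (omP h.closed)).u (omL h.closed) = pS b.β.map (Kh.u b.l) :=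
    Cx.u_iso (K := Kh) (K' := K.pb (omP h.closed)) (ρ := fun z => (b.r (b.β.f z))⁻¹)
      (fun j => iso_of_eq b.ρ_β b.p_β (K.E j)) (fun z => inv_pos.2 (b.r_β z))
      (fun j z w _ => by
        have e := hd1 j _ w (b.r_β z).ne'
        rw [b.p_β] at e
        show d j (b.β.f z) w = (((b.r (b.β.f z))⁻¹ : ℝ) : ℂ) • K.d j ((omP h.closed).f z) w
        rw [e, Complex.ofReal_inv, inv_smul_smul₀ (Complex.ofReal_ne_zero.2 (b.r_β z).ne')])
      rfl hA h.adm fun z => by rw [b.l_β, inv_mul_cancel_left₀ (b.r_β z).ne']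
  have hr : ∀ t, b.r ((excI b).f t) = 0 := fun t => t.2
  obtain ⟨q, hq1, hq2⟩ := hl _ (b.p.comp (excI b)) fun t => (h.zero _).1
    ((b.σ_eq _).trans (by rw [hr, Complex.ofReal_zero, zero_smul]))
  have hn : ((N.pb m).pb q).IsSec fun t => b.n ((excI b).f t) :=
    isSec_of_eq (q := m.comp q) (fun g => (hq1 g).symm) (fun t => (hq2 t).symm) b.sec
  let e := toOmN hn (fun t => b.l ((excI b).f t)) (b.cl.comp (excI b).cf) (fun g t => b.il g _)
    fun t => b.ne _
  have h2 : pS (excI b).map (Kh.u b.l) = pS e.map (X ^ N.r * (pS (omQ (N.pb m)).map γ *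
      C (omT (N.pb m)))) := by
    rw [← hγ, ← Cx.u_pb hA]
    exact Cx.u_iso (K := (h.isMd hι m hm).toIsMd0.cx.pb (omP _)) (K' := Kh.pb (excI b))
      (m := e) (ρ := fun _ => 1) (fun j => iso_of_eq (m := e) (p := m.comp (omQ (N.pb m)))
        (q := b.p.comp (excI b)) hq1 hq2 (K.E j)) (fun _ => one_pos)
      (fun j t w _ => ((congrArg (fun y => ι j y _ w) (hq2 t)).trans (hd0 j _ w (hr t)).symm).trans
        (one_smul ℂ _).symm) rfl
      ⟨continuous_omL _, fun _ _ => rfl, fun z e => (Cx.ex_pb _ _).2 ((h.isMd hι m hm).ex _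
        ((om_ne _ z).resolve_right (not_not.2 e))), fun _ => (LinP.bal h :)⟩ (hA.pb _)
      fun _ => (one_mul _).symm
  have h3 : Hev.map e.map (omT (N.pb m)) = Hev.map (excI b).map (hat b) := by
    rw [← map_omM (iso_pb N m), hat, Hev.map_map, Hev.map_map, ← Mor.map_comp, ← Mor.map_comp]
    exact congrArg (fun f => Hev.map f _) (Mor.map_ext fun t => congrArg _
      (Subtype.ext (Prod.ext rfl (Subtype.ext (Prod.ext (hq2 t) rfl)))))
  have h4 : Hev.map (excI b).map (coeff k (Kh.u b.l)) =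
      Hev.map q.map (coeff k (X ^ N.r * γ)) * Hev.map (excI b).map (hat b) := by
    have e1 : X ^ N.r * (pS (omQ (N.pb m)).map γ * C (omT (N.pb m))) =
        pS (omQ (N.pb m)).map (X ^ N.r * γ) * C (omT (N.pb m)) := by
      rw [map_mul, map_pow, map_X, mul_assoc]
    have e2 := congrArg (coeff k) h2
    rw [e1, coeff_map, coeff_map, coeff_mul_C, coeff_map, map_mul] at e2
    rw [← h3, ← omQ_toOmN hn _ _ _, ← Hev.map_map]
    exact e2
  have e3 : b.p.map ∘ (excI b).map = m.map ∘ q.map := funext fun x => by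
    obtain ⟨t, rfl⟩ := Ch.Sp.surj _ x
    rw [comp_apply, comp_apply, Mor.map_π, Mor.map_π, Mor.map_π, Mor.map_π, hq2]
    rfl
  obtain ⟨W, hW, hW1, hW2⟩ := near_mul (i := (excI b).map)
    (Sp.isClosedEmbedding_subI (isClosed_exc b)) (u := (coeff k (Kh.u b.l)).1) (T := (hat b).1)
    (a := pull b.p.map a) (fun y => by
      rw [δ_pull]
      exact Van.pull b.p.map.continuous.continuousAt ((congrArg (fun x => δ a ∈ Van x)
        (congrFun e3 y)).mpr (ha (q.map y)))) (by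
      rw [pull_pull, e3, ← pull_pull, ← H.map_hcls _ (HG.cocycle_pull_near m.map.continuous ha),
        ha']
      exact congrArg Subtype.val h4)
  let V : SubMulAction (Om h.closed).G (Om h.closed).T :=
    ⟨{z | b.O.π (b.β.f z) ∈ W}, fun g z hz => by
      show b.O.π (b.β.f (g • z)) ∈ W
      rw [b.β.eqv, b.O.π_smul]; exact hz⟩
  have hV : IsOpen (V : Set (Om h.closed).T) := hW.preimage (b.O.cont.comp b.β.cf)
  refine ⟨V, hV, b.prop (b.O.π ⁻¹' W) (hW.preimage b.O.cont) fun t ht => ?_, ?_⟩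
  · exact (congrArg (· ∈ W) ((excI b).map_π (⟨t, ht⟩ : exc b))).mp (hW1 _)
  set i := (Om h.closed).subI V hV.isLocallyClosed
  obtain ⟨h5, h6⟩ := hW2 _ (b.β.comp i).map fun x => by
    obtain ⟨t, rfl⟩ := Ch.Sp.surj _ x
    rw [Mor.map_π]
    exact t.2
  have e4 : pull (b.β.comp i).map (pull b.p.map a) = pull ((omP h.closed).comp i).map a := by
    rw [← Mor.pull_comp, Mor.map_ext (m' := (omP h.closed).comp i) fun t =>
      congrArg Y.π (b.p_β _)]
  have h7 : supp h.sec.eul ⊆ Y.π '' Z :=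
    h.sec.isCo.supp.trans (image_mono fun t ht => (h.zero t).1 ht)
  have h8 : supp (δ (a * h.sec.eul)) = ∅ := supp_eq_empty.2 fun x => by
    rw [δ_mul]
    refine (Van x).add_mem ?_ (Van.mul_left (supp_eq_empty.1 h.sec.isCo.cocycle x) _)
    by_cases hx : x ∈ supp h.sec.eul
    · obtain ⟨t, ht, rfl⟩ := h7 hx
      obtain ⟨q', -, h9⟩ := hl _ (Y.subI Z h.closed.isLocallyClosed) fun t => t.2
      exact Van.mul_right ((congrArg (fun x => δ a ∈ Van x) ((m.map_π _).trans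
        (congrArg Y.π (h9 (⟨t, ht⟩ : Z))))).mp (ha _)) _
    · exact Van.mul_left hx _
  have h9 := (cocycle_omw' h.closed h.sec.isCo.cocycle h7).1
  rw [e4] at h5 h6
  rw [map_sub, h1, coeff_map, sub_eq_zero, H.map_hcls _ (cocycle_omw' h.closed h8
    (((supp_mul _ _).trans inter_subset_right).trans h7)).1, map_mul, map_mul, map_mul, mul_assoc,
    ← Mor.pull_comp, ← map_mul, hcls_mul h5 (cocycle_pull i.map.continuous h9), map_mul,
    ← Mor.pull_comp, pull_neg, ← map_hat b h.sec h.zero, ← h6, Mor.map_comp, ← H.map_map]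
  rfl

end Vale.Agent.P269.Grr
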