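import Vale.Agent.P269.Grr.RedA

/-!
# Reduction to complexes that are locally Koszul complexes
-/

namespace Vale.Agent.P269.Grr

open Set Function Topology Filter Module Vale.Agent.P291Z Vale.Agent.P269.Ch PowerSeries

variable {X : Ch.Sp} {Z : SubMulAction X.G X.T}

namespace RedA

section ses

variable {G K L : Cx X} {A : ∀ j, X.T → (G.E j).W →ₗ[ℂ] (K.E j).W}
  {B : ∀ j, X.T → (K.E j).W →ₗ[ℂ] (L.E j).W} (hs : Cx.SES G K L A B) {t : X.T} (hG : G.Ex t)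
include hs hG

theorem exists_d {j : ℕ} {w : (K.E j).W} (hw : w ∈ K.Zy j t) (h0 : B j t w = 0) :
    ∃ v ∈ (G.E (j + 1)).F t, K.d j t (A (j + 1) t v) = w := by
  obtain ⟨v, hv, rfl⟩ := ((hs.exact j).ex t w (zy_le K j t hw)).1 h0
  obtain ⟨u, hu, rfl⟩ := hG j (show v ∈ G.Zy j t by
    cases j with
    | zero => exact hv
    | succ j => exact ⟨hv, (hs.exact j).inj t _ ((G.hom j).mem t v hv)
        ((hs.dA j t v hv).symm.trans hw.2)⟩)
  exact ⟨u, hu, hs.dA j t u hu⟩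

theorem ex_quot (hK : K.Ex t) : L.Ex t := fun j w hw => by
  obtain ⟨w, h1, rfl⟩ := (hs.exact j).surj t w (zy_le L j t hw)
  have h2 : ∀ v ∈ K.Zy j t, B j t v ∈ L.Bd j t := fun v hv => by
    obtain ⟨u, hu, rfl⟩ := hK j hv
    exact ⟨_, (hs.exact (j + 1)).hB.mem t u hu, hs.dB j t u hu⟩
  cases j with
  | zero => exact h2 w h1
  | succ j =>
    obtain ⟨v, hv, e⟩ := exists_d hs hG (bd_le K j t ⟨w, h1, rfl⟩)
      ((hs.dB j t w h1).symm.trans hw.2)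
    have h3 := (hs.exact (j + 1)).hA.mem t v hv
    have h4 := h2 (w - A (j + 1) t v) ⟨sub_mem h1 h3, (map_sub _ _ _).trans (sub_eq_zero.2 e.symm)⟩
    rwa [map_sub, ((hs.exact (j + 1)).ex t _ h3).2 ⟨v, hv, rfl⟩, sub_zero] at h4

end ses

theorem loc_pb {Y : Ch.Sp} {K : Cx X} {r : ℕ} {f : X.T → Fin r → ℂ}
    {φ : ∀ j, X.T → Al r j →L[ℂ] (K.E j).W} (m : Mor Y X) {y : Y.T} (h : K.Loc r f φ (m.f y)) :
    (K.pb m).Loc r (fun t => f (m.f t)) (fun j t => φ j (m.f t)) y :=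
  ⟨fun j => (m.cf.continuousAt.eventually (h.cont j)).mono fun _ hx => hx.comp m.cf.continuousAt,
    fun j => m.cf.continuousAt.eventually (h.mem j), fun j => m.cf.continuousAt.eventually (h.comm j),
    h.inj, fun j w hw => h.surj j w ((K.Zy_pb m j y).le hw)⟩

/-- the local model passes to the quotient -/
theorem locM {G K L : Cx X} {A : ∀ j, X.T → (G.E j).W →ₗ[ℂ] (K.E j).W}
    {B : ∀ j, X.T → (K.E j).W →ₗ[ℂ] (L.E j).W} (hs : Cx.SES G K L A B) {N : VB X}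
    {σ : X.T → N.W} {f : X.T → Fin N.r → ℂ} {φ : ∀ j, X.T → Al N.r j →L[ℂ] (K.E j).W} {y : X.T}
    (hG : G.Ex y) (hr : ∀ j, (L.E j).r = N.r.choose j) (h : K.Loc N.r f φ y) (h0 : f y = 0)
    {b : X.T → N.W →L[ℂ] (Fin N.r → ℂ)} (hb : ∀ v ∈ N.F y, b y v = 0 → v = 0)
    (hf : ∀ᶠ x in 𝓝 y, ContinuousAt b x ∧ f x = b x (σ x)) :
    LocM L N σ b (fun j x => (hs.exact j).hB.clm x ∘L φ j x) y := by
  refine ⟨hb, hf.mono fun _ hx => hx.1, fun j => ?_⟩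
  have h1 : ∀ᶠ x in 𝓝 y, ContinuousAt (fun x => (hs.exact j).hB.clm x ∘L φ j x) x :=
    (h.cont j).mono fun x hx => (hs.exact j).hB.continuous_clm.continuousAt.clm_comp hx
  obtain ⟨R, hR⟩ := exists_leftInv h1 ((injective_iff_map_eq_zero _).2 fun κ e => by
    obtain ⟨v, hv, e'⟩ := exists_d hs hG (mem_zy h h0 j κ)
      (((hs.exact j).hB.clm_eq ((h.mem j).self_of_nhds κ)).symm.trans e)
    exact h.inj j κ ⟨_, (hs.exact (j + 1)).hA.mem y v hv, e'⟩)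
  filter_upwards [h1, hR, h.mem j, h.mem (j + 1), h.comm j, hf] with x a1 a2 a3 a4 a5 a6
  have a7 : Injective ((hs.exact j).hB.clm x ∘L φ j x) := LeftInverse.injective a2.2
  have a8 : LinearMap.range ((hs.exact j).hB.clm x ∘L φ j x).toLinearMap = (L.E j).F x :=
    Submodule.eq_of_le_of_finrank_eq (by
      rintro _ ⟨κ, rfl⟩
      exact (hs.exact j).hB.mem x _ ((K.E j).P_mem x _))
      (by rw [LinearMap.finrank_range_of_inj a7, finrank_Al, (L.E j).rank, hr])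
  refine ⟨a1, a7, fun w => a8 ▸ Iff.rfl, fun κ => ?_⟩
  show L.d j x ((hs.exact (j + 1)).hB.clm x (φ (j + 1) x κ)) =
    (hs.exact j).hB.clm x (φ j x (κ.curryLeft (b x (σ x))))
  rw [(hs.exact (j + 1)).hB.clm_eq (a4 κ), (hs.exact j).hB.clm_eq (a3 _), hs.dB j x _ (a4 κ),
    a5, a6.2]

end RedA

theorem exists_red (c : Cut X Z) (K : Cx X) (hr : 0 < c.N.r) (hex : ∀ t, t ∉ Z → K.Ex t)
    (hloc : ∀ y : c.O, y.1 ∈ Z → ∃ f φ, K.Loc c.N.r f φ y.1 ∧ c.Fits f y) (y₀ : Z) :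
    ∃ (O : SubMulAction X.G X.T) (hO : IsOpen (O : Set X.T)) (hOc : ∀ t : O, t.1 ∈ c.O),
      (∀ t ∈ Z, t ∈ O) ∧ ∃ (G L : Cx (X.sub O hO.isLocallyClosed)) (A : _) (B : _),
        Cx.SES G (K.pb (X.subI O hO.isLocallyClosed)) L A B ∧ (∀ t, G.Ex t) ∧
        Red L (c.N.pb ((X.subI O hO.isLocallyClosed).cod c.O c.isOpen.isLocallyClosed hOc))
          (fun t : O => c.σ ⟨t.1, hOc t⟩) ((X.subI O hO.isLocallyClosed).pre Z) := by
  classical
  have h0 : ∀ (y : c.O) (f : X.T → Fin c.N.r → ℂ), y.1 ∈ Z → c.Fits f y → f y.1 = 0 := by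
    rintro y f hy ⟨b, -, hb⟩
    rw [hb.self_of_nhds.2, (c.zero y).2 hy, map_zero]
  obtain ⟨O, hO, hOc, hZ, G, L, A, B, h1, h2, h3, -⟩ := RedA.exists_ses' K c.closed
    (h := fun j => c.N.r.choose j) (fun y hy j => by
      obtain ⟨f, φ, h1, h2⟩ := hloc ⟨y, c.le y hy⟩ hy
      exact h1.finrank (h0 _ f hy h2) j) y₀ c.O c.isOpen c.le
  have hm : Continuous fun t : O => (⟨t.1, hOc t⟩ : c.O) := continuous_subtype_val.subtype_mk _
  refine ⟨O, hO, hOc, hZ, G, L, A, B, h1, h2, c.sec.pb _, fun t : O => c.zero ⟨t.1, hOc t⟩,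
    c.closed.preimage continuous_subtype_val, hr, h3,
    fun (t : O) ht => RedA.ex_quot h1 (h2 t) ((K.ex_pb _).2 (hex t.1 ht)),
    fun (y : O) hy v hv => ?_, fun (y : O) hy => ?_⟩
  · obtain ⟨x, a1, a2⟩ := c.dir ⟨y.1, hOc y⟩ hy v hv
    have a3 : Tendsto (fun r => (x r).1) (𝓝[>] 0) (𝓝 y.1) :=
      (continuous_subtype_val.tendsto _).comp a1
    let x' : ℝ → O := fun r => if h : (x r).1 ∈ O then ⟨_, h⟩ else y
    have a4 : ∀ᶠ r in 𝓝[>] 0, (x r).1 = (x' r).1 :=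
      (a3.eventually (hO.mem_nhds y.2)).mono fun r (h : (x r).1 ∈ O) => by simp only [x', dif_pos h]
    exact ⟨x', tendsto_subtype_rng.2 (a3.congr' a4), a2.congr' (a4.mono fun r h =>
      congrArg (fun z => (r : ℂ)⁻¹ • c.σ z) (Subtype.ext h))⟩
  · obtain ⟨f, φ, a1, a2⟩ := hloc ⟨y.1, hOc y⟩ hy
    have a3 := h0 ⟨y.1, hOc y⟩ f hy a2
    obtain ⟨b, a4, a5⟩ := a2
    exact ⟨fun t : O => b ⟨t.1, hOc t⟩, _, RedA.locM h1 (h2 y) h3
      (RedA.loc_pb (X.subI O hO.isLocallyClosed) a1) a3 a4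
      ((hm.continuousAt.eventually a5).mono fun x hx => ⟨hx.1.comp hm.continuousAt, hx.2⟩)⟩

end Vale.Agent.P269.Grr
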