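import Vale.Agent.P269.Grr.RRA
import Vale.Agent.P269.Grr.Md
import Vale.Agent.P269.Grr.Red
import Vale.Agent.P269.Grr.NLA
import Vale.Agent.P269.Grr.Mum

/-!
# Riemann-Roch for embeddings
-/

namespace Vale.Agent.P269.Grr

open Set Function Topology Filter Module Vale.Agent.P291Z Vale.Agent.P269.Ch PowerSeries

namespace RRE

theorem cohom_mul_near {T : Type} [TopologicalSpace T] {A : Set T} {a t t' : Coch T}
    (ha : ∀ x ∈ A, δ a ∈ Van x) (h : Cohom A t t') : Cohom A (a * t) (a * t') := by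
  obtain ⟨c, h1, h2⟩ := h
  refine ⟨par a * c, ((supp_mul _ _).trans inter_subset_right).trans h1,
    supp_eq_empty.2 fun x => ?_⟩
  have e : a * t - a * t' - δ (par a * c) = a * (t - t' - δ c) + par (δ a) * c := by
    rw [δ_mul, δ_par, par_par]
    noncomm_ring
  rw [e]
  refine (Van x).add_mem (Van.mul_left (supp_eq_empty.1 h2 x) a) ?_
  by_cases hx : x ∈ supp c
  · exact Van.mul_right (Van.par (ha x (h1 hx))) c
  · exact Van.mul_left hx _

variable {Y Y' : Ch.Sp}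

theorem hcls_om_congr {A : SubMulAction Y.G Y.T} (hA : IsClosed (A : Set Y.T)) {a a' : Coch Y.X}
    (h : Cohom (Y.π '' A) a a') (ha : supp (δ a') = ∅) (hs : supp a' ⊆ Y.π '' A) :
    hcls (pull (omP hA).map a * neg (oml hA)) = hcls (pull (omP hA).map a' * neg (oml hA)) :=
  hcls_eq_of_Cohom (cohom_mul_neg (continuous_oml hA) (oml_ne hA)
    (h.pull (omP hA).map.continuous) (cocycle_pull (omP hA).map.continuous ha)
    ((supp_pull (omP hA).map.continuous _).trans (preimage_mono hs))) (cocycle_omw' hA ha hs).1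

section slice
variable {A : SubMulAction Y.G Y.T} (hA : IsClosed (A : Set Y.T)) {K : Cx Y}
  (h : (K.pb (omP hA)).Adm (omL hA))
include h

theorem adm_const {c : ℝ} (hc : c ≠ 0) : K.Adm fun _ => c :=
  ⟨continuous_const, fun _ _ => rfl, fun _ e => absurd e hc, fun t => h.bal ((omI hA c hc).f t)⟩

theorem u_slice {c : ℝ} (hc : c ≠ 0) :
    K.u (fun _ => c) = pS (omI hA c hc).map ((K.pb (omP hA)).u (omL hA)) :=
  Cx.u_iso (K := K.pb (omP hA)) (K' := K) (m := omI hA c hc) (A := fun _ _ => LinearMap.id)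
    (ρ := fun _ => 1) (fun _ => ⟨Hom.of_continuous (fun _ _ h => h) continuous_snd
      fun _ _ _ _ => rfl, fun _ _ _ h => h, fun _ w h => ⟨w, h, rfl⟩⟩) (fun _ => one_pos)
    (fun _ _ _ _ => (one_smul ℂ _).symm) rfl h (adm_const hA h hc) fun _ => (one_mul _).symm

theorem coeff_chi (k : ℕ) : (coeff k K.chi).1 =
    H.map (omI hA (-1) (by norm_num)).map (coeff k ((K.pb (omP hA)).u (omL hA))).1 -
      H.map (omI hA 1 one_ne_zero).map (coeff k ((K.pb (omP hA)).u (omL hA))).1 := by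
  have h1 := (Cx.u_neg (adm_const hA h (c := -1) (by norm_num))
    fun _ => neg_one_lt_zero).symm.trans (u_slice hA h (by norm_num))
  have h2 := (Cx.u_pos (adm_const hA h one_ne_zero) fun _ => one_pos).symm.trans
    (u_slice hA h one_ne_zero)
  have h3 : H.map (omI hA 1 one_ne_zero).map (coeff k ((K.pb (omP hA)).u (omL hA))).1 = 0 := by
    have := congrArg (fun s => (coeff k s).1) h2
    simp only [coeff_map] at this
    exact this.symm
  rw [h3, sub_zero, h1, coeff_map]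
  rfl

end slice

section loc
variable {X : Ch.Sp} {Z O : SubMulAction X.G X.T} (hZ : IsClosed (Z : Set X.T))
  (hO : IsOpen (O : Set X.T))
  (hZ' : IsClosed (((X.subI O hO.isLocallyClosed).pre Z : SubMulAction _ _) :
    Set (X.sub O hO.isLocallyClosed).T))

/-- the inclusion of the space over the open subset -/
noncomputable def jm : Mor (Om hZ') (Om hZ) :=
  toOm hZ ((X.subI O hO.isLocallyClosed).comp (omP hZ')) (omL hZ') (continuous_omL hZ')
    (omL_smul hZ') (om_ne hZ')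

theorem isOpenEmbedding_jm : IsOpenEmbedding (jm hZ hO hZ').f :=
  IsOpenEmbedding.of_comp _ (isOpen_omS hZ).isOpenEmbedding_subtypeVal
    ((IsOpenEmbedding.id.prodMap hO.isOpenEmbedding_subtypeVal).comp
      (isOpen_omS hZ').isOpenEmbedding_subtypeVal)

theorem glue (hZO : ∀ t ∈ Z, t ∈ O) {a : Coch X.X} (ha : supp (δ a) = ∅)
    (ha' : supp a ⊆ X.π '' Z) (u : H (Om hZ).X) (V : SubMulAction (Om hZ').G (Om hZ').T)
    (hV : IsOpen (V : Set (Om hZ').T))
    (hAV : ∀ y ∈ (X.subI O hO.isLocallyClosed).pre Z,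
      ∀ᶠ q : ℝ × (X.sub O hO.isLocallyClosed).T in 𝓝 (0, y),
        ∀ h : q ∈ omS _ ((X.subI O hO.isLocallyClosed).pre Z),
          (⟨q, h⟩ : omS _ ((X.subI O hO.isLocallyClosed).pre Z)) ∈ V)
    (h0 : H.map ((Om hZ').subI V hV.isLocallyClosed).map (H.map (jm hZ hO hZ').map u -
      hcls (pull (omP hZ').map (pull (X.subI O hO.isLocallyClosed).map a) * neg (oml hZ'))) = 0) :
    H.map (omI hZ (-1) (by norm_num)).map u - H.map (omI hZ 1 one_ne_zero).map u = hcls a := by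
  have he := isOpenEmbedding_jm hZ hO hZ'
  let V' : SubMulAction (Om hZ).G (Om hZ).T :=
    ⟨(jm hZ hO hZ').f '' V, fun g _ ⟨z, hz, e⟩ =>
      ⟨(show (Om hZ').G from g) • z, V.smul_mem _ hz, e ▸ (jm hZ hO hZ').eqv g z⟩⟩
  have hV' : IsOpen (V' : Set (Om hZ).T) := he.isOpenMap _ hV
  refine om_glue hZ ha ha' u V' hV' (fun y hy => ?_) ?_
  · have h1 := (IsOpenEmbedding.id.prodMap hO.isOpenEmbedding_subtypeVal).map_nhds_eq
      ((0 : ℝ), (⟨y, hZO y hy⟩ : O))
    rw [← show _ = 𝓝 ((0 : ℝ), y) from h1, eventually_map]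
    filter_upwards [hAV (⟨y, hZO y hy⟩ : O) hy] with q hq h
    exact ⟨(⟨q, h⟩ : omS _ ((X.subI O hO.isLocallyClosed).pre Z)), hq h, rfl⟩
  · choose k hk hk' using fun z : V' => z.2
    let κ : Mor ((Om hZ).sub V' hV'.isLocallyClosed) ((Om hZ').sub V hV.isLocallyClosed) :=
      ⟨MonoidHom.id _, fun z => (⟨k z, hk z⟩ : V), continuous_id, Continuous.subtype_mk
        (he.isEmbedding.continuous_iff.2 (continuous_subtype_val.congr fun z => (hk' z).symm)) _,
        fun g z => Subtype.ext (he.injective ((hk' _).trans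
          ((congrArg (fun w => (show (Om hZ).G from g) • w) (hk' z).symm).trans
            ((jm hZ hO hZ').eqv g (k z)).symm)))⟩
    have e : ((Om hZ).subI V' hV'.isLocallyClosed).map =
        (((jm hZ hO hZ').comp ((Om hZ').subI V hV.isLocallyClosed)).comp κ).map :=
      Mor.map_ext fun z => congrArg _ (hk' z).symm
    rw [e, Mor.map_comp, Mor.map_comp, ← H.map_map, ← H.map_map, map_sub,
      H.map_hcls _ (cocycle_omw' hZ ha ha').1, show pull (jm hZ hO hZ').map _ = _ from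
        pull_toOm hZ _ _ _ (oml_π hZ') a, Mor.pull_comp]
    exact (congrArg (H.map κ.map) h0).trans (map_zero _)

variable {K : Cx X} {G L : Cx (X.sub O hO.isLocallyClosed)} {A : _} {B : _}
  (hS : Cx.SES G (K.pb (X.subI O hO.isLocallyClosed)) L A B) (hG : ∀ t, G.Ex t)
  (hL : (L.pb (omP hZ')).Adm (omL hZ'))
include hS hG hL

theorem adm' : ((K.pb (X.subI O hO.isLocallyClosed)).pb (omP hZ')).Adm (omL hZ') :=
  ((hS.pb (omP hZ')).adm fun _ => (G.ex_pb _).2 (hG _)).1 hL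

theorem adm (hex : ∀ t, t ∉ Z → K.Ex t) (y : O) : (K.pb (omP hZ)).Adm (omL hZ) :=
  ⟨continuous_omL hZ, omL_smul hZ, fun z e =>
    (K.ex_pb _).2 (hex _ ((om_ne hZ z).resolve_right (not_not.2 e))),
    fun _ => (adm' hO hZ' hS hG hL).bal ((omI hZ' 1 one_ne_zero).f y)⟩

theorem u_jm (h : (K.pb (omP hZ)).Adm (omL hZ)) :
    pS (jm hZ hO hZ').map ((K.pb (omP hZ)).u (omL hZ)) = (L.pb (omP hZ')).u (omL hZ') :=
  (Cx.u_iso (K := K.pb (omP hZ)) (K' := (K.pb (X.subI O hO.isLocallyClosed)).pb (omP hZ'))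
    (m := jm hZ hO hZ') (A := fun _ _ => LinearMap.id)
    (ρ := fun _ => 1) (fun _ => ⟨Hom.of_continuous (fun _ _ h => h) continuous_snd
      fun _ _ _ _ => rfl, fun _ _ _ h => h, fun _ w h => ⟨w, h, rfl⟩⟩) (fun _ => one_pos)
    (fun _ _ _ _ => (one_smul ℂ _).symm) rfl h (adm' hO hZ' hS hG hL)
    fun _ => (one_mul _).symm).symm.trans
    ((hS.pb (omP hZ')).u_eq (fun _ => (G.ex_pb _).2 (hG _)) (adm' hO hZ' hS hG hL))

end loc

section ses
variable {G K L : Cx Y} {A : _} {B : _} (hS : Cx.SES G K L A B) (hG : ∀ t, G.Ex t) (m : Mor Y' Y)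
include hS hG

theorem chc_sub {j : ℕ} {H' : VB Y'} {A' : Y'.T → H'.W →ₗ[ℂ] (K.E j).W} (h : Hom m H' (K.E j) A')
    (h1 : ∀ t, ∀ w ∈ H'.F t, A' t w ∈ K.Zy j (m.f t))
    (h2 : ∀ t, ∀ w ∈ H'.F t, A' t w ∈ K.Bd j (m.f t) → w = 0) (hr : H'.r = (L.E j).r) :
    H'.chc = pS m.map (L.E j).chc := by
  have h3 := (hS.exact j).hB.comp h
  have h4 : Hom m H' (L.E j) fun t => B j (m.f t) ∘ₗ A' t := ⟨h3.mem, h3.cont, h3.eqv⟩
  refine Iso.chc (Iso.of_inj h4 (fun t w hw e => h2 t w hw (hS.mem_Bd (hG _) (h1 t w hw) ?_)) hr)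
  rw [show B j (m.f t) (A' t w) = 0 from e]
  exact zero_mem _

theorem chc_quo {L' : VB Y'} {B' : Y'.T → (K.E 0).W →ₗ[ℂ] L'.W}
    (h : Hom (Mor.id Y') ((K.E 0).pb m) L' B')
    (h1 : ∀ t, ∀ w ∈ L'.F t, ∃ w' ∈ (K.E 0).F (m.f t), B' t w' = w)
    (h2 : ∀ t, ∀ w ∈ K.Bd 0 (m.f t), B' t w = 0) (hr : (L.E 0).r = L'.r) :
    L'.chc = pS m.map (L.E 0).chc := by
  obtain ⟨S, h3, h4⟩ := (hS.exact 0).hB.exists_sect (hS.exact 0).surj
  have h5 := h.comp (h3.pb' m)
  have h6 : Hom (Mor.id Y') ((L.E 0).pb m) L' fun t => B' t ∘ₗ S (m.f t) :=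
    ⟨h5.mem, h5.cont, h5.eqv⟩
  refine (Iso.chc' (Iso.of_surj h6 (fun t w hw => ?_) hr)).symm.trans (chc_pb _ m)
  obtain ⟨w', hw', rfl⟩ := h1 t w hw
  have h7 : B 0 (m.f t) w' ∈ (L.E 0).F (m.f t) := (hS.exact 0).hB.mem _ _ hw'
  have h8 := h2 t (w' - S (m.f t) (B 0 (m.f t) w')) (hS.mem_Bd (hG _)
    (sub_mem hw' (h3.mem _ _ h7)) (by rw [map_sub, h4 _ _ h7, sub_self]; exact zero_mem _))
  rw [map_sub, sub_eq_zero] at h8
  exact ⟨_, h7, h8.symm⟩

end ses

theorem coeff_g {X : Ch.Sp} {Z : SubMulAction X.G X.T} (c : Cut X Z) (r k : ℕ)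
    (γ : (Hev c.S.X)⟦X⟧) :
    coeff k (PowerSeries.X ^ r * mapL c.g γ) = c.g (coeff k (PowerSeries.X ^ r * γ)) := by
  obtain ⟨g, h, -⟩ := c.exists_g
  rw [coeff_X_pow_mul', coeff_X_pow_mul']
  split_ifs
  · exact coeff_mapL _ _ _
  · rw [← h, map_zero]

end RRE

open RRE

/-- **Riemann-Roch for embeddings** -/
theorem rre {X : Ch.Sp} {Z : SubMulAction X.G X.T} (c : Cut X Z) (K : Cx X) {r : ℕ}
    (hr : c.N.r = r) (h0 : 0 < r) (hex : ∀ t, t ∉ Z → K.Ex t)
    (hloc : ∀ y : c.O, y.1 ∈ Z → ∃ f φ, K.Loc r f φ y.1 ∧ c.Fits f y) :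
    ∃ H γ, RR c K r H γ := by
  subst hr
  rcases isEmpty_or_nonempty Z with hZ | ⟨⟨y₀⟩⟩
  · have : IsEmpty c.S.T := hZ
    have hs := subsingleton_series (Y := c.S)
    have hs' : ∀ {Y' : Ch.Sp} (m : Mor Y' c.S), Subsingleton (Hev Y'.X)⟦X⟧ := fun m =>
      haveI := Function.isEmpty m.f
      subsingleton_series
    refine ⟨fun j => trivB c.S (Fin (c.N.r.choose j) → ℂ), 0, fun j => Module.finrank_fin_fun ℂ,
      ?_, hs.elim _ _, fun _ _ m _ _ _ _ _ _ => (hs' m).elim _ _,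
      fun _ m _ _ _ _ _ _ => (hs' m).elim _ _, fun _ => ⟨Subsingleton.elim _ _,
        Subsingleton.elim _ _⟩⟩
    obtain ⟨g, h, -⟩ := c.exists_g
    rw [Cx.chi_eq_zero fun t => hex t fun ht => hZ.false ⟨t, ht⟩]
    ext1 k
    rw [coeff_g, mul_zero, map_zero, ← h, map_zero, map_zero]
  obtain ⟨O, hO, hOc, hZO, G, L, A, B, hS, hG, hR⟩ := exists_red c K h0 hex hloc y₀
  let m : Mor c.S (X.sub O hO.isLocallyClosed) :=
    c.i.cod O hO.isLocallyClosed fun t : Z => hZO _ t.2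
  have hm : ∀ t, m.f t ∈ (X.subI O hO.isLocallyClosed).pre Z := fun t : Z => t.2
  obtain ⟨ι, hι⟩ := hR.exists_lin
  obtain ⟨γ, -, h1, h2, h3⟩ := (hR.isMd hι m hm).model
  have h4 : ((c.N.pb ((X.subI O hO.isLocallyClosed).cod c.O c.isOpen.isLocallyClosed hOc)).pb
      m).chc = c.NS.chc :=
    Iso.chc' (A := fun _ => LinearMap.id) ⟨Hom.of_continuous (fun _ _ h => h) continuous_snd
      fun _ _ _ _ => rfl, fun _ _ _ h => h, fun _ w h => ⟨w, h, rfl⟩⟩
  rw [VB.td, h4] at h2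
  rw [h4] at h3
  refine ⟨fun j => (L.E j).pb m, γ, hR.rank, ?_, h2, fun j Y' m' H' A' a1 a2 a3 a4 => ?_,
    fun Y' m' L' B' a1 a2 a3 a4 => ?_, h3⟩
  · ext1 k
    obtain ⟨a, b1, b2⟩ := exists_near c.isClosedEmbedding (coeff k (PowerSeries.X ^ c.N.r * γ)).1
    have e : ((X.subI O hO.isLocallyClosed).comp m).map = c.i.map := Mor.map_ext fun _ => rfl
    have b3 : ∀ y, δ (pull (X.subI O hO.isLocallyClosed).map a) ∈ Van (m.map y) := fun y => by
      rw [δ_pull]
      refine Van.pull (X.subI O hO.isLocallyClosed).map.continuous.continuousAt ?_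
      have := b1 y
      rwa [← e, Mor.map_comp] at this
    obtain ⟨V, hV, b4, b5⟩ := hR.near hι m hm (fun W q hq =>
      ⟨((X.subI O hO.isLocallyClosed).comp q).cod Z c.closed.isLocallyClosed hq, fun _ => rfl,
        fun _ => rfl⟩) h1 k b3 (by rw [← Mor.pull_comp, e]; exact b2)
    have b6 := adm c.closed hO hR.closed hS hG hR.adm hex ⟨y₀.1, hZO _ y₀.2⟩
    have b7 := Grr.cocycle_mul c.isClosedEmbedding c.isCo' b1
    have b8 : supp (a * c.t) ⊆ X.π '' Z :=
      ((supp_mul _ _).trans inter_subset_right).trans c.isCo.supp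
    have b9 : (X.subI O hO.isLocallyClosed).map ⁻¹' (X.π '' Z) ⊆
        (X.sub O hO.isLocallyClosed).π '' (X.subI O hO.isLocallyClosed).pre Z := fun x hx => by
      obtain ⟨t, rfl⟩ := (X.sub O hO.isLocallyClosed).surj x
      rw [mem_preimage, Mor.map_π, mem_image_sub] at hx
      exact ⟨t, hx, rfl⟩
    have e' : ((X.subI c.O c.isOpen.isLocallyClosed).comp ((X.subI O hO.isLocallyClosed).cod c.O
        c.isOpen.isLocallyClosed hOc)).map = (X.subI O hO.isLocallyClosed).map :=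
      Mor.map_ext fun _ => rfl
    have b10 := c.cohom.pull
      ((X.subI O hO.isLocallyClosed).cod c.O c.isOpen.isLocallyClosed hOc).map.continuous
    rw [← Mor.pull_comp, ← Mor.preimage_comp, e'] at b10
    have b11 := (((iso_pb c.N ((X.subI O hO.isLocallyClosed).cod c.O c.isOpen.isLocallyClosed
      hOc)).cohom_eul hR.sec c.sec fun _ => rfl).mono
      (image_mono fun t ht => (hR.zero t).1 ht)).trans (b10.mono b9).symm
    have b12 := cohom_mul_near (a := pull (X.subI O hO.isLocallyClosed).map a) (by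
      rintro _ ⟨t, ht, rfl⟩
      exact (m.map_π (⟨t.1, ht⟩ : Z)) ▸ b3 _) b11
    rw [← map_mul] at b12
    rw [hcls_om_congr hR.closed b12 (cocycle_pull (Mor.map _).continuous b7)
      ((supp_pull (Mor.map _).continuous _).trans ((preimage_mono b8).trans b9)),
      ← u_jm c.closed hO hR.closed hS hG hR.adm b6, coeff_map] at b5
    refine Subtype.ext ((coeff_chi c.closed b6 k).trans
      ((glue c.closed hO hR.closed hZO b7 b8 _ V hV b4 b5).trans ?_))
    rw [coeff_g, Cut.g, coe_eg c.isClosedEmbedding c.isCo', ← b2,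
      hgys_hcls c.isClosedEmbedding c.isCo' b1]
  · rw [chc_pb, pS_pS, ← Mor.map_comp]
    exact chc_sub hS hG (m.comp m') ⟨a1.mem, a1.cont, a1.eqv⟩
      (fun t w hw => (K.Zy_pb (X.subI O hO.isLocallyClosed) j (m.f (m'.f t))).ge (a2 t w hw)) a3
      (a4.trans (hR.rank j).symm)
  · rw [chc_pb, pS_pS, ← Mor.map_comp]
    exact chc_quo hS hG (m.comp m') ⟨a1.mem, a1.cont, a1.eqv⟩ a2 a3
      ((hR.rank 0).trans ((Nat.choose_zero_right _).trans a4.symm))

end Vale.Agent.P269.Grr
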