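import Vale.Agent.P269.Grr.RD

/-!
# Splitting off an exact complex near a closed invariant subset
-/

namespace Vale.Agent.P269.Grr

open Set Function Topology Filter Module Vale.Agent.P291Z Vale.Agent.P269.Ch PowerSeries

variable {X : Ch.Sp} {Z : SubMulAction X.G X.T}

namespace RedA

theorem zy_le (K : Cx X) : ∀ j t, K.Zy j t ≤ (K.E j).F t
  | 0, _ => le_rfl
  | _ + 1, _ => inf_le_left

theorem bd_le (K : Cx X) : ∀ j t, K.Bd j t ≤ K.Zy j t
  | 0, t => by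
    rintro _ ⟨w, hw, rfl⟩
    exact (K.hom 0).mem t w hw
  | j + 1, t => by
    rintro _ ⟨w, hw, rfl⟩
    exact ⟨(K.hom (j + 1)).mem t w hw, K.dd j t w hw⟩

theorem zy_closed (K : Cx X) : ∀ j, IsClosed {x : X.T × (K.E j).W | x.2 ∈ K.Zy j x.1}
  | 0 => (K.E 0).closed
  | j + 1 => (K.hom j).isClosed_ker

theorem zy_inv (K : Cx X) (g : X.G) (t : X.T) :
    ∀ j, ∀ w ∈ K.Zy j t, g • w ∈ K.Zy j (g • t)
  | 0, w, hw => (K.E 0).inv g t w hw
  | j + 1, w, hw => ⟨(K.E (j + 1)).inv g t w hw.1, by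
      rw [SetLike.mem_coe, LinearMap.mem_ker, (K.hom j).eqv g t w hw.1, hw.2, smul_zero]⟩

theorem rank_succ (K : Cx X) (j : ℕ) (t : X.T) :
    finrank ℂ (K.Bd j t) + finrank ℂ (K.Zy (j + 1) t) = (K.E (j + 1)).r :=
  (finrank_inf_ker _ (K.d j t)).trans ((K.E (j + 1)).rank t)

theorem mem_zy {K : Cx X} {r : ℕ} {f : X.T → Fin r → ℂ}
    {φ : ∀ j, X.T → Al r j →L[ℂ] (K.E j).W} {y : X.T} (h : K.Loc r f φ y) (h0 : f y = 0) :
    ∀ j κ, φ j y κ ∈ K.Zy j y
  | 0, κ => (h.mem 0).self_of_nhds κ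
  | j + 1, κ => ⟨(h.mem (j + 1)).self_of_nhds κ, by
      rw [SetLike.mem_coe, LinearMap.mem_ker, (h.comm j).self_of_nhds κ, h0, map_zero, map_zero]⟩

/-- the exact complex built from a sequence of bundles -/
@[reducible] noncomputable def cone (n : ℕ) (D : ℕ → VB X) (hD : ∀ j, n < j → (D j).r = 0) :
    Cx X where
  n := n
  E j := (D j).sum (D (j + 1))
  d j _ := LinearMap.inr ℂ (D j).W (D (j + 1)).W ∘ₗ LinearMap.fst ℂ (D (j + 1)).W (D (j + 2)).W
  hom _ := Hom.of_continuous (fun _ _ h => ⟨zero_mem _, h.1⟩)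
    (continuous_const.prodMk (continuous_fst.comp continuous_snd))
    fun g _ _ _ => Prod.ext (smul_zero g).symm rfl
  dd _ _ _ _ := rfl
  top j hj := show (D j).r + (D (j + 1)).r = 0 by rw [hD j hj, hD (j + 1) (by omega)]

theorem cone_ex (n : ℕ) (D : ℕ → VB X) (hD : ∀ j, n < j → (D j).r = 0) (h0 : (D 0).r = 0)
    (t : X.T) : (cone n D hD).Ex t
  | 0 => fun w hw => ⟨(w.2, 0), ⟨hw.2, zero_mem _⟩, Prod.ext (by
      have h1 : (D 0).F t = ⊥ := Submodule.finrank_eq_zero.1 (((D 0).rank t).trans h0)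
      exact ((Submodule.mem_bot ℂ).1 (h1 ▸ hw.1)).symm) rfl⟩
  | _ + 1 => fun w hw => ⟨(w.2, 0), ⟨hw.1.2, zero_mem _⟩,
      Prod.ext (congrArg Prod.snd hw.2).symm rfl⟩

/-- the quotient of a complex by an exact subcomplex generated by the bundles `D` -/
theorem exists_ses_of (K : Cx X) (D : ℕ → VB X) (ι : ∀ j, X.T → (D j).W →ₗ[ℂ] (K.E j).W)
    (hι : ∀ j, Hom (Mor.id X) (D j) (K.E j) (ι j)) (h0 : (D 0).r = 0) {h : ℕ → ℕ}
    (hr : ∀ j, (K.E j).r = (D j).r + (D (j + 1)).r + h j)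
    (inj : ∀ j t, ∀ a ∈ (D j).F t, ∀ b ∈ (D (j + 1)).F t,
      ι j t a + K.d j t (ι (j + 1) t b) = 0 → a = 0 ∧ b = 0) :
    ∃ (G L : Cx X) (A : _) (B : _), Cx.SES G K L A B ∧ (∀ t, G.Ex t) ∧ (∀ j, (L.E j).r = h j) ∧
      ∀ j t, (∀ w ∈ (K.E (j + 1)).F t, ∃ b ∈ (D (j + 1)).F t,
        K.d j t (ι (j + 1) t b) = K.d j t w) → ∀ w ∈ (L.E (j + 1)).F t, L.d j t w = 0 := by
  have hD : ∀ j, K.n < j → (D j).r = 0 := fun j hj => by
    have := hr j
    rw [K.top j hj] at this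
    omega
  let G := cone K.n D hD
  let A : ∀ j, X.T → (G.E j).W →ₗ[ℂ] (K.E j).W := fun j t =>
    (ι j t).coprod (K.d j t ∘ₗ ι (j + 1) t)
  have hA : ∀ j, Hom (Mor.id X) (G.E j) (K.E j) (A j) := fun j => by
    have h1 := (hι j).comp (hom_fst (D j) (D (j + 1)))
    have h2 := ((K.hom j).comp (hι (j + 1))).comp (hom_snd (D j) (D (j + 1)))
    exact ⟨fun t w hw => add_mem (h1.mem t w hw) (h2.mem t w hw), h1.cont.add h2.cont,
      fun g t w hw => (congrArg₂ (· + ·) (h1.eqv g t w hw) (h2.eqv g t w hw)).trans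
        (smul_add g _ _).symm⟩
  choose Q B hQ hex using fun j => (hA j).exists_coker fun t w hw e =>
    Prod.ext (inj j t _ hw.1 _ hw.2 e).1 (inj j t _ hw.1 _ hw.2 e).2
  choose R S hR hS h1 h2 h3 h4 h5 using fun j => (hex j).exists_split
  have dA : ∀ j t, ∀ w ∈ (G.E (j + 1)).F t, K.d j t (A (j + 1) t w) = A j t (G.d j t w) :=
    fun j t w hw => by
      show K.d j t (ι (j + 1) t w.1 + K.d (j + 1) t (ι (j + 2) t w.2)) =
        ι j t 0 + K.d j t (ι (j + 1) t w.1)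
      rw [map_add, K.dd j t _ ((hι (j + 2)).mem t _ hw.2), map_zero, add_zero, zero_add]
  have BA : ∀ j t, ∀ w ∈ (G.E j).F t, B j t (A j t w) = 0 := fun j t w hw =>
    ((hex j).ex t _ ((hA j).mem t w hw)).2 ⟨w, hw, rfl⟩
  have dB : ∀ j t, ∀ w ∈ (K.E (j + 1)).F t,
      B j t (K.d j t (S (j + 1) t (B (j + 1) t w))) = B j t (K.d j t w) := fun j t w hw => by
    have h6 := (hR (j + 1)).mem t w hw
    conv_rhs => rw [← h4 (j + 1) t w hw, map_add, map_add, dA j t _ h6,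
      BA j t _ ((G.hom j).mem t _ h6), zero_add]
  let L : Cx X :=
    { n := K.n
      E := Q
      d := fun j t => B j t ∘ₗ K.d j t ∘ₗ S (j + 1) t
      hom := fun j => (hex j).hB.comp ((K.hom j).comp (hS (j + 1)))
      dd := fun j t w hw => by
        have h6 := (hS (j + 2)).mem t w hw
        show B j t (K.d j t (S (j + 1) t (B (j + 1) t (K.d (j + 1) t (S (j + 2) t w))))) = 0
        rw [dB j t _ ((K.hom (j + 1)).mem t _ h6), K.dd j t _ h6, map_zero]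
      top := fun j hj => by rw [hQ, K.top j hj, Nat.zero_sub] }
  refine ⟨G, L, A, B, ⟨rfl, rfl, hex, dA, dB⟩, cone_ex _ _ _ h0, fun j => ?_,
    fun j t ht w hw => ?_⟩
  · show (Q j).r = h j
    rw [hQ, hr]
    exact Nat.add_sub_cancel_left ..
  · obtain ⟨b, hb, e⟩ := ht _ ((hS (j + 1)).mem t w hw)
    show B j t (K.d j t (S (j + 1) t w)) = 0
    rw [← e, ← BA j t (0, b) ⟨zero_mem _, hb⟩]
    exact congrArg (B j t) (show _ = ι j t 0 + _ by rw [map_zero, zero_add]; rfl)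

theorem isExt_zero (E : VB X) (C : Set X.T) : E.IsExt C (fun _ => ⊥) 0 ⊤ fun _ => 0 :=
  ⟨isOpen_univ, fun _ _ => trivial, fun _ _ => continuousAt_const,
    fun g _ _ => (smul_zero g).symm, fun _ _ _ => rfl, fun _ _ => by simp, fun _ _ => by simp⟩

/-- complements of subbundles over `Z` extend to a neighbourhood -/
theorem exists_compl_ext (E : VB X) (hZ : IsClosed (Z : Set X.T)) {S : X.T → Submodule ℂ E.W}
    (hS : IsClosed {x : X.T × E.W | x.2 ∈ S x.1})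
    (hi : ∀ (g : X.G) t, ∀ w ∈ S t, g • w ∈ S (g • t)) (hle : ∀ t, S t ≤ E.F t) {k : ℕ}
    (hk : ∀ t ∈ Z, finrank ℂ (S t) + k = E.r) :
    ∃ F U e, E.IsExt Z F k U e ∧ (∀ t ∈ Z, F t ≤ E.F t ∧ (∀ w ∈ F t, w ∈ S t → w = 0) ∧
      ∀ w ∈ E.F t, ∃ v ∈ F t, w - v ∈ S t) ∧ (k = 0 → (∀ t, t ∈ U) ∧ ∀ t, e t = 0) := by
  classical
  rcases Nat.eq_zero_or_pos k with rfl | hk0
  · refine ⟨_, _, _, isExt_zero E Z, fun t ht => ⟨bot_le, fun w hw _ => hw, fun w hw =>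
      ⟨0, zero_mem _, ?_⟩⟩, fun _ => ⟨fun _ => trivial, fun _ => rfl⟩⟩
    rw [sub_zero, Submodule.eq_of_le_of_finrank_eq (hle t) ((hk t ht).trans (E.rank t).symm)]
    exact hw
  rcases Nat.lt_or_ge E.r k with hlt | hge
  · have hE : ∀ t, t ∉ Z := fun t ht => by have := hk t ht; omega
    obtain ⟨U, e, h⟩ := E.exists_isExt hZ (fun g t ht => Z.smul_mem g ht) (F := fun _ => ⊥)
      (r := k) (by
        rw [show {x : X.T × E.W | x.1 ∈ (Z : Set X.T) ∧ x.2 ∈ (⊥ : Submodule ℂ E.W)} = ∅ from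
          eq_empty_of_forall_notMem fun x hx => hE _ hx.1]
        exact isClosed_empty) (fun t ht => (hE t ht).elim) fun _ t ht => (hE t ht).elim
    exact ⟨_, U, e, h, fun t ht => (hE t ht).elim, fun h => by omega⟩
  let m := X.subI Z hZ.isLocallyClosed
  let S' : VB (X.sub Z hZ.isLocallyClosed) := (E.pb m).sub (fun t : Z => S t.1) (E.r - k)
    (hS.preimage (m.cf.prodMap continuous_id)) (fun t : Z => Nat.eq_sub_of_add_eq (hk t.1 t.2))
    fun g (t : Z) w hw => hi g t.1 w hw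
  have h1 : Hom (Mor.id _) S' (E.pb m) fun _ => LinearMap.id :=
    Hom.of_continuous (fun (t : Z) w hw => hle t.1 hw) continuous_snd fun _ _ _ _ => rfl
  obtain ⟨R, hR, hr, h2, -⟩ := h1.exists_compl (fun _ _ _ h => h) (k := k)
    (show E.r = E.r - k + k by omega)
  let C := hR.ker k hr
  let F : X.T → Submodule ℂ E.W := fun t => if h : t ∈ Z then C.F (⟨t, h⟩ : Z) else ⊥
  have hF : ∀ t (ht : t ∈ Z), F t = C.F (⟨t, ht⟩ : Z) := fun t ht => dif_pos ht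
  obtain ⟨U, e, h⟩ := E.exists_isExt hZ (fun g t ht => Z.smul_mem g ht) (F := F) (r := k) (by
    have h3 : IsClosed {x : Z × E.W | x.2 ∈ C.F x.1} := C.closed
    have h4 : IsClosed (Prod.map Subtype.val id '' {x : Z × E.W | x.2 ∈ C.F x.1}) :=
      (hZ.isClosedEmbedding_subtypeVal.prodMap (IsClosedEmbedding.id (X := E.W))).isClosedMap _ h3
    rwa [show Prod.map Subtype.val id '' {x : Z × E.W | x.2 ∈ C.F x.1} =
      {x : X.T × E.W | x.1 ∈ (Z : Set X.T) ∧ x.2 ∈ F x.1} from Set.ext fun x =>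
        ⟨by rintro ⟨y, hy, rfl⟩; exact ⟨y.1.2, (hF _ y.1.2).ge hy⟩,
          fun hx => ⟨(⟨x.1, hx.1⟩, x.2), (hF _ hx.1).le hx.2, rfl⟩⟩] at h4)
    (fun t ht => by rw [hF t ht]; exact C.rank _) fun g t ht w hw =>
      (hF _ (Z.smul_mem g ht)).ge (C.inv g (⟨t, ht⟩ : Z) w ((hF t ht).le hw))
  refine ⟨F, U, e, h, fun t ht => ?_, fun h => by omega⟩
  rw [hF t ht]
  refine ⟨inf_le_left, fun w hw hw' => (h2 (⟨t, ht⟩ : Z) w hw').symm.trans hw.2, fun w hw => ?_⟩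
  let v : E.W := R (⟨t, ht⟩ : Z) w
  have h3 : v ∈ S t := hR.mem (⟨t, ht⟩ : Z) w hw
  refine ⟨w - v, ⟨sub_mem hw (hle t h3), ?_⟩, by rwa [sub_sub_cancel]⟩
  exact (map_sub _ _ _).trans (sub_eq_zero.2 (h2 (⟨t, ht⟩ : Z) _ h3).symm)

/-- the ranks of the boundaries are constant on `Z` -/
theorem exists_rank (K : Cx X) {h : ℕ → ℕ}
    (hh : ∀ y ∈ Z, ∀ j, finrank ℂ (K.Zy j y) = finrank ℂ (K.Bd j y) + h j) (y₀ : Z) :
    ∃ g : ℕ → ℕ, g 0 = 0 ∧ (∀ j, (K.E j).r = g j + g (j + 1) + h j) ∧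
      ∀ j, ∀ y ∈ Z, finrank ℂ (K.Zy j y) + g j = (K.E j).r := by
  have h1 : ∀ j, ∀ y ∈ Z, finrank ℂ (K.Bd j y) = finrank ℂ (K.Bd j y₀.1) := fun j => by
    induction j with
    | zero =>
      intro y hy
      have a := hh y hy 0
      have b := hh _ y₀.2 0
      have c : finrank ℂ (K.Zy 0 y) = (K.E 0).r := (K.E 0).rank y
      have d : finrank ℂ (K.Zy 0 y₀.1) = (K.E 0).r := (K.E 0).rank _
      omega
    | succ j ih =>
      intro y hy
      have a := hh y hy (j + 1)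
      have b := hh _ y₀.2 (j + 1)
      have c := rank_succ K j y
      have d := rank_succ K j y₀.1
      have e := ih y hy
      omega
  have h2 : ∀ j, ∀ y ∈ Z, finrank ℂ (K.Zy j y) +
      Nat.casesOn (motive := fun _ => ℕ) j 0 (fun i => finrank ℂ (K.Bd i y₀.1)) = (K.E j).r := by
    rintro (_ | j) y hy
    · exact (K.E 0).rank y
    · rw [← rank_succ K j y, h1 j y hy, add_comm]
  refine ⟨fun j => Nat.casesOn j 0 fun i => finrank ℂ (K.Bd i y₀.1), rfl, fun j => ?_, h2⟩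
  rw [← h2 j _ y₀.2, hh _ y₀.2 j]
  simp only
  omega

/-- splitting off an exact complex in a given neighbourhood of `Z` -/
theorem exists_ses' (K : Cx X) (hZ : IsClosed (Z : Set X.T)) {h : ℕ → ℕ}
    (hh : ∀ y ∈ Z, ∀ j, finrank ℂ (K.Zy j y) = finrank ℂ (K.Bd j y) + h j) (y₀ : Z)
    (V : SubMulAction X.G X.T) (hV : IsOpen (V : Set X.T)) (hZV : ∀ t ∈ Z, t ∈ V) :
    ∃ (O : SubMulAction X.G X.T) (hO : IsOpen (O : Set X.T)), (∀ t : O, t.1 ∈ V) ∧
      (∀ t ∈ Z, t ∈ O) ∧ ∃ (G L : Cx (X.sub O hO.isLocallyClosed)) (A : _) (B : _),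
        Cx.SES G (K.pb (X.subI O hO.isLocallyClosed)) L A B ∧ (∀ t, G.Ex t) ∧
        (∀ j, (L.E j).r = h j) ∧
        ∀ j (t : O), t.1 ∈ Z → ∀ w ∈ (L.E (j + 1)).F t, L.d j t w = 0 := by
  obtain ⟨g, g0, g1, g2⟩ := exists_rank K hh y₀
  choose F U e he hF hz using fun j =>
    exists_compl_ext (K.E j) hZ (zy_closed K j) (fun a t => zy_inv K a t j) (zy_le K j) (g2 j)
  have g3 : ∀ j, K.n < j → g j = 0 := fun j hj => by
    have := g1 j
    rw [K.top j hj] at this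
    omega
  let p : ℕ → X.T → Prop := fun j t => t ∈ U j ∧ ∀ w : (K.E j).W × (K.E (j + 1)).W,
    (e j t w.1, e (j + 1) t w.2) = w → (K.E j).P t w.1 + (K.hom j).clm t w.2 = 0 → w = 0
  obtain ⟨O, hO, h1, h2⟩ := Sp.exists_open (A := (Z : Set X.T)) (P := fun t => t ∈ V ∧ ∀ j, p j t)
    (fun a t ht => ⟨V.smul_mem a ht.1, fun j => ⟨(U j).smul_mem a (ht.2 j).1, fun w e1 e2 => by
      obtain ⟨w, rfl⟩ := MulAction.surjective a w
      refine (congrArg (a • ·) ((ht.2 j).2 w ?_ ?_)).trans (smul_zero a)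
      · refine MulAction.injective a (Eq.trans ?_ e1)
        exact Prod.ext ((he j).eqv a t _).symm ((he (j + 1)).eqv a t _).symm
      · refine MulAction.injective a (Eq.trans ?_ (e2.trans (smul_zero a).symm))
        show a • ((K.E j).P t w.1 + (K.hom j).clm t w.2) =
          (K.E j).P (a • t) (a • w.1) + (K.hom j).clm (a • t) (a • w.2)
        rw [(K.E j).P_smul, (K.hom j).clm_smul, smul_add]
        rfl⟩⟩) fun t ht => by
      have h3 : ∀ j, ∀ᶠ x in 𝓝 t, p j x := fun j => by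
        refine Eventually.and ((he j).isOpen.mem_nhds ((he j).sub ht)) (eventually_inj
          ((ContinuousLinearMap.prodMapL ℂ _ _ _ _).continuous.continuousAt.comp
            (((he j).cont t ((he j).sub ht)).prodMk ((he (j + 1)).cont t ((he (j + 1)).sub ht))))
          (N := fun x => (K.E j).P x ∘L .fst ℂ (K.E j).W (K.E (j + 1)).W +
            (K.hom j).clm x ∘L .snd ℂ (K.E j).W (K.E (j + 1)).W)
          ((((K.E j).P_cont.clm_comp continuous_const).add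
            ((K.hom j).continuous_clm.clm_comp continuous_const)).tendsto t) fun w e1 e2 => ?_)
        have a1 : w.1 ∈ F j t := ((he j).range t ht).le ⟨_, congrArg Prod.fst e1⟩
        have a2 : w.2 ∈ F (j + 1) t := ((he (j + 1)).range t ht).le ⟨_, congrArg Prod.snd e1⟩
        have a3 := (hF (j + 1) t ht).1 a2
        have a4 : w.1 + K.d j t w.2 = 0 := by
          rw [← (K.E j).P_eq ((hF j t ht).1 a1), ← (K.hom j).clm_eq a3]
          exact e2
        have a5 : w.1 = 0 := (hF j t ht).2.1 _ a1 (by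
          rw [eq_neg_of_add_eq_zero_left a4]
          exact neg_mem (bd_le K j t ⟨_, a3, rfl⟩))
        exact Prod.ext a5 ((hF (j + 1) t ht).2.1 _ a2 ⟨a3, by rwa [a5, zero_add] at a4⟩)
      filter_upwards [hV.mem_nhds (hZV t ht),
        (eventually_all_finset (Finset.range (K.n + 1))).2 fun j _ => h3 j] with x hx hx'
      refine ⟨hx, fun j => ?_⟩
      rcases Nat.lt_or_ge K.n j with hj | hj
      · refine ⟨(hz j (g3 j hj)).1 x, fun w e1 _ => e1.symm.trans ?_⟩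
        rw [(hz j (g3 j hj)).2, (hz (j + 1) (g3 _ (by omega))).2]
        rfl
      · exact hx' j (Finset.mem_range.2 (by omega))
  let m := X.subI O hO.isLocallyClosed
  let D : ℕ → VB (X.sub O hO.isLocallyClosed) := fun j => (he j).vb m fun t : O =>
    ((h2 t.1 t.2).2 j).1
  obtain ⟨G, L, A, B, h3, h4, h5, h6⟩ := exists_ses_of (K.pb m) D
    (fun j (t : O) => ((K.E j).P t.1 : (K.E j).W →ₗ[ℂ] (K.E j).W))
    (fun j => Hom.of_continuous (fun (t : O) w _ => (K.E j).P_mem t.1 w)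
      ((K.E j).continuous_P (m.cf.comp continuous_fst) continuous_snd)
      fun a (t : O) w _ => (K.E j).P_smul a t.1 w) g0 g1 fun j (t : O) a ha b hb e1 =>
    Prod.mk_eq_zero.1 (((h2 t.1 t.2).2 j).2 (a, b) (Prod.ext
      (((he j).mem_iff ((h2 t.1 t.2).2 j).1).1 ha)
      (((he (j + 1)).mem_iff ((h2 t.1 t.2).2 (j + 1)).1).1 hb)) e1)
  refine ⟨O, hO, fun t => (h2 t.1 t.2).1, h1, G, L, A, B, h3, h4, h5, fun j t ht =>
    h6 j t fun (w : (K.E (j + 1)).W) hw => ?_⟩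
  obtain ⟨v, hv, e1⟩ := (hF (j + 1) t.1 ht).2.2 w hw
  refine ⟨v, ((he (j + 1)).range t.1 ht).ge hv, ?_⟩
  show K.d j t.1 ((K.E (j + 1)).P t.1 v) = K.d j t.1 w
  rw [(K.E (j + 1)).P_eq ((hF (j + 1) t.1 ht).1 hv), eq_comm, ← sub_eq_zero, ← map_sub]
  exact e1.2

end RedA

theorem Cx.Loc.finrank {K : Cx X} {r : ℕ} {f : X.T → Fin r → ℂ}
    {φ : ∀ j, X.T → Al r j →L[ℂ] (K.E j).W} {y : X.T} (h : K.Loc r f φ y) (h0 : f y = 0) (j : ℕ) :
    finrank ℂ (K.Zy j y) = finrank ℂ (K.Bd j y) + r.choose j := by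
  have h1 : K.Zy j y = K.Bd j y ⊔ LinearMap.range (φ j y).toLinearMap := le_antisymm
    (fun w hw => by
      obtain ⟨κ, hκ⟩ := h.surj j w hw
      exact Submodule.mem_sup.2 ⟨_, hκ, _, ⟨κ, rfl⟩, sub_add_cancel _ _⟩)
    (sup_le (RedA.bd_le K j y) (by rintro _ ⟨κ, rfl⟩; exact RedA.mem_zy h h0 j κ))
  have h2 : K.Bd j y ⊓ LinearMap.range (φ j y).toLinearMap = ⊥ := eq_bot_iff.2 (by
    rintro _ ⟨h3, κ, rfl⟩
    rw [h.inj j κ h3, map_zero]
    exact zero_mem _)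
  have h3 := Submodule.finrank_sup_add_finrank_inf_eq (K.Bd j y)
    (LinearMap.range (φ j y).toLinearMap)
  rwa [← h1, h2, finrank_bot, add_zero, LinearMap.finrank_range_of_inj
    ((injective_iff_map_eq_zero _).2 fun κ e => h.inj j κ (by
      rw [show φ j y κ = 0 from e]; exact zero_mem _)), finrank_Al] at h3

theorem exists_ses (K : Cx X) (hZ : IsClosed (Z : Set X.T)) {h : ℕ → ℕ}
    (hh : ∀ y ∈ Z, ∀ j, finrank ℂ (K.Zy j y) = finrank ℂ (K.Bd j y) + h j) (y₀ : Z) :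
    ∃ (O : SubMulAction X.G X.T) (hO : IsOpen (O : Set X.T)), (∀ t ∈ Z, t ∈ O) ∧
      ∃ (G L : Cx (X.sub O hO.isLocallyClosed)) (A : _) (B : _),
        Cx.SES G (K.pb (X.subI O hO.isLocallyClosed)) L A B ∧ (∀ t, G.Ex t) ∧
        (∀ j, (L.E j).r = h j) ∧ ∀ j (t : O), t.1 ∈ Z → ∀ w ∈ (L.E (j + 1)).F t, L.d j t w = 0 :=
  let ⟨O, hO, _, h1⟩ := RedA.exists_ses' K hZ hh y₀ ⊤ isOpen_univ fun _ _ => trivial
  ⟨O, hO, h1⟩

end Vale.Agent.P269.Grr
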