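import Vale.Agent.P269.Grr.TD

/-!
# Sections of the universal curve: definitions
-/

namespace Vale.Agent.P269.Grr

open Set Function Topology Filter Module Vale.Agent.P291Z Vale.Agent.P269.Ch Vale.Agent.P269.Holo
  Vale.Agent.P269.Loc Vale.Agent.P269.Base PowerSeries

namespace CF

variable {ι : Type} [Fintype ι] {U : HO} {M : ι → ℕ} {o : ι} {g : ℤ} {m : ι → ℤ}
  (F : CF U M o g m)

/-- a holomorphic section of the universal curve through smooth points -/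
structure Sec where
  /-- the map -/
  m : Mor U.toSp F.US
  ρ : ∀ s, (show U.G × Tor ι from m.ρ s).1 = s
  t : ∀ t, UT.t (m.f t) = t
  hol : ∀ t, HolAt U.ι (fun s => UT.c (m.f s)) t
  sm : ∀ t, m.f t ∉ F.UN

variable {F}

namespace Sec

variable (s : F.Sec)

/-- the point of the multicone -/
def p (t : U.T) : V M := UT.c (s.m.f t)

theorem p_mem (t : U.T) : s.p t ∈ F.C t := (congrArg F.C (s.t t)).subset (UT.mem (s.m.f t))

theorem p_smul (γ : U.G) (t : U.T) : s.p (γ • t) =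
    F.act (γ, (show U.G × Tor ι from s.m.ρ γ).2) (s.p t) := by
  rw [p, s.m.eqv]
  exact congrArg (fun a => F.act a (s.p t)) (Prod.ext (s.ρ γ) rfl)

/-- the image of the section -/
def D : SubMulAction F.US.G F.US.T where
  carrier := {x : F.UT | Base.Orb (s.p x.t) x.c}
  smul_mem' := by
    rintro (a : U.G × Tor ι) (x : F.UT) ⟨τ, h1, h2⟩
    refine ⟨fun i => a.2 i * τ i * (((show U.G × Tor ι from s.m.ρ a.1).2 i)⁻¹ : ℂˣ), fun i =>
      mul_ne_zero (mul_ne_zero (a.2 i).ne_zero (h1 i)) (Units.ne_zero _), funext fun i => ?_⟩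
    show F.act a x.c i = ((a.2 i : ℂ) * τ i *
      (((show U.G × Tor ι from s.m.ρ a.1).2 i)⁻¹ : ℂˣ)) • s.p (a.1 • x.t) i
    rw [p_smul, act_apply, act_apply, h2, smul_smul, mul_assoc, Units.inv_mul, mul_one, mul_smul]
    exact congrArg _ (map_smul (F.ρ a.1 i) (τ i) _)

theorem mem_D {x : F.UT} : x ∈ s.D ↔ Base.Orb (s.p x.t) x.c := Iff.rfl

theorem pr_map (x : U.X) : F.pr.map (s.m.map x) = x := by
  obtain ⟨t, rfl⟩ := U.toSp.surj x
  rw [Mor.map_π, Mor.map_π]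
  exact congrArg U.π (s.t t)

/-- `L` with the section `σ` is the line bundle of the divisor of `s` -/
structure IsDv [DecidableEq ι] (L : VB F.US) (σ : F.UT → L.W) : Prop where
  rank : L.r = 1
  sec : L.IsSec σ
  zero : ∀ x, σ x = 0 ↔ x ∈ s.D
  cap : ∀ a : Hev F.US.X, cap (a * L.eu).1 F.UC.fund =
    push s.m.map (cap (Hev.map s.m.map a).1 U.fund)
  eu : ∀ Λ j, F.IsOm Λ j → Hev.map s.m.map L.eu = Hev.map s.m.map Λ.eu
  loc : ∀ x ∈ s.D, ∀ (f : F.UT → ℂ) (Φ : U.A × V M → ℂ), AnalyticAt ℂ Φ (F.ιU x) →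
    (∀ᶠ y in 𝓝 x, f y = Φ (F.ιU y)) → (∀ᶠ y in 𝓝 x, y ∈ s.D → f y = 0) →
    (∃ v ∈ tan F.ιU x, fderiv ℂ Φ (F.ιU x) v ≠ 0) →
    ∃ l : F.UT → L.W, l x ≠ 0 ∧ ∀ᶠ y in 𝓝 x, ContinuousAt l y ∧ l y ∈ L.F y ∧ σ y = f y • l y

end Sec

end CF

end Vale.Agent.P269.Grr
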