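import Vale.Agent.P269.Grr.UCb
import Vale.Agent.P269.Grr.KD

/-!
# The relative Todd class of the universal curve, push-forward: definitions
-/

namespace Vale.Agent.P269.Grr

open Set Function Topology Filter Module Vale.Agent.P291Z Vale.Agent.P269.Ch Vale.Agent.P269.Holo
  Vale.Agent.P269.Loc Vale.Agent.P269.Base PowerSeries

namespace CF

variable {ι : Type} [Fintype ι] [DecidableEq ι] {U : HO} {M : ι → ℕ} {o : ι} {g : ℤ} {m : ι → ℤ}
  (F : CF U M o g m)

/-- The data of the relative Todd class: `Λ = ω⁻¹`, the Gysin map `gN` of the nodes and Mumford's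
class `Φ` on the nodes. -/
structure IsTd (Λ : VB F.US) (j : F.UT → Λ.W →ₗ[ℂ] (Fin (M o) → ℂ))
    (gN : Hev F.UNH.X →ₗ[ℂ] Hev F.US.X) (Φ : (Hev F.UNH.X)⟦X⟧) : Prop where
  om : F.IsOm Λ j
  mul : ∀ a q, gN (Hev.map F.iN.map a * q) = a * gN q
  cap : ∀ q, cap (gN q).1 F.UC.fund = push F.iN.map (cap q.1 F.UNH.fund)
  eu : Hev.map F.iN.map Λ.eu = 0
  mum : ∀ (S : Type) [TopologicalSpace S] (κ : C(S, F.UNH.X)) (a b : Hev S),
    pS κ F.Kn.chc = 1 + ex a + ex b → pS κ Φ = mumS a b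

variable {F} in
omit [DecidableEq ι] in
/-- the relative Todd class -/
noncomputable def tdC (Λ : VB F.US) (gN : Hev F.UNH.X →ₗ[ℂ] Hev F.US.X) (Φ : (Hev F.UNH.X)⟦X⟧) :
    (Hev F.US.X)⟦X⟧ := ev Λ.eu tdS + X ^ 2 * mapL gN Φ

omit [DecidableEq ι] in
/-- `B` is the integral of `A` along the fibres of the universal curve -/
def IsPush (A : (Hev F.US.X)⟦X⟧) (B : (Hev U.X)⟦X⟧) : Prop :=
  ∀ k, cap (coeff k (X * B)).1 U.fund = push F.pr.map (cap (coeff k A).1 F.UC.fund)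

omit [DecidableEq ι] in
/-- `V ⊗ O(1)` on the curve in the projective bundle -/
noncomputable abbrev VT : VB F.Cv := (F.Vb o).tw ((F.Vb o).pp.comp F.iC) (F.iC.chr (F.Vb o).o1)

variable {F} in
omit [DecidableEq ι] in
/-- the map from the vertical directions to the normal bundle -/
noncomputable def eV {W : Type} [AddCommGroup W] [Module ℂ W] (e : F.Z → F.PX.A →ₗ[ℂ] W)
    (y : F.Z) : (Fin (M o) → ℂ) →ₗ[ℂ] W := e y ∘ₗ LinearMap.inr ℂ U.A (Fin (M o) → ℂ)

end CF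

end Vale.Agent.P269.Grr
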