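import Vale.Agent.P269.Grr.RD

/-!
# The clutching bundle of a complex
-/

namespace Vale.Agent.P269.Grr.ThP

open Set Function Topology Filter Module Vale.Agent.P291Z Vale.Agent.P269.Ch PowerSeries

variable {Y Y' : Ch.Sp}

theorem finrank_pi' {ι : Type} [Fintype ι] {V : ι → Type} [∀ i, AddCommGroup (V i)]
    [∀ i, Module ℂ (V i)] [∀ i, FiniteDimensional ℂ (V i)] (S : ∀ i, Submodule ℂ (V i)) :
    finrank ℂ (Submodule.pi univ S) = ∑ i, finrank ℂ (S i) := by
  rw [← finrank_pi_fintype, ← LinearMap.finrank_range_of_inj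
    (f := LinearMap.pi fun i => (S i).subtype ∘ₗ LinearMap.proj (φ := fun i => S i) i)
    fun a b h => funext fun i => Subtype.ext (congrFun h i)]
  exact congrArg (fun T : Submodule ℂ _ => finrank ℂ T) (le_antisymm
    (fun w hw => ⟨fun i => ⟨w i, hw i trivial⟩, rfl⟩) (by rintro _ ⟨a, rfl⟩ i -; exact (a i).2))

/-- the sum of the first `N` bundles -/
@[reducible] noncomputable def piB (E : ℕ → VB Y) (N : ℕ) : VB Y where
  W := (i : Fin N) → (E i).W
  F t := Submodule.pi univ fun i => (E i).F t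
  r := ∑ j ∈ Finset.range N, (E j).r
  closed := by
    simpa [Submodule.mem_pi, ofPred_forall] using isClosed_iInter fun i : Fin N =>
      (E i).closed.preimage (f := fun x : Y.T × ((i : Fin N) → (E i).W) => (x.1, x.2 i))
        (by fun_prop)
  rank t := by rw [finrank_pi', Finset.sum_range]; exact Finset.sum_congr rfl fun i _ => (E i).rank t
  inv g t w h i hi := (E i).inv g t _ (h i hi)

/-- the components, extended by zero -/
noncomputable def xt (E : ℕ → VB Y) (N j : ℕ) : (piB E N).W →ₗ[ℂ] (E j).W :=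
  if h : j < N then LinearMap.proj (φ := fun i : Fin N => (E i).W) ⟨j, h⟩ else 0

section xt

variable {E : ℕ → VB Y} {N j : ℕ}

theorem xt_fin (i : Fin N) (w : (piB E N).W) : xt E N i w = w i := by simp [xt]

theorem xt_lt (h : j < N) (w : (piB E N).W) : xt E N j w = w ⟨j, h⟩ := xt_fin ⟨j, h⟩ w

theorem xt_ge (h : ¬j < N) (w : (piB E N).W) : xt E N j w = 0 := by simp [xt, h]

theorem xt_ext {w : (piB E N).W} (h : ∀ j, xt E N j w = 0) : w = 0 :=
  funext fun i => (xt_fin i w).symm.trans (h i)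

end xt

/-- the bundle or zero -/
@[reducible] noncomputable def cut (E : VB Y) (p : Prop) [Decidable p] : VB Y :=
  E.sub (fun t => if p then E.F t else ⊥) (if p then E.r else 0)
    (by split_ifs; exacts [E.closed, E.bot.closed])
    (fun t => by
      by_cases h : p
      exacts [by rw [if_pos h, if_pos h, E.rank], by rw [if_neg h, if_neg h, finrank_bot]])
    (by split_ifs; exacts [E.inv, E.bot.inv])

theorem chc_cut (E : VB Y) (p : Prop) [Decidable p] : (cut E p).chc = if p then E.chc else 0 := by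
  split_ifs with h
  · exact Iso.chc' (A := fun _ => LinearMap.id) ⟨Hom.of_continuous
      (fun t w hw => (if_pos (α := Submodule ℂ E.W) h).le hw) continuous_snd fun _ _ _ _ => rfl,
      fun _ _ _ e => e, fun t w hw => ⟨w, (if_pos (α := Submodule ℂ E.W) h).ge hw, rfl⟩⟩
  · exact chc_zero _ (if_neg h)

section hom

variable {m : Mor Y' Y} {D : VB Y'} {E : ℕ → VB Y} {N : ℕ}

theorem hom_xt (E : ℕ → VB Y) (N j : ℕ) :
    Hom (Mor.id Y) (piB E N) (E j) fun _ => xt E N j := by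
  by_cases h : j < N
  · exact Hom.of_continuous (fun t w hw => (xt_lt h w).symm ▸ hw ⟨j, h⟩ trivial)
      (by simp only [xt_lt h]; fun_prop) fun g t w _ => by simp only [xt_lt h]; rfl
  · exact Hom.of_continuous (fun t w _ => (xt_ge h w).symm ▸ zero_mem _)
      (by simp only [xt_ge h]; fun_prop) fun g t w _ => by simp only [xt_ge h, smul_zero]

theorem hom_pi {A : ∀ j, Y'.T → D.W →ₗ[ℂ] (E j).W} (h : ∀ j, Hom m D (E j) (A j)) :
    Hom m D (piB E N) fun t => LinearMap.pi fun i : Fin N => A i t :=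
  ⟨fun t w hw i _ => (h i).mem t w hw, continuous_pi fun i => (h i).cont,
    fun g t w hw => funext fun i => (h i).eqv g t w hw⟩

theorem hom_sub {E : VB Y} {A : Y'.T → D.W →ₗ[ℂ] E.W} (h : Hom m D E A) {F' r' h1 h2 h3 F r k1 k2 k3}
    (le : ∀ t, F' t ≤ D.F t) (mem : ∀ t w, w ∈ F' t → A t w ∈ F (m.f t)) :
    Hom m (D.sub F' r' h1 h2 h3) (E.sub F r k1 k2 k3) A :=
  ⟨mem, h.continuous (by fun_prop) (continuous_snd.comp continuous_subtype_val)
    fun x => le _ x.2, fun g t w hw => h.eqv g t w (le t hw)⟩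

theorem chc_pi (E : ℕ → VB Y) (N : ℕ) : (piB E N).chc = ∑ j ∈ Finset.range N, (E j).chc := by
  induction N with
  | zero => exact chc_zero _ rfl
  | succ N ih =>
    rw [Finset.sum_range_succ, ← ih, ← chc_sum]
    have h1 := hom_pi (N := N) (hom_xt E (N + 1))
    have h2 := hom_xt E (N + 1) N
    refine Iso.chc' (Iso.of_inj (A := fun _ => (LinearMap.pi fun i : Fin N =>
      xt E (N + 1) i).prod (xt E (N + 1) N))
      ⟨fun t w hw => ⟨h1.mem t w hw, h2.mem t w hw⟩, h1.cont.prodMk h2.cont,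
        fun g t w hw => Prod.ext (h1.eqv g t w hw) (h2.eqv g t w hw)⟩
      (fun t w _ e => funext fun i => (xt_fin i w).symm.trans ?_) (Finset.sum_range_succ _ _))
    induction i using Fin.lastCases with
    | last => exact congrArg Prod.snd e
    | cast i => exact congrFun (congrArg Prod.fst e) i

theorem exact_of_mid {E' E E'' : VB Y} {A : Y.T → E'.W →ₗ[ℂ] E.W} {B : Y.T → E.W →ₗ[ℂ] E''.W}
    (hA : Hom (Mor.id Y) E' E A) (hB : Hom (Mor.id Y) E E'' B)
    (inj : ∀ t w, w ∈ E'.F t → A t w = 0 → w = 0)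
    (ex : ∀ t w, w ∈ E.F t → (B t w = 0 ↔ ∃ w' ∈ E'.F t, A t w' = w))
    (hr : Y.T → E.r = E'.r + E''.r) : Exact E' E E'' A B := by
  refine ⟨hA, hB, inj, fun t => (Submodule.eq_of_le_of_finrank_eq (S₁ := (E.F t).map (B t))
    (by rintro _ ⟨w, hw, rfl⟩; exact hB.mem t w hw) ?_).ge, ex⟩
  have h1 := finrank_map_add (E.F t) (B t)
  rw [show E.F t ⊓ LinearMap.ker (B t) = (E'.F t).map (A t) from le_antisymm
    (fun w hw => (ex t w hw.1).1 hw.2) (by
      rintro _ ⟨w, hw, rfl⟩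
      exact ⟨hA.mem t w hw, (ex t _ (hA.mem t w hw)).2 ⟨w, hw, rfl⟩⟩),
    finrank_map_of_inj (inj t), E'.rank, E.rank, hr t] at h1
  rw [E''.rank]
  omega

end hom

/-- the two half lines -/
noncomputable def sg (j : ℕ) (s : ℝ) : ℝ := if Even j then max s 0 else max (-s) 0

theorem continuous_sg (j : ℕ) : Continuous (sg j) := by
  unfold sg; split_ifs <;> fun_prop

theorem sg_mul (j : ℕ) {ρ : ℝ} (h : 0 < ρ) (s : ℝ) : sg j (ρ * s) = ρ * sg j s := by
  unfold sg; split_ifs <;> simp [mul_max_of_nonneg _ _ h.le]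

theorem sg_zero (j : ℕ) : sg j 0 = 0 := by simp [sg]

/-- the components in `p` are free, they determine the others -/
def Fre (p : ℕ → Prop) (s : ℝ) : Prop :=
  ∀ j, (p j → sg j s = 0 ∧ ¬p (j + 1)) ∧ (¬p j → sg j s ≠ 0 ∧ p (j + 1))

theorem fre_odd {s : ℝ} (h : 0 < s) : Fre Odd s := fun j => by
  simp +contextual [sg, Nat.odd_add_one, ← Nat.not_odd_iff_even, h.le, h.ne']

theorem fre_even {s : ℝ} (h : s < 0) : Fre Even s := fun j => by
  simp +contextual [sg, Nat.even_add_one, h.le, h.ne]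

section pt

variable {K : Cx Y} {K' : Cx Y'} {t : Y.T} {t' : Y'.T} {j : ℕ} {σ : ℝ}

theorem Zy_le (K : Cx Y) (j : ℕ) (t : Y.T) : K.Zy j t ≤ (K.E j).F t := by
  cases j; exacts [le_rfl, inf_le_left]

theorem Bd_le (K : Cx Y) (j : ℕ) (t : Y.T) : K.Bd j t ≤ K.Zy j t := by
  rintro _ ⟨w, hw, rfl⟩
  cases j with
  | zero => exact (K.hom 0).mem t w hw
  | succ j => exact ⟨(K.hom _).mem t w hw, K.dd j t w hw⟩

theorem F_top (h : K.n < j) : (K.E j).F t = ⊥ :=
  Submodule.finrank_eq_zero.1 (((K.E j).rank t).trans (K.top j h))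

theorem r_succ (h : K.Ex t) (j : ℕ) :
    (K.E (j + 1)).r = finrank ℂ (K.Zy j t) + finrank ℂ (K.Zy (j + 1) t) := by
  rw [← (K.E (j + 1)).rank t, ← finrank_map_add _ (K.d j t), le_antisymm (h j) (Bd_le K j t)]
  rfl

theorem z_top (h : K.Ex t) : finrank ℂ (K.Zy K.n t) = 0 := by
  have := r_succ h K.n
  rw [K.top _ (Nat.lt_succ_self _)] at this
  omega

theorem sum_z (h : K.Ex t) (N : ℕ) : ∑ j ∈ Finset.range (N + 1), finrank ℂ (K.Zy j t) =
    (∑ j ∈ Finset.range (N + 1), if Odd j then (K.E j).r else 0) +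
      if Odd N then 0 else finrank ℂ (K.Zy N t) := by
  induction N with
  | zero => simp
  | succ N ih =>
    rw [Finset.sum_range_succ, ih, Finset.sum_range_succ _ (N + 1), r_succ h]
    by_cases e : Odd N <;> simp [e, Nat.odd_add_one, add_assoc]

theorem sum_r (h : K.Ex t) (N : ℕ) : ∑ j ∈ Finset.range (N + 1), (-1 : ℤ) ^ j * (K.E j).r =
    (-1) ^ N * finrank ℂ (K.Zy N t) := by
  induction N with
  | zero => rw [Finset.sum_range_one, ← (K.E 0).rank t]; rfl
  | succ N ih => rw [Finset.sum_range_succ, ih, r_succ h]; push_cast; ring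

theorem sum_alt {R : Type*} [Ring R] (f : ℕ → R) (N : ℕ) : ∑ j ∈ Finset.range N, (-1) ^ j * f j =
    (∑ j ∈ Finset.range N, if Even j then f j else 0) -
      ∑ j ∈ Finset.range N, if Odd j then f j else 0 := by
  rw [← Finset.sum_sub_distrib]
  refine Finset.sum_congr rfl fun j _ => ?_
  rcases Nat.even_or_odd j with e | e
  · simp [e, e.neg_one_pow, Nat.not_odd_iff_even.2 e]
  · simp [e, e.neg_one_pow, Nat.not_even_iff_odd.2 e]

variable (K t σ) in
/-- the equations of the clutching bundle -/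
def T (w : ∀ j, (K.E j).W) : Prop :=
  ∀ j, w j ∈ (K.E j).F t ∧ K.d j t (w (j + 1)) = (sg j σ : ℂ) • w j

theorem T.eq_zero {p : ℕ → Prop} (hp : Fre p σ) {w : ∀ j, (K.E j).W} (h : T K t σ w)
    (h0 : ∀ j, p j → w j = 0) (j : ℕ) : w j = 0 := by
  by_cases e : p j
  · exact h0 j e
  have h1 := (h j).2
  rwa [h0 _ ((hp j).2 e).2, map_zero, eq_comm, smul_eq_zero,
    or_iff_right (Complex.ofReal_ne_zero.2 ((hp j).2 e).1)] at h1

theorem exists_T {p : ℕ → Prop} (hp : Fre p σ) {v : ∀ j, (K.E j).W} (hv : ∀ j, v j ∈ (K.E j).F t) :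
    ∃ w, T K t σ w ∧ ∀ j, p j → w j = v j := by
  classical
  refine ⟨fun j => if p j then v j else (sg j σ : ℂ)⁻¹ • K.d j t (v (j + 1)), fun j => ?_,
    fun j e => if_pos e⟩
  by_cases e : p j
  · simp only [if_pos e, if_neg ((hp j).1 e).2, ((hp j).1 e).1, map_smul, K.dd j t _ (hv _)]
    exact ⟨hv j, by simp⟩
  · simp only [if_neg e, if_pos ((hp j).2 e).2]
    exact ⟨Submodule.smul_mem _ _ ((K.hom j).mem t _ (hv _)),
      (smul_inv_smul₀ (Complex.ofReal_ne_zero.2 ((hp j).2 e).1) _).symm⟩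

theorem T_zero {w : ∀ j, (K.E j).W} : T K t 0 w ↔ ∀ j, w j ∈ K.Zy j t := by
  simp only [T, sg_zero, Complex.ofReal_zero, zero_smul]
  exact ⟨fun h j => by cases j; exacts [(h 0).1, ⟨(h _).1, (h _).2⟩],
    fun h j => ⟨Zy_le K j t (h j), (h (j + 1)).2⟩⟩

variable (K' K t' t) in
/-- a chain map up to a scalar between two fibres -/
structure CM (A : ∀ j, (K'.E j).W →ₗ[ℂ] (K.E j).W) (ρ : ℝ) : Prop where
  mem : ∀ j w, w ∈ (K'.E j).F t' → A j w ∈ (K.E j).F t
  comm : ∀ j, ∀ w ∈ (K'.E (j + 1)).F t', K.d j t (A (j + 1) w) = (ρ : ℂ) • A j (K'.d j t' w)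
  pos : 0 < ρ

variable {A : ∀ j, (K'.E j).W →ₗ[ℂ] (K.E j).W} {ρ : ℝ} (h : CM K K' t t' A ρ)
include h

theorem CM.ne : (ρ : ℂ) ≠ 0 := Complex.ofReal_ne_zero.2 h.pos.ne'

theorem CM.Zy {w : (K'.E j).W} (hw : w ∈ K'.Zy j t') : A j w ∈ K.Zy j t := by
  cases j with
  | zero => exact h.mem 0 w hw
  | succ j => exact ⟨h.mem _ w hw.1, (h.comm j w hw.1).trans (by
      rw [show K'.d j t' w = 0 from hw.2, map_zero, smul_zero])⟩

theorem CM.Zy_of (inj : ∀ j w, w ∈ (K'.E j).F t' → A j w = 0 → w = 0) {w : (K'.E j).W}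
    (hw : w ∈ (K'.E j).F t') (h0 : A j w ∈ K.Zy j t) : w ∈ K'.Zy j t' := by
  cases j with
  | zero => exact hw
  | succ j => exact ⟨hw, inj j _ ((K'.hom j).mem t' w hw)
      ((smul_eq_zero_iff_right h.ne).1 ((h.comm j w hw).symm.trans h0.2))⟩

theorem CM.Bd {w : (K'.E j).W} (hw : w ∈ K'.Bd j t') : A j w ∈ K.Bd j t := by
  obtain ⟨v, hv, rfl⟩ := hw
  exact (Submodule.smul_mem_iff _ h.ne).1 ⟨_, h.mem _ v hv, h.comm j v hv⟩

theorem CM.map_Bd (surj : ∀ w ∈ (K.E (j + 1)).F t, ∃ w' ∈ (K'.E (j + 1)).F t', A _ w' = w) :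
    (K'.Bd j t').map (A j) = K.Bd j t := by
  refine le_antisymm (by rintro _ ⟨w, hw, rfl⟩; exact h.Bd hw) ?_
  rintro _ ⟨w, hw, rfl⟩
  obtain ⟨v, hv, rfl⟩ := surj w hw
  rw [h.comm j v hv]
  exact Submodule.smul_mem _ _ ⟨_, ⟨v, hv, rfl⟩, rfl⟩

theorem CM.T {w : ∀ j, (K'.E j).W} (hw : T K' t' σ w) : T K t (ρ * σ) fun j => A j (w j) :=
  fun j => ⟨h.mem j _ (hw j).1, by
    rw [h.comm j _ (hw _).1, (hw j).2, sg_mul j h.pos, map_smul, smul_smul, Complex.ofReal_mul]⟩

theorem CM.T_of (inj : ∀ j w, w ∈ (K'.E j).F t' → A j w = 0 → w = 0) {w : ∀ j, (K'.E j).W}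
    (hw : ∀ j, w j ∈ (K'.E j).F t') (h0 : ThP.T K t (ρ * σ) fun j => A j (w j)) :
    ThP.T K' t' σ w := fun j => ⟨hw j, sub_eq_zero.1 (inj j _
  (sub_mem ((K'.hom j).mem t' _ (hw _)) (Submodule.smul_mem _ _ (hw j)))
  ((smul_eq_zero_iff_right h.ne).1 (by
    rw [map_sub, smul_sub, ← h.comm j _ (hw _), (h0 j).2, sg_mul j h.pos, map_smul, smul_smul,
      Complex.ofReal_mul, sub_self])))⟩

end pt

section th

variable {K : Cx Y} {K' : Cx Y'} {s : Y.T → ℝ} {s' : Y'.T → ℝ} {N : ℕ} {t : Y.T}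

variable (K N) in
/-- the components -/
noncomputable abbrev cp (w : (piB K.E N).W) (j : ℕ) : (K.E j).W := xt K.E N j w

variable (K s N t) in
/-- the equations as a linear map -/
noncomputable def Φ : (piB K.E N).W →ₗ[ℂ] (piB K.E N).W := LinearMap.pi fun i : Fin N =>
  K.d i t ∘ₗ xt K.E N (i + 1) - (sg i (s t) : ℂ) • xt K.E N i

theorem hom_Φ (h : K.Adm s) (N : ℕ) : Hom (Mor.id Y) (piB K.E N) (piB K.E N) (Φ K s N) := by
  refine hom_pi (D := piB K.E N) (E := K.E) (A := fun j t => K.d j t ∘ₗ xt K.E N (j + 1) -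
    (sg j (s t) : ℂ) • xt K.E N j) fun j => ?_
  have h1 := (K.hom j).comp (hom_xt K.E N (j + 1))
  have h2 := hom_xt K.E N j
  refine ⟨fun t w hw => sub_mem (h1.mem t w hw) (Submodule.smul_mem _ _ (h2.mem t w hw)),
    h1.cont.sub ((Complex.continuous_ofReal.comp ((continuous_sg j).comp
      (h.cont.comp (by fun_prop)))).smul h2.cont), fun g t w hw => ?_⟩
  show K.d j (g • t) (xt K.E N (j + 1) (g • w)) - (sg j (s (g • t)) : ℂ) • xt K.E N j (g • w) =
    g • (K.d j t (xt K.E N (j + 1) w) - (sg j (s t) : ℂ) • xt K.E N j w)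
  rw [smul_sub, smul_comm g, h.inv]
  exact congrArg₂ (· - ·) (h1.eqv g t w hw) (congrArg _ (h2.eqv g t w hw))

theorem mem_fib {w : (piB K.E N).W} :
    w ∈ (piB K.E N).F t ⊓ LinearMap.ker (Φ K s N t) ↔ T K t (s t) (cp K N w) := by
  refine ⟨fun h j => ⟨(hom_xt K.E N j).mem t w h.1, ?_⟩, fun h =>
    ⟨fun i _ => xt_fin i w ▸ (h i).1, funext fun i => sub_eq_zero.2 (h i).2⟩⟩
  by_cases e : j < N
  · exact sub_eq_zero.1 (congrFun h.2 ⟨j, e⟩)
  · rw [cp, cp, xt_ge e, xt_ge (by omega), map_zero, smul_zero]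

theorem cp_res (hN : N = K.n + 1) {w : ∀ j, (K.E j).W} (hw : ∀ j, w j ∈ (K.E j).F t) :
    cp K N (fun i => w i) = w := funext fun j => by
  by_cases e : j < N
  · exact xt_lt e _
  · exact (xt_ge e _).trans ((F_top (by omega)).le (hw j)).symm

variable (K N) in
/-- the projection onto the components in `p` -/
noncomputable def pr (p : ℕ → Prop) [DecidablePred p] :
    (piB K.E N).W →ₗ[ℂ] (piB (fun j => cut (K.E j) (p j)) N).W :=
  LinearMap.pi fun i : Fin N => (if p i then 1 else 0 : ℂ) • xt K.E N i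

theorem hom_pr (p : ℕ → Prop) [DecidablePred p] :
    Hom (Mor.id Y) (piB K.E N) (piB (fun j => cut (K.E j) (p j)) N) fun _ => pr K N p := by
  refine hom_pi (D := piB K.E N) (E := fun j => cut (K.E j) (p j))
    (A := fun j _ => (if p j then 1 else 0 : ℂ) • xt K.E N j) fun j => ?_
  have h2 := hom_xt K.E N j
  refine ⟨fun t w hw => ?_, h2.cont.const_smul _, fun g t w hw =>
    (congrArg _ (h2.eqv g t w hw)).trans (smul_comm g _ (xt K.E N j w)).symm⟩
  show _ ∈ if p j then (K.E j).F t else ⊥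
  split_ifs
  exacts [Submodule.smul_mem _ _ (h2.mem t w hw), zero_smul ℂ _]

theorem pr_inj {p : ℕ → Prop} [DecidablePred p] (hp : Fre p (s t)) (w : (piB K.E N).W)
    (hw : w ∈ (piB K.E N).F t ⊓ LinearMap.ker (Φ K s N t)) (h0 : pr K N p w = 0) : w = 0 :=
  xt_ext ((mem_fib.1 hw).eq_zero hp fun j e => by
    by_cases e' : j < N
    · simpa [pr, e] using show pr K N p w ⟨j, e'⟩ = 0 from congrFun h0 ⟨j, e'⟩
    · exact xt_ge e' w)

theorem pr_surj (hN : N = K.n + 1) {p : ℕ → Prop} [DecidablePred p] (hp : Fre p (s t))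
    (v : (piB K.E N).W) (hv : v ∈ (piB (fun j => cut (K.E j) (p j)) N).F t) :
    ∃ w ∈ (piB K.E N).F t ⊓ LinearMap.ker (Φ K s N t), pr K N p w = v := by
  have h1 : ∀ i : Fin N, v i ∈ if p i then (K.E i).F t else ⊥ := fun i => hv i trivial
  obtain ⟨w, h2, h3⟩ := exists_T hp (v := cp K N v) fun j => (hom_xt K.E N j).mem t v fun i _ => by
    have := h1 i
    split_ifs at this
    exacts [this, this ▸ zero_mem _]
  refine ⟨fun i => w i, mem_fib.2 ((cp_res hN fun j => (h2 j).1).symm ▸ h2), funext fun i => ?_⟩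
  have := h1 i
  show (if p i then 1 else 0 : ℂ) • xt K.E N i (fun i : Fin N => w i) = v i
  rw [xt_fin]
  split_ifs at this ⊢ with e
  exacts [(one_smul _ _).trans ((h3 i e).trans (xt_fin i v)), (zero_smul _ _).trans this.symm]

theorem rank_fre (hN : N = K.n + 1) {p : ℕ → Prop} [DecidablePred p] (hp : Fre p (s t)) :
    finrank ℂ ((piB K.E N).F t ⊓ LinearMap.ker (Φ K s N t) : Submodule ℂ _) =
      ∑ j ∈ Finset.range N, if p j then (K.E j).r else 0 := by
  rw [← finrank_map_of_inj (pr_inj hp), show Submodule.map (pr K N p) _ =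
    (piB (fun j => cut (K.E j) (p j)) N).F t from le_antisymm (by
      rintro _ ⟨w, hw, rfl⟩; exact (hom_pr p).mem t w hw.1) (pr_surj hN hp)]
  exact (piB (fun j => cut (K.E j) (p j)) N).rank t

theorem rank_fib (h : K.Adm s) (hN : N = K.n + 1) (t : Y.T) :
    finrank ℂ ((piB K.E N).F t ⊓ LinearMap.ker (Φ K s N t) : Submodule ℂ _) =
      ∑ j ∈ Finset.range N, if Odd j then (K.E j).r else 0 := by
  rcases lt_trichotomy (s t) 0 with e | e | e
  · have := h.bal t
    rw [sum_alt, sub_eq_zero] at this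
    rw [rank_fre hN (fre_even e), hN]
    exact_mod_cast this
  · rw [show (piB K.E N).F t ⊓ LinearMap.ker (Φ K s N t) = Submodule.pi univ fun i : Fin N =>
      K.Zy i t from Submodule.ext fun w => by
        rw [mem_fib, e, T_zero]
        refine ⟨fun h i _ => xt_fin i w ▸ h i, fun h j => ?_⟩
        by_cases e' : j < N
        exacts [by rw [cp, xt_lt e']; exact h ⟨j, e'⟩ trivial,
          by rw [cp, xt_ge e']; exact zero_mem _],
      finrank_pi', ← Finset.sum_range fun j => finrank ℂ (K.Zy j t), hN, sum_z (h.ex t e),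
      z_top (h.ex t e), ite_self, add_zero]
  · exact rank_fre hN (fre_odd e)

/-- the clutching bundle -/
@[reducible] noncomputable def th (h : K.Adm s) (hN : N = K.n + 1) : VB Y :=
  (hom_Φ h N).ker _ (rank_fib h hN)

theorem chc_th (h : K.Adm s) (hN : N = K.n + 1) {p : ℕ → Prop} [DecidablePred p]
    (hp : ∀ t, Fre p (s t)) :
    (th h hN).chc = ∑ j ∈ Finset.range N, if p j then (K.E j).chc else 0 := by
  have h1 := hom_pr (K := K) (N := N) p
  rw [Iso.chc' (E' := th h hN) (E := piB (fun j => cut (K.E j) (p j)) N) ⟨⟨fun t w hw => h1.mem t w hw.1,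
    h1.continuous (by fun_prop) (continuous_snd.comp continuous_subtype_val) fun x => x.2.1,
    fun g t w hw => h1.eqv g t w hw.1⟩, fun t => pr_inj (hp t), fun t => pr_surj hN (hp t)⟩, chc_pi]
  exact Finset.sum_congr rfl fun j _ => chc_cut _ _

variable {m : Mor Y' Y} {A : ∀ j, Y'.T → (K'.E j).W →ₗ[ℂ] (K.E j).W} {ρ : Y'.T → ℝ}

variable (A N) in
/-- the sum of the maps `A j` -/
noncomputable def pm (t : Y'.T) : (piB K'.E N).W →ₗ[ℂ] (piB K.E N).W :=
  LinearMap.pi fun i : Fin N => A i t ∘ₗ xt K'.E N i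

theorem cp_pm (t : Y'.T) (w : (piB K'.E N).W) :
    cp K N (pm N A t w) = fun j => A j t (cp K' N w j) := funext fun j => by
  by_cases e : j < N
  · exact xt_lt e _
  · rw [cp, cp, xt_ge e, xt_ge e, map_zero]

variable {h : K.Adm s} {h' : K'.Adm s'} {hN : N = K.n + 1} {hN' : N = K'.n + 1}
  (hc : ∀ t, CM K K' (m.f t) t (fun j => A j t) (ρ t)) (hs : ∀ t, s (m.f t) = ρ t * s' t)
include hc hs

theorem hom_th (hA : ∀ j, Hom m (K'.E j) (K.E j) (A j)) : Hom m (th h' hN') (th h hN) (pm N A) := by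
  have h1 := hom_pi (N := N) fun j => (hA j).comp (hom_xt K'.E N j)
  refine hom_sub (m := m) (D := piB K'.E N) (E := piB K.E N) (A := pm N A)
    ⟨h1.mem, h1.cont, h1.eqv⟩ (fun _ => inf_le_left) fun t w hw => mem_fib.2 ?_
  rw [cp_pm, hs]
  exact (hc t).T (mem_fib.1 hw)

omit hc hs in
theorem inj_th (inj : ∀ j t w, w ∈ (K'.E j).F t → A j t w = 0 → w = 0) (t : Y'.T)
    (w : (piB K'.E N).W) (hw : w ∈ (th h' hN').F t) (e : pm N A t w = 0) : w = 0 :=
  funext fun i => inj i t _ (hw.1 i trivial) (xt_fin i w ▸ congrFun e i)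

theorem exists_th (inj : ∀ j t w, w ∈ (K'.E j).F t → A j t w = 0 → w = 0) {t : Y'.T}
    {w : (piB K.E N).W} (hw : w ∈ (th h hN).F (m.f t))
    (e : ∀ j, ∃ v ∈ (K'.E j).F t, A j t v = cp K N w j) :
    ∃ v ∈ (th h' hN').F t, pm N A t v = w := by
  choose v h1 h2 using e
  refine ⟨fun i => v i, mem_fib.2 ?_, funext fun i =>
    (congrArg (A i t) (xt_fin i _)).trans ((h2 i).trans (xt_fin i w))⟩
  rw [cp_res hN' h1]
  refine (hc t).T_of (fun j => inj j t) h1 ?_
  rw [← hs, funext h2]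
  exact mem_fib.1 hw

end th

end Vale.Agent.P269.Grr.ThP
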