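import Vale.Agent.P269.Grr.Fam
import Vale.Agent.P269.Holo.Etale

/-!
# The universal curve as a complex orbifold
-/

namespace Vale.Agent.P269.Grr

open Set Function Topology Filter Module Vale.Agent.P291Z Vale.Agent.P269.Ch Vale.Agent.P269.Holo
  Vale.Agent.P269.Loc Vale.Agent.P269.Base

namespace CF

variable {ι : Type} [Fintype ι] {U : HO} {M : ι → ℕ} {o : ι} {g : ℤ} {m : ι → ℤ}
  (F : CF U M o g m)

/-- the coordinates on the universal curve -/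
noncomputable def ιU (x : F.UT) : U.A × V M := (U.ι x.t, x.c)

theorem isEmbedding_ιU : IsEmbedding F.ιU :=
  (U.emb.prodMap IsEmbedding.id).comp UT.isEmbedding

/-- parametrisations of the universal curve from a chart of the family -/
theorem par_gen {B E : Type} [NormedAddCommGroup B] [NormedSpace ℂ B] [FiniteDimensional ℂ B]
    [NormedAddCommGroup E] [NormedSpace ℂ E] [FiniteDimensional ℂ E] {x : F.UT}
    {σ : U.A × E → V M} {X : U.A → Set E} (h : Chart o F.C U.ι x.t σ X)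
    (h0 : σ (U.ι x.t, 0) = x.c) {u : B × E → U.T} (hu : u (0, 0) = x.t)
    (ha : AnalyticAt ℂ (fun p => U.ι (u p)) (0, 0)) (hX : ∀ᶠ p in 𝓝 (0, 0), p.2 ∈ X (U.ι (u p)))
    {w : U.A → B} (hw : AnalyticAt ℂ w (U.ι x.t)) (hl : ∀ᶠ p in 𝓝 (0, 0), w (U.ι (u p)) = p.1)
    (hr : ∀ᶠ q : U.T × E in 𝓝 (x.t, 0), q.2 ∈ X (U.ι q.1) → u (w (U.ι q.1), q.2) = q.1) :
    ∃ Ψ : B × (ι → ℂ) × E → F.UT, IsParam F.ιU Ψ (0, 1, 0) ∧ Ψ (0, 1, 0) = x ∧
      ∀ᶠ p in 𝓝 (0, 1, 0), (∀ i, p.2.1 i ≠ 0) ∧ (Ψ p).t = u (p.1, p.2.2) ∧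
        (Ψ p).c = p.2.1 • σ (U.ι (u (p.1, p.2.2)), p.2.2) := by
  classical
  have := FiniteDimensional.complete ℂ B
  have := FiniteDimensional.complete ℂ E
  obtain ⟨ρ, h1, h2, h3, h4⟩ := h.exists_mem_iff U.cι.continuousAt (h0 ▸ x.ne) (F.fam _).cone
  rw [h0] at h1 h2 h4
  have l1 : AnalyticAt ℂ (fun p : B × (ι → ℂ) × E => (p.1, p.2.2)) (0, 1, 0) :=
    analyticAt_fst.prod (analyticAt_snd.comp analyticAt_snd)
  have a1 : AnalyticAt ℂ (fun p : B × (ι → ℂ) × E => U.ι (u (p.1, p.2.2))) (0, 1, 0) :=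
    ha.comp_of_eq l1 rfl
  have a2 : AnalyticAt ℂ (fun p : B × (ι → ℂ) × E => ((U.ι (u (p.1, p.2.2)),
      p.2.1 • σ (U.ι (u (p.1, p.2.2)), p.2.2)) : U.A × V M)) (0, 1, 0) :=
    a1.prod (an_smul (analyticAt_fst.comp analyticAt_snd) (h.an.comp_of_eq
      (a1.prod (analyticAt_snd.comp analyticAt_snd)) (by rw [hu])))
  have t1 : Tendsto (fun p : B × (ι → ℂ) × E => u (p.1, p.2.2)) (𝓝 (0, 1, 0)) (𝓝 x.t) :=
    hu ▸ (U.emb.continuousAt_iff.2 a1.continuousAt :)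
  let Ψ : B × (ι → ℂ) × E → F.UT := fun p =>
    if e : p.2.1 • σ (U.ι (u (p.1, p.2.2)), p.2.2) ∈ F.C (u (p.1, p.2.2)) then UT.mk _ _ e else x
  have h5 : ∀ᶠ p in 𝓝 ((0, 1, 0) : B × (ι → ℂ) × E), (∀ i, p.2.1 i ≠ 0) ∧
      (Ψ p).t = u (p.1, p.2.2) ∧ (Ψ p).c = p.2.1 • σ (U.ι (u (p.1, p.2.2)), p.2.2) := by
    filter_upwards [(t1.prodMk_nhds (continuousAt_snd.comp continuousAt_snd)).eventually h.mem,
      l1.continuousAt.eventually hX, eventually_all.2 fun i => ContinuousAt.eventually_ne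
        (g := fun p : B × (ι → ℂ) × E => p.2.1 i) (by fun_prop) one_ne_zero] with p e1 e2 e3
    have e4 : Ψ p = UT.mk _ _ ((F.crv _).cone _ e3 _ (e1 e2)) := dif_pos _
    exact ⟨e3, congrArg UT.t e4, congrArg UT.c e4⟩
  have h6 : Ψ (0, 1, 0) = x := UT.ext (h5.self_of_nhds.2.1.trans hu)
    (h5.self_of_nhds.2.2.trans (by rw [hu, one_smul, h0]))
  have a3 : AnalyticAt ℂ (fun p => F.ιU (Ψ p)) (0, 1, 0) :=
    a2.congr (h5.mono fun p hp => Prod.ext (congrArg U.ι hp.2.1.symm) hp.2.2.symm)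
  have a4 : AnalyticAt ℂ (fun a : U.A × V M => (w a.1, ρ a)) (F.ιU x) :=
    (hw.comp_of_eq analyticAt_fst rfl).prod h1
  have h7 : ∀ᶠ p in 𝓝 ((0, 1, 0) : B × (ι → ℂ) × E),
      (w (F.ιU (Ψ p)).1, ρ (F.ιU (Ψ p))) = p := by
    have t2 := (a1.prod analyticAt_snd).continuousAt.tendsto
    rw [hu] at t2
    filter_upwards [h5, l1.continuousAt.eventually hl, t2.eventually h3] with p e1 e2 e3
    rw [ιU, e1.2.1, e1.2.2, e2, e3]
  refine ⟨Ψ, ⟨LH.of_inv (fun y => (w (F.ιU y).1, ρ (F.ιU y))) (a3.eventually_analyticAt.mono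
    fun p hp => F.isEmbedding_ιU.continuousAt_iff.2 hp.continuousAt) ?_ h7 ?_, a3, _,
    h6.symm ▸ a4, h7⟩, h6, h5⟩ <;> rw [h6]
  · exact (F.isEmbedding_ιU.continuous.continuousAt.eventually a4.eventually_analyticAt).mono
      fun y hy => hy.continuousAt.comp F.isEmbedding_ιU.continuous.continuousAt
  · have t2 := (a4.continuousAt.comp F.isEmbedding_ιU.continuous.continuousAt).tendsto
    rw [show ((fun a : U.A × V M => (w a.1, ρ a)) ∘ F.ιU) x = (0, 1, 0) from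
      Prod.ext (hu ▸ hl.self_of_nhds :) h2] at t2
    filter_upwards [t2.eventually h5, UT.isEmbedding.continuous.continuousAt.eventually h4,
      (UT.continuous_t.continuousAt.tendsto.prodMk_nhds ((continuous_snd.snd.tendsto _).comp
        t2)).eventually hr] with y e1 e2 e3
    obtain ⟨e4, e5⟩ := e2.1 y.mem
    have e6 := e3 e4
    exact UT.ext (e1.2.1.trans e6) (e1.2.2.trans ((congrArg (fun t => _ • σ (U.ι t, _)) e6).trans
      e5.symm))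

theorem par_sm' {x : F.UT} (hx : x ∉ F.UN) : ∃ (ψ : (Fin (finrank ℂ U.L + U.n) → ℂ) → U.T)
    (σ : U.A × ℂ → V M) (Ψ : (Fin (finrank ℂ U.L + U.n) → ℂ) × (ι → ℂ) × ℂ → F.UT),
    IsParam U.ι ψ 0 ∧ ψ 0 = x.t ∧ σ (U.ι x.t, 0) = x.c ∧ Chart o F.C U.ι x.t σ (fun _ => univ) ∧
      IsParam F.ιU Ψ (0, 1, 0) ∧ Ψ (0, 1, 0) = x ∧ ∀ᶠ p in 𝓝 (0, 1, 0),
        (Ψ p).t = ψ p.1 ∧ (Ψ p).c = p.2.1 • σ (U.ι (ψ p.1), p.2.2) := by
  obtain ⟨σ, h1, h2⟩ := ((F.fam x.t).chart _ x.mem).resolve_right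
    fun ⟨_, h⟩ => hx (h.isNode (F.fam _))
  obtain ⟨ψ, h3, h4⟩ := U.mfd x.t
  obtain ⟨w, h5, -, h6, h7, -⟩ := h3.exists_inv
  rw [h4] at h5 h7
  obtain ⟨Ψ, h8, h9, h10⟩ := F.par_gen h2 h1 (u := fun p => ψ p.1) h4
    (h3.an.comp_of_eq analyticAt_fst rfl) (.of_forall fun _ => trivial) h5
    ((continuousAt_fst (p := (0, 0))).eventually h6)
    (((continuousAt_fst (p := (x.t, 0))).eventually h7).mono fun _ h _ => h)
  exact ⟨ψ, σ, Ψ, h3, h4, h1, h2, h8, h9, h10.mono fun _ h => h.2⟩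

theorem par_nd' {x : F.UT} (hx : x ∈ F.UN) : ∃ (d : ℕ) (ψ : (Fin d → ℂ) × ℂ → U.T)
    (σ : U.A × ℂ × ℂ → V M) (τ : U.A → ℂ) (Ψ : (Fin d → ℂ) × (ι → ℂ) × ℂ × ℂ → F.UT),
    d + 1 = finrank ℂ U.L + U.n ∧ IsParam U.ι ψ (0, 0) ∧ ψ (0, 0) = x.t ∧ σ (U.ι x.t, 0) = x.c ∧
      AnalyticAt ℂ τ (U.ι x.t) ∧ (∀ᶠ p in 𝓝 (0, 0), τ (U.ι (ψ p)) = p.2) ∧
      Chart o F.C U.ι x.t σ (fun p => {z | z.1 * z.2 = τ p}) ∧
      IsParam F.ιU Ψ (0, 1, 0) ∧ Ψ (0, 1, 0) = x ∧ ∀ᶠ p in 𝓝 (0, 1, 0),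
        (Ψ p).t = ψ (p.1, p.2.2.1 * p.2.2.2) ∧
        (Ψ p).c = p.2.1 • σ (U.ι (ψ (p.1, p.2.2.1 * p.2.2.2)), p.2.2) ∧
        (Ψ p ∈ F.UN ↔ p.2.2 = 0) := by
  obtain ⟨τ, ⟨σ, h1, h2, h3, h4⟩, v, hv, hv'⟩ := F.vers _ _ hx
  obtain ⟨d, hd⟩ : ∃ d, d + 1 = finrank ℂ U.L + U.n := by
    refine ⟨_, Nat.sub_add_cancel (Nat.one_le_iff_ne_zero.2 fun e => hv' ?_)⟩
    rw [← (U.mfd x.t).finrank_tan, Submodule.finrank_eq_zero] at e
    rw [(e.le hv : v = 0), map_zero]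
  obtain ⟨ψ₀, h5, h6⟩ := U.mfd x.t
  obtain ⟨k, -, h7, -, h8, h9⟩ := h5.submersion (f := fun s => τ (U.ι s))
    (h2.comp_of_eq h5.an (by rw [h6])) ((h5.surjective_iff (by rwa [h6])).2 fun b => by
      rw [h6]
      exact ⟨(b / fderiv ℂ τ (U.ι x.t) v) • v, Submodule.smul_mem _ _ hv, by
        rw [map_smul, smul_eq_mul, div_mul_cancel₀ _ hv']⟩) (n := d) (by simpa using hd)
  simp only [h6, h3] at h7 h8 h9
  have h10 : ψ₀ (k (0, 0)) = x.t := by rw [h7, h6]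
  generalize hψ : (fun p => ψ₀ (k p)) = ψ at h8
  simp only [congrFun hψ _] at h9 h10
  obtain ⟨w, h11, h12, h13, h14, h15⟩ := h8.exists_inv
  rw [h10] at h11 h12 h14 h15
  have l1 : AnalyticAt ℂ (fun p : (Fin d → ℂ) × ℂ × ℂ => (p.1, p.2.1 * p.2.2)) (0, 0) :=
    analyticAt_fst.prod ((analyticAt_fst.comp analyticAt_snd).mul
      (analyticAt_snd.comp analyticAt_snd))
  have t1 : Tendsto (fun p : (Fin d → ℂ) × ℂ × ℂ => (p.1, p.2.1 * p.2.2)) (𝓝 (0, 0)) (𝓝 (0, 0)) := by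
    simpa using l1.continuousAt.tendsto
  have t2 := h15.cont.tendsto
  rw [h12] at t2
  obtain ⟨Ψ, h16, h17, h18⟩ := F.par_gen h4 h1 (u := fun p => ψ (p.1, p.2.1 * p.2.2))
    (by simpa using h10) (h8.an.comp_of_eq l1 (by simp)) ((t1.eventually h9).mono fun _ h => h.symm)
    (w := fun a => (w a).1) (analyticAt_fst.comp h11)
    ((t1.eventually h13).mono fun _ h => congrArg Prod.fst h)
    (((continuousAt_fst (p := (x.t, 0))).eventually (h14.and (t2.eventually h9))).mono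
      fun q h e => (congrArg (fun z => ψ (_, z)) ((e.trans (congrArg (fun t => τ (U.ι t))
        h.1.symm)).trans h.2)).trans h.1)
  refine ⟨d, ψ, σ, τ, Ψ, hd, h8, h10, h1, h2, h9, h4, h16, h17, ?_⟩
  have t3 : Tendsto (fun p : (Fin d → ℂ) × (ι → ℂ) × ℂ × ℂ => (p.1, p.2.2.1 * p.2.2.2))
      (𝓝 (0, 1, 0)) (𝓝 (0, 0)) := Continuous.tendsto' (by fun_prop) _ _ (by simp)
  have t4 := (h10 ▸ h8.lh.cont.tendsto).comp t3
  filter_upwards [h18, t3.eventually h9, t4.eventually (h4.eventually_node h3 (F.fam _)),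
    (U.cι.continuousAt.tendsto.comp t4).eventually h2.eventually_analyticAt,
    (t4.prodMk_nhds (continuousAt_snd.comp continuousAt_snd)).eventually
      (h4.eventually_smAt h2 h3 (F.fam _))] with p e1 e2 e3 e4 e5
  refine ⟨e1.2.1, e1.2.2, ?_⟩
  rw [mem_UN, e1.2.1, e1.2.2, isNode_smul_iff e1.1 (F.crv _).cone]
  refine ⟨fun h => by_contra fun h' => (e5 e2.symm h').not_isNode (F.fam _) h, fun h => ?_⟩
  refine NdAt.isNode (τ := τ) ⟨σ, by rw [h], e4, ?_, e3⟩ (F.fam _)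
  rw [e2, h]
  exact mul_zero _

theorem an_act (a : U.A × V M) : AnalyticAt ℂ (fun p : (U.L × (ι → ℂ)) × U.A × V M =>
    ((U.κ p.1.1 • p.2.1, F.act (U.κ p.1.1, expT p.1.2) p.2.2) : U.A × V M)) (0, a) := by
  refine ((U.an a.1).comp_of_eq ((analyticAt_fst.comp analyticAt_fst).prod
    (analyticAt_fst.comp analyticAt_snd)) rfl).prod (analyticAt_pi_iff.2 fun i => ?_)
  have h1 : AnalyticAt ℂ (fun p : (U.L × (ι → ℂ)) × U.A × V M => F.ρ (U.κ p.1.1) i) (0, a) :=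
    (F.an i).comp_of_eq (analyticAt_fst.comp analyticAt_fst) rfl
  have h2 : AnalyticAt ℂ (fun p : (U.L × (ι → ℂ)) × U.A × V M => p.2.2 i) (0, a) :=
    analyticAt_pi_iff.1 (analyticAt_snd.comp analyticAt_snd) i
  have h3 : AnalyticAt ℂ (fun p : (U.L × (ι → ℂ)) × U.A × V M => p.1.2 i) (0, a) :=
    analyticAt_pi_iff.1 (analyticAt_snd.comp analyticAt_fst) i
  exact h3.cexp'.smul (((ContinuousLinearMap.id ℂ ((Fin (M i) → ℂ) →L[ℂ]
    (Fin (M i) → ℂ))).analyticAt_bilinear _).comp (h1.prod h2))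

/-- the universal curve as a complex orbifold -/
noncomputable def UC : HO where
  toSp := F.US
  L := U.L × (ι → ℂ)
  A := ((U.tanB.pb F.pr).sum F.VM).W
  κ := Prod.map U.κ expT
  ι := fun x : F.UT => ((U.ι x.t, x.c) : U.A × V M)
  n := U.n + 1
  exp := U.exp.prod isExp_expT
  an a := by exact F.an_act a
  emb := by exact F.isEmbedding_ιU
  eqv s x := by exact Prod.ext (U.eqv s.1 _) rfl
  mfd x := by
    by_cases hx : x ∈ F.UN
    · obtain ⟨d, -, -, -, Ψ, h1, -, -, -, -, -, -, h2, rfl, -⟩ := F.par_nd' hx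
      refine h2.isMfd ?_
      simp only [finrank_prod, finrank_self, finrank_fin_fun]
      omega
    · obtain ⟨-, -, Ψ, -, -, -, -, h2, rfl, -⟩ := F.par_sm' hx
      refine h2.isMfd ?_
      simp only [finrank_prod, finrank_self, finrank_fin_fun]
      omega

theorem isPr_pr : IsPr F.pr.map := by
  refine ⟨F.pr.map.continuous, fun K hK => ?_⟩
  obtain ⟨L, hL, hKL⟩ := exists_isCompact_lift U.quo hK
  have h1 : IsCompact {x : F.UT | x.t ∈ L ∧ ∀ i, ‖x.c i‖ = 1} := by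
    refine IsInducing.subtypeVal.isCompact_iff.2 ?_
    have h0 : ∀ {c : V M}, (∀ i, ‖c i‖ = 1) → ∀ i, c i ≠ 0 := fun h i e => by simpa [e] using h i
    convert (hL.prod (isCompact_sph (M := M))).diff 
      (t := {x : U.T × V M | (∀ i, x.2 i ≠ 0) ∧ x.2 ∉ F.C x.1})
      (isOpen_iff_mem_nhds.2 fun y hy => (continuous_snd.continuousAt.eventually
        (Base.eventually_ne hy.1)).and ((F.fam y.1).usc _ hy.1 hy.2)) using 1
    exact Set.ext fun x => ⟨by rintro ⟨y, hy, rfl⟩; exact ⟨hy, fun h => h.2 y.2⟩,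
      fun hx => ⟨⟨x, by_contra fun h => hx.2 ⟨h0 hx.1.2, h⟩⟩, hx.1, rfl⟩⟩
  refine (h1.image F.US.cont).of_isClosed_subset (hK.isClosed.preimage F.pr.map.continuous)
    fun x hx => ?_
  obtain ⟨x, rfl⟩ := F.US.surj x
  rw [mem_preimage, Mor.map_π] at hx
  obtain ⟨t, ht, e⟩ := hKL hx
  obtain ⟨s, hs⟩ := (U.fib _ _).1 e.symm
  have h0 : ∀ i, ‖F.ρ s i (UT.c x i)‖ ≠ 0 := fun i => norm_ne_zero_iff.2 (F.ρ_ne s (UT.ne x i))
  refine ⟨_, ⟨?_, fun i => ?_⟩, F.US.π_smul ((s, fun i => Units.mk0 ((‖F.ρ s i (UT.c x i)‖ : ℂ))⁻¹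
    (inv_ne_zero (by exact_mod_cast h0 i))) : U.G × Tor ι) x⟩
  · exact (congrArg (· ∈ L) hs).mpr ht
  show ‖((‖F.ρ s i (UT.c x i)‖ : ℂ))⁻¹ • F.ρ s i (UT.c x i)‖ = 1
  rw [norm_smul, norm_inv, Complex.norm_real, norm_norm]
  exact inv_mul_cancel₀ (h0 i)

theorem exists_mfd_UN (t : F.UN) : ∃ d, d + 1 = finrank ℂ U.L + U.n ∧
    IsMfd (fun s : F.UN => F.UC.ι s.1) (d + Fintype.card ι) t := by
  obtain ⟨d, _, _, _, Ψ, h1, -, -, -, -, -, -, h2, h3, h4⟩ := F.par_nd' t.2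
  let e := ContinuousLinearEquiv.prodAssoc ℂ (Fin d → ℂ) (ι → ℂ) (ℂ × ℂ)
  obtain ⟨φ, h5, h6⟩ := (IsParam.comp (u := e) (y := ((0, 1), 0)) h2 (e.analyticAt _)
    (by rw [e.fderiv]; exact e.bijective)).restrict (j := fun s : F.UN => s.1)
    IsEmbedding.subtypeVal ((e.continuous.continuousAt.eventually h4).mono fun p hp =>
      Iff.trans ⟨fun ⟨y, hy⟩ => hy ▸ y.2, fun h => ⟨⟨_, h⟩, rfl⟩⟩ hp.2.2)
  have h7 := h5.isMfd (n := d + Fintype.card ι) (by simp)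
  rw [show φ (0, 1) = t from Subtype.ext (h6.self_of_nhds.trans h3)] at h7
  exact ⟨d, h1, h7⟩

theorem one_le {x : F.UT} (hx : x ∈ F.UN) : 1 ≤ U.n := by
  obtain ⟨d, h1, h2⟩ := F.exists_mfd_UN ⟨x, hx⟩
  have h3 := fderiv_mem_tan (ι := fun s : F.UN => F.UC.ι s.1)
    (u := fun y => (show F.US.G from F.UC.κ y) • ⟨x, hx⟩) (Continuous.continuousAt (Continuous.subtype_mk
      (F.UC.exp.cont.smul (continuous_const (y := show F.UC.T from x))) _)) (F.UC.an_orbit x)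
  rw [show (show F.US.G from F.UC.κ 0) • (⟨x, hx⟩ : F.UN) = ⟨x, hx⟩ from
    (congrArg (fun s : F.US.G => s • (⟨x, hx⟩ : F.UN)) F.UC.exp.zero).trans (one_smul _ _)] at h3
  have h4 := LinearMap.finrank_le_finrank_of_injective
    (f := LinearMap.codRestrict _ (F.UC.inf x).toLinearMap h3)
    fun a b e => F.UC.inf_inj x (congrArg Subtype.val e)
  rw [h2.finrank_tan, show finrank ℂ F.UC.L = finrank ℂ U.L + Fintype.card ι from
    finrank_prod.trans (by rw [finrank_fintype_fun_eq_card])] at h4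
  omega

theorem mfd_UN : ∀ t : F.UN,
    IsMfd (fun s : F.UN => F.UC.ι s.1) (finrank ℂ F.UC.L + (U.n - 1)) t := fun t => by
  obtain ⟨d, h1, h2⟩ := F.exists_mfd_UN t
  have h3 := F.one_le t.2
  rwa [show finrank ℂ F.UC.L = finrank ℂ U.L + Fintype.card ι from
    finrank_prod.trans (by rw [finrank_fintype_fun_eq_card]),
    show finrank ℂ U.L + Fintype.card ι + (U.n - 1) = d + Fintype.card ι by omega]

/-- the nodes as a complex orbifold -/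
noncomputable def UNH : HO := F.UC.sub F.UN F.isClosed_UN.isLocallyClosed (U.n - 1) F.mfd_UN

/-- the inclusion of the nodes -/
noncomputable def iN : Mor F.UNH.toSp F.US := F.UC.subI F.UN _ _ F.mfd_UN

/-- local parametrisation at a smooth point -/
theorem par_sm {x : F.UT} (hx : x ∉ F.UN) : ∃ (ψ : (Fin (finrank ℂ U.L + U.n) → ℂ) → U.T)
    (σ : U.A × ℂ → V M) (Ψ : (Fin (finrank ℂ U.L + U.n) → ℂ) × (ι → ℂ) × ℂ → F.UT),
    IsParam U.ι ψ 0 ∧ ψ 0 = x.t ∧ σ (U.ι x.t, 0) = x.c ∧ Chart o F.C U.ι x.t σ (fun _ => univ) ∧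
      IsParam F.UC.ι Ψ (0, 1, 0) ∧ Ψ (0, 1, 0) = x ∧ ∀ᶠ p in 𝓝 (0, 1, 0),
        (Ψ p).t = ψ p.1 ∧ (Ψ p).c = p.2.1 • σ (U.ι (ψ p.1), p.2.2) := F.par_sm' hx

/-- local parametrisation at a node: `τ` is the last coordinate of the base -/
theorem par_nd {x : F.UT} (hx : x ∈ F.UN) : ∃ (d : ℕ) (ψ : (Fin d → ℂ) × ℂ → U.T)
    (σ : U.A × ℂ × ℂ → V M) (τ : U.A → ℂ) (Ψ : (Fin d → ℂ) × (ι → ℂ) × ℂ × ℂ → F.UT),
    d + 1 = finrank ℂ U.L + U.n ∧ IsParam U.ι ψ (0, 0) ∧ ψ (0, 0) = x.t ∧ σ (U.ι x.t, 0) = x.c ∧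
      AnalyticAt ℂ τ (U.ι x.t) ∧ (∀ᶠ p in 𝓝 (0, 0), τ (U.ι (ψ p)) = p.2) ∧
      Chart o F.C U.ι x.t σ (fun p => {z | z.1 * z.2 = τ p}) ∧
      IsParam F.UC.ι Ψ (0, 1, 0) ∧ Ψ (0, 1, 0) = x ∧ ∀ᶠ p in 𝓝 (0, 1, 0),
        (Ψ p).t = ψ (p.1, p.2.2.1 * p.2.2.2) ∧
        (Ψ p).c = p.2.1 • σ (U.ι (ψ (p.1, p.2.2.1 * p.2.2.2)), p.2.2) ∧
        (Ψ p ∈ F.UN ↔ p.2.2 = 0) := F.par_nd' hx

end CF

end Vale.Agent.P269.Grr
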