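import Vale.Agent.P269.Grr.Fam
import Vale.Agent.P269.Grr.KZ

/-!
# Parametrisations of the universal curve in the projective bundle
-/

set_option linter.unusedSectionVars false

namespace Vale.Agent.P269.Grr

open Set Function Topology Filter Module Vale.Agent.P291Z Vale.Agent.P269.Ch Vale.Agent.P269.Holo
  Vale.Agent.P269.Loc Vale.Agent.P269.Base

variable {ι : Type} [Fintype ι] {M : ι → ℕ}

section model

variable {P Q E B : Type} [NormedAddCommGroup P] [NormedSpace ℂ P] [NormedAddCommGroup Q]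
  [NormedSpace ℂ Q] [NormedAddCommGroup E] [NormedSpace ℂ E] [NormedAddCommGroup B]
  [NormedSpace ℂ B]

/-- the cone over a chart in the factor `o` -/
noncomputable def mH (o : ι) (A : B → P) (σ : P × E → V M) (r : (B × ℂ) × E) :
    P × (Fin (M o) → ℂ) := (A r.1.1, r.1.2 • σ (A r.1.1, r.2) o)

/-- the graph of the base coordinate -/
def mK (k : Q × E → B) (p : (Q × ℂ) × E) : (B × ℂ) × E := ((k (p.1.1, p.2), p.1.2), p.2)

variable {o : ι} {A : B → P} {σ : P × E → V M} {r : (B × ℂ) × E} {k : Q × E → B}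
  {p : (Q × ℂ) × E}

theorem an_mH (hA : AnalyticAt ℂ A r.1.1) (hσ : AnalyticAt ℂ σ (A r.1.1, r.2)) :
    AnalyticAt ℂ (mH o A σ) r :=
  have h1 : AnalyticAt ℂ (fun r : (B × ℂ) × E => A r.1.1) r :=
    hA.comp (f := fun r : (B × ℂ) × E => r.1.1) (analyticAt_fst.comp analyticAt_fst)
  h1.prod ((analyticAt_snd.comp analyticAt_fst).smul (analyticAt_pi_iff.1
    (hσ.comp (f := fun r : (B × ℂ) × E => (A r.1.1, r.2)) (h1.prod analyticAt_snd)) o))

theorem fderiv_mH (hA : AnalyticAt ℂ A r.1.1) (hσ : AnalyticAt ℂ σ (A r.1.1, r.2))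
    (v : (B × ℂ) × E) : fderiv ℂ (mH o A σ) r v = (fderiv ℂ A r.1.1 v.1.1,
      v.1.2 • σ (A r.1.1, r.2) o +
        r.1.2 • fderiv ℂ σ (A r.1.1, r.2) (fderiv ℂ A r.1.1 v.1.1, v.2) o) := by
  have h1 := hA.differentiableAt.hasFDerivAt.comp (f := fun r : (B × ℂ) × E => r.1.1) r
    (hasFDerivAt_fst.comp r hasFDerivAt_fst)
  have h2 := hasFDerivAt_pi'.1 (hσ.differentiableAt.hasFDerivAt.comp
    (f := fun r : (B × ℂ) × E => (A r.1.1, r.2)) r (h1.prodMk hasFDerivAt_snd)) o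
  have h4 : HasFDerivAt (𝕜 := ℂ) (fun r : (B × ℂ) × E => r.1.2) _ r :=
    hasFDerivAt_snd.comp r hasFDerivAt_fst
  have h3 := (h1.prodMk (h4.smul h2)).fderiv
  refine Eq.trans (congrArg (· v) h3) ?_
  simp [add_comm]

theorem an_mK (hk : AnalyticAt ℂ k (p.1.1, p.2)) : AnalyticAt ℂ (mK k) p :=
  ((hk.comp (f := fun p : (Q × ℂ) × E => (p.1.1, p.2))
    ((analyticAt_fst.comp analyticAt_fst).prod analyticAt_snd)).prod
      (analyticAt_snd.comp analyticAt_fst)).prod analyticAt_snd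

theorem fderiv_mK (hk : AnalyticAt ℂ k (p.1.1, p.2)) (v : (Q × ℂ) × E) :
    fderiv ℂ (mK k) p v = ((fderiv ℂ k (p.1.1, p.2) (v.1.1, v.2), v.1.2), v.2) := by
  have h1 := hk.differentiableAt.hasFDerivAt.comp (f := fun p : (Q × ℂ) × E => (p.1.1, p.2)) p
    ((hasFDerivAt_fst.comp p hasFDerivAt_fst).prodMk hasFDerivAt_snd)
  exact congrArg (· v)
    ((h1.prodMk (hasFDerivAt_snd.comp p hasFDerivAt_fst)).prodMk hasFDerivAt_snd).fderiv

/-- the base coordinate of a node chart -/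
def kN (Q : Type) (q : Q × ℂ × ℂ) : Q × ℂ := (q.1, q.2.1 * q.2.2)

theorem an_kN (q : Q × ℂ × ℂ) : AnalyticAt ℂ (kN Q) q :=
  analyticAt_fst.prod ((analyticAt_fst.comp analyticAt_snd).mul (analyticAt_snd.comp analyticAt_snd))

theorem fderiv_kN (q v : Q × ℂ × ℂ) :
    fderiv ℂ (kN Q) q v = (v.1, q.2.1 * v.2.2 + q.2.2 * v.2.1) := by
  have h1 : HasFDerivAt (𝕜 := ℂ) (fun q : Q × ℂ × ℂ => q.2.1) _ q :=
    hasFDerivAt_fst.comp q hasFDerivAt_snd
  have h2 : HasFDerivAt (𝕜 := ℂ) (fun q : Q × ℂ × ℂ => q.2.2) _ q :=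
    hasFDerivAt_snd.comp q hasFDerivAt_snd
  have h := (hasFDerivAt_fst.prodMk (h1.mul h2)).fderiv
  refine Eq.trans (congrArg (· v) h) ?_
  simp

end model

namespace CF

variable {U : HO} {o : ι} {g : ℤ} {m : ι → ℤ} (F : CF U M o g m)

/-- the point of the base -/
noncomputable def tZ (y : F.Z) : U.T := VB.PT.t y.1

/-- the vector -/
noncomputable def wZ (y : F.Z) : Fin (M o) → ℂ := pw y.1

/-- the coordinates of the universal curve in the projective bundle -/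
noncomputable def ιZ (y : F.Z) : U.A × (Fin (M o) → ℂ) := (U.ι (F.tZ y), F.wZ y)

/-- the projection to the factor `o` -/
noncomputable def fZ (x : F.UT) : F.Z := ⟨x.p o, x, rfl⟩

theorem continuous_tZ : Continuous F.tZ :=
  VB.PT.continuous_t.comp continuous_subtype_val

theorem continuous_wZ : Continuous F.wZ :=
  F.continuous_pw.comp continuous_subtype_val

theorem continuous_ιZ : Continuous F.ιZ := (U.cι.comp F.continuous_tZ).prodMk F.continuous_wZ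

theorem continuous_fZ : Continuous F.fZ := F.toCv.cf

theorem surjective_fZ : Surjective F.fZ := fun ⟨_, x, h⟩ => ⟨x, Subtype.ext h⟩

variable {F}

theorem fZ_eq {x : F.UT} {y : F.Z} (h : x.t = F.tZ y) (h' : x.c o = F.wZ y) : F.fZ x = y :=
  Subtype.ext (VB.PT.ext h h')

theorem orb_of_fZ {x x' : F.UT} (h : F.fZ x = F.fZ x') :
    x.t = x'.t ∧ ∃ s : ι → ℂ, (∀ i, s i ≠ 0) ∧ s o = 1 ∧ x'.c = s • x.c := by
  classical
  have h1 : x.t = x'.t := congrArg F.tZ h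
  have h2 : x.c o = x'.c o := congrArg F.wZ h
  obtain ⟨s, h3, h4⟩ := orb_of_eq (F.crv x.t) x.mem (h1 ▸ x'.mem) (s := 1) (by rw [one_smul, h2])
  refine ⟨h1, s, h3, smul_left_injective ℂ (x.ne o) ?_, h4⟩
  exact (congrFun h4 o).symm.trans (h2.symm.trans (one_smul ℂ _).symm)

theorem fib_fZ {x x' : F.UT} (h : F.fZ x = F.fZ x') :
    ∃! s : U.G × Tor ι, F.toCv.ρ s = 1 ∧ s • x = x' := by
  obtain ⟨h1, s, h2, h3, h4⟩ := orb_of_fZ h
  refine ⟨(1, fun i => Units.mk0 (s i) (h2 i)), ⟨Prod.ext rfl (Units.ext h3),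
    UT.ext ((one_smul U.G x.t).trans h1) (funext fun i => ?_)⟩, fun s' hs => ?_⟩
  · rw [h4, UT.smul_c, act_apply, F.ρ_one]
    rfl
  · have h5 : s'.1 = 1 := congrArg Prod.fst hs.1
    refine Prod.ext h5 (funext fun i => Units.ext (smul_left_injective ℂ (x.ne i) ?_))
    have := congrFun (congrArg UT.c hs.2) i
    rw [h4, UT.smul_c, act_apply, h5, F.ρ_one] at this
    exact this

theorem nhds_fZ (x : F.UT) : 𝓝 (F.fZ x) ≤ map F.fZ (𝓝 x) := by
  classical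
  intro N hN
  have hN' : ∀ᶠ z in 𝓝 (x.t, x.c), ∀ a : F.UT, (a.t, a.c) = z → F.fZ a ∈ N := by
    rw [← eventually_comap, ← UT.isEmbedding.nhds_eq_comap]
    exact hN
  have hf : LocFam o (fun y => F.C (F.tZ y)) (fun y => U.ι (F.tZ y)) (F.fZ x) :=
    (F.fam x.t).comp (u := F.tZ) (t' := F.fZ x) (k := id)
      F.continuous_tZ.continuousAt
      (.of_forall fun _ => (U.cι.comp F.continuous_tZ).continuousAt) analyticAt_id
      (.of_forall fun _ => rfl)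
  have := hf.compact (p := fun q => ∀ α : ℂ, q.2 o = α • F.wZ q.1 → q.1 ∈ N) (fun c hc => ?_)
    (.of_forall fun y s _ c _ h α e => h (s o * α) (by
      rw [mul_smul]; exact congrArg (s o • ·) e))
  · filter_upwards [this] with y hy
    obtain ⟨c, h1, h2⟩ := F.mem_Z.1 y.2
    exact hy c h1 1 (h2.trans (one_smul ℂ _).symm)
  have c1 : Continuous fun q : F.Z × V M => F.wZ q.1 := F.continuous_wZ.comp continuous_fst
  have c2 : Continuous fun q : F.Z × V M => q.2 o := (continuous_apply o).comp continuous_snd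
  by_cases hα : ∃ α : ℂ, c o = α • x.c o
  · obtain ⟨α, e⟩ := hα
    obtain ⟨s, hs, rfl⟩ := orb_of_eq (F.crv x.t) x.mem hc e
    obtain ⟨l, hl⟩ := SeparatingDual.exists_eq_one (R := ℂ) (x.ne o)
    have h1 : Tendsto (fun q : F.Z × V M => l (F.wZ q.1)) (𝓝 (F.fZ x, s • x.c)) (𝓝 1) :=
      (l.continuous.comp c1).tendsto' _ _ hl
    have h2 : Tendsto (fun q : F.Z × V M => l (q.2 o)) (𝓝 (F.fZ x, s • x.c)) (𝓝 (s o)) :=
      (l.continuous.comp c2).tendsto' _ _ (by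
        show l (s o • x.c o) = _
        rw [map_smul, hl, smul_eq_mul, mul_one])
    have h3 : Tendsto (fun (q : F.Z × V M) i => l (F.wZ q.1) / l (q.2 o) * (s o / s i))
        (𝓝 (F.fZ x, s • x.c)) (𝓝 s⁻¹) := tendsto_pi_nhds.2 fun i => by
      have := (h1.div h2 (hs o)).mul_const (s o / s i)
      rwa [div_mul_div_cancel₀ (hs o), one_div] at this
    have h4 := tendsto_smul h3 (continuousAt_snd (p := (F.fZ x, s • x.c)))
    rw [inv_smul_smul' hs] at h4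
    have h5 := Tendsto.prodMk_nhds
      ((F.continuous_tZ.comp continuous_fst).tendsto (F.fZ x, s • x.c)) h4
    filter_upwards [h5.eventually hN', h1.eventually_ne one_ne_zero, h2.eventually_ne (hs o)]
      with q k1 k2 k3 k4 β k5
    have := k1 (UT.mk _ _ ((F.crv _).cone _ (fun i => mul_ne_zero (div_ne_zero k2 k3)
      (div_ne_zero (hs o) (hs i))) _ k4)) rfl
    rwa [fZ_eq (y := q.1) rfl] at this
    show (l (F.wZ q.1) / l (q.2 o) * (s o / s o)) • q.2 o = _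
    rw [k5, map_smul, smul_eq_mul] at k3 ⊢
    rw [div_self (hs o), mul_one, smul_smul, div_mul_eq_mul_div, mul_comm, div_self k3, one_smul]
  · have h1 : ∀ᶠ q : F.Z × V M in 𝓝 (F.fZ x, c), LinearIndependent ℂ ![F.wZ q.1, q.2 o] := by
      refine ContinuousAt.eventually_mem (f := fun q : F.Z × V M => ![F.wZ q.1, q.2 o]) ?_
        (isOpen_setOfPred_linearIndependent.mem_nhds ?_)
      · refine Continuous.continuousAt (continuous_pi fun i => ?_)
        fin_cases i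
        exacts [c1, c2]
      · refine li_pair (x.ne o) fun e s (he : e • c o = s • x.c o) => by_contra fun h0 =>
          hα ⟨e⁻¹ * s, ?_⟩
        rw [mul_smul, ← he, inv_smul_smul₀ h0]
    exact h1.mono fun q hq _ β e =>
      absurd (of_li_pair hq (e := 1) (s := β) ((one_smul ℂ _).trans e)) one_ne_zero

variable (F) in
theorem isOpenMap_fZ : IsOpenMap F.fZ := isOpenMap_iff_nhds_le.2 nhds_fZ

section par

variable {Q E B : Type} [NormedAddCommGroup Q] [NormedSpace ℂ Q] [NormedAddCommGroup E]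
  [NormedSpace ℂ E] [NormedAddCommGroup B] [NormedSpace ℂ B]

/-- A parametrisation of the universal curve that comes from a chart. -/
structure ParZ (x : F.UT) (ψ : B → U.T) (k : Q × E → B) (j : Q →L[ℂ] B) (σ : U.A × E → V M)
    (X : U.A → Set E) (Ψ : Q × (ι → ℂ) × E → F.UT) : Prop where
  par : IsParam U.ι ψ 0
  ψ0 : ψ 0 = x.t
  σ0 : σ (U.ι x.t, 0) = x.c
  ch : Chart o F.C U.ι x.t σ X
  an : AnalyticAt ℂ k 0
  k0 : k 0 = 0
  dk : ∀ v, fderiv ℂ k 0 v = j v.1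
  inj : Injective j
  lh : LH Ψ (0, 1, 0)
  Ψ0 : Ψ (0, 1, 0) = x
  ev : ∀ᶠ p in 𝓝 (0, 1, 0), (Ψ p).t = ψ (k (p.1, p.2.2)) ∧
    (Ψ p).c = p.2.1 • σ (U.ι (ψ (k (p.1, p.2.2))), p.2.2)

/-- the diagonal torus -/
def dT (ι : Type) (p : (Q × ℂ) × E) : Q × (ι → ℂ) × E := (p.1.1, fun _ => p.1.2, p.2)

theorem continuous_dT : Continuous (dT ι : (Q × ℂ) × E → _) := by unfold dT; fun_prop

theorem tendsto_dT : Tendsto (dT ι : (Q × ℂ) × E → _) (𝓝 ((0, 1), 0)) (𝓝 (0, 1, 0)) :=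
  continuous_dT.tendsto _

namespace ParZ

variable {x : F.UT} {ψ : B → U.T} {k : Q × E → B} {j : Q →L[ℂ] B} {σ : U.A × E → V M}
  {X : U.A → Set E} {Ψ : Q × (ι → ℂ) × E → F.UT} (h : ParZ x ψ k j σ X Ψ)
include h

theorem zero : F.fZ (Ψ (dT ι ((0, 1), 0))) = F.fZ x := congrArg F.fZ h.Ψ0

theorem mK0 : mK k ((0, 1), 0) = ((0, 1), 0) := Prod.ext (Prod.ext h.k0 rfl) rfl

theorem evH : ∀ᶠ p in 𝓝 ((0, 1), 0),
    F.ιZ (F.fZ (Ψ (dT ι p))) = mH o (fun b => U.ι (ψ b)) σ (mK k p) :=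
  (tendsto_dT.eventually h.ev).mono fun _ hp => Prod.ext (congrArg U.ι hp.1) (congrFun hp.2 o)

theorem anσ : AnalyticAt ℂ σ (U.ι (ψ 0), 0) := h.ψ0 ▸ h.ch.an

theorem anH : AnalyticAt ℂ (mH o (fun b => U.ι (ψ b)) σ) ((0, 1), 0) := an_mH h.par.an h.anσ

theorem anG : AnalyticAt ℂ (fun p => F.ιZ (F.fZ (Ψ (dT ι p)))) ((0, 1), 0) :=
  (h.anH.comp_of_eq (an_mK h.an) h.mK0).congr (h.evH.mono fun _ hp => hp.symm)

theorem fderiv_H (v : (B × ℂ) × E) : fderiv ℂ (mH o (fun b => U.ι (ψ b)) σ) ((0, 1), 0) v =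
    (fderiv ℂ (fun b => U.ι (ψ b)) 0 v.1.1, v.1.2 • x.c o +
      fderiv ℂ σ (U.ι x.t, 0) (fderiv ℂ (fun b => U.ι (ψ b)) 0 v.1.1, v.2) o) := by
  rw [fderiv_mH h.par.an h.anσ]
  simp only [h.ψ0, h.σ0, one_smul]

theorem fderiv_G (v : (Q × ℂ) × E) :
    fderiv ℂ (fun p => F.ιZ (F.fZ (Ψ (dT ι p)))) ((0, 1), 0) v =
      fderiv ℂ (mH o (fun b => U.ι (ψ b)) σ) ((0, 1), 0) ((j v.1.1, v.1.2), v.2) := by
  rw [EventuallyEq.fderiv_eq h.evH, fderiv_comp_an (h.mK0.symm ▸ h.anH) (an_mK h.an), h.mK0,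
    ContinuousLinearMap.comp_apply, fderiv_mK h.an]
  exact congrArg (fun b => fderiv ℂ (mH o (fun b => U.ι (ψ b)) σ) ((0, 1), 0) ((b, v.1.2), v.2))
    (h.dk _)

theorem vert {v : (Q × ℂ) × E}
    (e : (fderiv ℂ (fun p => F.ιZ (F.fZ (Ψ (dT ι p)))) ((0, 1), 0) v).1 = 0) : v.1.1 = 0 ∧
      (fderiv ℂ (fun p => F.ιZ (F.fZ (Ψ (dT ι p)))) ((0, 1), 0) v).2 =
        v.1.2 • x.c o + fderiv ℂ (fun z => σ (U.ι x.t, z)) 0 v.2 o := by
  rw [h.fderiv_G, h.fderiv_H] at e ⊢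
  refine ⟨h.inj (h.par.injective (e.trans ?_)), ?_⟩
  · rw [map_zero, map_zero]
  · rw [fderiv_inr h.ch.an, show fderiv ℂ (fun b => U.ι (ψ b)) 0 _ = 0 from e]

variable [FiniteDimensional ℂ Q] [FiniteDimensional ℂ E]

theorem isParam : IsParam F.ιZ (fun p => F.fZ (Ψ (dT ι p))) ((0, 1), 0) := by
  refine IsParam.of_map_nhds ?_ (.of_forall fun _ => F.continuous_ιZ.continuousAt) h.anG
    ((injective_iff_map_eq_zero _).2 fun v hv => ?_) ?_
  · exact (tendsto_dT.eventually h.lh.eventually_cont).mono fun p hp =>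
      F.continuous_fZ.continuousAt.comp (hp.comp continuous_dT.continuousAt)
  · obtain ⟨h1, h2⟩ := h.vert (congrArg Prod.fst hv)
    rw [hv] at h2
    have h3 : v.2 = 0 := h.ch.imm _ (-v.1.2) (by
      rw [h.σ0, neg_smul]
      exact eq_neg_of_add_eq_zero_right h2.symm)
    rw [h3, map_zero, Pi.zero_apply, add_zero] at h2
    exact Prod.ext (Prod.ext h1 ((smul_eq_zero.1 h2.symm).resolve_right (x.ne o))) h3
  · let r : Q × (ι → ℂ) × E → (Q × ℂ) × E := fun p => ((p.1, p.2.1 o), p.2.2)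
    have h1 : Tendsto r (𝓝 (0, 1, 0)) (𝓝 ((0, 1), 0)) := Continuous.tendsto (by fun_prop) _
    have h2 : (fun p => F.fZ (Ψ p)) =ᶠ[𝓝 (0, 1, 0)] fun p => F.fZ (Ψ (dT ι (r p))) := by
      filter_upwards [h.ev, (tendsto_dT.comp h1).eventually h.ev] with p a b
      exact fZ_eq (a.1.trans b.1.symm) ((congrFun a.2 o).trans (congrFun b.2 o).symm)
    refine (nhds_fZ _).trans ?_
    rw [show Ψ (dT ι ((0, 1), 0)) = Ψ (0, 1, 0) from rfl, ← h.lh.map_nhds, map_map]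
    exact (map_congr h2).le.trans (map_mono (m := fun p => F.fZ (Ψ (dT ι p))) h1)

theorem mem_tan {a : U.A × (Fin (M o) → ℂ)} : a ∈ tan F.ιZ (F.fZ x) ↔
    ∃ v, fderiv ℂ (fun p => F.ιZ (F.fZ (Ψ (dT ι p)))) ((0, 1), 0) v = a := by
  rw [← h.zero, h.isParam.tan_eq]
  rfl

theorem mem_vert {v : Fin (M o) → ℂ} : (0, v) ∈ tan F.ιZ (F.fZ x) ↔
    ∃ (l : ℂ) (e : E), v = l • x.c o + fderiv ℂ (fun z => σ (U.ι x.t, z)) 0 e o := by
  rw [h.mem_tan]
  refine ⟨fun ⟨u, hu⟩ => ⟨_, _, (congrArg Prod.snd hu).symm.trans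
    (h.vert (congrArg Prod.fst hu)).2⟩, fun ⟨l, e, he⟩ => ⟨((0, l), e), ?_⟩⟩
  rw [h.fderiv_G, h.fderiv_H, he, fderiv_inr h.ch.an]
  simp only [map_zero]

/-- the tangent vectors of the branches are vertical -/
theorem mem_of_loc {γ : Bool → ℂ → V M} (hγ : Loc o (F.C x.t) x.c γ) (α β β' : ℂ) :
    (0, α • x.c o + β • deriv (γ true) 0 o + β' • deriv (γ false) 0 o) ∈ tan F.ιZ (F.fZ x) := by
  have := fun b => h.ch.factor U.cι.continuousAt (h.σ0 ▸ x.ne) (F.fam x.t).cone (hγ.an b)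
    ((hγ.zero b).trans h.σ0.symm) (hγ.br b).mem
  obtain ⟨s, φ, -, -, -, -, -, e⟩ := this true
  obtain ⟨s', φ', -, -, -, -, -, e'⟩ := this false
  refine h.mem_vert.2 ⟨α + β * deriv s 0 o + β' * deriv s' 0 o, β • deriv φ 0 + β' • deriv φ' 0, ?_⟩
  rw [e, e', h.σ0, map_add, map_smul, map_smul]
  simp only [Pi.add_apply, Pi.smul_apply, Pi.smul_apply']
  module

end ParZ

end par

theorem deriv_disc {C : Set (V M)} {c : V M} {γ : Bool → ℂ → V M} (hγ : Loc o C c γ) {δ : ℂ → V M}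
    (hδ : IsBranch o C δ) (h0 : δ 0 = c) : ∃ α β β' : ℂ,
      deriv δ 0 o = α • c o + β • deriv (γ true) 0 o + β' • deriv (γ false) 0 o := by
  obtain ⟨j, s, ψ, -, -, -, -, -, e⟩ := hγ.lift hδ.holo hδ.mem h0
  rw [e]
  simp only [Pi.add_apply, Pi.smul_apply, Pi.smul_apply']
  cases j
  · exact ⟨deriv s 0 o, 0, deriv ψ 0, by module⟩
  · exact ⟨deriv s 0 o, deriv ψ 0, 0, by module⟩

end CF

end Vale.Agent.P269.Grr
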