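import Vale.Agent.P269.Grr.UC
import Vale.Agent.P269.Grr.PB
import Vale.Agent.P269.Grr.UCp

/-!
# The universal curve in the projective bundle, tangent spaces
-/

set_option linter.unusedSectionVars false

namespace Vale.Agent.P269.Grr

open Set Function Topology Filter Module Vale.Agent.P291Z Vale.Agent.P269.Ch Vale.Agent.P269.Holo
  Vale.Agent.P269.Loc Vale.Agent.P269.Base

namespace CF

variable {ι : Type} [Fintype ι] {U : HO} {M : ι → ℕ} {o : ι} {g : ℤ} {m : ι → ℤ}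
  (F : CF U M o g m)

theorem parZ_sm {x : F.UT} (hx : x ∉ F.UN) : ∃ (ψ : (Fin (finrank ℂ U.L + U.n) → ℂ) → U.T)
    (σ : U.A × ℂ → V M) (Ψ : (Fin (finrank ℂ U.L + U.n) → ℂ) × (ι → ℂ) × ℂ → F.UT),
    ParZ x ψ Prod.fst (ContinuousLinearMap.id ℂ _) σ (fun _ => univ) Ψ := by
  obtain ⟨ψ, σ, Ψ, h1, h2, h3, h4, h5, h6, h7⟩ := F.par_sm hx
  exact ⟨ψ, σ, Ψ, h1, h2, h3, h4, analyticAt_fst, rfl, fun v => by rw [fderiv_fst]; rfl,
    injective_id, h5.lh, h6, h7⟩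

theorem parZ_nd {x : F.UT} (hx : x ∈ F.UN) : ∃ (d : ℕ) (ψ : (Fin d → ℂ) × ℂ → U.T)
    (σ : U.A × ℂ × ℂ → V M) (τ : U.A → ℂ) (Ψ : (Fin d → ℂ) × (ι → ℂ) × ℂ × ℂ → F.UT),
    d + 1 = finrank ℂ U.L + U.n ∧ τ (U.ι x.t) = 0 ∧
      ParZ x ψ (kN _) (ContinuousLinearMap.inl ℂ _ _) σ (fun p => {z | z.1 * z.2 = τ p}) Ψ ∧
      ∀ᶠ p in 𝓝 ((0, 1), 0), Ψ (dT ι p) ∈ F.UN ↔ p.2 = 0 := by
  obtain ⟨d, ψ, σ, τ, Ψ, h0, h1, h2, h3, -, h4, h5, h6, h7, h8⟩ := F.par_nd hx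
  exact ⟨d, ψ, σ, τ, Ψ, h0, h2 ▸ h4.self_of_nhds, ⟨h1, h2, h3, h5, an_kN _,
    Prod.ext rfl (mul_zero _), fun v => by rw [fderiv_kN]; simp, fun _ _ e => congrArg Prod.fst e,
    h6.lh, h7, h8.mono fun _ h => ⟨h.1, h.2.1⟩⟩, (tendsto_dT.eventually h8).mono fun _ h => h.2.2⟩

theorem an_Vb (i : ι) (w : (F.Vb i).W) :
    AnalyticAt ℂ (fun p : U.L × (F.Vb i).W => U.κ p.1 • p.2) (0, w) :=
  an_apply (l := fun p : U.L × (Fin (M i) → ℂ) => F.ρ (U.κ p.1) i) (f := Prod.snd)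
    ((F.an i).comp_of_eq analyticAt_fst rfl) analyticAt_snd

/-- the projective bundle as a complex orbifold -/
noncomputable def PX : HO := ps U (F.Vb o) (fun _ => rfl) (F.an_Vb o) (M o - 1)
  (Nat.sub_add_cancel (le_trans (by norm_num) F.three)).symm

theorem finrank_PX : finrank ℂ F.PX.L = finrank ℂ U.L + 1 :=
  (finrank_prod (R := ℂ) (M := U.L) (M' := ℂ)).trans (by rw [finrank_self])

theorem mfd_Z : ∀ t : F.Z, IsMfd (fun s : F.Z => F.PX.ι s.1) (finrank ℂ F.PX.L + (U.n + 1)) t := by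
  intro t
  obtain ⟨x, rfl⟩ := F.surjective_fZ t
  rw [finrank_PX]
  by_cases hx : x ∈ F.UN
  · obtain ⟨d, ψ, σ, τ, Ψ, h0, -, h, -⟩ := F.parZ_nd hx
    exact h.zero ▸ h.isParam.isMfd (by simp; omega)
  · obtain ⟨ψ, σ, Ψ, h⟩ := F.parZ_sm hx
    exact h.zero ▸ h.isParam.isMfd (by simp; omega)

/-- the universal curve in the projective bundle as a complex orbifold -/
noncomputable def CH : HO := F.PX.sub F.Z F.isClosed_Z.isLocallyClosed (U.n + 1) F.mfd_Z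

theorem mem_Nd {x : F.UT} : F.toCv.f x ∈ F.Nd ↔ x ∈ F.UN := by
  refine ⟨fun ⟨x', h1, h2⟩ => ?_, fun h => ⟨x, h, rfl⟩⟩
  obtain ⟨h3, s, h4, -, h5⟩ := orb_of_fZ h2
  exact F.mem_UN.2 (h3 ▸ (F.crv _).nod.isNode_orb (F.mem_UN.1 h1) ⟨s, h4, h5⟩)

theorem isClosed_Nd : IsClosed (F.Nd : Set F.Cv.T) := by
  refine isOpen_compl_iff.1 ?_
  have e : (F.Nd : Set F.Cv.T)ᶜ = F.fZ '' (F.UN : Set F.US.T)ᶜ := by
    refine Set.ext fun y => ?_
    obtain ⟨x, rfl⟩ := F.surjective_fZ y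
    exact ⟨fun h => ⟨x, fun h' => h (F.mem_Nd.2 h'), rfl⟩, fun ⟨x', h, e⟩ h' =>
      h (F.mem_Nd.1 (e.symm ▸ h' : F.fZ x' ∈ F.Nd))⟩
  rw [e]
  exact F.isOpenMap_fZ _ F.isClosed_UN.isOpen_compl

theorem nd_aux (y : F.Nd) : IsMfd (fun s : F.Nd => F.ιZ s.1) (finrank ℂ U.L + U.n) y ∧
    ∀ v, (0, v) ∈ tan (fun s : F.Nd => F.ιZ s.1) y → ∃ α : ℂ, v = α • pw y.1.1 := by
  obtain ⟨_, x, hx, rfl⟩ := y
  obtain ⟨d, ψ, σ, τ, Ψ, h0, -, h, h1⟩ := F.parZ_nd hx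
  obtain ⟨φ, h2, h3⟩ := h.isParam.restrict (j := fun s : F.Nd => s.1) IsEmbedding.subtypeVal
    (h1.mono fun p hp => (show _ ↔ F.toCv.f (Ψ (dT ι p)) ∈ F.Nd from
      ⟨fun ⟨s, e⟩ => (e ▸ s.2 : F.fZ (Ψ (dT ι p)) ∈ F.Nd), fun h => ⟨⟨_, h⟩, rfl⟩⟩).trans
        (F.mem_Nd.trans hp))
  have e : φ (0, 1) = ⟨_, x, hx, rfl⟩ := Subtype.ext (h3.self_of_nhds.trans h.zero)
  refine ⟨e ▸ h2.isMfd (by simp; omega), fun v hv => ?_⟩
  obtain ⟨u, hu⟩ := h2.tan_eq.le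
    ((congrArg (fun y => (0, v) ∈ tan (fun s : F.Nd => F.ιZ s.1) y) e).mpr hv)
  have h4 : fderiv ℂ (fun p => F.ιZ (F.fZ (Ψ (dT ι p)))) ((0, 1), 0) (u, 0) = (0, v) := by
    rw [← fderiv_inl h.anG, ← hu]
    exact congrArg (· u) (EventuallyEq.fderiv_eq (𝕜 := ℂ)
      (h3.mono fun z hz => congrArg F.ιZ hz.symm))
  have h5 := (h.vert (congrArg Prod.fst h4)).2
  rw [h4, map_zero, Pi.zero_apply, add_zero] at h5
  exact ⟨_, h5⟩

theorem mfd_Nd : ∀ t : F.Nd,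
    IsMfd (fun s : F.Nd => F.CH.ι s.1) (finrank ℂ F.CH.L + (U.n - 1)) t := by
  intro t
  obtain ⟨x, hx, -⟩ := t.2
  have h1 := F.one_le hx
  rw [show finrank ℂ F.CH.L = _ from F.finrank_PX,
    show finrank ℂ U.L + 1 + (U.n - 1) = finrank ℂ U.L + U.n by omega]
  exact (F.nd_aux t).1

/-- the nodes in the projective bundle as a complex orbifold -/
noncomputable def NH : HO := F.CH.sub F.Nd F.isClosed_Nd.isLocallyClosed (U.n - 1) F.mfd_Nd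

/-- the two models of the nodes -/
noncomputable def toNd : Mor F.UNH.toSp F.NH.toSp :=
  ⟨F.toCv.ρ, fun x : F.UN => (⟨F.toCv.f x.1, x.1, x.2, rfl⟩ : F.Nd), F.toCv.cρ,
    (F.toCv.cf.comp continuous_subtype_val).subtype_mk _, fun _ _ => rfl⟩

variable (U M o) in
/-- the projection of the ambient spaces -/
noncomputable def prA : U.A × V M →L[ℂ] U.A × (Fin (M o) → ℂ) :=
  (ContinuousLinearMap.id ℂ _).prodMap (ContinuousLinearMap.proj o)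

variable (U o) in
/-- the projection of the Lie algebras -/
noncomputable def prL : U.L × (ι → ℂ) →L[ℂ] U.L × ℂ :=
  (ContinuousLinearMap.id ℂ _).prodMap (ContinuousLinearMap.proj o)

theorem surjective_prL : Surjective (prL U o) := fun v => ⟨(v.1, fun _ => v.2), rfl⟩

theorem surjective_ρ : Surjective F.toCv.ρ := fun s : U.G × ℂˣ =>
  ⟨((s.1, fun _ => s.2) : U.G × Tor ι), rfl⟩

theorem etale_toCv : IsOpenEmbedding F.toCv.map ∧ res F.toCv.map F.CH.fund = F.UC.fund :=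
  have h := etale F.UC F.CH rfl F.toCv
    (fun _ => ⟨prA U M o, (prA U M o).analyticAt _, Eventually.of_forall fun _ => rfl⟩) (prL U o)
    (fun _ => rfl) surjective_prL F.surjective_ρ fun _ _ => fib_fZ
  ⟨h.1, h.2.2.2.1⟩

theorem etale_toNd : IsOpenEmbedding F.toNd.map ∧ res F.toNd.map F.NH.fund = F.UNH.fund :=
  have h := etale F.UNH F.NH rfl F.toNd
    (fun _ => ⟨prA U M o, (prA U M o).analyticAt _, Eventually.of_forall fun _ => rfl⟩) (prL U o)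
    (fun _ => rfl) surjective_prL F.surjective_ρ fun _ _ e =>
      let ⟨s, h1, h2⟩ := fib_fZ (congrArg Subtype.val e)
      ⟨s, ⟨h1.1, Subtype.ext h1.2⟩, fun s' hs => h2 s' ⟨hs.1, congrArg Subtype.val hs.2⟩⟩
  ⟨h.1, h.2.2.2.1⟩

theorem _root_.Vale.Agent.P269.Ch.Mor.isHomeomorph_of_surj {Y' Y : Ch.Sp} (m : Mor Y' Y)
    (h : IsOpenEmbedding m.map) (hs : Surjective m.f) : IsHomeomorph m.map :=
  ⟨h.continuous, h.isOpenMap, h.injective, fun y => by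
    obtain ⟨s, rfl⟩ := Y.surj y
    obtain ⟨t, rfl⟩ := hs s
    exact ⟨_, m.map_π t⟩⟩

theorem isHomeomorph_toCv : IsHomeomorph F.toCv.map :=
  F.toCv.isHomeomorph_of_surj F.etale_toCv.1 F.surjective_fZ

theorem res_toCv : res F.toCv.map F.CH.fund = F.UC.fund := F.etale_toCv.2

theorem isHomeomorph_toNd : IsHomeomorph F.toNd.map :=
  F.toNd.isHomeomorph_of_surj F.etale_toNd.1 fun (⟨_, x, h1, h2⟩ : F.Nd) =>
    ⟨(⟨x, h1⟩ : F.UN), Subtype.ext h2⟩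

theorem res_toNd : res F.toNd.map F.NH.fund = F.UNH.fund := F.etale_toNd.2

/-- the tangent space of the multicone of the universal curve in the factor `o` -/
noncomputable def tC (y : F.Z) : Submodule ℂ (U.A × (Fin (M o) → ℂ)) := tan F.CH.ι y

theorem tC_eq (y : F.Z) : F.tC y = tan F.ιZ y := rfl

-- U2: the local structure at a node
theorem node_loc {x : F.UT} (hx : x ∈ F.UN) : ∃ (Φ : U.A × (Fin (M o) → ℂ) → Fin 2 → ℂ)
    (v : F.Z → Fin 2 → Fin (M o) → ℂ) (ξ : F.Z → U.A × (Fin (M o) → ℂ)),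
    AnalyticAt ℂ Φ (U.ι x.t, x.c o) ∧
    (∀ᶠ y : F.Z in 𝓝 (F.toCv.f x), y ∈ F.Nd → Φ (F.CH.ι y) = 0) ∧
    (∀ w, ∃ a ∈ F.tC (F.toCv.f x), fderiv ℂ Φ (U.ι x.t, x.c o) a = w) ∧
    (∀ᶠ y : F.Z in 𝓝 (F.toCv.f x), ContinuousAt v y ∧ ContinuousAt ξ y ∧
      (ξ y).1 ∈ tan U.ι (VB.PT.t y.1) ∧ ∀ k, (0, v y k) + Φ (F.CH.ι y) k • ξ y ∈ F.tC y) ∧
    LinearIndependent ℂ ![x.c o, v (F.toCv.f x) 0, v (F.toCv.f x) 1] ∧
    ∀ a ∈ tan U.ι x.t, ∃ u, ∃ z : ℂ, (a, u) - z • ξ (F.toCv.f x) ∈ F.tC (F.toCv.f x) := by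
  obtain ⟨d, ψ, σ, τ, Ψ, -, h0, h, h1⟩ := F.parZ_nd hx
  obtain ⟨w, w1, w2, w3, w4, w5⟩ := h.isParam.exists_inv
  rw [h.zero] at w1 w2 w4 w5
  let l : (((Fin d → ℂ) × ℂ) × ℂ × ℂ) →L[ℂ] Fin 2 → ℂ := ContinuousLinearMap.pi
    ![(ContinuousLinearMap.snd ℂ _ _).comp (ContinuousLinearMap.snd ℂ _ _),
      (ContinuousLinearMap.fst ℂ _ _).comp (ContinuousLinearMap.snd ℂ _ _)]
  let D := fun y : F.Z => fderiv ℂ (mH o (fun b => U.ι (ψ b)) σ) (mK (kN _) (w (F.ιZ y)))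
  have D0 : D (F.fZ x) = fderiv ℂ (mH o (fun b => U.ι (ψ b)) σ) ((0, 1), 0) := by
    simp only [D, w2, h.mK0]
  have ht : Tendsto (fun y => w (F.ιZ y)) (𝓝 (F.fZ x)) (𝓝 ((0, 1), 0)) := w2 ▸ w5.cont
  have hK : Tendsto (mK (kN (Fin d → ℂ))) (𝓝 ((0, 1), 0)) (𝓝 ((0, 1), 0)) :=
    h.mK0 ▸ (an_mK h.an).continuousAt.tendsto.mono_right (by rw [h.mK0])
  have hKt : Tendsto (fun y => mK (kN (Fin d → ℂ)) (w (F.ιZ y))) (𝓝 (F.fZ x)) (𝓝 ((0, 1), 0)) :=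
    hK.comp ht
  refine ⟨fun a => l (w a), fun y => ![(D y ((0, 0), 1, 0)).2, (D y ((0, 0), 0, 1)).2],
    fun y => D y (((0, 1), 0), 0), (l.analyticAt _).comp w1, ?_, fun u => ?_, ?_, ?_, fun a ha => ?_⟩
  · filter_upwards [w4, ht.eventually h1] with y a b c
    have : (w (F.ιZ y)).2 = 0 := b.1 (F.mem_Nd.1 (a.symm ▸ c : F.fZ _ ∈ F.Nd))
    funext k
    fin_cases k
    exacts [congrArg Prod.snd this, congrArg Prod.fst this]
  · refine ⟨_, h.mem_tan.2 ⟨(0, u 1, u 0), rfl⟩, ?_⟩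
    have := fderiv_leftInv (h.zero.symm ▸ w1) h.anG w3 (0, u 1, u 0)
    rw [h.zero] at this
    change fderiv ℂ (fun a => l (w a)) (F.ιZ (F.fZ x)) _ = u
    rw [fderiv_comp_an (l.analyticAt _) w1, ContinuousLinearMap.comp_apply, this, l.fderiv]
    funext k
    fin_cases k <;> rfl
  · have hb : Tendsto (fun r : (((Fin d → ℂ) × ℂ) × ℂ) × ℂ × ℂ => r.1.1) (𝓝 ((0, 1), 0)) (𝓝 0) :=
      Continuous.tendsto (by fun_prop) _
    have hs : Tendsto (fun r : (((Fin d → ℂ) × ℂ) × ℂ) × ℂ × ℂ => (U.ι (ψ r.1.1), r.2))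
        (𝓝 ((0, 1), 0)) (𝓝 (U.ι (ψ 0), 0)) :=
      (h.par.an.continuousAt.tendsto.comp hb).prodMk_nhds continuousAt_snd
    filter_upwards [w4, w5.eventually_cont, ht.eventually h.evH.eventually_nhds,
      ht.eventually h.isParam.eventually, ht.eventually (tendsto_dT.eventually h.ev),
      hKt.eventually (hb.eventually h.par.eventually),
      hKt.eventually (hs.eventually h.anσ.eventually_analyticAt)] with y a b c e k p s
    have hD : ContinuousAt D y := (an_mH p.an s).fderiv.continuousAt.comp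
      (f := fun y => mK (kN _) (w (F.ιZ y))) ((an_mK (an_kN _)).continuousAt.comp b)
    have hG : ∀ u : ((Fin d → ℂ) × ℂ) × ℂ × ℂ, D y (((u.1.1, (w (F.ιZ y)).2.1 * u.2.2 +
        (w (F.ιZ y)).2.2 * u.2.1), u.1.2), u.2) ∈ tan F.ιZ y := fun u => by
      have := fderiv_mem_tan e.lh.cont e.an u
      rwa [EventuallyEq.fderiv_eq c, fderiv_comp_an (an_mH p.an s) (an_mK (an_kN _)),
        ContinuousLinearMap.comp_apply, fderiv_mK (an_kN _), fderiv_kN, a] at this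
    have hv : ∀ u : ℂ × ℂ, (0, (D y ((0, 0), u)).2) = D y ((0, 0), u) := fun u =>
      Prod.ext ((congrArg Prod.fst (fderiv_mH p.an s _)).trans (map_zero _)).symm rfl
    refine ⟨continuousAt_pi.2 fun i => ?_, hD.clm_apply continuousAt_const, ?_, fun i => ?_⟩
    · fin_cases i
      exacts [(hD.clm_apply continuousAt_const).snd, (hD.clm_apply continuousAt_const).snd]
    · have e1 : ψ (mK (kN _) (w (F.ιZ y))).1.1 = VB.PT.t y.1 := k.1.symm.trans (congrArg F.tZ a)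
      rw [show (D y _).1 = _ from congrArg Prod.fst (fderiv_mH p.an s _), ← e1]
      exact fderiv_mem_tan p.lh.cont p.an _
    · fin_cases i
      · have := hG (0, 1, 0)
        refine (show (0, (D y ((0, 0), 1, 0)).2) + (w (F.ιZ y)).2.2 • D y (((0, 1), 0), 0) = _ from
          ?_) ▸ this
        rw [hv, ← map_smul, ← map_add]
        simp
      · have := hG (0, 0, 1)
        refine (show (0, (D y ((0, 0), 0, 1)).2) + (w (F.ιZ y)).2.1 • D y (((0, 1), 0), 0) = _ from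
          ?_) ▸ this
        rw [hv, ← map_smul, ← map_add]
        simp
  · have := (h.ch.isCross h0 (h.σ0 ▸ x.ne o)).2.2.2.2
    rw [deriv_inl h.ch.an0, deriv_inr h.ch.an0, fderiv_inr h.ch.an, fderiv_inr h.ch.an, h.σ0] at this
    change LinearIndependent ℂ ![x.c o, (D (F.fZ x) ((0, 0), 1, 0)).2, (D (F.fZ x) ((0, 0), 0, 1)).2]
    have h00 : fderiv ℂ (fun b => U.ι (ψ b)) 0 (0, 0) = 0 := map_zero _
    simpa only [D0, h.fderiv_H, zero_smul, zero_add, h00, map_zero] using this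
  · rw [← h.ψ0, h.par.tan_eq] at ha
    obtain ⟨b, rfl⟩ := ha
    refine ⟨(D (F.fZ x) ((b, 0), 0)).2, b.2, h.mem_tan.2 ⟨((b.1, 0), 0), ?_⟩⟩
    change _ = (fderiv ℂ (fun b => U.ι (ψ b)) 0 b, _) - b.2 • D (F.fZ x) _
    rw [show (fderiv ℂ (fun b => U.ι (ψ b)) 0 b, (D (F.fZ x) ((b, 0), 0)).2) =
      D (F.fZ x) ((b, 0), 0) from Prod.ext (by rw [D0, h.fderiv_H]) rfl, ← map_smul, ← map_sub,
      h.fderiv_G, D0]
    congr 1
    ext <;> simp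

-- U3: at a smooth point the projection is a submersion
theorem smooth_loc {x : F.UT} (hx : x ∉ F.UN) :
    ∀ a ∈ tan U.ι x.t, ∃ u, (a, u) ∈ F.tC (F.toCv.f x) := by
  obtain ⟨ψ, σ, Ψ, h⟩ := F.parZ_sm hx
  intro a ha
  rw [← h.ψ0, h.par.tan_eq] at ha
  obtain ⟨b, rfl⟩ := ha
  exact ⟨_, h.mem_tan.2 ⟨((b, 0), 0), (h.fderiv_G _).trans (h.fderiv_H _)⟩⟩

-- U4: the vertical tangent vectors
theorem mem_tC {x : F.UT} {γ : Bool → ℂ → V M} (hγ : Loc o (F.C x.t) x.c γ)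
    {v : Fin (M o) → ℂ} : (0, v) ∈ F.tC (F.toCv.f x) ↔
      ∃ α β β' : ℂ, v = α • x.c o + β • deriv (γ true) 0 o + β' • deriv (γ false) 0 o := by
  by_cases hx : x ∈ F.UN
  · obtain ⟨d, ψ, σ, τ, Ψ, -, h0, h, -⟩ := F.parZ_nd hx
    refine ⟨fun hv => ?_, fun ⟨α, β, β', e⟩ => e ▸ h.mem_of_loc hγ α β β'⟩
    obtain ⟨l, e, rfl⟩ := h.mem_vert.1 hv
    obtain ⟨h1, h2, -⟩ := h.ch.isCross h0 (h.σ0 ▸ x.ne o)
    obtain ⟨a, b, c, e1⟩ := deriv_disc hγ h1 h.σ0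
    obtain ⟨a', b', c', e2⟩ := deriv_disc hγ h2 h.σ0
    rw [deriv_inl h.ch.an0] at e1
    rw [deriv_inr h.ch.an0] at e2
    refine ⟨l + e.1 * a + e.2 * a', e.1 * b + e.2 * b', e.1 * c + e.2 * c', ?_⟩
    rw [show e = e.1 • ((1 : ℂ), (0 : ℂ)) + e.2 • ((0 : ℂ), (1 : ℂ)) by simp, map_add, map_smul,
      map_smul, Pi.add_apply, Pi.smul_apply, Pi.smul_apply, e1, e2]
    simp only [Prod.fst_add, Prod.snd_add, Prod.smul_mk, smul_eq_mul, mul_one, mul_zero, add_zero,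
      zero_add]
    module
  · obtain ⟨ψ, σ, Ψ, h⟩ := F.parZ_sm hx
    refine ⟨fun hv => ?_, fun ⟨α, β, β', e⟩ => e ▸ h.mem_of_loc hγ α β β'⟩
    obtain ⟨l, e, rfl⟩ := h.mem_vert.1 hv
    obtain ⟨a, b, c, e1⟩ := deriv_disc hγ (h.ch.isBranch0 (h.σ0 ▸ x.ne o)) h.σ0
    refine ⟨l + e * a, e * b, e * c, ?_⟩
    rw [fderiv_eq_smul, Pi.smul_apply, e1]
    module

-- U5: the nodes are immersed in the base
theorem tan_Nd (y : F.Nd) {v : Fin (M o) → ℂ}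
    (h : ((0, v) : U.A × (Fin (M o) → ℂ)) ∈ tan F.NH.ι y) : ∃ α : ℂ, v = α • pw y.1.1 :=
  (F.nd_aux y).2 v h

theorem finrank_vert {x : F.UT} (hx : x ∈ F.UN) : finrank ℂ
    ((F.tC (F.toCv.f x)).comap (LinearMap.inr ℂ U.A (Fin (M o) → ℂ))) = 3 := by
  obtain ⟨γ, hγ⟩ := (F.crv x.t).nod.exists_loc x.mem
  have h := finrank_span_eq_card (hγ.alt.resolve_left (hγ.isNode_iff.1 hx))
  refine (congrArg (fun S : Submodule ℂ (Fin (M o) → ℂ) => finrank ℂ S)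
    (Submodule.ext fun v => ?_)).trans h
  rw [Submodule.mem_span_range_iff_exists_fun]
  refine (F.mem_tC hγ (v := v)).trans ⟨fun ⟨a, b, c, e⟩ => ⟨![a, b, c], ?_⟩, fun ⟨c, e⟩ => ⟨c 0, c 1, c 2, ?_⟩⟩
  · rw [e, Fin.sum_univ_three]
    rfl
  · rw [← e, Fin.sum_univ_three]
    rfl

theorem ch_single [DecidableEq ι] (s : U.G × Tor ι) : F.ch (Pi.single o 1) s = s.2 o := by
  show ∏ i, s.2 i ^ (Pi.single o 1 : ι → ℤ) i = _
  rw [Finset.prod_eq_single o (fun i _ hi => by simp [hi]) (by simp)]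
  simp

/-- the vertical tangent spaces of the cone in the factor `o` at the nodes -/
noncomputable def Kn [DecidableEq ι] : VB F.UNH.toSp :=
  ((F.Vb o).tw (F.pr.comp F.iN) (F.iN.chr (F.ch (Pi.single o 1)))).sub
    (fun x : F.UN => (F.tC (F.toCv.f x.1)).comap (LinearMap.inr ℂ U.A (Fin (M o) → ℂ))) 3
    (F.CH.tanB.closed.preimage
      (f := fun x : F.UN × (Fin (M o) → ℂ) => (F.toCv.f x.1.1, ((0 : U.A), x.2)))
      ((F.toCv.cf.comp (continuous_subtype_val.comp continuous_fst)).prodMk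
        (continuous_const.prodMk continuous_snd)))
    (fun x => F.finrank_vert x.2)
    fun s x w hw => by
      have h := F.CH.smul_mem_tan (F.toCv.ρ s) (F.toCv.f x.1) _ hw
      have e : (((0 : U.A), (F.ch (Pi.single o 1) s : ℂ) • F.ρ s.1 o w) : U.A × (Fin (M o) → ℂ)) =
          (s.1 • (0 : U.A), (s.2 o : ℂ) • F.ρ s.1 o w) := Prod.ext (smul_zero _).symm
            (congrArg (fun u : ℂˣ => (u : ℂ) • F.ρ s.1 o w) (F.ch_single s))
      exact (congrArg (· ∈ F.tC (F.toCv.f (s • x).1)) e).mpr h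

end CF

end Vale.Agent.P269.Grr
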